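import Crest.Agent.R62.Stub
import Crest.Agent.R062.EndPT
import Crest.Agent.Lib.PT.OfTM
import Crest.Prelude.Def_GraphCode
import Crest.Prelude.Def_Complexity
import Crest.Agent.R062.MachDefs

-- ▼ part R62/Bridge
section

/-!
R62: bridge from the stub-indexed recursion (functions `ℕ → ℕ → ℝ`, zero on dead stubs; stub `j`
sits at vertex `j / d`; list of joined pairs, newest first) to `Stub.exact_layer`.
-/

set_option autoImplicit false
set_option linter.unusedSectionVars false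
set_option linter.unusedSimpArgs false
set_option linter.unusedVariables false
open scoped Matrix BigOperators

namespace Crest.Agent.R62.Bridge

open Crest.Agent.R62.Stub

/-- initial stub matrix, `μ = (1-γ²)/(b-γ d)` -/
noncomputable def K0 (γ s μ : ℝ) (n d : ℕ) : ℕ → ℕ → ℝ := fun i j =>
  if i < n * d ∧ j < n * d then
    (if i / d = j / d then μ else 0) - (if i = j then γ else 0) + (γ + s) / (n * d) - μ / n
  else 0

/-- the determinant -/
def Del (s : ℝ) (K : ℕ → ℕ → ℝ) (x y : ℕ) : ℝ := (1 - s * K x y) ^ 2 - K x x * K y y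

/-- one step -/
noncomputable def upd (s : ℝ) (K : ℕ → ℕ → ℝ) (x y : ℕ) : ℕ → ℕ → ℝ := fun i j =>
  if i = x ∨ i = y ∨ j = x ∨ j = y then 0
  else K i j + (K y y * K i x * K x j + K x x * K i y * K y j
    + s * (1 - s * K x y) * (K i x * K y j + K i y * K x j)) / Del s K x y

/-- stub matrix after a list of pairs, newest first -/
noncomputable def Kof (γ s μ : ℝ) (n d : ℕ) : List (ℕ × ℕ) → ℕ → ℕ → ℝ
  | [] => K0 γ s μ n d
  | p :: L => upd s (Kof γ s μ n d L) p.1 p.2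

/-- dead stubs -/
def dead (L : List (ℕ × ℕ)) (i : ℕ) : Prop := ∃ p ∈ L, i = p.1 ∨ i = p.2

/-- legal (partial) matching of the `n*d` stubs without loops -/
def Mat (n d : ℕ) : List (ℕ × ℕ) → Prop
  | [] => True
  | p :: L => Mat n d L ∧ p.1 < n * d ∧ p.2 < n * d ∧ ¬ dead L p.1 ∧ ¬ dead L p.2 ∧
      p.1 / d ≠ p.2 / d

/-- vertex of a stub -/
def vtx (n d : ℕ) [NeZero n] (x : ℕ) : Fin n := Fin.ofNat n (x / d)

def mapL (n d : ℕ) [NeZero n] (L : List (ℕ × ℕ)) : List (Fin n × Fin n) :=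
  L.map fun p => (vtx n d p.1, vtx n d p.2)

lemma vtx_eq {n d : ℕ} [NeZero n] {x y : ℕ} (hx : x < n * d) (hy : y < n * d) :
    vtx n d x = vtx n d y ↔ x / d = y / d := by
  have h1 : x / d < n := Nat.div_lt_of_lt_mul (by rwa [mul_comm] at hx)
  have h2 : y / d < n := Nat.div_lt_of_lt_mul (by rwa [mul_comm] at hy)
  constructor
  · intro h
    have := congrArg Fin.val h
    simp only [vtx, Fin.val_ofNat, Nat.mod_eq_of_lt h1, Nat.mod_eq_of_lt h2] at this
    exact this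
  · intro h
    simp only [vtx, h]

lemma runM_symm {V : Type*} [Fintype V] [DecidableEq V] (γ s μ d : ℝ) (L : List (V × V))
    (t u : V) : runM γ s μ d L t u = runM γ s μ d L u t := by
  induction L generalizing t u with
  | nil => simp only [runM, eq_comm]
  | cons p L ih =>
    simp only [runM, stepM]
    rw [ih t u, mul_comm (runM γ s μ d L t p.1), mul_comm (runM γ s μ d L t p.2)]
    ring

lemma dead_cons (p : ℕ × ℕ) (L : List (ℕ × ℕ)) (i : ℕ) :
    dead (p :: L) i ↔ (i = p.1 ∨ i = p.2) ∨ dead L i := by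
  simp [dead]

/-- the stub-level recursion is the vertex-level recursion -/
lemma Kof_eq (γ s μ : ℝ) (n d : ℕ) [NeZero n] (L : List (ℕ × ℕ))
    (hL : Mat n d L) (i j : ℕ) (hi : i < n * d) (hj : j < n * d) (hdi : ¬ dead L i)
    (hdj : ¬ dead L j) :
    Kof γ s μ n d L i j
      = runM γ s μ d (mapL n d L) (vtx n d i) (vtx n d j) - (if i = j then γ else 0) := by
  induction L generalizing i j with
  | nil =>
    simp only [Kof, K0, mapL, List.map_nil, runM, hi, hj, and_self, if_true, vtx_eq hi hj,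
      Fintype.card_fin]
    split_ifs <;> ring
  | cons p L ih =>
    obtain ⟨x, y⟩ := p
    obtain ⟨h1, hx, hy, hdx, hdy, hxy⟩ := hL
    simp only at hx hy hdx hdy hxy
    rw [dead_cons] at hdi hdj
    push Not at hdi hdj
    obtain ⟨⟨hix, hiy⟩, hdi⟩ := hdi
    obtain ⟨⟨hjx, hjy⟩, hdj⟩ := hdj
    simp only at hix hiy hjx hjy
    have hxy' : x ≠ y := fun h => hxy (by rw [h])
    have exx := ih h1 x x hx hx hdx hdx
    have eyy := ih h1 y y hy hy hdy hdy
    have exy := ih h1 x y hx hy hdx hdy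
    have eix := ih h1 i x hi hx hdi hdx
    have eiy := ih h1 i y hi hy hdi hdy
    have exj := ih h1 x j hx hj hdx hdj
    have eyj := ih h1 y j hy hj hdy hdj
    have eij := ih h1 i j hi hj hdi hdj
    simp only [if_true, if_neg hxy', if_neg hix, if_neg hiy, if_neg (Ne.symm hjx),
      if_neg (Ne.symm hjy), sub_zero] at exx eyy exy eix eiy exj eyj
    simp only [Kof, upd, Del, exx, eyy, exy, eix, eiy, exj, eyj, eij, hix, hiy, hjx, hjy, or_self,
      if_false, mapL, List.map_cons, runM, stepM, Dm]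
    simp only [mapL] at *
    rw [runM_symm γ s μ d _ (vtx n d x) (vtx n d j), runM_symm γ s μ d _ (vtx n d y) (vtx n d j)]
    ring

lemma Kof_dead (γ s μ : ℝ) (n d : ℕ) (L : List (ℕ × ℕ)) (i j : ℕ)
    (h : dead L i ∨ dead L j) : Kof γ s μ n d L i j = 0 := by
  induction L generalizing i j with
  | nil => simp [dead] at h
  | cons p L ih =>
    by_cases h2 : i = p.1 ∨ i = p.2 ∨ j = p.1 ∨ j = p.2
    · simp only [Kof, upd, if_pos h2]
    · have hd : dead L i ∨ dead L j := by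
        rw [dead_cons, dead_cons] at h
        tauto
      have h3 : ∀ a, (Kof γ s μ n d L i a = 0 ∨ Kof γ s μ n d L a j = 0) := fun a => by
        rcases hd with hd | hd
        · left; exact ih i a (Or.inl hd)
        · right; exact ih a j (Or.inr hd)
      simp only [Kof, upd, if_neg h2]
      rw [ih i j hd]
      rcases hd with hd | hd
      · rw [ih i p.1 (Or.inl hd), ih i p.2 (Or.inl hd)]; simp
      · rw [ih p.1 j (Or.inr hd), ih p.2 j (Or.inr hd)]; simp


open Classical in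
/-- the live stubs -/
noncomputable def live (n d : ℕ) (L : List (ℕ × ℕ)) : Finset ℕ :=
  (Finset.range (n * d)).filter fun i => ¬ dead L i

lemma mem_live {n d : ℕ} {L : List (ℕ × ℕ)} {i : ℕ} :
    i ∈ live n d L ↔ i < n * d ∧ ¬ dead L i := by
  simp [live]

lemma live_cons {n d : ℕ} {L : List (ℕ × ℕ)} (x y : ℕ) :
    live n d ((x, y) :: L) = ((live n d L).erase x).erase y := by
  ext i
  simp only [mem_live, Finset.mem_erase, dead_cons]
  tauto

lemma sum_range_vtx (n d m : ℕ) (φ : ℕ → ℝ) :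
    ∑ i ∈ Finset.range (m * d), φ (i / d) = ∑ k ∈ Finset.range m, (d : ℝ) * φ k := by
  rcases Nat.eq_zero_or_pos d with h0 | h0
  · subst h0; simp
  induction m with
  | zero => simp
  | succ m ih =>
    rw [Nat.succ_mul, Finset.sum_range_add, ih, Finset.sum_range_succ]
    congr 1
    have : ∀ x ∈ Finset.range d, φ ((m * d + x) / d) = φ m := fun x hx => by
      rw [mul_comm m d, Nat.mul_add_div h0, Nat.div_eq_of_lt (Finset.mem_range.mp hx), add_zero]
    rw [Finset.sum_congr rfl this]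
    simp

/-- sums over live stubs of functions of the vertex -/
lemma sum_live {n d : ℕ} [NeZero n] (L : List (ℕ × ℕ)) (hL : Mat n d L) (φ : Fin n → ℝ) :
    ∑ i ∈ live n d L, φ (vtx n d i) = ∑ v, runR d (mapL n d L) v * φ v := by
  induction L with
  | nil =>
    have h1 : live n d [] = Finset.range (n * d) := by
      ext i; simp [mem_live, dead]
    rw [h1]
    have h2 := sum_range_vtx n d n (fun k => φ (Fin.ofNat n k))
    have h3 : ∀ i, φ (vtx n d i) = φ (Fin.ofNat n (i / d)) := fun i => rfl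
    simp only [h3]
    rw [h2, Finset.sum_range]
    refine Finset.sum_congr rfl fun v _ => ?_
    simp [mapL, runR]
  | cons p L ih =>
    obtain ⟨x, y⟩ := p
    obtain ⟨h1, hx, hy, hdx, hdy, hxy⟩ := hL
    simp only at hx hy hdx hdy hxy
    have hxy' : x ≠ y := fun h => hxy (by rw [h])
    have hx' : x ∈ live n d L := mem_live.mpr ⟨hx, hdx⟩
    have hy' : y ∈ (live n d L).erase x :=
      Finset.mem_erase.mpr ⟨Ne.symm hxy', mem_live.mpr ⟨hy, hdy⟩⟩
    rw [live_cons]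
    have e1 := Finset.add_sum_erase _ (fun i => φ (vtx n d i)) hx'
    have e2 := Finset.add_sum_erase _ (fun i => φ (vtx n d i)) hy'
    have e3 : ∑ v, runR (d : ℝ) (mapL n d ((x, y) :: L)) v * φ v
        = ∑ v, runR (d : ℝ) (mapL n d L) v * φ v - φ (vtx n d x) - φ (vtx n d y) := by
      simp only [mapL, List.map_cons, runR, pairV, Pi.sub_apply, Pi.add_apply, sub_mul, add_mul,
        Finset.sum_sub_distrib, Finset.sum_add_distrib, Pi.single_apply]
      simp
      ring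
    rw [e3, ← ih h1]
    linarith


lemma runR_eq_card {n d : ℕ} [NeZero n] (L : List (ℕ × ℕ)) (hL : Mat n d L) (v : Fin n) :
    runR (d : ℝ) (mapL n d L) v
      = (((live n d L).filter fun i => vtx n d i = v).card : ℝ) := by
  have h := sum_live L hL (fun w => if w = v then 1 else 0)
  simp only [mul_ite, mul_one, mul_zero, Finset.sum_ite_eq', Finset.mem_univ, if_true] at h
  rw [← h, Finset.card_filter]
  push_cast
  rfl

lemma runR_nat {n d : ℕ} [NeZero n] (L : List (ℕ × ℕ)) (hL : Mat n d L) (v : Fin n) :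
    runR (d : ℝ) (mapL n d L) v = 0 ∨ 1 ≤ runR (d : ℝ) (mapL n d L) v := by
  rw [runR_eq_card L hL v]
  rcases Nat.eq_zero_or_pos ((live n d L).filter fun i => vtx n d i = v).card with h | h
  · left; rw [h]; simp
  · right; exact_mod_cast h

lemma sum_runR {n d : ℕ} [NeZero n] (L : List (ℕ × ℕ)) :
    ∑ v, runR (d : ℝ) (mapL n d L) v = (n : ℝ) * d - 2 * (L.length : ℝ) := by
  induction L with
  | nil => simp [mapL, runR]
  | cons p L ih =>
    have e3 : ∑ v, runR (d : ℝ) (mapL n d (p :: L)) v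
        = ∑ v, runR (d : ℝ) (mapL n d L) v - 2 := by
      simp only [mapL, List.map_cons, runR, pairV, Pi.sub_apply, Pi.add_apply,
        Finset.sum_sub_distrib, Finset.sum_add_distrib, Pi.single_apply]
      simp
      ring
    rw [e3, ih, List.length_cons]
    push_cast
    ring

lemma runA_append {V : Type*} [Fintype V] [DecidableEq V] (L2 L1 : List (V × V)) :
    runA (L2 ++ L1) = runA L1 + runA L2 := by
  induction L2 with
  | nil => simp [runA]
  | cons p L ih => rw [List.cons_append, runA, runA, ih, add_assoc]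

lemma runR_append {V : Type*} [Fintype V] [DecidableEq V] (d : ℝ) (L2 L1 : List (V × V)) (v : V) :
    runR d (L2 ++ L1) v = runR d L1 v - ∑ w, runA L2 v w := by
  induction L2 with
  | nil => simp [runA]
  | cons p L ih =>
    rw [List.cons_append]
    simp only [runR, runA, Pi.sub_apply, Matrix.add_apply, Finset.sum_add_distrib]
    rw [ih]
    have : ∑ w, edgeM p.1 p.2 v w = pairV p.1 p.2 v := by
      simp only [edgeM, pairV, Matrix.add_apply, Matrix.vecMulVec_apply, Pi.add_apply,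
        Pi.single_apply, Finset.sum_add_distrib]
      simp
    rw [this]
    ring

lemma runA_symm {V : Type*} [Fintype V] [DecidableEq V] (L : List (V × V)) :
    (runA L)ᵀ = runA L := by
  induction L with
  | nil => simp [runA]
  | cons p L ih => rw [runA, Matrix.transpose_add, ih, edgeM_symm]

lemma runA_nonneg {V : Type*} [Fintype V] [DecidableEq V] (L : List (V × V)) (v w : V) :
    0 ≤ runA L v w := by
  induction L with
  | nil => simp [runA]
  | cons p L ih =>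
    rw [runA, Matrix.add_apply]
    refine add_nonneg ih ?_
    simp only [edgeM, Matrix.add_apply, Matrix.vecMulVec_apply, Pi.single_apply]
    split_ifs <;> norm_num

lemma Mat_append {n d : ℕ} {L2 L1 : List (ℕ × ℕ)} (h : Mat n d (L2 ++ L1)) : Mat n d L1 := by
  induction L2 with
  | nil => exact h
  | cons p L ih => exact ih h.1

lemma mapL_length {n d : ℕ} [NeZero n] (L : List (ℕ × ℕ)) : (mapL n d L).length = L.length := by
  simp [mapL]

lemma mapL_append {n d : ℕ} [NeZero n] (L2 L1 : List (ℕ × ℕ)) :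
    mapL n d (L2 ++ L1) = mapL n d L2 ++ mapL n d L1 := by
  simp [mapL]

/-- all determinants positive along the list -/
def DelPos (γ s μ : ℝ) (n d : ℕ) : List (ℕ × ℕ) → Prop
  | [] => True
  | p :: L => DelPos γ s μ n d L ∧ 0 < Del s (Kof γ s μ n d L) p.1 p.2

lemma good_of_delPos {γ s μ : ℝ} {n d : ℕ} [NeZero n] (L : List (ℕ × ℕ)) (hL : Mat n d L)
    (hlen : 2 * L.length < n * d) (hD : DelPos γ s μ n d L) :
    Good γ s μ (d : ℝ) (mapL n d L) := by
  induction L with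
  | nil => simp [mapL, Good]
  | cons p L ih =>
    obtain ⟨x, y⟩ := p
    obtain ⟨h1, hx, hy, hdx, hdy, hxy⟩ := hL
    obtain ⟨hD1, hD2⟩ := hD
    simp only at hx hy hdx hdy hxy hD2
    have hxy' : x ≠ y := fun h => hxy (by rw [h])
    have hl : 2 * L.length + 2 < n * d := by
      rw [List.length_cons] at hlen; omega
    refine ⟨ih h1 (by omega) hD1, ?_, ?_, ?_⟩
    · intro h
      exact hxy ((vtx_eq hx hy).mp h)
    · have h2 : ((2 * L.length + 2 : ℕ) : ℝ) < ((n * d : ℕ) : ℝ) := by exact_mod_cast hl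
      push_cast at h2
      have h3 := mapL_length (n := n) (d := d) L
      simp only [mapL] at h3
      rw [Fintype.card_fin, h3]
      linarith
    · have e1 := Kof_eq γ s μ n d L h1 x y hx hy hdx hdy
      have e2 := Kof_eq γ s μ n d L h1 x x hx hx hdx hdx
      have e3 := Kof_eq γ s μ n d L h1 y y hy hy hdy hdy
      simp only [Del, e1, e2, e3, if_true, if_neg hxy', sub_zero] at hD2
      exact hD2

/-- the trace condition on stub level -/
lemma endX_of {γ s μ : ℝ} {n d : ℕ} [NeZero n] (L : List (ℕ × ℕ)) (hL : Mat n d L)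
    (hX : ∑ i ∈ Finset.range (n * d), ∑ j ∈ Finset.range (n * d), Kof γ s μ n d L i j ^ 2 < 2) :
    EndX γ s μ (d : ℝ) (mapL n d L) := by
  classical
  unfold EndX
  set M := runM γ s μ (d : ℝ) (mapL n d L) with hM
  set r := runR (d : ℝ) (mapL n d L) with hr
  have h1 : ∑ i ∈ Finset.range (n * d), ∑ j ∈ Finset.range (n * d), Kof γ s μ n d L i j ^ 2
      = ∑ i ∈ live n d L, ∑ j ∈ live n d L, Kof γ s μ n d L i j ^ 2 := by
    have hsub : live n d L ⊆ Finset.range (n * d) := Finset.filter_subset _ _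
    symm
    rw [← Finset.sum_subset hsub]
    · refine Finset.sum_congr rfl fun i _ => ?_
      apply Finset.sum_subset hsub
      intro j hj hj'
      have : dead L j := by
        by_contra h
        exact hj' (mem_live.mpr ⟨Finset.mem_range.mp hj, h⟩)
      rw [Kof_dead γ s μ n d L i j (Or.inr this)]; simp
    · intro i hi hi'
      have : dead L i := by
        by_contra h
        exact hi' (mem_live.mpr ⟨Finset.mem_range.mp hi, h⟩)
      exact Finset.sum_eq_zero fun j _ => by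
        rw [Kof_dead γ s μ n d L i j (Or.inl this)]; simp
  have h2 : ∑ i ∈ live n d L, ∑ j ∈ live n d L, Kof γ s μ n d L i j ^ 2
      = ∑ i ∈ live n d L, ∑ j ∈ live n d L, M (vtx n d i) (vtx n d j) ^ 2
        + ∑ i ∈ live n d L, (γ ^ 2 - 2 * γ * M (vtx n d i) (vtx n d i)) := by
    rw [← Finset.sum_add_distrib]
    refine Finset.sum_congr rfl fun i hi => ?_
    have hi' := mem_live.mp hi
    have e1 : ∀ j ∈ live n d L, Kof γ s μ n d L i j ^ 2 = M (vtx n d i) (vtx n d j) ^ 2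
        + (if i = j then (γ ^ 2 - 2 * γ * M (vtx n d i) (vtx n d j)) else 0) := fun j hj => by
      have hj' := mem_live.mp hj
      rw [Kof_eq γ s μ n d L hL i j hi'.1 hj'.1 hi'.2 hj'.2]
      split_ifs <;> ring
    rw [Finset.sum_congr rfl e1, Finset.sum_add_distrib, Finset.sum_ite_eq, if_pos hi]
  have h3 : ∑ i ∈ live n d L, ∑ j ∈ live n d L, M (vtx n d i) (vtx n d j) ^ 2
      = ∑ v, ∑ w, r v * r w * M v w ^ 2 := by
    have e1 : ∀ i, ∑ j ∈ live n d L, M (vtx n d i) (vtx n d j) ^ 2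
        = ∑ w, r w * M (vtx n d i) w ^ 2 := fun i =>
      sum_live L hL (fun w => M (vtx n d i) w ^ 2)
    simp only [e1]
    rw [sum_live L hL (fun v => ∑ w, r w * M v w ^ 2)]
    refine Finset.sum_congr rfl fun v _ => ?_
    rw [Finset.mul_sum]
    exact Finset.sum_congr rfl fun w _ => by ring
  have h4 : ∑ i ∈ live n d L, (γ ^ 2 - 2 * γ * M (vtx n d i) (vtx n d i))
      = γ ^ 2 * ((n : ℝ) * d - 2 * (L.length : ℝ)) - 2 * γ * ∑ v, r v * M v v := by
    rw [sum_live L hL (fun v => γ ^ 2 - 2 * γ * M v v), ← sum_runR L, Finset.mul_sum,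
      Finset.mul_sum, ← Finset.sum_sub_distrib]
    exact Finset.sum_congr rfl fun v _ => by ring
  rw [h1, h2, h3, h4] at hX
  rw [Fintype.card_fin, mapL_length]
  linarith

/-- BRIDGE: the full spectral conclusion from the stub-indexed recursion. -/
theorem spectral {n d : ℕ} [NeZero n] (hd : 0 < d) {γ b : ℝ} (hγ0 : 0 < γ) (hγ1 : γ < 1)
    (hb : 0 < b - γ * d) (L2 L1 : List (ℕ × ℕ)) (hL : Mat n d (L2 ++ L1))
    (hfull : 2 * (L2 ++ L1).length = n * d) (hlen : 2 * L1.length < n * d)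
    (hD : ∀ s : ℝ, s = 1 ∨ s = -1 → DelPos γ s ((1 - γ ^ 2) / (b - γ * d)) n d L1)
    (hX : ∀ s : ℝ, s = 1 ∨ s = -1 → ∑ i ∈ Finset.range (n * d), ∑ j ∈ Finset.range (n * d),
      Kof γ s ((1 - γ ^ 2) / (b - γ * d)) n d L1 i j ^ 2 < 2)
    (f : Fin n → ℝ) (hf : f ≠ 0) (hf0 : ∑ v, f v = 0) :
    |f ⬝ᵥ (runA (mapL n d (L2 ++ L1)) *ᵥ f)| < b * (f ⬝ᵥ f) := by
  have hL1 : Mat n d L1 := Mat_append hL
  have hdr : (d : ℝ) ≠ 0 := by exact_mod_cast hd.ne'
  rw [mapL_append, runA_append]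
  have hρ : (0 : ℝ) < (Fintype.card (Fin n) : ℝ) * d - 2 * ((mapL n d L1).length : ℝ) := by
    rw [Fintype.card_fin, mapL_length]
    have : ((2 * L1.length : ℕ) : ℝ) < ((n * d : ℕ) : ℝ) := by exact_mod_cast hlen
    push_cast at this
    linarith
  refine exact_layer hγ0 hγ1 hb hdr (mapL n d L1) (fun s hs => good_of_delPos L1 hL1 hlen (hD s hs))
    hρ (fun v => runR_nat L1 hL1 v) (fun s hs => endX_of L1 hL1 (hX s hs)) (runA (mapL n d L2))
    (runA_symm _) (runA_nonneg _) ?_ f hf hf0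
  intro v
  have h1 := runR_append (d : ℝ) (mapL n d L2) (mapL n d L1) v
  rw [← mapL_append] at h1
  have h2 : runR (d : ℝ) (mapL n d (L2 ++ L1)) v = 0 := by
    have h3 := sum_runR (n := n) (d := d) (L2 ++ L1)
    have h4 : (n : ℝ) * d - 2 * ((L2 ++ L1).length : ℝ) = 0 := by
      have : ((2 * (L2 ++ L1).length : ℕ) : ℝ) = ((n * d : ℕ) : ℝ) := by exact_mod_cast hfull
      push_cast at this
      push_cast
      linarith
    rw [h4] at h3
    have h5 : ∀ w ∈ (Finset.univ : Finset (Fin n)), 0 ≤ runR (d : ℝ) (mapL n d (L2 ++ L1)) w :=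
      fun w _ => by rcases runR_nat (L2 ++ L1) hL w with h | h <;> linarith
    exact (Finset.sum_eq_zero_iff_of_nonneg h5).mp h3 v (Finset.mem_univ v)
  rw [h2] at h1
  linarith

end Crest.Agent.R62.Bridge
private theorem rz_4a7a2f98b8 : type_of% @_root_.Crest.Agent.R62.Bridge.Kof.eq_def := @_root_.Crest.Agent.R62.Bridge.Kof.eq_def -- L34
private theorem rz_8f3c22bc14 : type_of% @_root_.Crest.Agent.R62.Bridge.Kof.eq_1 := @_root_.Crest.Agent.R62.Bridge.Kof.eq_1 -- L34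
end

-- ▼ part R062/Out
section

/-!
Row 62: output of the machine, decoding, and the theorem reducing S0084 to a polynomial-time
selector of pair lists.
-/

set_option autoImplicit false

namespace Crest.Agent.R062.Out

open Crest.Agent.R062.Pairs Crest.Agent.R062.EndComplete Crest.Agent.R062.EndAlg
open Crest.Agent.R062.EndPT
open Crest.Agent.Lib.PT
open Classical
open scoped Matrix

/-- the graph of a list of stub pairs -/
def G (d n : ℕ) (P : List (ℕ × ℕ)) : SimpleGraph (Fin n) where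
  Adj i j := i ≠ j ∧ AdjN d P i j
  symm := ⟨fun _ _ h => ⟨fun e => h.1 e.symm, h.2.symm⟩⟩
  loopless := ⟨fun _ h => h.1 rfl⟩

/-- the output bit matrix -/
def out (d n : ℕ) (P : List (ℕ × ℕ)) : List Bool :=
  (List.range (n * n)).map fun k => decide (AdjN d P (k / n) (k % n))

theorem getD_out {d n : ℕ} {P : List (ℕ × ℕ)} {i j : ℕ} (hi : i < n) (hj : j < n) :
    (out d n P).getD (i * n + j) false = true ↔ AdjN d P i j := by
  have hlt : i * n + j < n * n := by
    calc i * n + j < i * n + n := by omega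
      _ = (i + 1) * n := by ring
      _ ≤ n * n := Nat.mul_le_mul_right n hi
  have h1 : (i * n + j) / n = i := by
    rw [Nat.div_eq_iff (by omega)]
    constructor
    · omega
    · omega
  have h2 : (i * n + j) % n = j := by
    rw [Nat.add_comm, Nat.add_mul_mod_self_right, Nat.mod_eq_of_lt hj]
  unfold out
  rw [List.getD_eq_getElem?_getD, List.getElem?_map, List.getElem?_range hlt]
  simp [h1, h2]

theorem adjGraph_out (d n : ℕ) (P : List (ℕ × ℕ)) :
    Crest.CombinatoricsR.GraphCode.adjGraph n (out d n P) = G d n P := by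
  ext i j
  change (i ≠ j ∧ (out d n P).getD (i.val * n + j.val) false = true ∧
    (out d n P).getD (j.val * n + i.val) false = true) ↔ (i ≠ j ∧ AdjN d P i j)
  rw [getD_out i.2 j.2, getD_out j.2 i.2]
  constructor
  · rintro ⟨h1, h2, _⟩; exact ⟨h1, h2⟩
  · rintro ⟨h1, h2⟩; exact ⟨h1, h2, h2.symm⟩

theorem adjN_lt {d n : ℕ} (hd : 0 < d) {P : List (ℕ × ℕ)} (hV : Valid d n P) {v w : ℕ}
    (h : AdjN d P v w) : v < n ∧ w < n ∧ v ≠ w := by
  obtain ⟨q, hq, h⟩ := h
  have hg := hV.1 q hq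
  have h1 : q.1 / d < n := (Nat.div_lt_iff_lt_mul hd).2 hg.1
  have h2 : q.2 / d < n := (Nat.div_lt_iff_lt_mul hd).2 hg.2.1
  rcases h with ⟨h3, h4⟩ | ⟨h3, h4⟩
  · rw [← h3, ← h4]; exact ⟨h1, h2, hg.2.2⟩
  · rw [← h3, ← h4]; exact ⟨h2, h1, hg.2.2.symm⟩

theorem regular {d n : ℕ} (hd : 0 < d) {P : List (ℕ × ℕ)} (hV : Valid d n P)
    (hf : 2 * P.length = n * d) : (G d n P).IsRegularOfDegree d := by
  intro v
  have h1 : ((G d n P).neighborFinset v).map Fin.valEmbedding = (nbl d P v).toFinset := by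
    ext w
    rw [Finset.mem_map, List.mem_toFinset, mem_nbl]
    constructor
    · rintro ⟨w', hw', rfl⟩
      rw [SimpleGraph.mem_neighborFinset] at hw'
      exact hw'.2
    · intro h
      obtain ⟨h2, h3, h4⟩ := adjN_lt hd hV h
      refine ⟨⟨w, h3⟩, ?_, rfl⟩
      rw [SimpleGraph.mem_neighborFinset]
      exact ⟨fun e => h4 (congrArg Fin.val e), h⟩
  have h2 := congrArg Finset.card h1
  rw [Finset.card_map, List.toFinset_card_of_nodup (nodup_nbl hV _),
    length_nbl_of_full hd hV hf v.2] at h2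
  rw [← SimpleGraph.card_neighborFinset_eq_degree]
  exact h2

section

variable {γ : Type} [PTCode γ]

theorem pt_adjN (d : ℕ) {P : γ → List (ℕ × ℕ)} {v w : γ → ℕ} (hP : PTF P) (hv : PTF v)
    (hw : PTF w) : PTPred (fun c => AdjN d (P c) (v c) (w c)) := by
  unfold AdjN
  refine PTPred.exists_mem hP ?_
  have h1 : PTF (fun q : γ × ℕ × ℕ => q.2.1) := by fun_prop
  have h2 : PTF (fun q : γ × ℕ × ℕ => q.2.2) := by fun_prop
  have g1 := PTF.natDiv h1 (PTF.const d)
  have g2 := PTF.natDiv h2 (PTF.const d)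
  have hv' : PTF (fun q : γ × ℕ × ℕ => v q.1) := hv.comp PTF.fst
  have hw' : PTF (fun q : γ × ℕ × ℕ => w q.1) := hw.comp PTF.fst
  exact ((PTPred.natEq g1 hv').and (PTPred.natEq g2 hw')).or
    ((PTPred.natEq g1 hw').and (PTPred.natEq g2 hv'))

theorem pt_out (d : ℕ) {n : γ → ℕ} {P : γ → List (ℕ × ℕ)} (hn : PTU n) (hP : PTF P) :
    PTF (fun c => out d (n c) (P c)) := by
  unfold out
  refine PTF.tabulate (f := fun c k => decide (AdjN d (P c) (k / n c) (k % n c)))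
    (PTU.mul hn hn) ?_
  dsimp only [PTF₂]
  have hn' : PTF (fun c : γ × ℕ => n c.1) := (hn.comp PTF.fst).toPTF
  exact (pt_adjN d (hP.comp PTF.fst) (PTF.natDiv PTF.snd hn') (PTF.natMod PTF.snd hn')).toPTF

end

/-- the conclusion of S0084 -/
def Concl (d n : ℕ) (H : SimpleGraph (Fin n)) : Prop :=
  H.IsRegularOfDegree d ∧
    ∀ x : Fin n → ℝ, ∑ i, x i = 0 → x ≠ 0 →
      |x ⬝ᵥ (H.adjMatrix ℝ *ᵥ x)| < 2 * Real.sqrt ((d : ℝ) - 1) * (x ⬝ᵥ x)

/-- the spectral bound for a list of pairs -/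
def Spec (d n : ℕ) (P : List (ℕ × ℕ)) : Prop :=
  ∀ x : Fin n → ℝ, ∑ i, x i = 0 → x ≠ 0 →
      |x ⬝ᵥ ((G d n P).adjMatrix ℝ *ᵥ x)| < 2 * Real.sqrt ((d : ℝ) - 1) * (x ⬝ᵥ x)

/-- **Reduction of S0084.** It is enough to have a polynomial-time map `sel` from (unary) `n` to a
valid partial list of pairs, leaving at least `thr d - 1` free stubs, all whose full completions
satisfy the spectral bound. -/
theorem result_of (d : ℕ) (hd : 3 ≤ d) (sel : Un → List (ℕ × ℕ)) (hsel : PTF sel) (n₀ : ℕ)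
    (h : ∀ n, n₀ ≤ n → Even n → Valid d n (sel ⟨n⟩) ∧
      2 * (sel ⟨n⟩).length + thr d ≤ n * d + 1 ∧
      ∀ Q, sel ⟨n⟩ <:+ Q → Valid d n Q → 2 * Q.length = n * d → Spec d n Q) :
    ∃ n₀ : ℕ, ∃ F : List Bool → List Bool, Crest.Complexity.PolyTime F ∧
      ∀ n : ℕ, n₀ ≤ n → Even n →
        (Crest.CombinatoricsR.GraphCode.adjGraph n
            (F (Crest.CombinatoricsR.GraphCode.unary n))).IsRegularOfDegree d ∧
        ∀ x : Fin n → ℝ, ∑ i, x i = 0 → x ≠ 0 →
          |x ⬝ᵥ ((Crest.CombinatoricsR.GraphCode.adjGraph n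
              (F (Crest.CombinatoricsR.GraphCode.unary n))).adjMatrix ℝ *ᵥ x)| <
            2 * Real.sqrt ((d : ℝ) - 1) * (x ⬝ᵥ x) := by
  refine ⟨n₀, fun w => out d w.length (finish d w.length (sel ⟨w.length⟩)), ?_, ?_⟩
  · apply PTF.polyTime
    have hl : PTU (fun w : List Bool => w.length) := PTU.length PTF.id
    have hs : PTF (fun w : List Bool => sel ⟨w.length⟩) := PTF.comp hsel hl
    exact pt_out d hl (pt_finish d hl hs)
  · intro n hn hev
    obtain ⟨h1, h2, h3⟩ := h n hn hev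
    have hd0 : 0 < d := by omega
    obtain ⟨g1, g2, g3⟩ := finish_spec hd0 (hev.mul_right d) h1 h2
    have key : ∀ H : SimpleGraph (Fin n), H = G d n (finish d n (sel ⟨n⟩)) → Concl d n H := by
      rintro H rfl
      exact ⟨regular hd0 g1 g3, h3 _ g2 g1 g3⟩
    refine key _ ?_
    have hl : (Crest.CombinatoricsR.GraphCode.unary n).length = n := by
      simp [Crest.CombinatoricsR.GraphCode.unary]
    change Crest.CombinatoricsR.GraphCode.adjGraph n
      (out d (Crest.CombinatoricsR.GraphCode.unary n).length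
        (finish d (Crest.CombinatoricsR.GraphCode.unary n).length
          (sel ⟨(Crest.CombinatoricsR.GraphCode.unary n).length⟩))) = _
    rw [hl]
    exact adjGraph_out d n _

end Crest.Agent.R062.Out
end

-- ▼ part R62/SpecBridge
section

/-!
R62: `Out.Spec` of every full completion, from the stub recursion.
-/

set_option autoImplicit false
set_option linter.unusedSectionVars false
set_option linter.unusedSimpArgs false
set_option linter.unusedVariables false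
open scoped Matrix BigOperators

namespace Crest.Agent.R62.SpecBridge

open Crest.Agent.R62.Stub Crest.Agent.R62.Bridge
open Crest.Agent.R062.Pairs Crest.Agent.R062.Out

lemma mat_of_valid {d n : ℕ} {P : List (ℕ × ℕ)} (h : Valid d n P) : Mat n d P := by
  induction P with
  | nil => trivial
  | cons p P ih =>
    rw [valid_cons] at h
    obtain ⟨⟨hg, hc⟩, hP⟩ := h
    refine ⟨ih hP, hg.1, hg.2.1, ?_, ?_, hg.2.2⟩
    · rintro ⟨q, hq, h1 | h1⟩
      · exact (hc q hq).1.1 h1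
      · exact (hc q hq).1.2.1 h1
    · rintro ⟨q, hq, h1 | h1⟩
      · exact (hc q hq).1.2.2.1 h1
      · exact (hc q hq).1.2.2.2 h1

lemma adjN_cons {d : ℕ} {p : ℕ × ℕ} {P : List (ℕ × ℕ)} {v w : ℕ} :
    AdjN d (p :: P) v w ↔
      ((p.1 / d = v ∧ p.2 / d = w) ∨ (p.1 / d = w ∧ p.2 / d = v)) ∨ AdjN d P v w := by
  simp [AdjN]

lemma vtx_val {n d : ℕ} [NeZero n] {x : ℕ} (hx : x < n * d) : (vtx n d x).val = x / d := by
  have h1 : x / d < n := Nat.div_lt_of_lt_mul (by rwa [mul_comm] at hx)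
  simp only [vtx, Fin.val_ofNat, Nat.mod_eq_of_lt h1]

lemma adjMatrix_eq {d n : ℕ} [NeZero n] {P : List (ℕ × ℕ)} (h : Valid d n P)
    [DecidableRel (G d n P).Adj] :
    (G d n P).adjMatrix ℝ = runA (mapL n d P) := by
  classical
  have key : ∀ i j : Fin n, (if (i ≠ j ∧ AdjN d P i j) then (1 : ℝ) else 0)
      = runA (mapL n d P) i j := by
    induction P with
    | nil =>
      intro i j
      simp [AdjN, mapL, runA]
    | cons p P ih =>
      intro i j
      rw [valid_cons] at h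
      obtain ⟨⟨hg, hc⟩, hP⟩ := h
      have h0 := ih hP i j
      obtain ⟨x, y⟩ := p
      obtain ⟨hx, hy, hxy⟩ := hg
      simp only at hx hy hxy hc
      have ex : ∀ i : Fin n, (i = vtx n d x) ↔ x / d = i.val := fun i => by
        rw [Fin.ext_iff, vtx_val hx, eq_comm]
      have ey : ∀ i : Fin n, (i = vtx n d y) ↔ y / d = i.val := fun i => by
        rw [Fin.ext_iff, vtx_val hy, eq_comm]
      simp only [mapL, List.map_cons, runA, Matrix.add_apply, edgeM, Matrix.vecMulVec_apply,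
        Pi.single_apply, ex, ey]
      simp only [mapL] at h0
      rw [← h0]
      simp only [adjN_cons]
      have hno1 : ∀ v w : ℕ, x / d = v → y / d = w → ¬ AdjN d P v w := by
        rintro v w h1 h2 ⟨q, hq, h3 | h3⟩
        · exact (hc q hq).2.1 ⟨by rw [h1, h3.1], by rw [h2, h3.2]⟩
        · exact (hc q hq).2.2 ⟨by simp only [h1, h3.2], by simp only [h2, h3.1]⟩
      by_cases hij : i = j
      · subst hij
        by_cases h1 : x / d = i.val
        · have h2 : ¬ (y / d = i.val) := fun h2 => hxy (by rw [h1, h2])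
          simp [h1, h2]
        · simp [h1]
      · have hij' : i.val ≠ j.val := fun h => hij (Fin.ext h)
        by_cases h1 : x / d = i.val
        · by_cases h2 : y / d = j.val
          · have h3 : ¬ (x / d = j.val) := fun h => hij' (by rw [← h1, h])
            have h4 := hno1 _ _ h1 h2
            rw [h1] at h3
            simp [h1, h2, h3, h4, hij, hij']
          · simp [h1, h2, hij, hij']
        · by_cases h2 : y / d = i.val
          · by_cases h3 : x / d = j.val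
            · have h4 : ¬ AdjN d P i j := fun hh => hno1 _ _ h3 h2 (AdjN.symm hh)
              have h5 : ¬ (y / d = j.val) := fun h => hij' (by rw [← h2, h])
              simp [h1, h2, h3, h4, h5, hij, hij', Ne.symm hij']
            · simp [h1, h2, h3, hij, hij']
          · simp [h1, h2, hij, hij']
  ext i j
  rw [SimpleGraph.adjMatrix_apply, ← key i j]
  congr 1

/-- the spectral property of all full completions -/
theorem spec_of {d n : ℕ} (hd : 3 ≤ d) (hn : 0 < n) {γ : ℝ} (hγ0 : 0 < γ) (hγ1 : γ < 1)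
    (hb : 0 < 2 * Real.sqrt ((d : ℝ) - 1) - γ * d) (P : List (ℕ × ℕ))
    (hlen : 2 * P.length < n * d)
    (hD : ∀ s : ℝ, s = 1 ∨ s = -1 →
      DelPos γ s ((1 - γ ^ 2) / (2 * Real.sqrt ((d : ℝ) - 1) - γ * d)) n d P)
    (hX : ∀ s : ℝ, s = 1 ∨ s = -1 → ∑ i ∈ Finset.range (n * d), ∑ j ∈ Finset.range (n * d),
      Kof γ s ((1 - γ ^ 2) / (2 * Real.sqrt ((d : ℝ) - 1) - γ * d)) n d P i j ^ 2 < 2)
    (Q : List (ℕ × ℕ)) (hPQ : P <:+ Q) (hQ : Valid d n Q) (hfull : 2 * Q.length = n * d) :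
    Spec d n Q := by
  classical
  have : NeZero n := ⟨hn.ne'⟩
  obtain ⟨R, rfl⟩ := hPQ
  intro x hx0 hx
  have h1 := spectral (by omega : 0 < d) hγ0 hγ1 hb R P (mat_of_valid hQ) hfull hlen hD hX x hx hx0
  rw [← adjMatrix_eq hQ] at h1
  exact h1

end Crest.Agent.R62.SpecBridge
end

-- ▼ part R62/Glue
section

/-!
R62: glue.  From the data `Mach.Spec` (with the machine theorem as a hypothesis) and the end
condition to the statement S0084.
-/

set_option autoImplicit false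
set_option linter.unusedSectionVars false
set_option linter.unusedSimpArgs false
set_option linter.unusedVariables false
open scoped Matrix BigOperators

namespace Crest.Agent.R62.Glue

open Crest.Agent.R62.Stub
open Crest.Agent.R062
open Crest.Agent.Lib.PT


lemma Del_eq (s : ℝ) (K : ℕ → ℕ → ℝ) (x y : ℕ) : Mach.Del s K x y = Bridge.Del s K x y := rfl

lemma upd_eq (s : ℝ) (K : ℕ → ℕ → ℝ) (x y : ℕ) : Mach.upd s K x y = Bridge.upd s K x y := by
  funext i j
  simp only [Mach.upd, Bridge.upd, Mach.updNum, Del_eq]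
  split_ifs
  · rfl
  · ring

lemma Kof_eq (γ s μ : ℝ) (n d : ℕ) (L : List (ℕ × ℕ)) :
    Mach.Kof γ s μ n d L = Bridge.Kof γ s μ n d L := by
  induction L with
  | nil => rfl
  | cons p L ih => simp only [Mach.Kof, Bridge.Kof, ih, upd_eq]

/-- `μ` as a function of `γ` for `b = 2 √(d-1)` -/
noncomputable def muOf (d : ℕ) (γ : ℝ) : ℝ := (1 - γ ^ 2) / (2 * Real.sqrt ((d : ℝ) - 1) - γ * d)

lemma delPos_of {γ s μ : ℝ} {n d : ℕ} (L : List (ℕ × ℕ))
    (h : ∀ p L', (p :: L') <:+ L → 0 < Mach.Del s (Mach.Kof γ s μ n d L') p.1 p.2) :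
    Bridge.DelPos γ s μ n d L := by
  induction L with
  | nil => trivial
  | cons p L ih =>
    refine ⟨ih fun q L' hq => h q L' (hq.trans (List.suffix_cons p L)), ?_⟩
    have := h p L (List.suffix_refl _)
    rw [Kof_eq] at this
    exact this

/-- spectral property from a list with positive determinants, in the machine's notation -/
theorem spec_of_mach {d n : ℕ} (hd : 3 ≤ d) (hn : 0 < n) {γ : ℝ} (hγ0 : 0 < γ) (hγ1 : γ < 1)
    (hb : 0 < 2 * Real.sqrt ((d : ℝ) - 1) - γ * d) (P : List (ℕ × ℕ))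
    (hlen : 2 * P.length < n * d)
    (hD : ∀ b : Bool, ∀ p L', (p :: L') <:+ P →
      0 < Mach.Del (Mach.sg b) (Mach.Kof γ (Mach.sg b) (muOf d γ) n d L') p.1 p.2)
    (hX : ∀ b : Bool, ∑ i ∈ Finset.range (n * d), ∑ j ∈ Finset.range (n * d),
      Mach.Kof γ (Mach.sg b) (muOf d γ) n d P i j ^ 2 < 2)
    (Q : List (ℕ × ℕ)) (hPQ : P <:+ Q) (hQ : Pairs.Valid d n Q) (hfull : 2 * Q.length = n * d) :
    Out.Spec d n Q := by
  have h1 : (Mach.sg true : ℝ) = 1 := by simp [Mach.sg]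
  have h2 : (Mach.sg false : ℝ) = -1 := by simp [Mach.sg]
  refine SpecBridge.spec_of hd hn hγ0 hγ1 hb P hlen ?_ ?_ Q hPQ hQ hfull
  · rintro s (rfl | rfl)
    · exact delPos_of P fun p L' h => by have := hD true p L' h; rw [h1] at this; exact this
    · exact delPos_of P fun p L' h => by have := hD false p L' h; rw [h2] at this; exact this
  · rintro s (rfl | rfl)
    · have := hX true
      rw [h1, Kof_eq] at this
      exact this
    · have := hX false
      rw [h2, Kof_eq] at this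
      exact this

/-- suffixes of good lists are good -/
lemma good_suffix {P : Mach.Par} {d n : ℕ} {cs : List Mach.E} {l : List (ℕ × ℕ)}
    (h : Mach.Good P d n cs l) {l' : List (ℕ × ℕ)} (hl : l' <:+ l) : Mach.Good P d n cs l' := by
  induction l with
  | nil => rw [List.suffix_nil] at hl; subst hl; exact h
  | cons p l ih =>
    rw [List.suffix_cons_iff] at hl
    rcases hl with rfl | hl
    · exact h
    · exact ih h.1 hl

open Classical in
/-- THE GLUE -/
theorem glue {d : ℕ} (hd : 3 ≤ d) (S : Mach.Spec d) (n1 : ℕ)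
    (hmach : ∃ n2 : ℕ, ∃ sel : Un → List (ℕ × ℕ), PTF sel ∧ ∀ n, n2 ≤ n → Even n →
      Mach.Good S.P d n S.cs (sel ⟨n⟩) ∧ (sel ⟨n⟩).length = S.T n)
    (hγ : ∀ n, n1 ≤ n → Even n → 0 < S.P.gam.v n ∧ S.P.gam.v n < 1 ∧
      0 < 2 * Real.sqrt ((d : ℝ) - 1) - S.P.gam.v n * d)
    (hμ : ∀ n, n1 ≤ n → Even n → S.P.mu.v n = muOf d (S.P.gam.v n))
    (hT : ∀ n, n1 ≤ n → Even n → 2 * S.T n + EndComplete.thr d ≤ n * d + 1)
    (hend : ∀ n, n1 ≤ n → Even n → ∀ l, Mach.Good S.P d n S.cs l → l.length = S.T n →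
      ∀ b : Bool, ∑ i ∈ Finset.range (n * d), ∑ j ∈ Finset.range (n * d),
        S.P.K d n b l i j ^ 2 < 2) :
    ∃ n₀ : ℕ, ∃ F : List Bool → List Bool, Crest.Complexity.PolyTime F ∧
      ∀ n : ℕ, n₀ ≤ n → Even n →
        (Crest.CombinatoricsR.GraphCode.adjGraph n
            (F (Crest.CombinatoricsR.GraphCode.unary n))).IsRegularOfDegree d ∧
        ∀ x : Fin n → ℝ, ∑ i, x i = 0 → x ≠ 0 →
          |x ⬝ᵥ ((Crest.CombinatoricsR.GraphCode.adjGraph n
              (F (Crest.CombinatoricsR.GraphCode.unary n))).adjMatrix ℝ *ᵥ x)| <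
            2 * Real.sqrt ((d : ℝ) - 1) * (x ⬝ᵥ x) := by
  obtain ⟨n2, sel, hsel, hgood⟩ := hmach
  refine Out.result_of d hd sel hsel (max (max n1 n2) (max S.n0 1)) ?_
  intro n hn hev
  have hn1 : n1 ≤ n := le_trans (le_trans (le_max_left _ _) (le_max_left _ _)) hn
  have hn2 : n2 ≤ n := le_trans (le_trans (le_max_right _ _) (le_max_left _ _)) hn
  have hn0 : S.n0 ≤ n := le_trans (le_trans (le_max_left _ _) (le_max_right _ _)) hn
  have hnpos : 0 < n := lt_of_lt_of_le Nat.one_pos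
    (le_trans (le_trans (le_max_right _ _) (le_max_right _ _)) hn)
  obtain ⟨hG, hlen⟩ := hgood n hn2 hev
  have hT' := hT n hn1 hev
  have hthr : 2 ≤ EndComplete.thr d := by unfold EndComplete.thr; omega
  refine ⟨hG.valid, by rw [hlen]; exact hT', ?_⟩
  intro Q hPQ hQ hfull
  obtain ⟨hγ0, hγ1, hb⟩ := hγ n hn1 hev
  have hμ' := hμ n hn1 hev
  refine spec_of_mach hd hnpos hγ0 hγ1 hb (sel ⟨n⟩) (by rw [hlen]; omega) ?_ ?_ Q hPQ hQ hfull
  · intro b p L' hp
    have hg := good_suffix hG hp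
    have hlt : L'.length < S.T n := by
      have := hp.length_le
      rw [List.length_cons, hlen] at this
      omega
    have := S.bndD n hn0 hev L' hg.1 hlt p hg.2.1 hg.2.2 b
    rw [← hμ']
    unfold Mach.Par.K at this
    linarith
  · intro b
    have := hend n hn1 hev (sel ⟨n⟩) hG hlen b
    unfold Mach.Par.K at this
    rw [← hμ']
    exact this

end Crest.Agent.R62.Glue
end

-- ▼ part R62/Start

/-!
R62: START VALUES.  The initial stub matrix `K0 γ s μ n d` as a matrix on `Fin (n*d)`,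
its powers, mixed products, traces and diagonal entries, all exact; and the explicit values for
`b = 2√q`, `μ = (1-γ²)/(b-γd)`, `γ = (1-δ)/√q`.
-/

set_option autoImplicit false
set_option linter.unusedSectionVars false
set_option linter.unusedSimpArgs false
set_option linter.unusedVariables false

open scoped Matrix BigOperators
open Matrix Finset

namespace Crest.Agent.R62.Start

open Crest.Agent.R62.Bridge

/-- same-vertex indicator matrix -/
def BB (n d : ℕ) : Matrix (Fin (n * d)) (Fin (n * d)) ℝ :=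
  fun i j => if (i : ℕ) / d = (j : ℕ) / d then 1 else 0

/-- all ones -/
def JJ (n d : ℕ) : Matrix (Fin (n * d)) (Fin (n * d)) ℝ := fun _ _ => 1

/-- the start matrix on `Fin (n*d)` -/
noncomputable def K0m (γ s μ : ℝ) (n d : ℕ) : Matrix (Fin (n * d)) (Fin (n * d)) ℝ :=
  fun i j => K0 γ s μ n d i j

lemma K0m_apply (γ s μ : ℝ) (n d : ℕ) (i j : Fin (n * d)) :
    K0m γ s μ n d i j = (if (i : ℕ) / d = (j : ℕ) / d then μ else 0) - (if i = j then γ else 0)
      + (γ + s) / (n * d) - μ / n := by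
  simp only [K0m, K0, i.isLt, j.isLt, and_self, if_true, Fin.ext_iff]

/-- number of stubs at the vertex of stub `i` -/
lemma card_block (n d : ℕ) (i : Fin (n * d)) :
    (Finset.univ.filter fun j : Fin (n * d) => (i : ℕ) / d = (j : ℕ) / d).card = d := by
  have hd : 0 < d := by
    rcases Nat.eq_zero_or_pos d with h | h
    · subst h; exact absurd i.isLt (by simp)
    · exact h
  have hlt : (i : ℕ) / d < n := Nat.div_lt_of_lt_mul (by have := i.isLt; rw [mul_comm d n]; exact this)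
  have key : (Finset.univ.filter fun j : Fin (n * d) => (i : ℕ) / d = (j : ℕ) / d).card
      = (Finset.range d).card := by
    refine Finset.card_bij (fun (j : Fin (n * d)) _ => (j : ℕ) % d) ?_ ?_ ?_
    · intro j _
      exact Finset.mem_range.2 (Nat.mod_lt _ hd)
    · intro j hj j' hj' h
      simp only [Finset.mem_filter, Finset.mem_univ, true_and] at hj hj'
      apply Fin.ext
      rw [← Nat.div_add_mod' (j : ℕ) d, ← Nat.div_add_mod' (j' : ℕ) d, ← hj, ← hj', h]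
    · intro k hk
      have hk' : k < d := Finset.mem_range.1 hk
      have hb : (i : ℕ) / d * d + k < n * d := by
        calc (i : ℕ) / d * d + k < (i : ℕ) / d * d + d := by omega
          _ = ((i : ℕ) / d + 1) * d := by ring
          _ ≤ n * d := Nat.mul_le_mul_right _ hlt
      refine ⟨⟨(i : ℕ) / d * d + k, hb⟩, ?_, ?_⟩
      · simp only [Finset.mem_filter, Finset.mem_univ, true_and]
        rw [Nat.add_comm ((i : ℕ) / d * d) k, Nat.add_mul_div_right _ _ hd,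
          Nat.div_eq_of_lt hk', zero_add]
      · simp only
        rw [Nat.add_comm ((i : ℕ) / d * d) k, Nat.add_mul_mod_self_right,
          Nat.mod_eq_of_lt hk']
  rw [key, Finset.card_range]

lemma BB_mul_BB (n d : ℕ) : BB n d * BB n d = (d : ℝ) • BB n d := by
  ext i j
  rw [Matrix.mul_apply, Matrix.smul_apply, smul_eq_mul]
  simp only [BB]
  have : ∀ k : Fin (n * d), (if (i : ℕ) / d = (k : ℕ) / d then (1:ℝ) else 0) *
      (if (k : ℕ) / d = (j : ℕ) / d then 1 else 0)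
      = (if (i : ℕ) / d = (j : ℕ) / d then (1:ℝ) else 0) *
        (if (i : ℕ) / d = (k : ℕ) / d then 1 else 0) := by
    intro k
    by_cases h1 : (i : ℕ) / d = (k : ℕ) / d
    · rw [if_pos h1, ← h1]; ring
    · rw [if_neg h1]; ring
  rw [Finset.sum_congr rfl fun k _ => this k, ← Finset.mul_sum, Finset.sum_boole, card_block]
  ring

lemma sum_BB (n d : ℕ) (i : Fin (n * d)) : ∑ j, BB n d i j = d := by
  simp only [BB]
  rw [Finset.sum_boole, card_block]

lemma BB_symm (n d : ℕ) (i j : Fin (n * d)) : BB n d i j = BB n d j i := by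
  simp only [BB, eq_comm]

lemma BB_mul_JJ (n d : ℕ) : BB n d * JJ n d = (d : ℝ) • JJ n d := by
  ext i j
  rw [Matrix.mul_apply, Matrix.smul_apply, smul_eq_mul]
  simp only [JJ, mul_one]
  exact sum_BB n d i

lemma JJ_mul_BB (n d : ℕ) : JJ n d * BB n d = (d : ℝ) • JJ n d := by
  ext i j
  rw [Matrix.mul_apply, Matrix.smul_apply, smul_eq_mul]
  simp only [JJ, mul_one, one_mul]
  rw [Finset.sum_congr rfl fun k _ => BB_symm n d k j]
  exact sum_BB n d j

lemma JJ_mul_JJ (n d : ℕ) : JJ n d * JJ n d = ((n : ℝ) * d) • JJ n d := by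
  ext i j
  rw [Matrix.mul_apply, Matrix.smul_apply, smul_eq_mul]
  simp [JJ]

/-- the three eigenprojections combined: `F a b c = a P₁ + b (P_B - P₁) + c (1 - P_B)` -/
noncomputable def F (n d : ℕ) (a b c : ℝ) : Matrix (Fin (n * d)) (Fin (n * d)) ℝ :=
  (a / (n * d)) • JJ n d + b • ((1 / (d:ℝ)) • BB n d - (1 / ((n:ℝ) * d)) • JJ n d)
    + c • (1 - (1 / (d:ℝ)) • BB n d)

lemma F_apply (n d : ℕ) (a b c : ℝ) (i j : Fin (n * d)) :
    F n d a b c i j = a / (n * d) + b * ((if (i : ℕ) / d = (j : ℕ) / d then 1 / (d:ℝ) else 0)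
      - 1 / (n * d)) + c * ((if i = j then 1 else 0)
        - (if (i : ℕ) / d = (j : ℕ) / d then 1 / (d:ℝ) else 0)) := by
  simp only [F, Matrix.add_apply, Matrix.smul_apply, Matrix.sub_apply, JJ, BB, smul_eq_mul,
    Matrix.one_apply, mul_one]
  split_ifs <;> ring

lemma F_mul (n d : ℕ) (hn : 0 < n) (hd : 0 < d) (a b c a' b' c' : ℝ) :
    F n d a b c * F n d a' b' c' = F n d (a * a') (b * b') (c * c') := by
  have hn' : (n : ℝ) ≠ 0 := by positivity
  have hd' : (d : ℝ) ≠ 0 := by positivity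
  have e : ∀ a b c : ℝ, F n d a b c
      = ((a - b) / (n * d)) • JJ n d + ((b - c) / d) • BB n d + c • 1 := by
    intro a b c
    ext i j
    simp only [F, Matrix.add_apply, Matrix.smul_apply, Matrix.sub_apply, smul_eq_mul]
    ring
  rw [e a b c, e a' b' c', e (a * a') (b * b') (c * c')]
  simp only [add_mul, mul_add, Matrix.smul_mul, Matrix.mul_smul, JJ_mul_JJ, BB_mul_BB, BB_mul_JJ,
    JJ_mul_BB, mul_one, one_mul]
  ext i j
  simp only [Matrix.add_apply, Matrix.smul_apply, smul_eq_mul]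
  field_simp
  ring

lemma F_pow (n d : ℕ) (hn : 0 < n) (hd : 0 < d) (a b c : ℝ) (p : ℕ) :
    F n d a b c ^ p = F n d (a ^ p) (b ^ p) (c ^ p) := by
  induction p with
  | zero =>
    ext i j
    rw [pow_zero, F_apply]
    simp only [pow_zero, Matrix.one_apply]
    have hn' : (n : ℝ) ≠ 0 := by positivity
    have hd' : (d : ℝ) ≠ 0 := by positivity
    split_ifs <;> ring
  | succ p ih => rw [pow_succ, ih, F_mul n d hn hd, ← pow_succ, ← pow_succ, ← pow_succ]

lemma K0m_eq_F (γ s μ : ℝ) (n d : ℕ) (hn : 0 < n) (hd : 0 < d) :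
    K0m γ s μ n d = F n d s (μ * d - γ) (-γ) := by
  have hn' : (n : ℝ) ≠ 0 := by positivity
  have hd' : (d : ℝ) ≠ 0 := by positivity
  ext i j
  rw [K0m_apply, F_apply]
  split_ifs <;> field_simp
  all_goals ring

lemma K0m_pow (γ s μ : ℝ) (n d : ℕ) (hn : 0 < n) (hd : 0 < d) (p : ℕ) :
    K0m γ s μ n d ^ p = F n d (s ^ p) ((μ * d - γ) ^ p) ((-γ) ^ p) := by
  rw [K0m_eq_F γ s μ n d hn hd, F_pow n d hn hd]

lemma K0m_mul (γ s t μ : ℝ) (n d : ℕ) (hn : 0 < n) (hd : 0 < d) (p r : ℕ) :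
    K0m γ s μ n d ^ p * K0m γ t μ n d ^ r
      = F n d (s ^ p * t ^ r) ((μ * d - γ) ^ (p + r)) ((-γ) ^ (p + r)) := by
  rw [K0m_pow γ s μ n d hn hd, K0m_pow γ t μ n d hn hd, F_mul n d hn hd, ← pow_add, ← pow_add]

lemma F_diag (n d : ℕ) (hn : 0 < n) (hd : 0 < d) (a b c : ℝ) (i : Fin (n * d)) :
    F n d a b c i i = (a + (n - 1) * b + n * (d - 1) * c) / (n * d) := by
  have hn' : (n : ℝ) ≠ 0 := by positivity
  have hd' : (d : ℝ) ≠ 0 := by positivity
  rw [F_apply, if_pos rfl, if_pos rfl]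
  field_simp

lemma F_trace (n d : ℕ) (hn : 0 < n) (hd : 0 < d) (a b c : ℝ) :
    (F n d a b c).trace = a + (n - 1) * b + n * (d - 1) * c := by
  have hn' : (n : ℝ) ≠ 0 := by positivity
  have hd' : (d : ℝ) ≠ 0 := by positivity
  rw [Matrix.trace]
  simp only [Matrix.diag_apply, F_diag n d hn hd, Finset.sum_const, Finset.card_univ,
    Fintype.card_fin, nsmul_eq_mul, Nat.cast_mul]
  field_simp

/-- **Traces of powers of the start matrix.** -/
theorem trace_pow (γ s μ : ℝ) (n d : ℕ) (hn : 0 < n) (hd : 0 < d) (p : ℕ) :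
    (K0m γ s μ n d ^ p).trace
      = s ^ p + (n - 1) * (μ * d - γ) ^ p + n * (d - 1) * (-γ) ^ p := by
  rw [K0m_pow γ s μ n d hn hd, F_trace n d hn hd]

/-- **Mixed traces.** -/
theorem trace_mul (γ s t μ : ℝ) (n d : ℕ) (hn : 0 < n) (hd : 0 < d) (p r : ℕ) :
    (K0m γ s μ n d ^ p * K0m γ t μ n d ^ r).trace
      = s ^ p * t ^ r + (n - 1) * (μ * d - γ) ^ (p + r) + n * (d - 1) * (-γ) ^ (p + r) := by
  rw [K0m_mul γ s t μ n d hn hd, F_trace n d hn hd]

/-- **Diagonal entries of powers.** -/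
theorem pow_diag (γ s μ : ℝ) (n d : ℕ) (hn : 0 < n) (hd : 0 < d) (p : ℕ) (i : Fin (n * d)) :
    (K0m γ s μ n d ^ p) i i
      = (s ^ p + (n - 1) * (μ * d - γ) ^ p + n * (d - 1) * (-γ) ^ p) / (n * d) := by
  rw [K0m_pow γ s μ n d hn hd, F_diag n d hn hd]

/-- every diagonal entry of a power is the trace divided by `n d` -/
theorem pow_diag' (γ s μ : ℝ) (n d : ℕ) (hn : 0 < n) (hd : 0 < d) (p : ℕ) (i : Fin (n * d)) :
    (K0m γ s μ n d ^ p) i i = (K0m γ s μ n d ^ p).trace / (n * d) := by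
  rw [pow_diag γ s μ n d hn hd, trace_pow γ s μ n d hn hd]



/-! ### Explicit values for `b = 2√q`, `q = d - 1`, `γ = (1-δ)/√q`, `μ = (1-γ²)/(2√q-γd)` -/

/-- `γ = (1-δ)/√q` -/
noncomputable def gam (d : ℕ) (δ : ℝ) : ℝ := (1 - δ) / Real.sqrt ((d : ℝ) - 1)

/-- `μ = (1-γ²)/(2√q-γd)` -/
noncomputable def muOf (d : ℕ) (γ : ℝ) : ℝ := (1 - γ ^ 2) / (2 * Real.sqrt ((d : ℝ) - 1) - γ * d)

/-- `λ = μ d - γ`, the eigenvalue on block-constant sum-zero vectors -/
noncomputable def lam (d : ℕ) (δ : ℝ) : ℝ := muOf d (gam d δ) * d - gam d δ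

/-- `τ = λ - qγ = √q d δ²/(q-1+dδ)` -/
noncomputable def tau (d : ℕ) (δ : ℝ) : ℝ :=
  Real.sqrt ((d : ℝ) - 1) * d * δ ^ 2 / ((d : ℝ) - 2 + d * δ)

section explicit

variable (d : ℕ) (hd : 3 ≤ d) (δ : ℝ) (h0 : 0 ≤ δ) (h1 : δ ≤ 1)

include hd in
lemma sqrt_pos' : 0 < Real.sqrt ((d : ℝ) - 1) := by
  apply Real.sqrt_pos.2
  have : (3:ℝ) ≤ d := by exact_mod_cast hd
  linarith

include hd in
lemma sqrt_sq' : Real.sqrt ((d : ℝ) - 1) ^ 2 = (d : ℝ) - 1 := by
  apply Real.sq_sqrt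
  have : (3:ℝ) ≤ d := by exact_mod_cast hd
  linarith

include hd h0 h1 in
lemma gam_nonneg : 0 ≤ gam d δ := by
  unfold gam
  have := sqrt_pos' d hd
  apply div_nonneg (by linarith) this.le

include hd h0 h1 in
lemma gam_sq : ((d:ℝ) - 1) * gam d δ ^ 2 = (1 - δ) ^ 2 := by
  unfold gam
  have h := sqrt_pos' d hd
  rw [div_pow, sqrt_sq' d hd]
  have h3 : (3:ℝ) ≤ d := by exact_mod_cast hd
  have h5 : (d:ℝ) - 1 ≠ 0 := by linarith
  rw [mul_div_assoc', mul_div_cancel_left₀ _ h5]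

include hd h0 h1 in
lemma den_eq : 2 * Real.sqrt ((d : ℝ) - 1) - gam d δ * d
    = ((d:ℝ) - 2 + d * δ) / Real.sqrt ((d : ℝ) - 1) := by
  unfold gam
  have h := sqrt_pos' d hd
  have h2 := sqrt_sq' d hd
  field_simp
  rw [h2]
  ring


include hd h0 h1 in
lemma lam_eq : lam d δ = Real.sqrt ((d : ℝ) - 1) * ((d:ℝ) - 2 + 2 * δ) / ((d:ℝ) - 2 + d * δ) := by
  unfold lam muOf
  rw [den_eq d hd δ h0 h1]
  have h3 : (3:ℝ) ≤ d := by exact_mod_cast hd
  have h := sqrt_pos' d hd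
  have h2 := sqrt_sq' d hd
  have h4 : (d:ℝ) - 2 + d * δ ≠ 0 := by nlinarith
  have h5 : (d:ℝ) - 1 ≠ 0 := by linarith
  rw [div_div_eq_mul_div, sub_mul, one_mul]
  have h6 : gam d δ ^ 2 = (1 - δ) ^ 2 / ((d:ℝ) - 1) := by
    rw [eq_div_iff h5, mul_comm]; exact gam_sq d hd δ h0 h1
  rw [h6]
  unfold gam
  field_simp
  have h7 : Real.sqrt ((d : ℝ) - 1) ^ 2 = (d:ℝ) - 1 := h2
  have h8 : Real.sqrt ((d : ℝ) - 1) ^ 4 = ((d:ℝ) - 1) ^ 2 := by
    calc Real.sqrt ((d : ℝ) - 1) ^ 4 = (Real.sqrt ((d : ℝ) - 1) ^ 2) ^ 2 := by ring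
      _ = _ := by rw [h7]
  simp only [h7, h8]
  ring

include hd h0 h1 in
lemma gam_eq : gam d δ * Real.sqrt ((d : ℝ) - 1) = 1 - δ := by
  unfold gam
  exact div_mul_cancel₀ _ (sqrt_pos' d hd).ne'

include hd h0 h1 in
lemma q_gam : ((d:ℝ) - 1) * gam d δ = Real.sqrt ((d : ℝ) - 1) * (1 - δ) := by
  calc ((d:ℝ) - 1) * gam d δ = Real.sqrt ((d : ℝ) - 1) ^ 2 * gam d δ := by rw [sqrt_sq' d hd]
    _ = Real.sqrt ((d : ℝ) - 1) * (gam d δ * Real.sqrt ((d : ℝ) - 1)) := by ring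
    _ = _ := by rw [gam_eq d hd δ h0 h1]

include hd h0 h1 in
lemma tau_nonneg : 0 ≤ tau d δ := by
  unfold tau
  have h3 : (3:ℝ) ≤ d := by exact_mod_cast hd
  have := sqrt_pos' d hd
  apply div_nonneg (by positivity)
  nlinarith

include hd h0 h1 in
/-- `λ = qγ + τ` -/
lemma lam_eq_add : lam d δ = ((d:ℝ) - 1) * gam d δ + tau d δ := by
  rw [lam_eq d hd δ h0 h1, q_gam d hd δ h0 h1]
  unfold tau
  have h3 : (3:ℝ) ≤ d := by exact_mod_cast hd
  have h4 : (d:ℝ) - 2 + d * δ ≠ 0 := by nlinarith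
  field_simp
  ring

include hd h0 h1 in
lemma tau_le : tau d δ ≤ 3 * Real.sqrt ((d : ℝ) - 1) * δ ^ 2 := by
  unfold tau
  have h3 : (3:ℝ) ≤ d := by exact_mod_cast hd
  have h := sqrt_pos' d hd
  have h4 : 0 < (d:ℝ) - 2 + d * δ := by nlinarith
  rw [div_le_iff₀ h4]
  have h5 : 0 ≤ Real.sqrt ((d : ℝ) - 1) * δ ^ 2 := by positivity
  have h6 : (d:ℝ) ≤ 3 * ((d:ℝ) - 2 + d * δ) := by nlinarith
  nlinarith [mul_le_mul_of_nonneg_left h6 h5]

include hd h0 h1 in
lemma le_tau : Real.sqrt ((d : ℝ) - 1) / 2 * δ ^ 2 ≤ tau d δ := by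
  unfold tau
  have h3 : (3:ℝ) ≤ d := by exact_mod_cast hd
  have h := sqrt_pos' d hd
  have h4 : 0 < (d:ℝ) - 2 + d * δ := by nlinarith
  rw [le_div_iff₀ h4]
  have h5 : 0 ≤ Real.sqrt ((d : ℝ) - 1) * δ ^ 2 := by positivity
  have h6 : ((d:ℝ) - 2 + d * δ) / 2 ≤ d := by nlinarith
  nlinarith [mul_le_mul_of_nonneg_left h6 h5]

include hd h0 h1 in
lemma lam_le : lam d δ ≤ Real.sqrt ((d : ℝ) - 1) := by
  rw [lam_eq d hd δ h0 h1]
  have h3 : (3:ℝ) ≤ d := by exact_mod_cast hd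
  have h := sqrt_pos' d hd
  have h4 : 0 < (d:ℝ) - 2 + d * δ := by nlinarith
  rw [div_le_iff₀ h4]
  apply mul_le_mul_of_nonneg_left _ h.le
  nlinarith

include hd h0 h1 in
lemma q_gam_le_lam : ((d:ℝ) - 1) * gam d δ ≤ lam d δ := by
  rw [lam_eq_add d hd δ h0 h1]
  have := tau_nonneg d hd δ h0 h1
  linarith

include hd h0 h1 in
lemma lam_nonneg : 0 ≤ lam d δ := by
  have h := q_gam_le_lam d hd δ h0 h1
  have h2 := gam_nonneg d hd δ h0 h1
  have h3 : (3:ℝ) ≤ d := by exact_mod_cast hd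
  have : 0 ≤ ((d:ℝ) - 1) * gam d δ := mul_nonneg (by linarith) h2
  linarith

include hd h0 h1 in
lemma lam_sq_le : lam d δ ^ 2 ≤ (d:ℝ) - 1 := by
  rw [← sqrt_sq' d hd]
  exact pow_le_pow_left₀ (lam_nonneg d hd δ h0 h1) (lam_le d hd δ h0 h1) 2

include hd h0 h1 in
lemma gam_sq_le : ((d:ℝ) - 1) * gam d δ ^ 2 ≤ 1 := by
  rw [gam_sq d hd δ h0 h1]
  nlinarith

include hd h0 h1 in
lemma gam_lt_one : gam d δ < 1 := by
  have h := gam_sq_le d hd δ h0 h1
  have h3 : (3:ℝ) ≤ d := by exact_mod_cast hd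
  have h2 := gam_nonneg d hd δ h0 h1
  nlinarith [sq_nonneg (gam d δ)]

variable (n : ℕ) (hn : 0 < n) (s : ℝ)

/-- the start matrix with the explicit parameters -/
noncomputable def KS (d : ℕ) (δ : ℝ) (n : ℕ) (s : ℝ) : Matrix (Fin (n * d)) (Fin (n * d)) ℝ :=
  K0m (gam d δ) s (muOf d (gam d δ)) n d

include hd hn in
/-- `Tr K^p = s^p + (n-1) λ^p + n (d-1) (-γ)^p` -/
theorem KS_trace_pow (p : ℕ) : (KS d δ n s ^ p).trace
    = s ^ p + (n - 1) * lam d δ ^ p + n * (d - 1) * (-gam d δ) ^ p :=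
  trace_pow _ _ _ n d hn (by omega) p

include hd hn in
theorem KS_trace_mul (t : ℝ) (p r : ℕ) : (KS d δ n s ^ p * KS d δ n t ^ r).trace
    = s ^ p * t ^ r + (n - 1) * lam d δ ^ (p + r) + n * (d - 1) * (-gam d δ) ^ (p + r) :=
  trace_mul _ _ _ _ n d hn (by omega) p r

include hd hn in
theorem KS_diag (p : ℕ) (i : Fin (n * d)) :
    (KS d δ n s ^ p) i i = (KS d δ n s ^ p).trace / (n * d) :=
  pow_diag' _ _ _ n d hn (by omega) p i



include hd hn h0 h1 in
/-- `X_1 = s - λ + n τ` -/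
theorem X1_eq : (KS d δ n s).trace = s - lam d δ + n * tau d δ := by
  have h := KS_trace_pow d hd δ n hn s 1
  rw [pow_one, pow_one, pow_one, pow_one] at h
  rw [h, lam_eq_add d hd δ h0 h1]
  ring

include hd hn h0 h1 in
theorem X1_le (hs : s ≤ 1) :
    (KS d δ n s).trace ≤ 1 + 3 * Real.sqrt ((d : ℝ) - 1) * δ ^ 2 * n := by
  rw [X1_eq d hd δ h0 h1 n hn s]
  have h := lam_nonneg d hd δ h0 h1
  have h2 := tau_le d hd δ h0 h1
  have h3 : (n:ℝ) * tau d δ ≤ n * (3 * Real.sqrt ((d : ℝ) - 1) * δ ^ 2) :=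
    mul_le_mul_of_nonneg_left h2 (Nat.cast_nonneg n)
  linarith

include hd hn h0 h1 in
theorem le_X1 (hs : -1 ≤ s) : -1 - Real.sqrt ((d : ℝ) - 1)
    + Real.sqrt ((d : ℝ) - 1) / 2 * δ ^ 2 * n ≤ (KS d δ n s).trace := by
  rw [X1_eq d hd δ h0 h1 n hn s]
  have h := lam_le d hd δ h0 h1
  have h2 := le_tau d hd δ h0 h1
  have h3 : (n:ℝ) * (Real.sqrt ((d : ℝ) - 1) / 2 * δ ^ 2) ≤ n * tau d δ :=
    mul_le_mul_of_nonneg_left h2 (Nat.cast_nonneg n)
  linarith

include hd h0 h1 in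
lemma lam_sq_add_le : lam d δ ^ 2 + ((d:ℝ) - 1) * gam d δ ^ 2
    ≤ d * (1 - 2 * δ + 7 * δ ^ 2) := by
  have hg := gam_sq d hd δ h0 h1
  have h3 : (3:ℝ) ≤ d := by exact_mod_cast hd
  have h4 := lam_eq_add d hd δ h0 h1
  have hq := q_gam d hd δ h0 h1
  have hr := sqrt_pos' d hd
  have hr2 := sqrt_sq' d hd
  have hl := lam_le d hd δ h0 h1
  have htn := tau_nonneg d hd δ h0 h1
  set r := Real.sqrt ((d : ℝ) - 1) with hrdef
  -- λ² = (qγ)² + τ(λ + qγ)
  have e1 : lam d δ ^ 2 = (((d:ℝ) - 1) * gam d δ) ^ 2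
      + tau d δ * (lam d δ + ((d:ℝ) - 1) * gam d δ) := by
    rw [h4]; ring
  have e2 : (((d:ℝ) - 1) * gam d δ) ^ 2 = ((d:ℝ) - 1) * (1 - δ) ^ 2 := by
    rw [hq, mul_pow, hr2]
  have e3 : tau d δ * (lam d δ + ((d:ℝ) - 1) * gam d δ) ≤ tau d δ * (2 * r) := by
    apply mul_le_mul_of_nonneg_left _ htn
    rw [hq]
    nlinarith
  -- τ * 2r = 2 (d-1) d δ²/(d-2+dδ) ≤ 4 d δ² ... using (d-1) ≤ 2 (d-2)
  have e4 : tau d δ * (2 * r) ≤ 4 * d * δ ^ 2 := by
    unfold tau
    have h5 : 0 < (d:ℝ) - 2 + d * δ := by nlinarith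
    rw [div_mul_eq_mul_div, div_le_iff₀ h5]
    have h6 : r * d * δ ^ 2 * (2 * r) = 2 * r ^ 2 * (d * δ ^ 2) := by ring
    rw [← hrdef, h6, hr2]
    have h7 : 0 ≤ (d:ℝ) * δ ^ 2 := by positivity
    have h8 : 2 * ((d:ℝ) - 1) ≤ 4 * ((d:ℝ) - 2 + d * δ) := by nlinarith
    nlinarith [mul_le_mul_of_nonneg_right h8 h7]
  rw [e1, e2, hg]
  nlinarith [mul_nonneg (by linarith : (0:ℝ) ≤ d) (sq_nonneg δ)]

include hd h0 h1 in
lemma le_lam_sq_add : (d:ℝ) * (1 - 2 * δ) ≤ lam d δ ^ 2 + ((d:ℝ) - 1) * gam d δ ^ 2 := by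
  have hg := gam_sq d hd δ h0 h1
  have h3 : (3:ℝ) ≤ d := by exact_mod_cast hd
  have hq := q_gam d hd δ h0 h1
  have hr2 := sqrt_sq' d hd
  have h4 := q_gam_le_lam d hd δ h0 h1
  have h5 : 0 ≤ ((d:ℝ) - 1) * gam d δ :=
    mul_nonneg (by linarith) (gam_nonneg d hd δ h0 h1)
  have e2 : (((d:ℝ) - 1) * gam d δ) ^ 2 = ((d:ℝ) - 1) * (1 - δ) ^ 2 := by
    rw [hq, mul_pow, hr2]
  have e3 : (((d:ℝ) - 1) * gam d δ) ^ 2 ≤ lam d δ ^ 2 := pow_le_pow_left₀ h5 h4 2
  rw [hg]
  nlinarith [mul_nonneg (by linarith : (0:ℝ) ≤ (d:ℝ)) (sq_nonneg δ)]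

include hd hn h0 h1 in
/-- `X_2 ≤ 1 + n d (1 - 2δ + 7δ²)` -/
theorem X2_le (hs : s ^ 2 = 1) :
    (KS d δ n s ^ 2).trace ≤ 1 + n * d * (1 - 2 * δ + 7 * δ ^ 2) := by
  rw [KS_trace_pow d hd δ n hn s 2, hs]
  have h := lam_sq_add_le d hd δ h0 h1
  have h2 : (n:ℝ) * (lam d δ ^ 2 + ((d:ℝ) - 1) * gam d δ ^ 2)
      ≤ n * (d * (1 - 2 * δ + 7 * δ ^ 2)) := mul_le_mul_of_nonneg_left h (Nat.cast_nonneg n)
  nlinarith [sq_nonneg (lam d δ)]

include hd hn h0 h1 in
/-- `n d (1-2δ) - d ≤ X_2` -/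
theorem le_X2 (hs : s ^ 2 = 1) :
    n * d * (1 - 2 * δ) + 2 - d ≤ (KS d δ n s ^ 2).trace := by
  rw [KS_trace_pow d hd δ n hn s 2, hs]
  have h := le_lam_sq_add d hd δ h0 h1
  have h2 : (n:ℝ) * (d * (1 - 2 * δ)) ≤ n * (lam d δ ^ 2 + ((d:ℝ) - 1) * gam d δ ^ 2) :=
    mul_le_mul_of_nonneg_left h (Nat.cast_nonneg n)
  have h3 := lam_sq_le d hd δ h0 h1
  nlinarith

include hd h0 h1 in
lemma lam_cube_le : lam d δ ^ 3 ≤ ((d:ℝ) - 1) ^ 2 := by
  have h := lam_le d hd δ h0 h1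
  have hn := lam_nonneg d hd δ h0 h1
  have h2 := lam_sq_le d hd δ h0 h1
  have h3 : (3:ℝ) ≤ d := by exact_mod_cast hd
  have hl : lam d δ ≤ (d:ℝ) - 1 := by nlinarith [sq_nonneg (lam d δ - 1)]
  calc lam d δ ^ 3 = lam d δ ^ 2 * lam d δ := by ring
    _ ≤ ((d:ℝ) - 1) * ((d:ℝ) - 1) := mul_le_mul h2 hl hn (by linarith)
    _ = _ := by ring

include hd hn h0 h1 in
/-- `X_3 ≤ 1 + n (d-1)²` -/
theorem X3_le (hs : s ≤ 1) (hs' : -1 ≤ s) :
    (KS d δ n s ^ 3).trace ≤ 1 + n * ((d:ℝ) - 1) ^ 2 := by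
  rw [KS_trace_pow d hd δ n hn s 3]
  have h := lam_cube_le d hd δ h0 h1
  have h2 := gam_nonneg d hd δ h0 h1
  have hl := lam_nonneg d hd δ h0 h1
  have h3 : (3:ℝ) ≤ d := by exact_mod_cast hd
  have h4 : 0 ≤ (n:ℝ) * ((d:ℝ) - 1) * gam d δ ^ 3 := by
    apply mul_nonneg (mul_nonneg (Nat.cast_nonneg n) (by linarith)) (pow_nonneg h2 3)
  have h5 : (n:ℝ) * lam d δ ^ 3 ≤ n * ((d:ℝ) - 1) ^ 2 :=
    mul_le_mul_of_nonneg_left h (Nat.cast_nonneg n)
  have h6 : s ^ 3 ≤ 1 := by nlinarith [sq_nonneg s, sq_nonneg (s - 1), sq_nonneg (s + 1)]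
  have h7 : 0 ≤ lam d δ ^ 3 := pow_nonneg hl 3
  have h8 : (-gam d δ) ^ 3 = -(gam d δ ^ 3) := by ring
  rw [h8]
  nlinarith

include hd h0 h1 in
/-- `λ³ - qγ³ ≥ 2 (1-δ)³` -/
lemma le_lam_cube : 2 * (1 - δ) ^ 3 ≤ lam d δ ^ 3 - ((d:ℝ) - 1) * gam d δ ^ 3 := by
  have h3 : (3:ℝ) ≤ d := by exact_mod_cast hd
  have hq := q_gam d hd δ h0 h1
  have hr := sqrt_pos' d hd
  have hr2 := sqrt_sq' d hd
  have h4 := q_gam_le_lam d hd δ h0 h1
  have hg := gam_eq d hd δ h0 h1
  have hg0 := gam_nonneg d hd δ h0 h1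
  have h5 : 0 ≤ ((d:ℝ) - 1) * gam d δ := mul_nonneg (by linarith) hg0
  have e3 : (((d:ℝ) - 1) * gam d δ) ^ 3 ≤ lam d δ ^ 3 := pow_le_pow_left₀ h5 h4 3
  set r := Real.sqrt ((d : ℝ) - 1) with hrdef
  have hr1 : 1 ≤ r := by nlinarith
  -- (qγ)³ = r³ (1-δ)³ and qγ³ r = (1-δ)³ 
  have e4 : (((d:ℝ) - 1) * gam d δ) ^ 3 = r * ((d:ℝ) - 1) * (1 - δ) ^ 3 := by
    rw [hq, ← hr2]; ring
  have e5 : ((d:ℝ) - 1) * gam d δ ^ 3 * r = (1 - δ) ^ 3 := by
    rw [← hg, ← hr2]; ring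
  have e6 : 0 ≤ (1 - δ) ^ 3 := pow_nonneg (by linarith) 3
  have e7 : ((d:ℝ) - 1) * gam d δ ^ 3 ≤ (1 - δ) ^ 3 / r := by
    rw [le_div_iff₀ hr, e5]
  -- need r q - 1/r ≥ 2
  have e8 : (1 - δ) ^ 3 / r ≤ (1 - δ) ^ 3 * (r * ((d:ℝ) - 1) - 2) := by
    rw [div_le_iff₀ hr, mul_assoc]
    have h9 : 1 ≤ (r * ((d:ℝ) - 1) - 2) * r := by
      have h10 : r ^ 2 = (d:ℝ) - 1 := hr2
      have h11 : (2:ℝ) ≤ r ^ 2 := by rw [h10]; linarith
      have h12 : (7/5:ℝ) ≤ r := by nlinarith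
      rw [← h10]
      nlinarith [mul_nonneg (by linarith : (0:ℝ) ≤ r - 7/5) (by linarith : (0:ℝ) ≤ r), pow_pos hr 3]
    nlinarith
  nlinarith

include hd hn h0 h1 in
/-- `X_3 ≥ 2 (1-δ)³ n - 1 - (d-1)²` -/
theorem le_X3 (hs : s ≤ 1) (hs' : -1 ≤ s) :
    2 * (1 - δ) ^ 3 * n - 1 - ((d:ℝ) - 1) ^ 2 ≤ (KS d δ n s ^ 3).trace := by
  rw [KS_trace_pow d hd δ n hn s 3]
  have h := lam_cube_le d hd δ h0 h1
  have h2 := le_lam_cube d hd δ h0 h1
  have h5 : (n:ℝ) * (2 * (1 - δ) ^ 3) ≤ n * (lam d δ ^ 3 - ((d:ℝ) - 1) * gam d δ ^ 3) :=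
    mul_le_mul_of_nonneg_left h2 (Nat.cast_nonneg n)
  have h6 : -1 ≤ s ^ 3 := by nlinarith [sq_nonneg s, sq_nonneg (s - 1), sq_nonneg (s + 1)]
  have h8 : (-gam d δ) ^ 3 = -(gam d δ ^ 3) := by ring
  rw [h8]
  nlinarith

include hd h0 h1 in
lemma lam_four_le : lam d δ ^ 4 + ((d:ℝ) - 1) * gam d δ ^ 4 ≤ ((d:ℝ) - 1) ^ 2 + 1 := by
  have h := lam_sq_le d hd δ h0 h1
  have hg := gam_sq_le d hd δ h0 h1
  have hg0 := gam_nonneg d hd δ h0 h1
  have hg1 := gam_lt_one d hd δ h0 h1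
  have h3 : (3:ℝ) ≤ d := by exact_mod_cast hd
  have h4 : lam d δ ^ 4 ≤ ((d:ℝ) - 1) ^ 2 := by
    have := pow_le_pow_left₀ (sq_nonneg (lam d δ)) h 2
    calc lam d δ ^ 4 = (lam d δ ^ 2) ^ 2 := by ring
      _ ≤ _ := this
  have h5 : ((d:ℝ) - 1) * gam d δ ^ 4 ≤ 1 := by
    have h6 : gam d δ ^ 2 ≤ 1 := by nlinarith
    calc ((d:ℝ) - 1) * gam d δ ^ 4 = (((d:ℝ) - 1) * gam d δ ^ 2) * gam d δ ^ 2 := by ring
      _ ≤ 1 * 1 := mul_le_mul hg h6 (sq_nonneg _) (by norm_num)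
      _ = 1 := by norm_num
  linarith

include hd hn h0 h1 in
/-- `X_4 ≤ 1 + n ((d-1)² + 1)` -/
theorem X4_le (hs : s ^ 2 = 1) :
    (KS d δ n s ^ 4).trace ≤ 1 + n * (((d:ℝ) - 1) ^ 2 + 1) := by
  rw [KS_trace_pow d hd δ n hn s 4]
  have h := lam_four_le d hd δ h0 h1
  have h5 : (n:ℝ) * (lam d δ ^ 4 + ((d:ℝ) - 1) * gam d δ ^ 4) ≤ n * (((d:ℝ) - 1) ^ 2 + 1) :=
    mul_le_mul_of_nonneg_left h (Nat.cast_nonneg n)
  have h6 : s ^ 4 = 1 := by
    calc s ^ 4 = (s ^ 2) ^ 2 := by ring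
      _ = 1 := by rw [hs]; norm_num
  have h7 : 0 ≤ lam d δ ^ 4 := by positivity
  have h8 : (-gam d δ) ^ 4 = gam d δ ^ 4 := by ring
  rw [h6, h8]
  nlinarith

include hd hn h0 h1 in
/-- `M_22 = Tr (K^+)²(K^-)² ≤ 1 + n ((d-1)² + 1)` -/
theorem M22_le (t : ℝ) (hs : s ^ 2 = 1) (ht : t ^ 2 = 1) :
    (KS d δ n s ^ 2 * KS d δ n t ^ 2).trace ≤ 1 + n * (((d:ℝ) - 1) ^ 2 + 1) := by
  rw [KS_trace_mul d hd δ n hn s t 2 2]
  have h := lam_four_le d hd δ h0 h1
  have h5 : (n:ℝ) * (lam d δ ^ 4 + ((d:ℝ) - 1) * gam d δ ^ 4) ≤ n * (((d:ℝ) - 1) ^ 2 + 1) :=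
    mul_le_mul_of_nonneg_left h (Nat.cast_nonneg n)
  have h7 : 0 ≤ lam d δ ^ 4 := by positivity
  have h8 : (-gam d δ) ^ 4 = gam d δ ^ 4 := by ring
  rw [hs, ht, show 2 + 2 = 4 from rfl, h8]
  nlinarith


include hd hn h0 h1 in
/-- all diagonal entries equal `X_1/(nd)`: `V = X_1²/(nd)` -/
theorem V_eq : ∑ i, (KS d δ n s) i i ^ 2 = (KS d δ n s).trace ^ 2 / (n * d) := by
  have hn' : (n : ℝ) ≠ 0 := by positivity
  have hd' : (d : ℝ) ≠ 0 := by have : 0 < d := by omega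
                               positivity
  have h : ∀ i, (KS d δ n s) i i ^ 2 = ((KS d δ n s).trace / (n * d)) ^ 2 := by
    intro i
    have := KS_diag d hd δ n hn s 1 i
    rw [pow_one] at this
    rw [this]
  rw [Finset.sum_congr rfl fun i _ => h i, Finset.sum_const, Finset.card_univ, Fintype.card_fin,
    nsmul_eq_mul]
  push_cast
  field_simp


end explicit

end Crest.Agent.R62.Start
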