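import Mathlib

/-!
R62 (helper230): scalar barrier calculus.

* `posSq_add_le`, `avg_posSq`, `quad_step`, `quad_step'`, `lin_step` : one-step inequalities for
  potentials `((F - b)₊)² / w²` and `F / w`;
* `ff r ρ = ρ / (ρ + r)` and its powers: one-step ratios, exact differences of the barriers
  `φ₂ = ρ f`, `n f³`, `(n²/ρ) f⁴`;
* harmonic sums `Σ 1/ρ_t ≤ 1 + log N`;
* `rt K n = ⌊n^(1/K)⌋` and comparisons `C m^a ≤ m^b`.
-/

set_option autoImplicit false

open scoped BigOperators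

namespace Crest.Agent.R62.Barrier

/-! ## positive parts -/

/-- `a ↦ (a₊)²` has second derivative at most `2` -/
lemma posSq_add_le (a δ : ℝ) :
    (max (a + δ) 0) ^ 2 ≤ (max a 0) ^ 2 + 2 * max a 0 * δ + δ ^ 2 := by
  rcases le_total 0 a with ha | ha
  · rw [max_eq_left ha]
    rcases le_total 0 (a + δ) with h | h
    · rw [max_eq_left h]; nlinarith
    · rw [max_eq_right h]; nlinarith [sq_nonneg (a + δ)]
  · rw [max_eq_right ha]
    rcases le_total 0 (a + δ) with h | h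
    · rw [max_eq_left h]; nlinarith
    · rw [max_eq_right h]; nlinarith [sq_nonneg δ]



/-- from a bound of the potential to a bound of the functional -/
lemma le_of_posSq_le {F b w P : ℝ} (hw : 0 < w) (h : (max (F - b) 0) ^ 2 / w ^ 2 ≤ P) :
    F ≤ b + Real.sqrt P * w := by
  have hP : 0 ≤ P := le_trans (div_nonneg (sq_nonneg _) (sq_nonneg _)) h
  have h1 : (max (F - b) 0) ^ 2 ≤ (Real.sqrt P * w) ^ 2 := by
    rw [div_le_iff₀ (by positivity)] at h
    rw [mul_pow, Real.sq_sqrt hP]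
    exact h
  have h2 := (sq_le_sq₀ (le_max_right _ _) (mul_nonneg (Real.sqrt_nonneg _) hw.le)).1 h1
  have h3 := le_max_left (F - b) 0
  linarith

lemma le_of_posSq_le_one {F b w : ℝ} (hw : 0 < w) (h : (max (F - b) 0) ^ 2 / w ^ 2 ≤ 1) :
    F ≤ b + w := by
  have := le_of_posSq_le hw h
  simpa using this

variable {ι : Type*}

/-- average of `(F' - b')₊²` for a (sub)probability weight -/
lemma avg_posSq (S : Finset ι) (μ : ι → ℝ) (hμ : ∀ i ∈ S, 0 ≤ μ i) (F : ℝ) (F' : ι → ℝ)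
    (b b' : ℝ) :
    ∑ i ∈ S, μ i * (max (F' i - b') 0) ^ 2 ≤
      (∑ i ∈ S, μ i) * (max (F - b) 0) ^ 2 +
        2 * max (F - b) 0 * ((∑ i ∈ S, μ i * (F' i - F)) - (∑ i ∈ S, μ i) * (b' - b)) +
        ∑ i ∈ S, μ i * (F' i - F - (b' - b)) ^ 2 := by
  have h : ∀ i ∈ S, μ i * (max (F' i - b') 0) ^ 2 ≤
      μ i * (max (F - b) 0) ^ 2 +
        2 * max (F - b) 0 * (μ i * (F' i - F) - μ i * (b' - b)) +
        μ i * (F' i - F - (b' - b)) ^ 2 := by
    intro i hi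
    have h1 := mul_le_mul_of_nonneg_left (posSq_add_le (F - b) (F' i - F - (b' - b))) (hμ i hi)
    have h2 : F - b + (F' i - F - (b' - b)) = F' i - b' := by ring
    rw [h2] at h1
    calc _ ≤ _ := h1
      _ = _ := by ring
  calc _ ≤ _ := Finset.sum_le_sum h
    _ = _ := by
      rw [Finset.sum_add_distrib, Finset.sum_add_distrib, ← Finset.mul_sum,
        Finset.sum_sub_distrib, Finset.sum_mul, Finset.sum_mul]

/-- ONE STEP, quadratic potential, upper barrier. The drift hypothesis is only needed when `F`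
is above the barrier `b`. -/
theorem quad_step (S : Finset ι) (μ : ι → ℝ) (hμ : ∀ i ∈ S, 0 ≤ μ i) (hμ1 : ∑ i ∈ S, μ i = 1)
    (F : ℝ) (F' : ι → ℝ) {b b' w w' η ν lam : ℝ} (hw : 0 < w) (hw' : 0 < w')
    (hdrift : b < F → ∑ i ∈ S, μ i * (F' i - F) ≤ (b' - b) - lam / 2 * (F - b) + η)
    (hvar : ∑ i ∈ S, μ i * (F' i - F - (b' - b)) ^ 2 ≤ ν)
    (hww : w ^ 2 * (1 - lam) ≤ w' ^ 2) :
    ∑ i ∈ S, μ i * ((max (F' i - b') 0) ^ 2 / w' ^ 2) ≤
      (max (F - b) 0) ^ 2 / w ^ 2 + (2 * max (F - b) 0 * η + ν) / w' ^ 2 := by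
  have h0 := avg_posSq S μ hμ F F' b b'
  rw [hμ1, one_mul, one_mul] at h0
  have h1 : 2 * max (F - b) 0 * ((∑ i ∈ S, μ i * (F' i - F)) - (b' - b)) ≤
      2 * max (F - b) 0 * (- (lam / 2) * max (F - b) 0 + η) := by
    rcases le_or_gt F b with hF | hF
    · rw [max_eq_right (by linarith)]; simp
    · rw [max_eq_left (by linarith)]
      have := hdrift hF
      apply mul_le_mul_of_nonneg_left _ (by linarith)
      linarith
  have h2 : ∑ i ∈ S, μ i * (max (F' i - b') 0) ^ 2 ≤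
      (1 - lam) * (max (F - b) 0) ^ 2 + (2 * max (F - b) 0 * η + ν) := by
    nlinarith
  have h3 : (1 - lam) * (max (F - b) 0) ^ 2 ≤ w' ^ 2 * ((max (F - b) 0) ^ 2 / w ^ 2) := by
    have h4 : (1 - lam) ≤ w' ^ 2 / w ^ 2 := by
      rw [le_div_iff₀ (by positivity)]; linarith
    calc (1 - lam) * (max (F - b) 0) ^ 2 ≤ w' ^ 2 / w ^ 2 * (max (F - b) 0) ^ 2 :=
          mul_le_mul_of_nonneg_right h4 (sq_nonneg _)
      _ = _ := by ring
  calc ∑ i ∈ S, μ i * ((max (F' i - b') 0) ^ 2 / w' ^ 2)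
      = (∑ i ∈ S, μ i * (max (F' i - b') 0) ^ 2) / w' ^ 2 := by
        rw [Finset.sum_div]
        exact Finset.sum_congr rfl fun i _ => by ring
    _ ≤ (w' ^ 2 * ((max (F - b) 0) ^ 2 / w ^ 2) + (2 * max (F - b) 0 * η + ν)) / w' ^ 2 := by
        apply div_le_div_of_nonneg_right _ (by positivity)
        linarith
    _ = _ := by
        rw [add_div, mul_div_cancel_left₀]
        positivity

/-- version of `quad_step` when the potential is known to be at most `P0 ≤ 4` (so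
`(F-b)₊ ≤ 2 w`) -/
theorem quad_step' (S : Finset ι) (μ : ι → ℝ) (hμ : ∀ i ∈ S, 0 ≤ μ i) (hμ1 : ∑ i ∈ S, μ i = 1)
    (F : ℝ) (F' : ι → ℝ) {b b' w w' η ν lam : ℝ} (hw : 0 < w) (hw' : 0 < w') (hη : 0 ≤ η)
    (hP : (max (F - b) 0) ^ 2 / w ^ 2 ≤ 1)
    (hdrift : b < F → F ≤ b + w →
      ∑ i ∈ S, μ i * (F' i - F) ≤ (b' - b) - lam / 2 * (F - b) + η)
    (hvar : ∑ i ∈ S, μ i * (F' i - F - (b' - b)) ^ 2 ≤ ν)
    (hww : w ^ 2 * (1 - lam) ≤ w' ^ 2) :
    ∑ i ∈ S, μ i * ((max (F' i - b') 0) ^ 2 / w' ^ 2) ≤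
      (max (F - b) 0) ^ 2 / w ^ 2 + (2 * w * η + ν) / w' ^ 2 := by
  have hF := le_of_posSq_le_one hw hP
  have h := quad_step S μ hμ hμ1 F F' hw hw' (fun hb => hdrift hb hF) hvar hww
  have hm : max (F - b) 0 ≤ w := max_le (by linarith) hw.le
  have h2 : (2 * max (F - b) 0 * η + ν) / w' ^ 2 ≤ (2 * w * η + ν) / w' ^ 2 := by
    apply div_le_div_of_nonneg_right _ (by positivity)
    nlinarith
  linarith

/-- the second moment around the barrier increment -/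
lemma var_shift (S : Finset ι) (μ : ι → ℝ) (hμ : ∀ i ∈ S, 0 ≤ μ i) (hμ1 : ∑ i ∈ S, μ i = 1)
    (g : ι → ℝ) {c ν : ℝ} (h : ∑ i ∈ S, μ i * (g i) ^ 2 ≤ ν) :
    ∑ i ∈ S, μ i * (g i - c) ^ 2 ≤ 2 * ν + 2 * c ^ 2 := by
  have h1 : ∀ i ∈ S, μ i * (g i - c) ^ 2 ≤ 2 * (μ i * (g i) ^ 2) + μ i * (2 * c ^ 2) := by
    intro i hi
    have := mul_le_mul_of_nonneg_left (show (g i - c) ^ 2 ≤ 2 * (g i) ^ 2 + 2 * c ^ 2 by
      nlinarith [sq_nonneg (g i + c)]) (hμ i hi)
    linarith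
  calc _ ≤ _ := Finset.sum_le_sum h1
    _ = 2 * (∑ i ∈ S, μ i * (g i) ^ 2) + 2 * c ^ 2 := by
      rw [Finset.sum_add_distrib, ← Finset.mul_sum, ← Finset.sum_mul, hμ1, one_mul]
    _ ≤ _ := by linarith


/-! ## the profile `f = ρ / (ρ + r)` -/

/-- the profile -/
noncomputable def ff (r ρ : ℝ) : ℝ := ρ / (ρ + r)

section ff

variable {r ρ : ℝ}


lemma ff_nonneg (hr : 0 < r) (hρ : 0 ≤ ρ) : 0 ≤ ff r ρ := by unfold ff; positivity

lemma ff_lt_one (hr : 0 < r) (hρ : 0 ≤ ρ) : ff r ρ < 1 := by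
  unfold ff; rw [div_lt_one (by positivity)]; linarith

lemma ff_le_one (hr : 0 < r) (hρ : 0 ≤ ρ) : ff r ρ ≤ 1 := (ff_lt_one hr hρ).le

lemma one_sub_ff (hr : 0 < r) (hρ : 0 ≤ ρ) : 1 - ff r ρ = r / (ρ + r) := by
  unfold ff; field_simp; ring













/-! ### the barrier `φ₂ = ρ² / (ρ + r) = ρ f` for `X₂` -/

/-- upper barrier of `X₂` -/
noncomputable def phi2 (r ρ : ℝ) : ℝ := ρ ^ 2 / (ρ + r)

lemma phi2_eq (r ρ : ℝ) : phi2 r ρ = ρ * ff r ρ := by unfold phi2 ff; ring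

/-- exact one-step difference of `φ₂` against the mean-field drift `-2 + 2 (t - 1)²`,
`t = φ₂/ρ = f` -/
lemma phi2_step (hr : 0 < r) (hρ : 2 < ρ) :
    phi2 r (ρ - 2) - phi2 r ρ =
      -2 + 2 * (ff r ρ - 1) ^ 2 + 4 * r ^ 2 / ((ρ + r) ^ 2 * (ρ + r - 2)) := by
  unfold phi2 ff
  have h1 : 0 < ρ + r - 2 := by linarith
  have h2 : 0 < ρ + r := by linarith
  have h4 : ρ - 2 + r = ρ + r - 2 := by ring
  rw [h4]
  field_simp
  ring

/-- the discrete barrier dominates the mean-field drift -/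
lemma phi2_step_ge (hr : 0 < r) (hρ : 2 < ρ) :
    -2 + 2 * (ff r ρ - 1) ^ 2 ≤ phi2 r (ρ - 2) - phi2 r ρ := by
  rw [phi2_step hr hρ]
  have h1 : 0 < ρ + r - 2 := by linarith
  have : 0 ≤ 4 * r ^ 2 / ((ρ + r) ^ 2 * (ρ + r - 2)) := by positivity
  linarith

lemma phi2_step_le (hr : 0 < r) (hρ : 4 ≤ ρ) :
    phi2 r (ρ - 2) - phi2 r ρ ≤ -2 + 2 * (ff r ρ - 1) ^ 2 + 8 / ρ := by
  rw [phi2_step hr (by linarith)]
  have h1 : 0 < ρ + r - 2 := by linarith
  have h2 : 0 < ρ + r := by linarith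
  have h3 : 0 < ρ := by linarith
  have h4 : 4 * r ^ 2 / ((ρ + r) ^ 2 * (ρ + r - 2)) ≤ 8 / ρ := by
    rw [div_le_div_iff₀ (by positivity) h3]
    have h5 : r ^ 2 ≤ (ρ + r) ^ 2 := by nlinarith
    have h6 : ρ ≤ 2 * (ρ + r - 2) := by linarith
    calc 4 * r ^ 2 * ρ ≤ 4 * (ρ + r) ^ 2 * (2 * (ρ + r - 2)) := by
          apply mul_le_mul _ h6 h3.le (by positivity)
          linarith
      _ = 8 * ((ρ + r) ^ 2 * (ρ + r - 2)) := by ring
  linarith



end ff

/-! ## weights `A / ρ^k` -/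





/-! ## harmonic sums -/

/-- `Σ_{t<T} 1/(N-2t) ≤ 1 + log N` -/
theorem sum_inv_le (N T : ℕ) (h : 2 * T ≤ N) :
    ∑ t ∈ Finset.range T, 1 / ((N : ℝ) - 2 * t) ≤ 1 + Real.log N := by
  rcases Nat.eq_zero_or_pos T with rfl | hT
  · have : 0 ≤ Real.log N := Real.log_natCast_nonneg N
    simp; linarith
  refine le_trans ?_ (harmonic_le_one_add_log N)
  rw [harmonic]
  push_cast
  have h1 : ∀ t ∈ Finset.range T, 1 / ((N : ℝ) - 2 * t) = 1 / (((N - 2 * t : ℕ)) : ℝ) := by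
    intro t ht
    have := Finset.mem_range.1 ht
    rw [Nat.cast_sub (by omega)]
    push_cast; ring
  rw [Finset.sum_congr rfl h1]
  -- the map t ↦ N - 2t - 1 is injective into range N
  have h2 : ∑ t ∈ Finset.range T, 1 / (((N - 2 * t : ℕ)) : ℝ) =
      ∑ i ∈ (Finset.range T).image (fun t => N - 2 * t - 1), ((i : ℝ) + 1)⁻¹ := by
    rw [Finset.sum_image]
    · apply Finset.sum_congr rfl
      intro t ht
      have := Finset.mem_range.1 ht
      have h3 : ((N - 2 * t - 1 : ℕ) : ℝ) + 1 = ((N - 2 * t : ℕ) : ℝ) := by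
        have : N - 2 * t - 1 + 1 = N - 2 * t := by omega
        exact_mod_cast this
      rw [h3, one_div]
    · intro a ha b hb hab
      have ha' := Finset.mem_range.1 ha
      have hb' := Finset.mem_range.1 hb
      simp only at hab
      omega
  rw [h2]
  apply Finset.sum_le_sum_of_subset_of_nonneg
  · intro i hi
    obtain ⟨t, ht, rfl⟩ := Finset.mem_image.1 hi
    have := Finset.mem_range.1 ht
    rw [Finset.mem_range]; omega
  · intro i _ _; positivity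

/-! ## powers of `m = ⌊n^(1/K)⌋` -/

open Filter



/-- the harmonic sum is negligible against any power of `m` -/
lemma ev_log_small (d K : ℕ) (c : ℝ) (hc : 0 < c) :
    ∀ᶠ m : ℕ in atTop, (1 + Real.log ((d : ℝ) * ((m : ℝ) + 1) ^ K)) / m ≤ c := by
  have h : Tendsto (fun m : ℕ => (1 + Real.log (d : ℝ) + K * Real.log ((m : ℝ) + 1)) / (m : ℝ))
      atTop (nhds 0) := by
    have h1 : Tendsto (fun m : ℕ => (1 + Real.log (d : ℝ)) / (m : ℝ)) atTop (nhds 0) :=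
      tendsto_const_div_atTop_nhds_zero_nat _
    have h2 : Tendsto (fun m : ℕ => Real.log ((m : ℝ) + 1) / (m : ℝ)) atTop (nhds 0) := by
      have h3 : Tendsto (fun x : ℝ => Real.log x / (x - 1)) atTop (nhds 0) := by
        have := Real.isLittleO_log_id_atTop
        have h4 : (fun x : ℝ => Real.log x) =o[atTop] (fun x : ℝ => x - 1) := by
          refine this.trans_isBigO ?_
          refine Asymptotics.IsBigO.of_bound 2 ?_
          filter_upwards [eventually_ge_atTop (2 : ℝ)] with x hx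
          simp only [id, Real.norm_eq_abs]
          rw [abs_of_nonneg (by linarith), abs_of_nonneg (by linarith)]
          linarith
        exact h4.tendsto_div_nhds_zero
      have h5 : Tendsto (fun m : ℕ => (m : ℝ) + 1) atTop atTop :=
        tendsto_atTop_add_const_right _ _ tendsto_natCast_atTop_atTop
      have h6 := h3.comp h5
      refine h6.congr fun m => ?_
      simp
    have h3 := h1.add (h2.const_mul (K : ℝ))
    simp only [mul_zero, add_zero] at h3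
    refine h3.congr fun m => ?_
    ring
  have h' := h.eventually (gt_mem_nhds hc)
  filter_upwards [h', eventually_ge_atTop 1] with m hm hm1
  refine le_trans ?_ hm.le
  have hm0 : (0 : ℝ) < m := by exact_mod_cast hm1
  apply div_le_div_of_nonneg_right _ hm0.le
  rcases Nat.eq_zero_or_pos d with rfl | hd
  · simp
    have : 0 ≤ Real.log ((m : ℝ) + 1) := Real.log_nonneg (by linarith)
    positivity
  · have hd' : (0 : ℝ) < d := by exact_mod_cast hd
    rw [Real.log_mul hd'.ne' (by positivity), Real.log_pow]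
    linarith

/-- `m = ⌊n^(1/K)⌋`: `m^K ≤ n ≤ 2 m^K` and `n` even implies ... for `m ≥ m₀` -/
lemma nthRoot_bounds {K : ℕ} (hK : K ≠ 0) (n : ℕ) :
    (Nat.nthRoot K n : ℝ) ^ K ≤ n ∧ (n : ℝ) < ((Nat.nthRoot K n : ℝ) + 1) ^ K := by
  constructor
  · exact_mod_cast Nat.pow_nthRoot_le (.inl hK)
  · exact_mod_cast Nat.lt_pow_nthRoot_add_one hK n

lemma tendsto_nthRoot {K : ℕ} (hK : K ≠ 0) : Tendsto (fun n => Nat.nthRoot K n) atTop atTop := by
  rw [tendsto_atTop]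
  intro b
  filter_upwards [eventually_ge_atTop (b ^ K)] with n hn
  by_contra hlt
  push Not at hlt
  have h1 := Nat.lt_pow_nthRoot_add_one hK n
  have h2 : (Nat.nthRoot K n + 1) ^ K ≤ b ^ K := Nat.pow_le_pow_left hlt K
  omega

/-- `(m+1)^K ≤ 2 m^K` for `m` large -/
lemma ev_succ_pow_le (K : ℕ) : ∀ᶠ m : ℕ in atTop, ((m : ℝ) + 1) ^ K ≤ 2 * (m : ℝ) ^ K := by
  have h1 : Tendsto (fun m : ℕ => (1 + 1 / (m : ℝ)) ^ K) atTop (nhds ((1 + 0) ^ K)) :=
    (tendsto_const_nhds.add tendsto_one_div_atTop_nhds_zero_nat).pow K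
  have h2 : ((1 : ℝ) + 0) ^ K < 2 := by norm_num
  filter_upwards [h1.eventually (gt_mem_nhds h2), eventually_ge_atTop 1] with m hm hm1
  have hm0 : (0 : ℝ) < m := by exact_mod_cast hm1
  have h3 : ((m : ℝ) + 1) = (1 + 1 / (m : ℝ)) * m := by field_simp
  rw [h3, mul_pow]
  exact mul_le_mul_of_nonneg_right hm.le (by positivity)

/-- everything at once: for `n` large, `m = nthRoot K n` satisfies `m^K ≤ n ≤ 2 m^K` and any
eventual property of `m` -/
theorem ev_of_root {K : ℕ} (hK : K ≠ 0) {P : ℕ → Prop} (hP : ∀ᶠ m in atTop, P m) :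
    ∃ n0 : ℕ, ∀ n, n0 ≤ n → P (Nat.nthRoot K n) ∧ (Nat.nthRoot K n : ℝ) ^ K ≤ n ∧
      (n : ℝ) ≤ 2 * (Nat.nthRoot K n : ℝ) ^ K ∧
      (n : ℝ) < ((Nat.nthRoot K n : ℝ) + 1) ^ K := by
  have h := (tendsto_nthRoot hK).eventually (hP.and (ev_succ_pow_le K))
  obtain ⟨n0, hn0⟩ := eventually_atTop.1 h
  refine ⟨n0, fun n hn => ?_⟩
  obtain ⟨h1, h2⟩ := hn0 n hn
  obtain ⟨h3, h4⟩ := nthRoot_bounds hK n
  exact ⟨h1, h3, le_trans h4.le h2, h4⟩

end Crest.Agent.R62.Barrier
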