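import Crest.Agent.R62.PotKit
import Crest.Agent.R62.GoodPairs
import Crest.Agent.R62.Barrier
import Crest.Agent.R062.MachPar

/-!
R62: assembly of potentials: sums, the harmonic barrier, one averaged step.
-/

set_option autoImplicit false
set_option linter.unusedSectionVars false
set_option linter.unusedSimpArgs false
set_option linter.unusedVariables false
open scoped Matrix BigOperators

namespace Crest.Agent.R62.Assembly

open Crest.Agent.R62.State Crest.Agent.R62.EvalKit Crest.Agent.R062 Crest.Agent.R062.Mach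
open Crest.Agent.R62.SpecOf Crest.Agent.R62.GoodPairs
open Crest.Agent.Lib.PT

variable {P : Par} {d : ℕ}







/-! ### the harmonic barrier -/

/-- `H(n,t) = ∑_{i<t} 1/(nd-2i)` -/
def Hq (d n t : ℕ) : ℚ := ∑ i ∈ Finset.range t, 1 / (((n * d - 2 * i : ℕ)) : ℚ)

lemma Hq_succ (d n t : ℕ) : Hq d n (t + 1) = Hq d n t + 1 / (((n * d - 2 * t : ℕ)) : ℚ) := by
  rw [Hq, Finset.sum_range_succ]; rfl

lemma Hq_nonneg (d n t : ℕ) : 0 ≤ Hq d n t :=
  Finset.sum_nonneg fun i _ => by positivity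

lemma Hq_le (d n t : ℕ) : Hq d n t ≤ t := by
  have : Hq d n t ≤ ∑ i ∈ Finset.range t, (1 : ℚ) := by
    refine Finset.sum_le_sum fun i _ => ?_
    rcases Nat.eq_zero_or_pos (n * d - 2 * i) with h | h
    · rw [h]; simp
    · rw [div_le_one (by exact_mod_cast h)]
      exact_mod_cast h
  simpa using this

theorem ptf_harm (d : ℕ) : PTF (fun p : Un × Un => Hq d p.1.val (p.2.val + 1)) := by
  have h1 : PTU (fun p : Un × Un => p.2.val + 1) := PTU.add (PTU.val PTF.snd) (PTU.const 1)
  have h2 : PTF (fun q : (Un × Un) × ℕ => q.1.1.val * d - 2 * q.2) := by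
    refine PTF.natSub (PTF.natMul (PTU.toPTF (PTU.val (PTF.comp PTF.fst PTF.fst)))
        (PTF.const d)) (PTF.natMul (PTF.const 2) PTF.snd)
  have h3 : PTF (fun q : (Un × Un) × ℕ =>
      (1 : ℚ) / ((q.1.1.val * d - 2 * q.2 : ℕ) : ℚ)) := by
    refine PTF.ratDiv (PTF.const 1) (PTF.ratNatCast h2)
  exact PTF.ratSumRange
    (f := fun (p : Un × Un) (i : ℕ) => (1 : ℚ) / ((p.1.val * d - 2 * i : ℕ) : ℚ)) h1 h3

/-- the constant `H(n, t+1)` -/
def harmC (d : ℕ) : Cst where
  f n t := Hq d n (t + 1)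
  ptf := ptf_harm d
  deg := 1
  bd n t := by
    rw [abs_of_nonneg (Hq_nonneg d n (t + 1)), pow_one]
    refine (Hq_le d n (t + 1)).trans ?_
    push_cast
    have : (0 : ℚ) ≤ n := Nat.cast_nonneg n
    linarith

/-- the barrier potential `H(n, |l|)` -/
noncomputable def harm : Pot P d := Pot.rat (fun n t => Hq d n t) (harmC d) (fun n t => rfl)



lemma Hq_log {d n t : ℕ} (h : 2 * t ≤ n * d) : ((Hq d n t : ℚ) : ℝ) ≤ 1 + Real.log (n * d : ℕ) := by
  have h1 := Barrier.sum_inv_le (n * d) t h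
  refine le_trans (le_of_eq ?_) h1
  rw [Hq]
  push_cast
  refine Finset.sum_congr rfl fun i hi => ?_
  have hi' := Finset.mem_range.mp hi
  have : ((n * d - 2 * i : ℕ) : ℝ) = (n : ℝ) * d - 2 * i := by
    rw [Nat.cast_sub (by omega)]; push_cast; ring
  rw [this]

end Crest.Agent.R62.Assembly
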