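import Crest.Agent.R62.StepDefs

/-!
R62 (helper230): boxes from the potentials, and the handovers.

* `box1_of_Phi1` : `Phi1 ≤ 1` gives `Box1`;
* `box2_of_Phi2` : `Phi2 ≤ 1` gives `Box2`;
* `handover12` : at `m^800 ≤ ρ ≤ m^800 + 2`, `Phi1 ≤ 1` gives `Phi2 ≤ 3 / m`;
* `handover23` : at `ρ ≤ x0 r1 + 4`, `Phi2 ≤ 1` gives the input of the late phase;
* `Phi1_nonneg`, `Phi2_nonneg`, nonnegativity of all pieces.
-/

set_option autoImplicit false
set_option linter.unusedSectionVars false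
set_option linter.unusedVariables false

open Matrix Finset

namespace Crest.Agent.R62.Box

open Crest.Agent.R62.Step Crest.Agent.R62.AvX1 Crest.Agent.R62.AvBase
open Crest.Agent.R062

/-! ### parameters -/

section prm
variable {d n m : ℕ}

lemma d3 (h : Prm d n m) : (3 : ℝ) ≤ d := by exact_mod_cast h.hd

lemma m_ge (h : Prm d n m) : (10 : ℝ) ^ 10 ≤ m := by
  have h1 := h.hm
  have h2 : (1 : ℝ) ≤ (d : ℝ) ^ 10 := one_le_pow₀ (by linarith [d3 h])
  nlinarith

lemma m_pos (h : Prm d n m) : (0 : ℝ) < m := by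
  have := m_ge h; linarith [show (0 : ℝ) < 10 ^ 10 by norm_num]

lemma one_le_m (h : Prm d n m) : (1 : ℝ) ≤ m := by
  have := m_ge h; linarith [show (1 : ℝ) ≤ 10 ^ 10 by norm_num]

lemma n_pos (h : Prm d n m) : (0 : ℝ) < n := by
  have := h.hn1; have h2 : (0 : ℝ) < (m : ℝ) ^ 1000 := pow_pos (m_pos h) _
  linarith

lemma d_pow_le_m (h : Prm d n m) (k : ℕ) (hk : k ≤ 10) : (10 : ℝ) ^ 10 * (d : ℝ) ^ k ≤ m := by
  refine le_trans ?_ h.hm
  exact mul_le_mul_of_nonneg_left (pow_le_pow_right₀ (by linarith [d3 h]) hk) (by norm_num)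

lemma r1_pos (h : Prm d n m) : 0 < r1 d n m := by
  unfold r1
  have := n_pos h; have := m_pos h; have := d3 h
  positivity

/-- `d m^680 ≤ r1` -/
lemma r1_ge (h : Prm d n m) : (d : ℝ) * (m : ℝ) ^ 680 ≤ r1 d n m := by
  unfold r1
  have hm := m_pos h
  rw [le_div_iff₀ (by positivity)]
  have h1 : (d : ℝ) * (m : ℝ) ^ 680 * (m : ℝ) ^ 320 = d * (m : ℝ) ^ 1000 := by ring
  rw [h1]
  have := mul_le_mul_of_nonneg_left h.hn1 (show (0 : ℝ) ≤ d by positivity)
  linarith

lemma r1_ge' (h : Prm d n m) : (m : ℝ) ^ 680 ≤ r1 d n m := by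
  have h1 := r1_ge h
  have h2 : (0 : ℝ) < (m : ℝ) ^ 680 := pow_pos (m_pos h) _
  nlinarith [d3 h]

/-- `r1 ≤ 2 d m^680` -/
lemma r1_le (h : Prm d n m) : r1 d n m ≤ 2 * d * (m : ℝ) ^ 680 := by
  unfold r1
  have hm := m_pos h
  rw [div_le_iff₀ (by positivity)]
  have h1 : 2 * (d : ℝ) * (m : ℝ) ^ 680 * (m : ℝ) ^ 320 = d * (2 * (m : ℝ) ^ 1000) := by ring
  rw [h1]
  have := mul_le_mul_of_nonneg_left h.hn2 (show (0 : ℝ) ≤ d by positivity)
  linarith

/-- `r1 ≤ m^681` -/
lemma r1_le' (h : Prm d n m) : r1 d n m ≤ (m : ℝ) ^ 681 := by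
  refine (r1_le h).trans ?_
  have h1 := d_pow_le_m h 1 (by norm_num)
  have hm := m_pos h
  have h2 : (m : ℝ) ^ 681 = m * (m : ℝ) ^ 680 := by ring
  rw [h2]
  apply mul_le_mul_of_nonneg_right _ (by positivity)
  have := d3 h
  nlinarith

end prm

/-! ### elementary -/

lemma pos_le {z w W : ℝ} (hw : 0 < w) (hW : W = w ^ 2) (h : (max z 0) ^ 2 / W ≤ 1) : z ≤ w := by
  rw [hW, div_le_one (by positivity)] at h
  have h2 := (sq_le_sq₀ (le_max_right z 0) hw.le).1 h
  exact le_trans (le_max_left _ _) h2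

lemma abs_le_of_sq {z w W : ℝ} (hw : 0 < w) (hW : W = w ^ 2) (h : z ^ 2 / W ≤ 1) : |z| ≤ w := by
  rw [hW, div_le_one (by positivity)] at h
  exact abs_le_of_sq_le_sq h hw.le

section
variable {ι : Type} [Fintype ι] [DecidableEq ι]

lemma Mf_eq {K : Bool → Matrix ι ι ℝ} (hs : ∀ b, (K b).IsSymm) :
    Mf K = ∑ i, ∑ j, ((K true * K false) i j) ^ 2 := by
  unfold Mf
  have h1 : (K true ^ 2 * K false ^ 2).trace =
      ((K true * K false)ᵀ * (K true * K false)).trace := by
    rw [Matrix.transpose_mul, (hs true).eq, (hs false).eq, pow_two, pow_two]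
    rw [show K true * K true * (K false * K false) = (K true * K true * K false) * K false by
      simp only [Matrix.mul_assoc]]
    rw [Matrix.trace_mul_comm]
    simp only [Matrix.mul_assoc]
  rw [h1, Matrix.trace]
  simp only [Matrix.diag_apply, Matrix.mul_apply, Matrix.transpose_apply]
  rw [Finset.sum_comm]
  exact Finset.sum_congr rfl fun i _ => Finset.sum_congr rfl fun j _ => by ring

lemma Mf_nonneg {K : Bool → Matrix ι ι ℝ} (hs : ∀ b, (K b).IsSymm) : 0 ≤ Mf K := by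
  rw [Mf_eq hs]
  exact Finset.sum_nonneg fun _ _ => Finset.sum_nonneg fun _ _ => sq_nonneg _



lemma X4_nonneg {K : Matrix ι ι ℝ} (hs : K.IsSymm) : 0 ≤ (K ^ 4).trace :=
  trace_even_nonneg hs.eq 2



/-! ### nonnegativity of the pieces -/

section nonneg
variable {d n m : ℕ}

lemma p1X1u_nonneg (ρ X : ℝ) : 0 ≤ p1X1u m ρ X := by unfold p1X1u; positivity
lemma p1X1l_nonneg (X : ℝ) : 0 ≤ p1X1l m X := by unfold p1X1l; positivity
lemma p1X2u_nonneg (r ρ X : ℝ) : 0 ≤ p1X2u r ρ X := by unfold p1X2u; positivity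
lemma p1X2l_nonneg (r ρ X : ℝ) : 0 ≤ p1X2l r ρ X := by unfold p1X2l; positivity
lemma p1X3l_nonneg (X : ℝ) : 0 ≤ p1X3l n X := by unfold p1X3l; positivity
lemma p1X3u_nonneg (X : ℝ) : 0 ≤ p1X3u d n X := by unfold p1X3u; positivity
lemma p1X4_nonneg {ρ X : ℝ} (hρ : 0 ≤ ρ) (hX : 0 ≤ X) : 0 ≤ p1X4 m ρ X := by
  unfold p1X4; positivity
lemma p1V_nonneg {V : ℝ} (hV : 0 ≤ V) : 0 ≤ p1V m V := by unfold p1V; positivity
lemma p1W_nonneg {W : ℝ} (hW : 0 ≤ W) : 0 ≤ p1W m W := by unfold p1W; positivity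
lemma p1M_nonneg {M : ℝ} (hM : 0 ≤ M) : 0 ≤ p1M m M := by unfold p1M; positivity
lemma p2X1_nonneg (X : ℝ) : 0 ≤ p2X1 m X := by unfold p2X1; positivity
lemma p2X2_nonneg (r ρ X : ℝ) : 0 ≤ p2X2 m r ρ X := by unfold p2X2; positivity
lemma p2X3_nonneg (X : ℝ) : 0 ≤ p2X3 d n X := by unfold p2X3; positivity
lemma p2X4_nonneg {ρ X : ℝ} (hρ : 0 ≤ ρ) (hX : 0 ≤ X) : 0 ≤ p2X4 m ρ X := by
  unfold p2X4; positivity
lemma p2V_nonneg {V : ℝ} (hV : 0 ≤ V) : 0 ≤ p2V m V := by unfold p2V; positivity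
lemma p2X2l_nonneg (r ρ X : ℝ) : 0 ≤ p2X2l r ρ X := by unfold p2X2l; positivity
lemma p2W_nonneg {W : ℝ} (hW : 0 ≤ W) : 0 ≤ p2W m W := by unfold p2W; positivity

end nonneg

variable {d n m : ℕ} {F : Finset ι} {K : Bool → Matrix ι ι ℝ}

/-- the one-sign part of `Phi1` -/
noncomputable def part1 (d n m : ℕ) (F : Finset ι) (K : Matrix ι ι ℝ) : ℝ :=
  p1X1u m F.card K.trace + p1X1l m K.trace
    + p1X2u (r1 d n m) F.card (K ^ 2).trace + p1X2l (r1 d n m) F.card (K ^ 2).trace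
    + p1X3l n (K ^ 3).trace + p1X3u d n (K ^ 3).trace
    + p1X4 m F.card (K ^ 4).trace + p1V m (Vf K) + p1W m (Wf F K)

noncomputable def part2 (d n m : ℕ) (F : Finset ι) (K : Matrix ι ι ℝ) : ℝ :=
  p2X1 m K.trace + p2X2 m (r1 d n m) F.card (K ^ 2).trace
    + p2X2l (r1 d n m) F.card (K ^ 2).trace
    + p2X3 d n (K ^ 3).trace + p2X4 m F.card (K ^ 4).trace + p2V m (Vf K) + p2W m (Wf F K)

lemma Phi1_eq : Phi1 d n m F K = part1 d n m F (K true) + part1 d n m F (K false)
    + p1M m (Mf K) := by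
  unfold Phi1 part1
  rw [Fintype.sum_bool]

lemma Phi2_eq : Phi2 d n m F K = part2 d n m F (K true) + part2 d n m F (K false) := by
  unfold Phi2 part2
  rw [Fintype.sum_bool]

lemma part1_nonneg {K : Matrix ι ι ℝ} (hs : K.IsSymm) : 0 ≤ part1 d n m F K := by
  unfold part1
  have h1 := p1X1u_nonneg (m := m) F.card K.trace
  have h2 := p1X1l_nonneg (m := m) K.trace
  have h3 := p1X2u_nonneg (r1 d n m) F.card (K ^ 2).trace
  have h4 := p1X2l_nonneg (r1 d n m) F.card (K ^ 2).trace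
  have h5 := p1X3l_nonneg (n := n) (K ^ 3).trace
  have h6 := p1X3u_nonneg (d := d) (n := n) (K ^ 3).trace
  have h7 := p1X4_nonneg (m := m) (Nat.cast_nonneg (α := ℝ) F.card) (X4_nonneg hs)
  have h8 := p1V_nonneg (m := m) (Vf_nonneg K)
  have h9 := p1W_nonneg (m := m) (Wf_nonneg F K)
  linarith

lemma part2_nonneg {K : Matrix ι ι ℝ} (hs : K.IsSymm) : 0 ≤ part2 d n m F K := by
  unfold part2
  have h1 := p2X1_nonneg (m := m) K.trace
  have h3 := p2X2_nonneg (m := m) (r1 d n m) F.card (K ^ 2).trace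
  have h5 := p2X3_nonneg (d := d) (n := n) (K ^ 3).trace
  have h7 := p2X4_nonneg (m := m) (Nat.cast_nonneg (α := ℝ) F.card) (X4_nonneg hs)
  have h8 := p2V_nonneg (m := m) (Vf_nonneg K)
  have h9 := p2W_nonneg (m := m) (Wf_nonneg F K)
  have h10 := p2X2l_nonneg (r1 d n m) F.card (K ^ 2).trace
  linarith



lemma part1_le (hs : ∀ b, (K b).IsSymm) (h : Phi1 d n m F K ≤ 1) (b : Bool) :
    part1 d n m F (K b) ≤ 1 := by
  rw [Phi1_eq] at h
  have h1 := part1_nonneg (d := d) (n := n) (m := m) (F := F) (hs true)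
  have h2 := part1_nonneg (d := d) (n := n) (m := m) (F := F) (hs false)
  have h3 := p1M_nonneg (m := m) (Mf_nonneg hs)
  cases b <;> linarith

lemma part2_le (hs : ∀ b, (K b).IsSymm) (h : Phi2 d n m F K ≤ 1) (b : Bool) :
    part2 d n m F (K b) ≤ 1 := by
  rw [Phi2_eq] at h
  have h1 := part2_nonneg (d := d) (n := n) (m := m) (F := F) (hs true)
  have h2 := part2_nonneg (d := d) (n := n) (m := m) (F := F) (hs false)
  cases b <;> linarith

/-- all bounds of `Box1` which do not involve the range of `ρ` -/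
theorem box1_of_Phi1 (hp : Prm d n m) (hs : ∀ b, (K b).IsSymm)
    (h : Phi1 d n m F K ≤ 1) (h1 : (m : ℝ) ^ 800 + 2 ≤ F.card) (h2 : (F.card : ℝ) ≤ n * d) :
    Box1 d n m F K := by
  have hm := m_pos hp
  have hn := n_pos hp
  have hd := d3 hp
  have hr := r1_pos hp
  have key : ∀ b, p1X1u m F.card (K b).trace ≤ 1 ∧ p1X1l m (K b).trace ≤ 1 ∧
      p1X2u (r1 d n m) F.card (K b ^ 2).trace ≤ 1 ∧
      p1X2l (r1 d n m) F.card (K b ^ 2).trace ≤ 1 ∧
      p1X3l n (K b ^ 3).trace ≤ 1 ∧ p1X3u d n (K b ^ 3).trace ≤ 1 ∧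
      p1X4 m F.card (K b ^ 4).trace ≤ 1 ∧ p1V m (Vf (K b)) ≤ 1 ∧
      p1W m (Wf F (K b)) ≤ 1 := by
    intro b
    have hb := part1_le hs h b
    unfold part1 at hb
    have e1 := p1X1u_nonneg (m := m) F.card (K b).trace
    have e2 := p1X1l_nonneg (m := m) (K b).trace
    have e3 := p1X2u_nonneg (r1 d n m) F.card (K b ^ 2).trace
    have e4 := p1X2l_nonneg (r1 d n m) F.card (K b ^ 2).trace
    have e5 := p1X3l_nonneg (n := n) (K b ^ 3).trace
    have e6 := p1X3u_nonneg (d := d) (n := n) (K b ^ 3).trace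
    have e7 := p1X4_nonneg (m := m) (Nat.cast_nonneg (α := ℝ) F.card) (X4_nonneg (hs b))
    have e8 := p1V_nonneg (m := m) (Vf_nonneg (K b))
    have e9 := p1W_nonneg (m := m) (Wf_nonneg F (K b))
    refine ⟨?_, ?_, ?_, ?_, ?_, ?_, ?_, ?_, ?_⟩ <;> linarith
  have hM : p1M m (Mf K) ≤ 1 := by
    rw [Phi1_eq] at h
    have e1 := part1_nonneg (d := d) (n := n) (m := m) (F := F) (hs true)
    have e2 := part1_nonneg (d := d) (n := n) (m := m) (F := F) (hs false)
    linarith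
  exact
    { rho_ge := h1
      rho_le := h2
      X1u := fun b => by
        have := pos_le (w := (m : ℝ) ^ 335) (by positivity) (by ring) (key b).1
        linarith
      X1l := fun b => by
        have := pos_le (w := (m : ℝ) ^ 335) (by positivity) (by ring) (key b).2.1
        linarith
      X2u := fun b => by
        have := pos_le (w := r1 d n m / 4) (by positivity) rfl (key b).2.2.1
        linarith
      X2l := fun b => by
        have := pos_le (w := r1 d n m) (by positivity) rfl (key b).2.2.2.1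
        linarith
      X3l := fun b => by
        have := pos_le (w := (n : ℝ) / 4) (by positivity) rfl (key b).2.2.2.2.1
        linarith
      X3u := fun b => by
        have hq : (0 : ℝ) < ((d : ℝ) - 1) ^ 2 * n := by
          have : (0 : ℝ) < (d : ℝ) - 1 := by linarith
          positivity
        have := pos_le hq rfl (key b).2.2.2.2.2.1
        linarith
      X4u := fun b => by
        have := (key b).2.2.2.2.2.2.1
        unfold p1X4 at this
        rwa [div_le_one (by positivity)] at this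
      Vu := fun b => by
        have := (key b).2.2.2.2.2.2.2.1
        unfold p1V at this
        rwa [div_le_one (by positivity)] at this
      Wu := fun b => by
        have := (key b).2.2.2.2.2.2.2.2
        unfold p1W at this
        rwa [div_le_one (by positivity)] at this
      Mu := by
        unfold p1M at hM
        rwa [div_le_one (by positivity)] at hM }

theorem box2_of_Phi2 {x0 : ℝ} (hp : Prm d n m) (hs : ∀ b, (K b).IsSymm)
    (h : Phi2 d n m F K ≤ 1) (hx0 : 0 < x0) (hx1 : x0 ≤ 1) (hx2 : 10 ^ 10 ≤ m * x0 ^ 4)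
    (h1 : x0 * r1 d n m + 2 ≤ F.card) (h2 : (F.card : ℝ) ≤ (m : ℝ) ^ 800 + 1) :
    Box2 d n m x0 F K := by
  have hm := m_pos hp
  have hn := n_pos hp
  have hd := d3 hp
  have hr := r1_pos hp
  have key : ∀ b, p2X1 m (K b).trace ≤ 1 ∧
      p2X2 m (r1 d n m) F.card (K b ^ 2).trace ≤ 1 ∧
      p2X3 d n (K b ^ 3).trace ≤ 1 ∧
      p2X4 m F.card (K b ^ 4).trace ≤ 1 ∧ p2V m (Vf (K b)) ≤ 1 ∧
      p2W m (Wf F (K b)) ≤ 1 ∧ p2X2l (r1 d n m) F.card (K b ^ 2).trace ≤ 1 := by
    intro b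
    have hb := part2_le hs h b
    unfold part2 at hb
    have e1 := p2X1_nonneg (m := m) (K b).trace
    have e3 := p2X2_nonneg (m := m) (r1 d n m) F.card (K b ^ 2).trace
    have e5 := p2X3_nonneg (d := d) (n := n) (K b ^ 3).trace
    have e7 := p2X4_nonneg (m := m) (Nat.cast_nonneg (α := ℝ) F.card) (X4_nonneg (hs b))
    have e8 := p2V_nonneg (m := m) (Vf_nonneg (K b))
    have e9 := p2W_nonneg (m := m) (Wf_nonneg F (K b))
    have e10 := p2X2l_nonneg (r1 d n m) F.card (K b ^ 2).trace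
    refine ⟨?_, ?_, ?_, ?_, ?_, ?_, ?_⟩ <;> linarith
  exact
    { x0_pos := hx0
      x0_le := hx1
      x0_m := hx2
      rho_ge := h1
      rho_le := h2
      X1 := fun b => abs_le_of_sq (by positivity) (by ring) (key b).1
      X2u := fun b => by
        have := pos_le (w := (m : ℝ) ^ 670) (by positivity) (by ring) (key b).2.1
        linarith
      X2l := fun b => by
        have := pos_le (w := r1 d n m) (by positivity) rfl (key b).2.2.2.2.2.2
        linarith
      X3u := fun b => by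
        have hq : (0 : ℝ) < ((d : ℝ) - 1) ^ 2 * n := by
          have : (0 : ℝ) < (d : ℝ) - 1 := by linarith
          positivity
        have := pos_le hq rfl (key b).2.2.1
        linarith
      X4u := fun b => by
        have := (key b).2.2.2.1
        unfold p2X4 at this
        rwa [div_le_one (by positivity)] at this
      Vu := fun b => by
        have := (key b).2.2.2.2.1
        unfold p2V at this
        rwa [div_le_one (by positivity)] at this
      Wu := fun b => by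
        have := (key b).2.2.2.2.2.1
        unfold p2W at this
        rwa [div_le_one (by positivity)] at this }

/-! ### handover 1 → 2 -/

/-- the bounds contained in `Phi1 ≤ 1`, without range conditions -/
structure B1 (d n m : ℕ) (F : Finset ι) (K : Bool → Matrix ι ι ℝ) : Prop where
  X1u : ∀ b, (K b).trace ≤ U m F.card + (m : ℝ) ^ 335
  X1l : ∀ b, -(m : ℝ) ^ 335 ≤ (K b).trace
  X2u : ∀ b, (K b ^ 2).trace ≤ F.card - 3 / 4 * r1 d n m
  X2l : ∀ b, F.card - 4 * r1 d n m ≤ (K b ^ 2).trace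
  X3u : ∀ b, (K b ^ 3).trace ≤ 3 * ((d : ℝ) - 1) ^ 2 * n
  X4u : ∀ b, (K b ^ 4).trace * F.card ≤ (m : ℝ) ^ 2003
  Vu : ∀ b, Vf (K b) ≤ (m : ℝ) ^ 6
  Wu : ∀ b, Wf F (K b) ≤ (m : ℝ) ^ 610

lemma B1_of_Phi1 (hp : Prm d n m) (hs : ∀ b, (K b).IsSymm) (h : Phi1 d n m F K ≤ 1) :
    B1 d n m F K := by
  have hm := m_pos hp
  have hn := n_pos hp
  have hd := d3 hp
  have hr := r1_pos hp
  have key : ∀ b, p1X1u m F.card (K b).trace ≤ 1 ∧ p1X1l m (K b).trace ≤ 1 ∧
      p1X2u (r1 d n m) F.card (K b ^ 2).trace ≤ 1 ∧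
      p1X3u d n (K b ^ 3).trace ≤ 1 ∧
      p1X4 m F.card (K b ^ 4).trace ≤ 1 ∧ p1V m (Vf (K b)) ≤ 1 ∧
      p1W m (Wf F (K b)) ≤ 1 ∧ p1X2l (r1 d n m) F.card (K b ^ 2).trace ≤ 1 := by
    intro b
    have hb := part1_le hs h b
    unfold part1 at hb
    have e1 := p1X1u_nonneg (m := m) F.card (K b).trace
    have e2 := p1X1l_nonneg (m := m) (K b).trace
    have e3 := p1X2u_nonneg (r1 d n m) F.card (K b ^ 2).trace
    have e4 := p1X2l_nonneg (r1 d n m) F.card (K b ^ 2).trace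
    have e5 := p1X3l_nonneg (n := n) (K b ^ 3).trace
    have e6 := p1X3u_nonneg (d := d) (n := n) (K b ^ 3).trace
    have e7 := p1X4_nonneg (m := m) (Nat.cast_nonneg (α := ℝ) F.card) (X4_nonneg (hs b))
    have e8 := p1V_nonneg (m := m) (Vf_nonneg (K b))
    have e9 := p1W_nonneg (m := m) (Wf_nonneg F (K b))
    refine ⟨?_, ?_, ?_, ?_, ?_, ?_, ?_, ?_⟩ <;> linarith
  exact
    { X1u := fun b => by
        have := pos_le (w := (m : ℝ) ^ 335) (by positivity) (by ring) (key b).1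
        linarith
      X1l := fun b => by
        have := pos_le (w := (m : ℝ) ^ 335) (by positivity) (by ring) (key b).2.1
        linarith
      X2u := fun b => by
        have := pos_le (w := r1 d n m / 4) (by positivity) rfl (key b).2.2.1
        linarith
      X2l := fun b => by
        have := pos_le (w := r1 d n m) (by positivity) rfl (key b).2.2.2.2.2.2.2
        linarith
      X3u := fun b => by
        have hq : (0 : ℝ) < ((d : ℝ) - 1) ^ 2 * n := by
          have : (0 : ℝ) < (d : ℝ) - 1 := by linarith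
          positivity
        have := pos_le hq rfl (key b).2.2.2.1
        linarith
      X4u := fun b => by
        have := (key b).2.2.2.2.1
        unfold p1X4 at this
        rwa [div_le_one (by positivity)] at this
      Vu := fun b => by
        have := (key b).2.2.2.2.2.1
        unfold p1V at this
        rwa [div_le_one (by positivity)] at this
      Wu := fun b => by
        have := (key b).2.2.2.2.2.2.1
        unfold p1W at this
        rwa [div_le_one (by positivity)] at this }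

lemma U_small (hp : Prm d n m) {ρ : ℝ} (h : ρ ≤ (m : ℝ) ^ 800 + 2) : U m ρ ≤ 1 := by
  have hm := m_pos hp
  have hm1 := one_le_m hp
  unfold U
  have h1 : max 0 (min 1 ((ρ - (m : ℝ) ^ 800) / (m : ℝ) ^ 800)) ≤ 2 / (m : ℝ) ^ 800 := by
    apply max_le (by positivity)
    apply min_le_of_right_le
    apply div_le_div_of_nonneg_right _ (by positivity)
    linarith
  calc (m : ℝ) ^ 361 * max 0 (min 1 ((ρ - (m : ℝ) ^ 800) / (m : ℝ) ^ 800))
      ≤ (m : ℝ) ^ 361 * (2 / (m : ℝ) ^ 800) := mul_le_mul_of_nonneg_left h1 (by positivity)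
    _ = 2 / (m : ℝ) ^ 439 := by
        rw [mul_div_assoc', div_eq_div_iff (by positivity) (by positivity)]; ring
    _ ≤ 1 := by
        rw [div_le_one (by positivity)]
        have h3 : (m : ℝ) ≤ (m : ℝ) ^ 439 := le_self_pow₀ hm1 (by norm_num)
        have := m_ge hp
        linarith [show (2 : ℝ) ≤ 10 ^ 10 by norm_num]

lemma phi2_ge {r ρ : ℝ} (hr : 0 < r) (hρ : 0 ≤ ρ) : ρ - r / 2 ≤ phi2 r ρ := by
  unfold phi2
  rw [le_div_iff₀ (by positivity)]
  nlinarith [sq_nonneg r]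

/-- HANDOVER 1 → 2 -/
theorem handover12 (hp : Prm d n m) (hs : ∀ b, (K b).IsSymm)
    (hdead : ∀ b i j, i ∉ F → K b i j = 0) (h : Phi1 d n m F K ≤ 1)
    (h2 : (F.card : ℝ) ≤ (m : ℝ) ^ 800 + 2) : Phi2 d n m F K ≤ 3 / m := by
  have hm := m_pos hp
  have hm1 := one_le_m hp
  have hmg := m_ge hp
  have hn := n_pos hp
  have hd := d3 hp
  have hr := r1_pos hp
  have B := B1_of_Phi1 hp hs h
  have hU := U_small hp h2
  have key : ∀ b, part2 d n m F (K b) ≤ 3 / (2 * m) := by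
    intro b
    have c1 : p2X1 m (K b).trace ≤ 4 / (m : ℝ) ^ 2 := by
      unfold p2X1
      have h3 : (1 : ℝ) ≤ (m : ℝ) ^ 335 := one_le_pow₀ hm1
      have h4 : |(K b).trace| ≤ 2 * (m : ℝ) ^ 335 := by
        rw [abs_le]
        constructor
        · linarith [B.X1l b]
        · linarith [B.X1u b]
      have h5 : (K b).trace ^ 2 ≤ 4 * (m : ℝ) ^ 670 := by
        have := sq_le_sq' (neg_le_of_abs_le h4) (le_of_abs_le h4)
        calc _ ≤ _ := this
          _ = _ := by ring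
      rw [div_le_div_iff₀ (by positivity) (by positivity)]
      calc (K b).trace ^ 2 * (m : ℝ) ^ 2 ≤ 4 * (m : ℝ) ^ 670 * (m : ℝ) ^ 2 :=
            mul_le_mul_of_nonneg_right h5 (by positivity)
        _ = _ := by ring
    have c2 : p2X2 m (r1 d n m) F.card (K b ^ 2).trace = 0 := by
      unfold p2X2
      have h3 := phi2_ge hr (Nat.cast_nonneg (α := ℝ) F.card)
      have h4 := B.X2u b
      rw [max_eq_right (by linarith)]
      simp
    have c3 : p2X3 d n (K b ^ 3).trace = 0 := by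
      unfold p2X3
      have h4 := B.X3u b
      have h5 : (0 : ℝ) ≤ ((d : ℝ) - 1) ^ 2 * n := by positivity
      rw [max_eq_right (by nlinarith)]
      simp
    have c4 : p2X4 m F.card (K b ^ 4).trace ≤ 1 / (m : ℝ) := by
      unfold p2X4
      have h4 := B.X4u b
      rw [div_le_div_iff₀ (by positivity) (by positivity)]
      calc (K b ^ 4).trace * F.card * (m : ℝ) ≤ (m : ℝ) ^ 2003 * (m : ℝ) :=
            mul_le_mul_of_nonneg_right h4 (by positivity)
        _ = 1 * (m : ℝ) ^ 2004 := by ring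
    have c7 : p2X2l (r1 d n m) F.card (K b ^ 2).trace = 0 := by
      unfold p2X2l
      have h4 := B.X2l b
      rw [max_eq_right (by linarith)]
      simp
    have c5 : p2V m (Vf (K b)) ≤ 1 / (m : ℝ) ^ 2 := by
      unfold p2V
      have h4 := B.Vu b
      rw [div_le_div_iff₀ (by positivity) (by positivity)]
      calc Vf (K b) * (m : ℝ) ^ 2 ≤ (m : ℝ) ^ 6 * (m : ℝ) ^ 2 :=
            mul_le_mul_of_nonneg_right h4 (by positivity)
        _ = 1 * (m : ℝ) ^ 8 := by ring
    have c6 : p2W m (Wf F (K b)) ≤ 1 / (m : ℝ) ^ 2 := by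
      unfold p2W
      have h4 := B.Wu b
      rw [div_le_div_iff₀ (by positivity) (by positivity)]
      calc Wf F (K b) * (m : ℝ) ^ 2 ≤ (m : ℝ) ^ 610 * (m : ℝ) ^ 2 :=
            mul_le_mul_of_nonneg_right h4 (by positivity)
        _ ≤ 1 * (m : ℝ) ^ 683 := by
            rw [one_mul, ← pow_add]
            exact pow_le_pow_right₀ hm1 (by norm_num)
    have h10 : part2 d n m F (K b) ≤ 1 / m + 6 / (m : ℝ) ^ 2 := by
      unfold part2
      rw [c2, c3, c7]
      have : (4 : ℝ) / (m : ℝ) ^ 2 + 1 / (m : ℝ) ^ 2 + 1 / (m : ℝ) ^ 2 =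
        6 / (m : ℝ) ^ 2 := by ring
      linarith
    refine h10.trans ?_
    have h11 : (6 : ℝ) / (m : ℝ) ^ 2 ≤ 1 / (2 * m) := by
      rw [div_le_div_iff₀ (by positivity) (by positivity)]
      have : (12 : ℝ) ≤ m := by linarith [show (12 : ℝ) ≤ 10 ^ 10 by norm_num]
      nlinarith
    have h12 : (3 : ℝ) / (2 * m) = 1 / m + 1 / (2 * m) := by field_simp; norm_num
    linarith
  rw [Phi2_eq]
  have h1 := key true
  have h3 := key false
  have h4 : (3 : ℝ) / m = 3 / (2 * m) + 3 / (2 * m) := by field_simp; norm_num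
  linarith

/-! ### handover 2 → late -/

/-- HANDOVER 2 → 3: at `ρ ≤ x0 r1 + 4` the input of the late phase -/
theorem handover23 {x0 : ℝ} (hp : Prm d n m) (hs : ∀ b, (K b).IsSymm)
    (h : Phi2 d n m F K ≤ 1) (hx0 : 0 < x0) (hx1 : x0 ≤ 1) (hx2 : 10 ^ 10 ≤ m * x0 ^ 4)
    (h1 : x0 * r1 d n m ≤ F.card) (h2 : (F.card : ℝ) ≤ x0 * r1 d n m + 4) (b : Bool) :
    (K b ^ 2).trace ≤ 3 * x0 * F.card ∧ (K b).trace ^ 2 * (m : ℝ) ^ 7 ≤ F.card ∧
      Vf (K b) ^ 2 * (m : ℝ) ^ 660 ≤ F.card := by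
  have hm := m_pos hp
  have hm1 := one_le_m hp
  have hmg := m_ge hp
  have hn := n_pos hp
  have hd := d3 hp
  have hr := r1_pos hp
  have hrg := r1_ge' hp
  -- `m^679 ≤ ρ`
  have hx3 : 1 ≤ m * x0 := by
    have h3 : x0 ^ 4 ≤ x0 := by
      calc x0 ^ 4 ≤ x0 ^ 1 := pow_le_pow_of_le_one hx0.le hx1 (by norm_num)
        _ = x0 := pow_one _
    have : m * x0 ^ 4 ≤ m * x0 := mul_le_mul_of_nonneg_left h3 hm.le
    linarith [show (1 : ℝ) ≤ 10 ^ 10 by norm_num]
  have hρ1 : (m : ℝ) ^ 679 ≤ F.card := by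
    refine le_trans ?_ h1
    have h3 : (m : ℝ) ^ 679 ≤ (m * x0) * (m : ℝ) ^ 679 :=
      le_mul_of_one_le_left (by positivity) hx3
    calc (m : ℝ) ^ 679 ≤ (m * x0) * (m : ℝ) ^ 679 := h3
      _ = x0 * (m : ℝ) ^ 680 := by ring
      _ ≤ x0 * r1 d n m := mul_le_mul_of_nonneg_left hrg hx0.le
  have hρ0 : (0 : ℝ) < F.card := lt_of_lt_of_le (by positivity) hρ1
  have hb := part2_le hs h b
  unfold part2 at hb
  have e1 := p2X1_nonneg (m := m) (K b).trace
  have e3 := p2X2_nonneg (m := m) (r1 d n m) F.card (K b ^ 2).trace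
  have e5 := p2X3_nonneg (d := d) (n := n) (K b ^ 3).trace
  have e7 := p2X4_nonneg (m := m) (Nat.cast_nonneg (α := ℝ) F.card) (X4_nonneg (hs b))
  have e8 := p2V_nonneg (m := m) (Vf_nonneg (K b))
  have e9 := p2W_nonneg (m := m) (Wf_nonneg F (K b))
  have e10 := p2X2l_nonneg (r1 d n m) F.card (K b ^ 2).trace
  refine ⟨?_, ?_, ?_⟩
  · -- X_2
    have k : p2X2 m (r1 d n m) F.card (K b ^ 2).trace ≤ 1 := by linarith
    have k2 := pos_le (w := (m : ℝ) ^ 670) (by positivity) (by ring) k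
    -- m^670 ≤ x0/4 ρ
    have k3 : (m : ℝ) ^ 670 ≤ x0 / 4 * F.card := by
      have h3 : 4 ≤ m * x0 := by
        have h3 : x0 ^ 4 ≤ x0 := by
          calc x0 ^ 4 ≤ x0 ^ 1 := pow_le_pow_of_le_one hx0.le hx1 (by norm_num)
            _ = x0 := pow_one _
        have : m * x0 ^ 4 ≤ m * x0 := mul_le_mul_of_nonneg_left h3 hm.le
        linarith [show (4 : ℝ) ≤ 10 ^ 10 by norm_num]
      have h4 : (m : ℝ) ^ 670 * 4 ≤ x0 * (m : ℝ) ^ 679 := by
        calc (m : ℝ) ^ 670 * 4 ≤ (m : ℝ) ^ 670 * (m * x0) :=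
              mul_le_mul_of_nonneg_left h3 (by positivity)
          _ = x0 * (m : ℝ) ^ 671 := by ring
          _ ≤ x0 * (m : ℝ) ^ 679 :=
              mul_le_mul_of_nonneg_left (pow_le_pow_right₀ hm1 (by norm_num)) hx0.le
      have h5 : x0 * (m : ℝ) ^ 679 ≤ x0 * F.card := mul_le_mul_of_nonneg_left hρ1 hx0.le
      linarith
    -- phi2 ≤ (2 x0 + x0/8) ρ
    have k4 : phi2 (r1 d n m) F.card ≤ (9 / 4) * x0 * F.card := by
      unfold phi2
      rw [div_le_iff₀ (by positivity)]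
      have h6 : (4 : ℝ) ≤ x0 / 8 * r1 d n m := by
        have : (32 : ℝ) ≤ x0 * r1 d n m := by
          have h7 : (32 : ℝ) ≤ m * x0 := by
            have h3 : x0 ^ 4 ≤ x0 := by
              calc x0 ^ 4 ≤ x0 ^ 1 := pow_le_pow_of_le_one hx0.le hx1 (by norm_num)
                _ = x0 := pow_one _
            have : m * x0 ^ 4 ≤ m * x0 := mul_le_mul_of_nonneg_left h3 hm.le
            linarith [show (32 : ℝ) ≤ 10 ^ 10 by norm_num]
          have h8 : (m : ℝ) ≤ r1 d n m :=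
            le_trans (le_self_pow₀ hm1 (by norm_num)) hrg
          nlinarith
        linarith
      have h7 : (F.card : ℝ) ≤ 9 / 8 * x0 * r1 d n m := by linarith
      have h8 : (F.card : ℝ) ^ 2 ≤ (9 / 8 * x0 * r1 d n m) * F.card := by
        rw [pow_two]; exact mul_le_mul_of_nonneg_right h7 hρ0.le
      have h9 : 0 ≤ (9 / 4) * x0 * (F.card : ℝ) * F.card := by positivity
      nlinarith
    nlinarith
  · -- X_1
    have k : p2X1 m (K b).trace ≤ 1 := by linarith
    unfold p2X1 at k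
    rw [div_le_one (by positivity)] at k
    calc (K b).trace ^ 2 * (m : ℝ) ^ 7 ≤ (m : ℝ) ^ 672 * (m : ℝ) ^ 7 :=
          mul_le_mul_of_nonneg_right k (by positivity)
      _ = (m : ℝ) ^ 679 := by ring
      _ ≤ _ := hρ1
  · -- V
    have k : p2V m (Vf (K b)) ≤ 1 := by linarith
    unfold p2V at k
    rw [div_le_one (by positivity)] at k
    calc Vf (K b) ^ 2 * (m : ℝ) ^ 660 ≤ ((m : ℝ) ^ 8) ^ 2 * (m : ℝ) ^ 660 :=
          mul_le_mul_of_nonneg_right (pow_le_pow_left₀ (Vf_nonneg _) k 2) (by positivity)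
      _ = (m : ℝ) ^ 676 := by ring
      _ ≤ (m : ℝ) ^ 679 := pow_le_pow_right₀ hm1 (by norm_num)
      _ ≤ _ := hρ1

end

end Crest.Agent.R62.Box
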