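import Crest.Agent.R62.AvBase

/-!
R62 (helper110): the truncated linear tilt `φ = (K - L)` on the stubs with `(K²)_xx, (L²)_xx ≤ B`,
entries at most `τ`, good pairs only (`K = K⁺`, `L = K⁻`).

`phi a b K L G Bad τ` is the version with coefficients `|a|, |b| ≤ 1`: `a K - b L`.

* `phi_symm`, `abs_phi_le`, `phi_eq_zero_of_bad`
* `phi_opB : OpB (phi ..) (ΛK + ΛL + (4B/τ + 2τ D))` (Schur test)
* `gain_left`, `gain_right` : lower bounds of `∑ φ K²`, `-∑ φ L²`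
* `ip_mul_le : |∑ φ_xy (A B)_xy| ≤ N ‖A‖_F ‖B‖_F`
-/

set_option autoImplicit false
set_option linter.unusedSectionVars false
set_option linter.unusedVariables false

open scoped Matrix BigOperators

namespace Crest.Agent.R62.TiltK

open Crest.Agent.R62.AvBase

variable {ι : Type*} [Fintype ι] [DecidableEq ι]

/-! ### operator norm calculus -/

/-- Schur test -/
lemma opB_of_rows {A : Matrix ι ι ℝ} {R : ℝ} (hR : 0 ≤ R) (hs : ∀ x y, |A x y| = |A y x|)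
    (h : ∀ x, ∑ y, |A x y| ≤ R) : OpB A R := by
  refine ⟨hR, fun v => ?_⟩
  have h1 : ∀ x, ((A *ᵥ v) x) ^ 2 ≤ R * ∑ y, |A x y| * (v y) ^ 2 := by
    intro x
    have h2 := Finset.sum_mul_sq_le_sq_mul_sq Finset.univ
      (fun y => Real.sqrt |A x y|) (fun y => Real.sqrt |A x y| * |v y|)
    have e1 : ∀ y, Real.sqrt |A x y| * (Real.sqrt |A x y| * |v y|) = |A x y| * |v y| := by
      intro y; rw [← mul_assoc, Real.mul_self_sqrt (abs_nonneg _)]
    have e2 : ∀ y, (Real.sqrt |A x y|) ^ 2 = |A x y| := fun y => Real.sq_sqrt (abs_nonneg _)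
    have e3 : ∀ y, (Real.sqrt |A x y| * |v y|) ^ 2 = |A x y| * (v y) ^ 2 := by
      intro y; rw [mul_pow, Real.sq_sqrt (abs_nonneg _), sq_abs]
    simp_rw [e1, e2, e3] at h2
    have h3 : |(A *ᵥ v) x| ≤ ∑ y, |A x y| * |v y| := by
      simp only [Matrix.mulVec, dotProduct]
      refine (Finset.abs_sum_le_sum_abs _ _).trans (le_of_eq ?_)
      exact Finset.sum_congr rfl fun y _ => abs_mul _ _
    have h4 : 0 ≤ ∑ y, |A x y| * (v y) ^ 2 :=
      Finset.sum_nonneg fun y _ => mul_nonneg (abs_nonneg _) (sq_nonneg _)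
    calc ((A *ᵥ v) x) ^ 2 = |(A *ᵥ v) x| ^ 2 := (sq_abs _).symm
      _ ≤ (∑ y, |A x y| * |v y|) ^ 2 := pow_le_pow_left₀ (abs_nonneg _) h3 2
      _ ≤ _ := h2
      _ ≤ _ := mul_le_mul_of_nonneg_right (h x) h4
  calc (A *ᵥ v) ⬝ᵥ (A *ᵥ v) = ∑ x, ((A *ᵥ v) x) ^ 2 := by
        simp only [dotProduct]; exact Finset.sum_congr rfl fun x _ => by ring
    _ ≤ ∑ x, R * ∑ y, |A x y| * (v y) ^ 2 := Finset.sum_le_sum fun x _ => h1 x
    _ = R * ∑ y, (∑ x, |A y x|) * (v y) ^ 2 := by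
        rw [← Finset.mul_sum, Finset.sum_comm]
        congr 1
        refine Finset.sum_congr rfl fun y _ => ?_
        rw [Finset.sum_mul]
        exact Finset.sum_congr rfl fun x _ => by rw [hs x y]
    _ ≤ R * ∑ y, R * (v y) ^ 2 := by
        refine mul_le_mul_of_nonneg_left (Finset.sum_le_sum fun y _ => ?_) hR
        exact mul_le_mul_of_nonneg_right (h y) (sq_nonneg _)
    _ = R ^ 2 * (v ⬝ᵥ v) := by
        rw [← Finset.mul_sum]
        simp only [dotProduct, pow_two]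
        ring

lemma OpB_add {A B : Matrix ι ι ℝ} {a b : ℝ} (hA : OpB A a) (hB : OpB B b) :
    OpB (A + B) (a + b) := by
  refine ⟨add_nonneg hA.1 hB.1, fun v => ?_⟩
  have h1 := hA.2 v
  have h2 := hB.2 v
  have hv := dot_self_nonneg v
  have h3 : (A *ᵥ v) ⬝ᵥ (B *ᵥ v) ≤ a * b * (v ⬝ᵥ v) := by
    have h4 := dot_sq_le (A *ᵥ v) (B *ᵥ v)
    have h5 : ((A *ᵥ v) ⬝ᵥ (B *ᵥ v)) ^ 2 ≤ (a * b * (v ⬝ᵥ v)) ^ 2 := by
      calc _ ≤ _ := h4
        _ ≤ (a ^ 2 * (v ⬝ᵥ v)) * (b ^ 2 * (v ⬝ᵥ v)) :=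
            mul_le_mul h1 h2 (dot_self_nonneg _) (mul_nonneg (sq_nonneg _) hv)
        _ = _ := by ring
    exact (abs_le_of_sq_le_sq' h5 (mul_nonneg (mul_nonneg hA.1 hB.1) hv)).2
  rw [Matrix.add_mulVec, add_dotProduct, dotProduct_add, dotProduct_add,
    dotProduct_comm (B *ᵥ v) (A *ᵥ v)]
  nlinarith

lemma OpB_neg {A : Matrix ι ι ℝ} {a : ℝ} (hA : OpB A a) : OpB (-A) a := by
  refine ⟨hA.1, fun v => ?_⟩
  rw [Matrix.neg_mulVec, neg_dotProduct, dotProduct_neg, neg_neg]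
  exact hA.2 v

lemma OpB_sub {A B : Matrix ι ι ℝ} {a b : ℝ} (hA : OpB A a) (hB : OpB B b) :
    OpB (A - B) (a + b) := by
  rw [sub_eq_add_neg]; exact OpB_add hA (OpB_neg hB)

lemma OpB_smul {A : Matrix ι ι ℝ} {a : ℝ} (hA : OpB A a) (t : ℝ) : OpB (t • A) (|t| * a) := by
  refine ⟨mul_nonneg (abs_nonneg _) hA.1, fun v => ?_⟩
  rw [Matrix.smul_mulVec, smul_dotProduct, dotProduct_smul, smul_eq_mul, smul_eq_mul]
  have h := mul_le_mul_of_nonneg_left (hA.2 v) (sq_nonneg t)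
  calc t * (t * ((A *ᵥ v) ⬝ᵥ (A *ᵥ v))) = t ^ 2 * ((A *ᵥ v) ⬝ᵥ (A *ᵥ v)) := by ring
    _ ≤ _ := h
    _ = (|t| * a) ^ 2 * (v ⬝ᵥ v) := by rw [mul_pow, sq_abs]; ring

/-- restriction of a matrix to rows and columns in `G` -/
def res (G : Finset ι) (A : Matrix ι ι ℝ) : Matrix ι ι ℝ := fun x y =>
  if x ∈ G ∧ y ∈ G then A x y else 0


/-- `|∑ φ_xy (A B)_xy| ≤ N ‖A‖_F ‖B‖_F` -/
lemma ip_mul_le {φ : Matrix ι ι ℝ} {N : ℝ} (hφ : OpB φ N) (A B : Matrix ι ι ℝ) :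
    |∑ x, ∑ y, φ x y * (A * B) x y|
      ≤ N * (Real.sqrt (∑ x, ∑ y, (A x y) ^ 2) * Real.sqrt (∑ x, ∑ y, (B x y) ^ 2)) := by
  have h1 : ∑ x, ∑ y, φ x y * (A * B) x y
      = ∑ z, (fun x => A x z) ⬝ᵥ (φ *ᵥ (fun y => B z y)) := by
    simp only [Matrix.mul_apply, dotProduct, Matrix.mulVec, Finset.mul_sum]
    rw [show (∑ x, ∑ y, ∑ z, φ x y * (A x z * B z y))
        = ∑ x, ∑ z, ∑ y, φ x y * (A x z * B z y) from
      Finset.sum_congr rfl fun x _ => Finset.sum_comm]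
    rw [Finset.sum_comm]
    refine Finset.sum_congr rfl fun z _ => Finset.sum_congr rfl fun x _ =>
      Finset.sum_congr rfl fun y _ => by ring
  have h2 : ∀ z, |(fun x => A x z) ⬝ᵥ (φ *ᵥ (fun y => B z y))|
      ≤ N * (Real.sqrt (∑ x, (A x z) ^ 2) * Real.sqrt (∑ y, (B z y) ^ 2)) := by
    intro z
    have h := form_le hφ 1 (fun x => A x z) (fun y => B z y)
    rw [pow_one, pow_one] at h
    simp only [dotProduct] at h ⊢
    simpa only [← pow_two] using h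
  have hA : ∀ z, 0 ≤ ∑ x, (A x z) ^ 2 := fun z => Finset.sum_nonneg fun x _ => sq_nonneg _
  have hB : ∀ z, 0 ≤ ∑ y, (B z y) ^ 2 := fun z => Finset.sum_nonneg fun x _ => sq_nonneg _
  rw [h1]
  refine (Finset.abs_sum_le_sum_abs _ _).trans ((Finset.sum_le_sum fun z _ => h2 z).trans ?_)
  rw [← Finset.mul_sum]
  refine mul_le_mul_of_nonneg_left ?_ hφ.1
  have h3 := Finset.sum_mul_sq_le_sq_mul_sq Finset.univ
    (fun z => Real.sqrt (∑ x, (A x z) ^ 2)) (fun z => Real.sqrt (∑ y, (B z y) ^ 2))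
  simp only [Real.sq_sqrt (hA _), Real.sq_sqrt (hB _)] at h3
  have h4 : 0 ≤ ∑ z, ∑ x, (A x z) ^ 2 := Finset.sum_nonneg fun z _ => hA z
  have h5 : ∑ z, ∑ x, (A x z) ^ 2 = ∑ x, ∑ z, (A x z) ^ 2 := Finset.sum_comm
  rw [← h5, ← Real.sqrt_mul h4]
  exact Real.le_sqrt_of_sq_le h3

/-! ### the tilt -/

lemma apply_comm_of_symm {K : Matrix ι ι ℝ} (hK : Kᵀ = K) (x y : ι) : K x y = K y x := by
  conv_lhs => rw [← hK]
  rfl

lemma row_sq {K : Matrix ι ι ℝ} (hK : Kᵀ = K) (x : ι) : ∑ y, (K x y) ^ 2 = (K ^ 2) x x := by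
  rw [pow_two K, Matrix.mul_apply]
  exact Finset.sum_congr rfl fun y _ => by rw [apply_comm_of_symm hK y x]; ring

lemma frob_sq {K : Matrix ι ι ℝ} (hK : Kᵀ = K) :
    ∑ x, ∑ y, (K x y) ^ 2 = (K ^ 2).trace := by
  simp only [Matrix.trace, Matrix.diag_apply]
  exact Finset.sum_congr rfl fun x _ => row_sq hK x

section Phi

variable (a b : ℝ) (K L : Matrix ι ι ℝ) (G : Finset ι) (Bad : Finset (ι × ι)) (τ : ℝ)



variable {a b K L G Bad τ}

lemma abs_comb_le (ha : |a| ≤ 1) (hb : |b| ≤ 1) (p q : ℝ) :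
    |a * p - b * q| ≤ |p| + |q| := by
  have h1 : |a * p| ≤ |p| := by
    rw [abs_mul]; nlinarith [abs_nonneg p, abs_nonneg a]
  have h2 : |b * q| ≤ |q| := by
    rw [abs_mul]; nlinarith [abs_nonneg q, abs_nonneg b]
  exact (abs_sub _ _).trans (add_le_add h1 h2)

lemma comb_sq_le (ha : |a| ≤ 1) (hb : |b| ≤ 1) (p q : ℝ) :
    (a * p - b * q) ^ 2 ≤ 2 * (p ^ 2 + q ^ 2) := by
  have h := abs_comb_le ha hb p q
  have h1 : (a * p - b * q) ^ 2 ≤ (|p| + |q|) ^ 2 := by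
    rw [← sq_abs (a * p - b * q)]
    exact pow_le_pow_left₀ (abs_nonneg _) h 2
  nlinarith [sq_nonneg (|p| - |q|), sq_abs p, sq_abs q]














lemma abs_sq_entry_le (hK : Kᵀ = K) {B : ℝ} (hB : 0 ≤ B) {x y : ι} (hx : (K ^ 2) x x ≤ B)
    (hy : (K ^ 2) y y ≤ B) : |(K ^ 2) x y| ≤ B := by
  have h1 := entry_sq_le hK 1 1 x y
  simp only [mul_one, Nat.reduceAdd] at h1
  have h0 := diag_sq_nonneg hK y
  refine abs_le_of_sq_le_sq (h1.trans ?_) hB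
  calc (K ^ 2) x x * (K ^ 2) y y ≤ B * B := mul_le_mul hx hy h0 hB
    _ = B ^ 2 := by ring





open Classical in
/-- the set of stubs with both `(K²)_xx, (L²)_xx ≤ B` -/
noncomputable def Gset (K L : Matrix ι ι ℝ) (B : ℝ) : Finset ι :=
  Finset.univ.filter fun x => (K ^ 2) x x ≤ B ∧ (L ^ 2) x x ≤ B

lemma mem_Gset {B : ℝ} {x : ι} : x ∈ Gset K L B ↔ (K ^ 2) x x ≤ B ∧ (L ^ 2) x x ≤ B := by
  simp [Gset]


/-- mass outside `G` from the centred second moments; `u` is the indicator of the live stubs,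
or any function with `u = 1` outside `G` -/
lemma outside_mass_le_centred (hK : Kᵀ = K) (hL : Lᵀ = L) {B : ℝ} (hB : 2 ≤ B) (u : ι → ℝ)
    (hu0 : ∀ x, 0 ≤ u x) (hu : ∀ x, u x = 1 ∨ ((K ^ 2) x x = 0 ∧ (L ^ 2) x x = 0)) :
    ∑ x ∈ (Gset K L B)ᶜ, ((K ^ 2) x x + (L ^ 2) x x)
      ≤ 8 / B * (∑ x, u x * ((K ^ 2) x x - 1) ^ 2 + ∑ x, u x * ((L ^ 2) x x - 1) ^ 2) := by
  have hB0 : 0 < B := by linarith
  rw [← Finset.sum_add_distrib, Finset.mul_sum]
  refine (Finset.sum_le_sum (g := fun x => 8 / B * (u x * ((K ^ 2) x x - 1) ^ 2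
    + u x * ((L ^ 2) x x - 1) ^ 2))
    fun x hx => ?_).trans (Finset.sum_le_sum_of_subset_of_nonneg (Finset.subset_univ _)
      fun x _ _ => by
        have := hu0 x
        positivity)
  rw [Finset.mem_compl, mem_Gset] at hx
  have p1 := diag_sq_nonneg hK x
  have p2 := diag_sq_nonneg hL x
  have hux : u x = 1 := by
    rcases hu x with h | h
    · exact h
    · exfalso; apply hx; rw [h.1, h.2]; constructor <;> linarith
  rw [hux, one_mul, one_mul, div_mul_eq_mul_div, le_div_iff₀ hB0]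
  set p := (K ^ 2) x x
  set q := (L ^ 2) x x
  rcases not_and_or.mp hx with h | h <;> push Not at h
  · rcases le_total q p with hqp | hqp
    · have h1 : (p + q) * B ≤ 2 * p * p := by nlinarith
      nlinarith [sq_nonneg (q - 1)]
    · have h1 : (p + q) * B ≤ 2 * q * q := by nlinarith
      nlinarith [sq_nonneg (p - 1)]
  · rcases le_total q p with hqp | hqp
    · have h1 : (p + q) * B ≤ 2 * p * p := by nlinarith
      nlinarith [sq_nonneg (q - 1)]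
    · have h1 : (p + q) * B ≤ 2 * q * q := by nlinarith
      nlinarith [sq_nonneg (p - 1)]

/-! ### Frobenius norm of `φ K` -/

/-- Frobenius norm bound -/
def Fr (A : Matrix ι ι ℝ) (a : ℝ) : Prop := 0 ≤ a ∧ ∑ x, ∑ y, (A x y) ^ 2 ≤ a ^ 2



/-- Cauchy–Schwarz for the Frobenius inner product -/
lemma abs_ip_le {A B : Matrix ι ι ℝ} {a b : ℝ} (hA : Fr A a) (hB : Fr B b) :
    |∑ x, ∑ y, A x y * B x y| ≤ a * b := by
  refine abs_le_of_sq_le_sq ?_ (mul_nonneg hA.1 hB.1)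
  have h := Finset.sum_mul_sq_le_sq_mul_sq (Finset.univ : Finset (ι × ι))
    (fun p => A p.1 p.2) (fun p => B p.1 p.2)
  simp only [← Finset.univ_product_univ, Finset.sum_product] at h
  calc _ ≤ _ := h
    _ ≤ a ^ 2 * b ^ 2 := mul_le_mul hA.2 hB.2
        (Finset.sum_nonneg fun x _ => Finset.sum_nonneg fun y _ => sq_nonneg _) (sq_nonneg _)
    _ = _ := by ring





lemma Fr.mono {A : Matrix ι ι ℝ} {a b : ℝ} (hA : Fr A a) (h : a ≤ b) : Fr A b :=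
  ⟨hA.1.trans h, hA.2.trans (pow_le_pow_left₀ hA.1 h 2)⟩


/-- `‖L Π K‖_F² = ∑_{z,w ∈ G} (L²)_zw (K²)_zw` -/
lemma frob_mid (hK : Kᵀ = K) (hL : Lᵀ = L) (G : Finset ι) :
    ∑ x, ∑ y, (∑ z ∈ G, L x z * K z y) ^ 2
      = ∑ z ∈ G, ∑ w ∈ G, (L ^ 2) z w * (K ^ 2) z w := by
  have hKc := apply_comm_of_symm hK
  have hLc := apply_comm_of_symm hL
  have e1 : ∀ z w, (L ^ 2) z w * (K ^ 2) z w
      = ∑ x, ∑ y, (L x z * K z y) * (L x w * K w y) := by
    intro z w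
    rw [pow_two, pow_two, Matrix.mul_apply, Matrix.mul_apply, Finset.sum_mul_sum]
    refine Finset.sum_congr rfl fun x _ => Finset.sum_congr rfl fun y _ => ?_
    rw [hLc z x, hKc y w]; ring
  simp_rw [e1]
  have e2 : ∀ x y, (∑ z ∈ G, L x z * K z y) ^ 2
      = ∑ z ∈ G, ∑ w ∈ G, (L x z * K z y) * (L x w * K w y) := by
    intro x y
    rw [pow_two, Finset.sum_mul_sum]
  simp_rw [e2]
  calc _ = ∑ x, ∑ z ∈ G, ∑ y, ∑ w ∈ G, (L x z * K z y) * (L x w * K w y) :=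
        Finset.sum_congr rfl fun x _ => Finset.sum_comm
    _ = ∑ z ∈ G, ∑ x, ∑ y, ∑ w ∈ G, (L x z * K z y) * (L x w * K w y) := Finset.sum_comm
    _ = ∑ z ∈ G, ∑ x, ∑ w ∈ G, ∑ y, (L x z * K z y) * (L x w * K w y) :=
        Finset.sum_congr rfl fun z _ => Finset.sum_congr rfl fun x _ => Finset.sum_comm
    _ = _ := Finset.sum_congr rfl fun z _ => Finset.sum_comm





end Phi

end Crest.Agent.R62.TiltK
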