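import Mathlib
import Crest.Agent.R62.Upd
import Crest.Agent.R62.AvBase
import Crest.Agent.R62.AvX1
import Crest.Agent.R62.L2P
import Crest.Agent.R62.TiltK

-- ▼ part R62/CrossA
section

/-!
R62 (helper214): the cross functional `M₂₂ = ‖K⁺K⁻‖_F²` — algebra of one step.

With `X = K L`, `K' = upd s K x y`, `L' = upd t L x y`:
`K' L' = Π (X + A + B + C) Π`, and the pointwise upper bound of `‖K' L'‖²`.
-/

set_option autoImplicit false
set_option linter.unusedSectionVars false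
set_option linter.unusedVariables false

open Matrix Finset

namespace Crest.Agent.R62.Cross

open Crest.Agent.R62.Upd

variable {ι : Type*} [Fintype ι] [DecidableEq ι]

/-- Frobenius norm squared. -/
def fr (A : Matrix ι ι ℝ) : ℝ := ∑ i, ∑ j, A i j ^ 2

lemma fr_nonneg (A : Matrix ι ι ℝ) : 0 ≤ fr A :=
  Finset.sum_nonneg fun _ _ => Finset.sum_nonneg fun _ _ => sq_nonneg _

/-- left coefficients `E_K k_i`. -/
noncomputable def al (s : ℝ) (K : Matrix ι ι ℝ) (x y i : ι) : ℝ :=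
  Bxx s K x y * K i x + Bxy s K x y * K i y
noncomputable def be (s : ℝ) (K : Matrix ι ι ℝ) (x y i : ι) : ℝ :=
  Bxy s K x y * K i x + Byy s K x y * K i y

lemma Khat_eq (s : ℝ) (K : Matrix ι ι ℝ) (x y i j : ι) :
    Khat s K x y i j = K i j + al s K x y i * K j x + be s K x y i * K j y := by
  rw [Khat_apply, al, be]; ring

lemma Khat_x {s : ℝ} (hs : s ^ 2 = 1) {K : Matrix ι ι ℝ} (hK : K.IsSymm) {x y : ι}
    (hD : Dl s K x y ≠ 0) (i : ι) : Khat s K x y i x = s * be s K x y i := by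
  rw [Khat_col_x hs hK hD, be, Bxy, Byy]
  field_simp
  linear_combination (-(1 - s * K x y) * K i x) * hs

lemma Khat_y {s : ℝ} (hs : s ^ 2 = 1) {K : Matrix ι ι ℝ} (hK : K.IsSymm) {x y : ι}
    (hD : Dl s K x y ≠ 0) (i : ι) : Khat s K x y i y = s * al s K x y i := by
  rw [Khat_col_y hs hK hD, al, Bxy, Bxx]
  field_simp
  linear_combination (-(1 - s * K x y) * K i y) * hs

/-- The product before killing the indices. -/
noncomputable def Wh (s t : ℝ) (K L : Matrix ι ι ℝ) (x y : ι) : Matrix ι ι ℝ := fun i j =>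
  (K * L) i j
  + (al s K x y i * (K * L) x j + be s K x y i * (K * L) y j)
  + ((K * L) i x * al t L x y j + (K * L) i y * be t L x y j)
  + (((K * L) x x - s * t) * (al s K x y i * al t L x y j)
    + (K * L) x y * (al s K x y i * be t L x y j)
    + (K * L) y x * (be s K x y i * al t L x y j)
    + ((K * L) y y - s * t) * (be s K x y i * be t L x y j))

lemma prod_apply {s t : ℝ} (hs : s ^ 2 = 1) (ht : t ^ 2 = 1) {K L : Matrix ι ι ℝ}
    (hK : K.IsSymm) (hL : L.IsSymm) {x y : ι} (hxy : x ≠ y) (hD : Dl s K x y ≠ 0)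
    (hD' : Dl t L x y ≠ 0) {i j : ι} (hi1 : i ≠ x) (hi2 : i ≠ y) (hj1 : j ≠ x) (hj2 : j ≠ y) :
    (upd s K x y * upd t L x y) i j = Wh s t K L x y i j := by
  rw [Matrix.mul_apply]
  have e : ∀ v, upd s K x y i v * upd t L x y v j
      = if v = x ∨ v = y then 0 else Khat s K x y i v * Khat t L x y j v := by
    intro v
    by_cases hv : v = x ∨ v = y
    · rw [if_pos hv]
      rcases hv with rfl | rfl <;> simp [upd, Pi2]
    · rw [if_neg hv]
      push Not at hv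
      rw [upd, Pi2_apply_of_ne _ hi1 hi2 hv.1 hv.2, upd, Pi2_apply_of_ne _ hv.1 hv.2 hj1 hj2,
        (Khat_symm t hL x y).apply j v]
  simp_rw [e]
  rw [sum_ne x y hxy, Khat_x hs hK hD, Khat_x ht hL hD', Khat_y hs hK hD, Khat_y ht hL hD']
  have hX : ∀ u v, ∑ w, K u w * L v w = (K * L) u v := by
    intro u v
    rw [Matrix.mul_apply]
    exact Finset.sum_congr rfl fun w _ => by rw [hL.apply w v]
  have e2 : ∀ v, Khat s K x y i v * Khat t L x y j v =
      K i v * L j v + al t L x y j * (K i v * L x v) + be t L x y j * (K i v * L y v)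
      + al s K x y i * (K x v * L j v) + be s K x y i * (K y v * L j v)
      + (al s K x y i * al t L x y j) * (K x v * L x v)
      + (al s K x y i * be t L x y j) * (K x v * L y v)
      + (be s K x y i * al t L x y j) * (K y v * L x v)
      + (be s K x y i * be t L x y j) * (K y v * L y v) := by
    intro v
    rw [Khat_eq, Khat_eq, hK.apply x v, hK.apply y v, hL.apply x v, hL.apply y v]
    ring
  simp_rw [e2]
  simp only [Finset.sum_add_distrib, ← Finset.mul_sum, hX]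
  rw [Wh]
  ring

/-- Frobenius norm of the new product. -/
lemma fr_prod {s t : ℝ} (hs : s ^ 2 = 1) (ht : t ^ 2 = 1) {K L : Matrix ι ι ℝ}
    (hK : K.IsSymm) (hL : L.IsSymm) {x y : ι} (hxy : x ≠ y) (hD : Dl s K x y ≠ 0)
    (hD' : Dl t L x y ≠ 0) :
    fr (upd s K x y * upd t L x y) =
      ∑ i, (if i = x ∨ i = y then 0 else
        ∑ j, (if j = x ∨ j = y then 0 else Wh s t K L x y i j ^ 2)) := by
  unfold fr
  refine Finset.sum_congr rfl fun i _ => ?_
  by_cases hi : i = x ∨ i = y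
  · rw [if_pos hi]
    apply Finset.sum_eq_zero
    intro j _
    have : (upd s K x y * upd t L x y) i j = 0 := by
      rw [Matrix.mul_apply]
      apply Finset.sum_eq_zero
      intro v _
      rcases hi with rfl | rfl <;> simp [upd, Pi2]
    rw [this]; norm_num
  · rw [if_neg hi]
    refine Finset.sum_congr rfl fun j _ => ?_
    by_cases hj : j = x ∨ j = y
    · rw [if_pos hj]
      have : (upd s K x y * upd t L x y) i j = 0 := by
        rw [Matrix.mul_apply]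
        apply Finset.sum_eq_zero
        intro v _
        rcases hj with rfl | rfl <;> simp [upd, Pi2]
      rw [this]; norm_num
    · rw [if_neg hj]
      push Not at hi hj
      rw [prod_apply hs ht hK hL hxy hD hD' hi.1 hi.2 hj.1 hj.2]

end Crest.Agent.R62.Cross
end

-- ▼ part R62/CrossB
section

/-!
R62 (helper214): the cross functional — pointwise upper bound of one step.
-/

set_option autoImplicit false
set_option linter.unusedSectionVars false
set_option linter.unusedVariables false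

open Matrix Finset

namespace Crest.Agent.R62.Cross

open Crest.Agent.R62.Upd Crest.Agent.R62.AvX1

variable {ι : Type*} [Fintype ι] [DecidableEq ι]

/-! ### scalar bounds -/

section scal
variable {s : ℝ} {K : Matrix ι ι ℝ} {x y : ι}

lemma abs_Bxx (hs : s ^ 2 = 1) (hg : GoodPair K x y) : |Bxx s K x y| ≤ 4 * |K y y| := by
  have hD := Dl_ge hs hg.2.1 hg.2.2
  rw [Bxx, abs_div, abs_of_pos (by linarith : 0 < Dl s K x y), div_le_iff₀ (by linarith)]
  nlinarith [abs_nonneg (K y y)]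

lemma abs_Byy (hs : s ^ 2 = 1) (hg : GoodPair K x y) : |Byy s K x y| ≤ 4 * |K x x| := by
  have hD := Dl_ge hs hg.2.1 hg.2.2
  rw [Byy, abs_div, abs_of_pos (by linarith : 0 < Dl s K x y), div_le_iff₀ (by linarith)]
  nlinarith [abs_nonneg (K x x)]

lemma abs_Bxy_sub (hs : s ^ 2 = 1) (hg : GoodPair K x y) :
    |Bxy s K x y - s| ≤ 4 * (|K x y| + |K x x * K y y|) := by
  have hD := Dl_ge hs hg.2.1 hg.2.2
  have hD0 : 0 < Dl s K x y := by linarith
  have e : Bxy s K x y - s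
      = s * (s * K x y * (1 - s * K x y) + K x x * K y y) / Dl s K x y := by
    rw [Bxy, eq_div_iff hD0.ne', sub_mul, div_mul_cancel₀ _ hD0.ne', Dl]
    ring
  rw [e, abs_div, abs_mul, abs_s hs, one_mul, abs_of_pos hD0, div_le_iff₀ hD0]
  have h1 : |s * K x y * (1 - s * K x y)| ≤ |K x y| * (5 / 4) := by
    rw [abs_mul, abs_mul, abs_s hs, one_mul]
    refine mul_le_mul_of_nonneg_left ?_ (abs_nonneg _)
    have h2 : |s * K x y| ≤ 1 / 4 := by rw [abs_mul, abs_s hs, one_mul]; exact hg.2.1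
    have h3 := abs_le.mp h2
    rw [abs_le]; constructor <;> linarith
  have h4 := abs_add_le (s * K x y * (1 - s * K x y)) (K x x * K y y)
  nlinarith [abs_nonneg (K x y), abs_nonneg (K x x * K y y)]

lemma abs_Bxy (hs : s ^ 2 = 1) (hg : GoodPair K x y) : |Bxy s K x y| ≤ 4 := by
  have hD := Dl_ge hs hg.2.1 hg.2.2
  have hD0 : 0 < Dl s K x y := by linarith
  rw [Bxy, abs_div, abs_mul, abs_s hs, one_mul, abs_of_pos hD0, div_le_iff₀ hD0]
  have h2 : |s * K x y| ≤ 1 / 4 := by rw [abs_mul, abs_s hs, one_mul]; exact hg.2.1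
  have h3 := abs_le.mp h2
  rw [abs_le]; constructor <;> nlinarith

lemma al_x_eq (hs : s ^ 2 = 1) (hD0 : Dl s K x y ≠ 0) :
    al s K x y x = s * (Bxy s K x y - s) := by
  rw [al, Bxx, Bxy]
  field_simp
  rw [Dl]
  linear_combination (-(K x x * K y y) + s ^ 2 * K x y ^ 2 - 2 * s * K x y + 1
    - (1 - s * K x y)) * hs

lemma abs_al_x (hs : s ^ 2 = 1) (hg : GoodPair K x y) :
    |al s K x y x| ≤ 4 * (|K x y| + |K x x * K y y|) := by
  have hD := Dl_ge hs hg.2.1 hg.2.2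
  rw [al_x_eq hs (by linarith), abs_mul, abs_s hs, one_mul]
  exact abs_Bxy_sub hs hg

lemma abs_al_x' (hs : s ^ 2 = 1) (hg : GoodPair K x y) : |al s K x y x| ≤ 2 :=
  (abs_al_x hs hg).trans (by linarith [hg.2.1, hg.2.2])

lemma be_x_eq (hs : s ^ 2 = 1) (hD0 : Dl s K x y ≠ 0) :
    be s K x y x = s * Byy s K x y := by
  rw [be, Bxy, Byy]
  field_simp
  linear_combination (-(K x x * K x y)) * hs

lemma abs_be_x (hs : s ^ 2 = 1) (hg : GoodPair K x y) :
    |be s K x y x| ≤ 4 * |K x x| := by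
  have hD := Dl_ge hs hg.2.1 hg.2.2
  rw [be_x_eq hs (by linarith), abs_mul, abs_s hs, one_mul]
  exact abs_Byy hs hg

end scal

/-! ### row norms -/

/-- squared norm of row `u` -/
def rn (A : Matrix ι ι ℝ) (u : ι) : ℝ := ∑ j, A u j ^ 2

lemma rn_nonneg (A : Matrix ι ι ℝ) (u : ι) : 0 ≤ rn A u := Finset.sum_nonneg fun _ _ => sq_nonneg _

lemma sum_rn (A : Matrix ι ι ℝ) : ∑ u, rn A u = fr A := rfl

lemma rn_symm {K : Matrix ι ι ℝ} (hK : K.IsSymm) (u : ι) : ∑ i, K i u ^ 2 = rn K u :=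
  Finset.sum_congr rfl fun i _ => by rw [hK.apply u i]

/-- squared norm of a vector -/
def nv (f : ι → ℝ) : ℝ := ∑ i, f i ^ 2

lemma nv_nonneg (f : ι → ℝ) : 0 ≤ nv f := Finset.sum_nonneg fun _ _ => sq_nonneg _

lemma nv_add_le (f g : ι → ℝ) : nv (fun i => f i + g i) ≤ 2 * (nv f + nv g) := by
  unfold nv
  rw [← Finset.sum_add_distrib, Finset.mul_sum]
  exact Finset.sum_le_sum fun i _ => by nlinarith [sq_nonneg (f i - g i)]

lemma nv_smul (c : ℝ) (f : ι → ℝ) : nv (fun i => c * f i) = c ^ 2 * nv f := by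
  unfold nv
  rw [Finset.mul_sum]
  exact Finset.sum_congr rfl fun i _ => by ring

lemma nv_lin_le (a b : ℝ) (f g : ι → ℝ) :
    nv (fun i => a * f i + b * g i) ≤ 2 * (a ^ 2 * nv f + b ^ 2 * nv g) := by
  have h := nv_add_le (fun i => a * f i) (fun i => b * g i)
  rw [nv_smul, nv_smul] at h
  exact h

lemma nv_col {K : Matrix ι ι ℝ} (hK : K.IsSymm) (u : ι) : nv (fun i => K i u) = rn K u :=
  rn_symm hK u

lemma sq_le_of_abs_le {a b : ℝ} (h : |a| ≤ b) : a ^ 2 ≤ b ^ 2 := by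
  have := abs_le.mp h
  nlinarith [abs_nonneg a]

section vec
variable {s : ℝ} {K : Matrix ι ι ℝ} {x y : ι}

lemma nv_al (hs : s ^ 2 = 1) (hK : K.IsSymm) (hg : GoodPair K x y) :
    nv (al s K x y) ≤ 32 * (K y y ^ 2 * rn K x + rn K y) := by
  have h := nv_lin_le (Bxx s K x y) (Bxy s K x y) (fun i => K i x) (fun i => K i y)
  rw [nv_col hK, nv_col hK] at h
  have h1 : Bxx s K x y ^ 2 ≤ 16 * K y y ^ 2 := by
    have := sq_le_of_abs_le (abs_Bxx hs hg)
    rw [mul_pow, sq_abs] at this; linarith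
  have h2 : Bxy s K x y ^ 2 ≤ 16 := by
    have := sq_le_of_abs_le (abs_Bxy hs hg); linarith
  have := mul_le_mul_of_nonneg_right h1 (rn_nonneg K x)
  have := mul_le_mul_of_nonneg_right h2 (rn_nonneg K y)
  have e : nv (al s K x y) = nv (fun i => Bxx s K x y * K i x + Bxy s K x y * K i y) := rfl
  rw [e]; linarith

lemma nv_be (hs : s ^ 2 = 1) (hK : K.IsSymm) (hg : GoodPair K x y) :
    nv (be s K x y) ≤ 32 * (rn K x + K x x ^ 2 * rn K y) := by
  have h := nv_lin_le (Bxy s K x y) (Byy s K x y) (fun i => K i x) (fun i => K i y)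
  rw [nv_col hK, nv_col hK] at h
  have h1 : Byy s K x y ^ 2 ≤ 16 * K x x ^ 2 := by
    have := sq_le_of_abs_le (abs_Byy hs hg)
    rw [mul_pow, sq_abs] at this; linarith
  have h2 : Bxy s K x y ^ 2 ≤ 16 := by
    have := sq_le_of_abs_le (abs_Bxy hs hg); linarith
  have := mul_le_mul_of_nonneg_right h1 (rn_nonneg K y)
  have := mul_le_mul_of_nonneg_right h2 (rn_nonneg K x)
  have e : nv (be s K x y) = nv (fun i => Bxy s K x y * K i x + Byy s K x y * K i y) := rfl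
  rw [e]; linarith

/-- `|al - s k_y|²` -/
lemma nv_al_sub (hs : s ^ 2 = 1) (hK : K.IsSymm) (hg : GoodPair K x y) :
    nv (fun i => al s K x y i - s * K i y)
      ≤ 64 * (K y y ^ 2 * rn K x + (K x y ^ 2 + (K x x * K y y) ^ 2) * rn K y) := by
  have h := nv_lin_le (Bxx s K x y) (Bxy s K x y - s) (fun i => K i x) (fun i => K i y)
  rw [nv_col hK, nv_col hK] at h
  have h1 : Bxx s K x y ^ 2 ≤ 16 * K y y ^ 2 := by
    have := sq_le_of_abs_le (abs_Bxx hs hg)
    rw [mul_pow, sq_abs] at this; linarith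
  have h2 : (Bxy s K x y - s) ^ 2 ≤ 32 * (K x y ^ 2 + (K x x * K y y) ^ 2) := by
    have h3 := sq_le_of_abs_le (abs_Bxy_sub hs hg)
    have h4 : (4 * (|K x y| + |K x x * K y y|)) ^ 2
        ≤ 32 * (|K x y| ^ 2 + |K x x * K y y| ^ 2) := by
      nlinarith [sq_nonneg (|K x y| - |K x x * K y y|)]
    rw [sq_abs, sq_abs] at h4
    linarith
  have := mul_le_mul_of_nonneg_right h1 (rn_nonneg K x)
  have := mul_le_mul_of_nonneg_right h2 (rn_nonneg K y)
  have e : nv (fun i => al s K x y i - s * K i y)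
      = nv (fun i => Bxx s K x y * K i x + (Bxy s K x y - s) * K i y) := by
    unfold nv al
    exact Finset.sum_congr rfl fun i _ => by ring
  rw [e]; linarith [mul_nonneg (sq_nonneg (K y y)) (rn_nonneg K x)]

end vec

/-! ### swapping symmetries -/

lemma Dl_comm {s : ℝ} {K : Matrix ι ι ℝ} (hK : K.IsSymm) (x y : ι) : Dl s K y x = Dl s K x y := by
  rw [Dl, Dl, hK.apply x y]; ring

lemma al_comm {s : ℝ} {K : Matrix ι ι ℝ} (hK : K.IsSymm) (x y i : ι) :
    al s K y x i = be s K x y i := by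
  rw [al, be, Bxx, Bxy, Bxy, Byy, Dl_comm hK, hK.apply x y]; ring

lemma be_comm {s : ℝ} {K : Matrix ι ι ℝ} (hK : K.IsSymm) (x y i : ι) :
    be s K y x i = al s K x y i := by
  rw [← al_comm hK]

lemma GoodPair.swap {K : Matrix ι ι ℝ} (hK : K.IsSymm) {x y : ι} (hg : GoodPair K x y) :
    GoodPair K y x := by
  refine ⟨hg.1.symm, ?_, ?_⟩
  · rw [hK.apply x y]; exact hg.2.1
  · rw [mul_comm]; exact hg.2.2

lemma mulT {K L : Matrix ι ι ℝ} (hK : K.IsSymm) (hL : L.IsSymm) (i j : ι) :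
    (L * K) i j = (K * L) j i := by
  rw [Matrix.mul_apply, Matrix.mul_apply]
  exact Finset.sum_congr rfl fun v _ => by rw [hK.apply j v, hL.apply v i]; ring

lemma Wh_comm {s t : ℝ} {K L : Matrix ι ι ℝ} (hK : K.IsSymm) (hL : L.IsSymm) (x y i j : ι) :
    Wh s t K L y x i j = Wh s t K L x y i j := by
  rw [Wh, Wh, al_comm hK x y i, be_comm hK x y i, al_comm hL x y j, be_comm hL x y j]; ring

lemma Wh_transpose {s t : ℝ} {K L : Matrix ι ι ℝ} (hK : K.IsSymm) (hL : L.IsSymm) (x y i j : ι) :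
    Wh t s L K x y j i = Wh s t K L x y i j := by
  rw [Wh, Wh, mulT hK hL j i, mulT hK hL x i, mulT hK hL y i, mulT hK hL j x, mulT hK hL j y,
    mulT hK hL x x, mulT hK hL x y, mulT hK hL y x, mulT hK hL y y]; ring

/-! ### removing the rows and columns -/

/-- the change before killing the indices -/
noncomputable def Dd (s t : ℝ) (K L : Matrix ι ι ℝ) (x y i j : ι) : ℝ :=
  Wh s t K L x y i j - (K * L) i j

lemma Dd_comm {s t : ℝ} {K L : Matrix ι ι ℝ} (hK : K.IsSymm) (hL : L.IsSymm) (x y i j : ι) :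
    Dd s t K L y x i j = Dd s t K L x y i j := by
  rw [Dd, Dd, Wh_comm hK hL]

lemma Dd_transpose {s t : ℝ} {K L : Matrix ι ι ℝ} (hK : K.IsSymm) (hL : L.IsSymm) (x y i j : ι) :
    Dd t s L K x y j i = Dd s t K L x y i j := by
  rw [Dd, Dd, Wh_transpose hK hL, mulT hK hL]

lemma low_sq {δ X D : ℝ} (hδ : 0 < δ) : (1 - δ) * X ^ 2 - δ⁻¹ * D ^ 2 ≤ (X + D) ^ 2 := by
  have h : 0 ≤ δ⁻¹ * (δ * X + D) ^ 2 := mul_nonneg (inv_nonneg.mpr hδ.le) (sq_nonneg _)
  have e : δ⁻¹ * (δ * X + D) ^ 2 = δ * X ^ 2 + 2 * X * D + δ⁻¹ * D ^ 2 := by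
    field_simp; ring
  nlinarith [sq_nonneg D]

lemma drop_rows {δ : ℝ} (hδ : 0 < δ) (hδ1 : δ ≤ 1) {x y : ι} (hxy : x ≠ y)
    (X D : ι → ι → ℝ) :
    (∑ i, (if i = x ∨ i = y then 0 else
        ∑ j, (if j = x ∨ j = y then 0 else (X i j + D i j) ^ 2)))
      ≤ (∑ i, ∑ j, (X i j + D i j) ^ 2)
        - (1 - δ) * ((∑ j, X x j ^ 2) + (∑ j, X y j ^ 2) + (∑ i, X i x ^ 2) + (∑ i, X i y ^ 2))
        + (X x x ^ 2 + X x y ^ 2 + X y x ^ 2 + X y y ^ 2)
        + δ⁻¹ * ((∑ j, D x j ^ 2) + (∑ j, D y j ^ 2) + (∑ i, D i x ^ 2) + (∑ i, D i y ^ 2)) := by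
  have hδi : 0 ≤ δ⁻¹ := inv_nonneg.mpr hδ.le
  set W : ι → ι → ℝ := fun i j => (X i j + D i j) ^ 2 with hW
  have h1 : (∑ i, (if i = x ∨ i = y then 0 else ∑ j, (if j = x ∨ j = y then 0 else W i j)))
      = (∑ i, ∑ j, W i j) - (∑ i, W i x) - (∑ i, W i y)
        - ((∑ j, W x j) - W x x - W x y) - ((∑ j, W y j) - W y x - W y y) := by
    have e : ∀ i, ∑ j, (if j = x ∨ j = y then 0 else W i j)
        = (∑ j, W i j) - W i x - W i y := fun i => sum_ne x y hxy (fun j => W i j)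
    simp_rw [e]
    rw [sum_ne x y hxy (fun i => (∑ j, W i j) - W i x - W i y)]
    simp only [Finset.sum_sub_distrib]
  -- rows
  have hrow : ∀ u, (1 - δ) * (∑ j, X u j ^ 2) - δ⁻¹ * (∑ j, D u j ^ 2) ≤ ∑ j, W u j := by
    intro u
    rw [Finset.mul_sum, Finset.mul_sum, ← Finset.sum_sub_distrib]
    exact Finset.sum_le_sum fun j _ => low_sq hδ
  -- columns
  have hcol : ∀ u, (1 - δ) * ((∑ i, X i u ^ 2) - X x u ^ 2 - X y u ^ 2) - δ⁻¹ * (∑ i, D i u ^ 2)
      ≤ (∑ i, W i u) - W x u - W y u := by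
    intro u
    have e1 := sum_ne x y hxy (fun i => W i u)
    have e2 := sum_ne x y hxy (fun i => X i u ^ 2)
    rw [← e1, ← e2, Finset.mul_sum, Finset.mul_sum, ← Finset.sum_sub_distrib]
    refine Finset.sum_le_sum fun i _ => ?_
    by_cases hi : i = x ∨ i = y
    · rw [if_pos hi, if_pos hi]
      have := mul_nonneg hδi (sq_nonneg (D i u))
      linarith
    · rw [if_neg hi, if_neg hi]; exact low_sq hδ
  rw [h1]
  have a1 := hrow x
  have a2 := hrow y
  have a3 := hcol x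
  have a4 := hcol y
  have b1 := mul_nonneg hδ.le (sq_nonneg (X x x))
  have b2 := mul_nonneg hδ.le (sq_nonneg (X x y))
  have b3 := mul_nonneg hδ.le (sq_nonneg (X y x))
  have b4 := mul_nonneg hδ.le (sq_nonneg (X y y))
  nlinarith

end Crest.Agent.R62.Cross
end

-- ▼ part R62/CrossC
section

/-!
R62 (helper214): the cross functional — pointwise upper bound of one step, part 2.
-/

set_option autoImplicit false
set_option linter.unusedSectionVars false
set_option linter.unusedVariables false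

open Matrix Finset

namespace Crest.Agent.R62.Cross

open Crest.Agent.R62.Upd Crest.Agent.R62.AvX1

variable {ι : Type*} [Fintype ι] [DecidableEq ι]

/-- `(K X Xᵀ)_uv`, `X = K L`. -/
def Yc (K L : Matrix ι ι ℝ) (u v : ι) : ℝ := ∑ j, (K * (K * L)) u j * (K * L) v j
/-- `(K X L)_uv`. -/
def Zc (K L : Matrix ι ι ℝ) (u v : ι) : ℝ := ∑ j, (K * (K * L)) u j * L v j

lemma form1 {K L : Matrix ι ι ℝ} (hK : K.IsSymm) (u : ι) (g : ι → ℝ) :
    ∑ i, ∑ j, (K * L) i j * (K i u * g j) = ∑ j, (K * (K * L)) u j * g j := by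
  rw [Finset.sum_comm]
  refine Finset.sum_congr rfl fun j _ => ?_
  rw [Matrix.mul_apply (M := K) (N := K * L), Finset.sum_mul]
  exact Finset.sum_congr rfl fun i _ => by rw [hK.apply u i]; ring

lemma form_al {s : ℝ} {K L : Matrix ι ι ℝ} (hK : K.IsSymm) (x y : ι) (g : ι → ℝ) :
    ∑ i, ∑ j, (K * L) i j * (al s K x y i * g j)
      = Bxx s K x y * (∑ j, (K * (K * L)) x j * g j)
        + Bxy s K x y * (∑ j, (K * (K * L)) y j * g j) := by
  rw [← form1 hK x g, ← form1 hK y g, Finset.mul_sum, Finset.mul_sum, ← Finset.sum_add_distrib]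
  refine Finset.sum_congr rfl fun i _ => ?_
  rw [Finset.mul_sum, Finset.mul_sum, ← Finset.sum_add_distrib]
  exact Finset.sum_congr rfl fun j _ => by rw [al]; ring

lemma form_be {s : ℝ} {K L : Matrix ι ι ℝ} (hK : K.IsSymm) (x y : ι) (g : ι → ℝ) :
    ∑ i, ∑ j, (K * L) i j * (be s K x y i * g j)
      = Bxy s K x y * (∑ j, (K * (K * L)) x j * g j)
        + Byy s K x y * (∑ j, (K * (K * L)) y j * g j) := by
  rw [← form1 hK x g, ← form1 hK y g, Finset.mul_sum, Finset.mul_sum, ← Finset.sum_add_distrib]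
  refine Finset.sum_congr rfl fun i _ => ?_
  rw [Finset.mul_sum, Finset.mul_sum, ← Finset.sum_add_distrib]
  exact Finset.sum_congr rfl fun j _ => by rw [be]; ring

/-- first order half -/
noncomputable def h1 (s : ℝ) (K L : Matrix ι ι ℝ) (x y : ι) : ℝ :=
  Bxx s K x y * Yc K L x x + Bxy s K x y * Yc K L y x

/-- the form `⟨X, al ⊗ al'⟩` -/
noncomputable def Faa (s t : ℝ) (K L : Matrix ι ι ℝ) (x y : ι) : ℝ :=
  Bxx s K x y * (Bxx t L x y * Zc K L x x + Bxy t L x y * Zc K L x y)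
    + Bxy s K x y * (Bxx t L x y * Zc K L y x + Bxy t L x y * Zc K L y y)
noncomputable def Fab (s t : ℝ) (K L : Matrix ι ι ℝ) (x y : ι) : ℝ :=
  Bxx s K x y * (Bxy t L x y * Zc K L x x + Byy t L x y * Zc K L x y)
    + Bxy s K x y * (Bxy t L x y * Zc K L y x + Byy t L x y * Zc K L y y)

/-- second order half -/
noncomputable def h2 (s t : ℝ) (K L : Matrix ι ι ℝ) (x y : ι) : ℝ :=
  ((K * L) x x - s * t) * Faa s t K L x y + (K * L) x y * Fab s t K L x y

lemma Bxx_comm {s : ℝ} {K : Matrix ι ι ℝ} (hK : K.IsSymm) (x y : ι) :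
    Bxx s K y x = Byy s K x y := by rw [Bxx, Byy, Dl_comm hK]
lemma Byy_comm {s : ℝ} {K : Matrix ι ι ℝ} (hK : K.IsSymm) (x y : ι) :
    Byy s K y x = Bxx s K x y := by rw [Bxx, Byy, Dl_comm hK]
lemma Bxy_comm {s : ℝ} {K : Matrix ι ι ℝ} (hK : K.IsSymm) (x y : ι) :
    Bxy s K y x = Bxy s K x y := by rw [Bxy, Bxy, Dl_comm hK, hK.apply x y]

lemma sum_al_g {t : ℝ} {K L : Matrix ι ι ℝ} (x y : ι) (w : ι → ℝ) :
    ∑ j, w j * al t L x y j = Bxx t L x y * (∑ j, w j * L j x) + Bxy t L x y * (∑ j, w j * L j y) := by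
  rw [Finset.mul_sum, Finset.mul_sum, ← Finset.sum_add_distrib]
  exact Finset.sum_congr rfl fun j _ => by rw [al]; ring
lemma sum_be_g {t : ℝ} {K L : Matrix ι ι ℝ} (x y : ι) (w : ι → ℝ) :
    ∑ j, w j * be t L x y j = Bxy t L x y * (∑ j, w j * L j x) + Byy t L x y * (∑ j, w j * L j y) := by
  rw [Finset.mul_sum, Finset.mul_sum, ← Finset.sum_add_distrib]
  exact Finset.sum_congr rfl fun j _ => by rw [be]; ring

lemma Zc_eq {K L : Matrix ι ι ℝ} (hL : L.IsSymm) (u v : ι) :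
    ∑ j, (K * (K * L)) u j * L j v = Zc K L u v := by
  rw [Zc]; exact Finset.sum_congr rfl fun j _ => by rw [hL.apply v j]

/-- `⟨X, D⟩` -/
lemma ip_X_D {s t : ℝ} {K L : Matrix ι ι ℝ} (hK : K.IsSymm) (hL : L.IsSymm) (x y : ι) :
    ∑ i, ∑ j, (K * L) i j * Dd s t K L x y i j =
      h1 s K L x y + h1 s K L y x + (h1 t L K x y + h1 t L K y x)
        + (h2 s t K L x y + h2 s t K L y x) := by
  have e0 : ∀ i j, (K * L) i j * Dd s t K L x y i j =
      (K * L) i j * (al s K x y i * (K * L) x j) + (K * L) i j * (be s K x y i * (K * L) y j)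
      + ((L * K) j i * (al t L x y j * (L * K) x i) + (L * K) j i * (be t L x y j * (L * K) y i))
      + (((K * L) x x - s * t) * ((K * L) i j * (al s K x y i * al t L x y j))
        + (K * L) x y * ((K * L) i j * (al s K x y i * be t L x y j))
        + (K * L) y x * ((K * L) i j * (be s K x y i * al t L x y j))
        + ((K * L) y y - s * t) * ((K * L) i j * (be s K x y i * be t L x y j))) := by
    intro i j
    rw [Dd, Wh, mulT hK hL j i, mulT hK hL x i, mulT hK hL y i]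
    ring
  simp_rw [e0]
  simp only [Finset.sum_add_distrib, ← Finset.mul_sum]
  rw [form_al hK, form_be hK, form_al hK, form_al hK, form_be hK, form_be hK]
  have e1 : ∑ i, ∑ j, (L * K) j i * (al t L x y j * (L * K) x i)
      = Bxx t L x y * Yc L K x x + Bxy t L x y * Yc L K y x := by
    rw [Finset.sum_comm, form_al hL]; rfl
  have e2 : ∑ i, ∑ j, (L * K) j i * (be t L x y j * (L * K) y i)
      = Bxy t L x y * Yc L K x y + Byy t L x y * Yc L K y y := by
    rw [Finset.sum_comm, form_be hL]; rfl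
  rw [e1, e2]
  simp only [sum_al_g (K := K), sum_be_g (K := K), Zc_eq hL]
  rw [h1, h1, h1, h1, h2, h2, Faa, Faa, Fab, Fab]
  rw [Bxx_comm hK x y, Bxy_comm hK x y, Bxx_comm hL x y, Bxy_comm hL x y, Byy_comm hL x y]
  simp only [Yc]
  ring

/-- main part of `D` -/
noncomputable def G0 (s t : ℝ) (K L : Matrix ι ι ℝ) (x y : ι) : Matrix ι ι ℝ := fun i j =>
  s * (K i y * (K * L) x j + K i x * (K * L) y j)
    + t * ((K * L) i x * L j y + (K * L) i y * L j x)

lemma fr_rank_one (c : ℝ) (f g : ι → ℝ) :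
    ∑ i, ∑ j, (c * (f i * g j)) ^ 2 = c ^ 2 * (nv f * nv g) := by
  unfold nv
  rw [Finset.sum_mul_sum, Finset.mul_sum]
  refine Finset.sum_congr rfl fun i _ => ?_
  rw [Finset.mul_sum]
  exact Finset.sum_congr rfl fun j _ => by ring

lemma sq_add_le (δ u v : ℝ) (hδ : 0 < δ) :
    (u + v) ^ 2 ≤ (1 + δ) * u ^ 2 + (1 + δ⁻¹) * v ^ 2 := by
  have h : 0 ≤ δ⁻¹ * (δ * u - v) ^ 2 := mul_nonneg (inv_nonneg.mpr hδ.le) (sq_nonneg _)
  have e : δ⁻¹ * (δ * u - v) ^ 2 = δ * u ^ 2 - 2 * u * v + δ⁻¹ * v ^ 2 := by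
    field_simp; ring
  nlinarith

lemma two_sq (a b : ℝ) : (a + b) ^ 2 ≤ 2 * (a ^ 2 + b ^ 2) := by nlinarith [sq_nonneg (a - b)]

lemma eight_sq (a b c d e f g h : ℝ) :
    (a + b + c + d + e + f + g + h) ^ 2
      ≤ 8 * (a ^ 2 + b ^ 2 + c ^ 2 + d ^ 2 + e ^ 2 + f ^ 2 + g ^ 2 + h ^ 2) := by
  have h1 := two_sq (a + b + c + d) (e + f + g + h)
  have h2 := two_sq (a + b) (c + d)
  have h3 := two_sq (e + f) (g + h)
  have h4 := two_sq a b
  have h5 := two_sq c d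
  have h6 := two_sq e f
  have h7 := two_sq g h
  have e1 : a + b + c + d + e + f + g + h = (a + b + c + d) + (e + f + g + h) := by ring
  have e2 : a + b + c + d = (a + b) + (c + d) := by ring
  have e3 : e + f + g + h = (e + f) + (g + h) := by ring
  rw [e1]
  rw [← e2] at h2
  rw [← e3] at h3
  linarith

/-- third half -/
noncomputable def h3 (s : ℝ) (K L : Matrix ι ι ℝ) (x y : ι) : ℝ :=
  nv (fun i => al s K x y i - s * K i y) * rn (K * L) x
/-- fourth half -/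
noncomputable def h4 (s t : ℝ) (K L : Matrix ι ι ℝ) (x y : ι) : ℝ :=
  ((K * L) x x - s * t) ^ 2 * (nv (al s K x y) * nv (al t L x y))
    + (K * L) x y ^ 2 * (nv (al s K x y) * nv (be t L x y))

lemma be_sub_comm {s : ℝ} {K : Matrix ι ι ℝ} (hK : K.IsSymm) (x y : ι) :
    (fun i => be s K x y i - s * K i x) = fun i => al s K y x i - s * K i x := by
  ext i; rw [al_comm hK]

lemma al_fun_comm {s : ℝ} {K : Matrix ι ι ℝ} (hK : K.IsSymm) (x y : ι) :
    al s K y x = be s K x y := by ext i; exact al_comm hK x y i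
lemma be_fun_comm {s : ℝ} {K : Matrix ι ι ℝ} (hK : K.IsSymm) (x y : ι) :
    be s K y x = al s K x y := by ext i; exact be_comm hK x y i

lemma nv_row (A : Matrix ι ι ℝ) (u : ι) : nv (fun j => A u j) = rn A u := rfl

lemma nv_colX {K L : Matrix ι ι ℝ} (hK : K.IsSymm) (hL : L.IsSymm) (u : ι) :
    nv (fun i => (K * L) i u) = rn (L * K) u := by
  unfold nv rn
  exact Finset.sum_congr rfl fun i _ => by rw [mulT hK hL u i]

lemma fr_D_sub {s t : ℝ} {K L : Matrix ι ι ℝ} (hK : K.IsSymm) (hL : L.IsSymm) (x y : ι) :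
    ∑ i, ∑ j, (Dd s t K L x y i j - G0 s t K L x y i j) ^ 2 ≤
      8 * (h3 s K L x y + h3 s K L y x + (h3 t L K x y + h3 t L K y x)
        + (h4 s t K L x y + h4 s t K L y x)) := by
  have e0 : ∀ i j, (Dd s t K L x y i j - G0 s t K L x y i j) ^ 2 ≤
      8 * ((1 * ((al s K x y i - s * K i y) * (K * L) x j)) ^ 2
        + (1 * ((be s K x y i - s * K i x) * (K * L) y j)) ^ 2
        + (1 * ((K * L) i x * (al t L x y j - t * L j y))) ^ 2
        + (1 * ((K * L) i y * (be t L x y j - t * L j x))) ^ 2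
        + (((K * L) x x - s * t) * (al s K x y i * al t L x y j)) ^ 2
        + ((K * L) x y * (al s K x y i * be t L x y j)) ^ 2
        + ((K * L) y x * (be s K x y i * al t L x y j)) ^ 2
        + (((K * L) y y - s * t) * (be s K x y i * be t L x y j)) ^ 2) := by
    intro i j
    have h := eight_sq (1 * ((al s K x y i - s * K i y) * (K * L) x j))
      (1 * ((be s K x y i - s * K i x) * (K * L) y j))
      (1 * ((K * L) i x * (al t L x y j - t * L j y)))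
      (1 * ((K * L) i y * (be t L x y j - t * L j x)))
      (((K * L) x x - s * t) * (al s K x y i * al t L x y j))
      ((K * L) x y * (al s K x y i * be t L x y j))
      ((K * L) y x * (be s K x y i * al t L x y j))
      (((K * L) y y - s * t) * (be s K x y i * be t L x y j))
    refine le_trans (le_of_eq ?_) h
    congr 1
    rw [Dd, Wh, G0]
    ring
  refine (Finset.sum_le_sum fun i _ => Finset.sum_le_sum fun j _ => e0 i j).trans (le_of_eq ?_)
  simp only [← Finset.mul_sum, Finset.sum_add_distrib]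
  rw [fr_rank_one 1 (fun i => al s K x y i - s * K i y) (fun j => (K * L) x j),
    fr_rank_one 1 (fun i => be s K x y i - s * K i x) (fun j => (K * L) y j),
    fr_rank_one 1 (fun i => (K * L) i x) (fun j => al t L x y j - t * L j y),
    fr_rank_one 1 (fun i => (K * L) i y) (fun j => be t L x y j - t * L j x),
    fr_rank_one _ (al s K x y) (al t L x y), fr_rank_one _ (al s K x y) (be t L x y),
    fr_rank_one _ (be s K x y) (al t L x y), fr_rank_one _ (be s K x y) (be t L x y)]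
  rw [nv_row, nv_row, nv_colX hK hL, nv_colX hK hL]
  rw [h3, h3, h3, h3, h4, h4, be_sub_comm hK x y, be_sub_comm hL x y, al_fun_comm hK x y,
    al_fun_comm hL x y, be_fun_comm hL x y]
  ring

/-! ### the rows of `D` -/

lemma six_sq (a b c d e f : ℝ) :
    (a + b + c + d + e + f) ^ 2 ≤ 6 * (a ^ 2 + b ^ 2 + c ^ 2 + d ^ 2 + e ^ 2 + f ^ 2) := by
  nlinarith [sq_nonneg (a - b), sq_nonneg (a - c), sq_nonneg (a - d), sq_nonneg (a - e),
    sq_nonneg (a - f), sq_nonneg (b - c), sq_nonneg (b - d),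
    sq_nonneg (b - e), sq_nonneg (b - f), sq_nonneg (c - d),
    sq_nonneg (c - e), sq_nonneg (c - f), sq_nonneg (d - e),
    sq_nonneg (d - f), sq_nonneg (e - f)]

/-- bound of `∑_j D_xj²` -/
noncomputable def h5 (s t : ℝ) (K L : Matrix ι ι ℝ) (x y : ι) : ℝ :=
  6 * (al s K x y x ^ 2 * rn (K * L) x + be s K x y x ^ 2 * rn (K * L) y
    + (K * L) x x ^ 2 * nv (al t L x y) + (K * L) x y ^ 2 * nv (be t L x y)
    + 2 * (((K * L) x x - s * t) ^ 2 * al s K x y x ^ 2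
        + (K * L) y x ^ 2 * be s K x y x ^ 2) * nv (al t L x y)
    + 2 * ((K * L) x y ^ 2 * al s K x y x ^ 2
        + ((K * L) y y - s * t) ^ 2 * be s K x y x ^ 2) * nv (be t L x y))

lemma row_D {s t : ℝ} {K L : Matrix ι ι ℝ} (x y : ι) :
    ∑ j, Dd s t K L x y x j ^ 2 ≤ h5 s t K L x y := by
  set A := al s K x y x
  set B := be s K x y x
  have e0 : ∀ j, Dd s t K L x y x j ^ 2 ≤
      6 * (A ^ 2 * (K * L) x j ^ 2 + B ^ 2 * (K * L) y j ^ 2
        + (K * L) x x ^ 2 * al t L x y j ^ 2 + (K * L) x y ^ 2 * be t L x y j ^ 2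
        + (2 * (((K * L) x x - s * t) ^ 2 * A ^ 2 + (K * L) y x ^ 2 * B ^ 2)) * al t L x y j ^ 2
        + (2 * ((K * L) x y ^ 2 * A ^ 2 + ((K * L) y y - s * t) ^ 2 * B ^ 2))
          * be t L x y j ^ 2) := by
    intro j
    have h := six_sq (A * (K * L) x j) (B * (K * L) y j) ((K * L) x x * al t L x y j)
      ((K * L) x y * be t L x y j)
      ((((K * L) x x - s * t) * A + (K * L) y x * B) * al t L x y j)
      (((K * L) x y * A + ((K * L) y y - s * t) * B) * be t L x y j)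
    have e1 : Dd s t K L x y x j = A * (K * L) x j + B * (K * L) y j
        + (K * L) x x * al t L x y j + (K * L) x y * be t L x y j
        + (((K * L) x x - s * t) * A + (K * L) y x * B) * al t L x y j
        + ((K * L) x y * A + ((K * L) y y - s * t) * B) * be t L x y j := by
      rw [Dd, Wh]; ring
    rw [e1]
    refine h.trans ?_
    have g1 : (((K * L) x x - s * t) * A + (K * L) y x * B) ^ 2
        ≤ 2 * (((K * L) x x - s * t) ^ 2 * A ^ 2 + (K * L) y x ^ 2 * B ^ 2) := by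
      nlinarith [sq_nonneg (((K * L) x x - s * t) * A - (K * L) y x * B)]
    have g2 : ((K * L) x y * A + ((K * L) y y - s * t) * B) ^ 2
        ≤ 2 * ((K * L) x y ^ 2 * A ^ 2 + ((K * L) y y - s * t) ^ 2 * B ^ 2) := by
      nlinarith [sq_nonneg ((K * L) x y * A - ((K * L) y y - s * t) * B)]
    have g3 := mul_le_mul_of_nonneg_right g1 (sq_nonneg (al t L x y j))
    have g4 := mul_le_mul_of_nonneg_right g2 (sq_nonneg (be t L x y j))
    simp only [mul_pow] at *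
    linarith
  refine (Finset.sum_le_sum fun j _ => e0 j).trans (le_of_eq ?_)
  rw [h5]
  unfold rn nv
  simp only [← Finset.mul_sum, Finset.sum_add_distrib]
  rfl

end Crest.Agent.R62.Cross
end

-- ▼ part R62/CrossD
section

/-!
R62 (helper214): the cross functional — norms and sums of the error terms.
-/

set_option autoImplicit false
set_option linter.unusedSectionVars false
set_option linter.unusedVariables false

open Matrix Finset

namespace Crest.Agent.R62.Cross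

open Crest.Agent.R62.Upd Crest.Agent.R62.AvX1 Crest.Agent.R62.L2P

variable {ι : Type*} [Fintype ι] [DecidableEq ι]

/-! ### the pointwise inequality -/

/-- sum over the two orders and the two signs of the error halves -/
theorem pointwise {s t δ : ℝ} (hs : s ^ 2 = 1) (ht : t ^ 2 = 1) (hδ : 0 < δ) (hδ1 : δ ≤ 1)
    {K L : Matrix ι ι ℝ} (hK : K.IsSymm) (hL : L.IsSymm) {x y : ι}
    (hg : GoodPair K x y) (hg' : GoodPair L x y) :
    fr (upd s K x y * upd t L x y) ≤ fr (K * L)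
      + 2 * (h1 s K L x y + h1 s K L y x + (h1 t L K x y + h1 t L K y x))
      + 2 * (h2 s t K L x y + h2 s t K L y x)
      + (1 + δ) * fr (G0 s t K L x y)
      + (1 + δ⁻¹) * (8 * (h3 s K L x y + h3 s K L y x + (h3 t L K x y + h3 t L K y x)
        + (h4 s t K L x y + h4 s t K L y x)))
      - (1 - δ) * (rn (K * L) x + rn (K * L) y + rn (L * K) x + rn (L * K) y)
      + ((K * L) x x ^ 2 + (K * L) x y ^ 2 + (K * L) y x ^ 2 + (K * L) y y ^ 2)
      + δ⁻¹ * (h5 s t K L x y + h5 s t K L y x + h5 t s L K x y + h5 t s L K y x) := by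
  have hD : Dl s K x y ≠ 0 := by have := Dl_ge hs hg.2.1 hg.2.2; linarith
  have hD' : Dl t L x y ≠ 0 := by have := Dl_ge ht hg'.2.1 hg'.2.2; linarith
  have hδi : 0 ≤ δ⁻¹ := inv_nonneg.mpr hδ.le
  rw [fr_prod hs ht hK hL hg.1 hD hD']
  have e1 : ∀ i j, Wh s t K L x y i j = (K * L) i j + Dd s t K L x y i j := by
    intro i j; rw [Dd]; ring
  simp_rw [e1]
  have h := drop_rows hδ hδ1 hg.1 (fun i j => (K * L) i j) (fun i j => Dd s t K L x y i j)
  refine h.trans ?_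
  -- full square
  have e2 : ∑ i, ∑ j, ((K * L) i j + Dd s t K L x y i j) ^ 2
      = fr (K * L) + 2 * (∑ i, ∑ j, (K * L) i j * Dd s t K L x y i j)
        + ∑ i, ∑ j, Dd s t K L x y i j ^ 2 := by
    unfold fr
    rw [Finset.mul_sum, ← Finset.sum_add_distrib, ← Finset.sum_add_distrib]
    refine Finset.sum_congr rfl fun i _ => ?_
    rw [Finset.mul_sum, ← Finset.sum_add_distrib, ← Finset.sum_add_distrib]
    exact Finset.sum_congr rfl fun j _ => by ring
  have e3 : ∑ i, ∑ j, Dd s t K L x y i j ^ 2 ≤ (1 + δ) * fr (G0 s t K L x y)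
      + (1 + δ⁻¹) * ∑ i, ∑ j, (Dd s t K L x y i j - G0 s t K L x y i j) ^ 2 := by
    unfold fr
    rw [Finset.mul_sum, Finset.mul_sum, ← Finset.sum_add_distrib]
    refine Finset.sum_le_sum fun i _ => ?_
    rw [Finset.mul_sum, Finset.mul_sum, ← Finset.sum_add_distrib]
    refine Finset.sum_le_sum fun j _ => ?_
    have := sq_add_le δ (G0 s t K L x y i j) (Dd s t K L x y i j - G0 s t K L x y i j) hδ
    simpa using this
  have e4 := fr_D_sub (s := s) (t := t) hK hL x y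
  have e5 := mul_le_mul_of_nonneg_left e4 (by linarith : (0 : ℝ) ≤ 1 + δ⁻¹)
  have r1 := row_D (s := s) (t := t) (K := K) (L := L) x y
  have r2 : ∑ j, Dd s t K L x y y j ^ 2 ≤ h5 s t K L y x := by
    have := row_D (s := s) (t := t) (K := K) (L := L) y x
    simpa only [Dd_comm hK hL] using this
  have r3 : ∑ i, Dd s t K L x y i x ^ 2 ≤ h5 t s L K x y := by
    have := row_D (s := t) (t := s) (K := L) (L := K) x y
    simpa only [Dd_transpose hK hL] using this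
  have r4 : ∑ i, Dd s t K L x y i y ^ 2 ≤ h5 t s L K y x := by
    have := row_D (s := t) (t := s) (K := L) (L := K) y x
    simpa only [Dd_transpose hK hL, Dd_comm hK hL] using this
  have r5 := mul_le_mul_of_nonneg_left (add_le_add (add_le_add (add_le_add r1 r2) r3) r4) hδi
  have c1 : ∑ i, (K * L) i x ^ 2 = rn (L * K) x := nv_colX hK hL x
  have c2 : ∑ i, (K * L) i y ^ 2 = rn (L * K) y := nv_colX hK hL y
  rw [e2, ip_X_D hK hL, c1, c2]
  have r6 : rn (K * L) x = ∑ j, (K * L) x j ^ 2 := rfl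
  have r7 : rn (K * L) y = ∑ j, (K * L) y j ^ 2 := rfl
  rw [r6, r7]
  linarith

/-! ### entry bounds -/

lemma sum_mul_sq_le (f g : ι → ℝ) : (∑ j, f j * g j) ^ 2 ≤ (∑ j, f j ^ 2) * ∑ j, g j ^ 2 :=
  Finset.sum_mul_sq_le_sq_mul_sq Finset.univ f g

lemma abs_le_sqrt_mul {a b c : ℝ} (hb : 0 ≤ b) (hc : 0 ≤ c) (h : a ^ 2 ≤ b * c) :
    |a| ≤ Real.sqrt b * Real.sqrt c := by
  rw [← Real.sqrt_mul hb, ← Real.sqrt_sq_eq_abs]
  exact Real.sqrt_le_sqrt h

lemma Yc_le (K L : Matrix ι ι ℝ) (u v : ι) :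
    |Yc K L u v| ≤ Real.sqrt (rn (K * (K * L)) u) * Real.sqrt (rn (K * L) v) :=
  abs_le_sqrt_mul (rn_nonneg _ _) (rn_nonneg _ _) (sum_mul_sq_le _ _)

lemma Zc_le (K L : Matrix ι ι ℝ) (u v : ι) :
    |Zc K L u v| ≤ Real.sqrt (rn (K * (K * L)) u) * Real.sqrt (rn L v) :=
  abs_le_sqrt_mul (rn_nonneg _ _) (rn_nonneg _ _) (sum_mul_sq_le _ _)

/-- `Z(K,L)_uv = Z(L,K)_vu` -/
lemma Zc_comm {K L : Matrix ι ι ℝ} (hK : K.IsSymm) (hL : L.IsSymm) (u v : ι) :
    Zc K L u v = Zc L K v u := by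
  have e1 : Zc K L u v = (K * (K * L) * L) u v := by
    rw [Zc, Matrix.mul_apply (M := K * (K * L))]
    exact Finset.sum_congr rfl fun j _ => by rw [hL.apply v j]
  have e2 : Zc L K v u = (L * (L * K) * K) v u := by
    rw [Zc, Matrix.mul_apply (M := L * (L * K))]
    exact Finset.sum_congr rfl fun j _ => by rw [hK.apply u j]
  rw [e1, e2]
  have e3 : (K * (K * L) * L)ᵀ = L * (L * K) * K := by
    simp only [Matrix.transpose_mul, hK.eq, hL.eq, Matrix.mul_assoc]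
  rw [← e3]; rfl

lemma Zc_le' {K L : Matrix ι ι ℝ} (hK : K.IsSymm) (hL : L.IsSymm) (u v : ι) :
    |Zc K L u v| ≤ Real.sqrt (rn K u) * Real.sqrt (rn (L * (L * K)) v) := by
  rw [Zc_comm hK hL]
  refine (Zc_le L K v u).trans (le_of_eq ?_)
  ring

lemma X_le {K L : Matrix ι ι ℝ} (hL : L.IsSymm) (u v : ι) :
    |(K * L) u v| ≤ Real.sqrt (rn K u) * Real.sqrt (rn L v) := by
  have e : (K * L) u v = ∑ j, K u j * L v j := by
    rw [Matrix.mul_apply]; exact Finset.sum_congr rfl fun j _ => by rw [hL.apply v j]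
  rw [e]
  exact abs_le_sqrt_mul (rn_nonneg _ _) (rn_nonneg _ _) (sum_mul_sq_le _ _)

/-! ### hypotheses -/

/-- one-sided hypotheses (for the pair `K, L`; used also for `L, K`) -/
structure Hy (F : Finset ι) (K L : Matrix ι ι ℝ) (g σ m lam v : ℝ) : Prop where
  hK : K.IsSymm
  hL : L.IsSymm
  g1 : 1 ≤ g
  σ1 : 1 ≤ σ
  v1 : 1 ≤ v
  m0 : 0 ≤ m
  l0 : 0 ≤ lam
  card : (F.card : ℝ) ≤ g ^ 4
  p2 : ∑ x ∈ F, rn K x ^ 2 ≤ g ^ 4
  q2 : ∑ x ∈ F, rn L x ^ 2 ≤ g ^ 4
  ps : ∀ x ∈ F, rn K x ≤ σ ^ 2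
  qs : ∀ x ∈ F, rn L x ≤ σ ^ 2
  vK : ∑ x ∈ F, K x x ^ 2 ≤ v ^ 2
  vL : ∑ x ∈ F, L x x ^ 2 ≤ v ^ 2
  mX : fr (K * L) ≤ m ^ 2
  zK : fr (K * (K * L)) ≤ (lam * m) ^ 2
  zL : fr (L * (L * K)) ≤ (lam * m) ^ 2

lemma fr_comm {K L : Matrix ι ι ℝ} (hK : K.IsSymm) (hL : L.IsSymm) : fr (L * K) = fr (K * L) := by
  unfold fr
  rw [Finset.sum_comm]
  exact Finset.sum_congr rfl fun i _ => Finset.sum_congr rfl fun j _ => by rw [mulT hK hL]

lemma Hy.swap {F : Finset ι} {K L : Matrix ι ι ℝ} {g σ m lam v : ℝ} (h : Hy F K L g σ m lam v) :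
    Hy F L K g σ m lam v where
  hK := h.hL
  hL := h.hK
  g1 := h.g1
  σ1 := h.σ1
  v1 := h.v1
  m0 := h.m0
  l0 := h.l0
  card := h.card
  p2 := h.q2
  q2 := h.p2
  ps := h.qs
  qs := h.ps
  vK := h.vL
  vL := h.vK
  mX := by rw [fr_comm h.hK h.hL]; exact h.mX
  zK := h.zL
  zL := h.zK

lemma lsr_aux {A : Matrix ι ι ℝ} {h : ℝ} (F : Finset ι) (h0 : 0 ≤ h) (hA : fr A ≤ h ^ 2) :
    L2 F (fun x => Real.sqrt (rn A x)) h := by
  refine ⟨h0, le_trans ?_ hA⟩
  have h1 : ∀ x ∈ F, Real.sqrt (rn A x) ^ 2 = rn A x := fun x _ => Real.sq_sqrt (rn_nonneg _ _)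
  rw [Finset.sum_congr rfl h1, ← sum_rn]
  exact Finset.sum_le_sum_of_subset_of_nonneg (Finset.subset_univ _) fun _ _ _ => rn_nonneg _ _

section one
variable {F : Finset ι} {K L : Matrix ι ι ℝ} {g σ m lam v : ℝ} (H : Hy F K L g σ m lam v)
include H

lemma Hy.g0 : 0 ≤ g := by linarith [H.g1]
lemma Hy.v0 : 0 ≤ v := by linarith [H.v1]

lemma Hy.σ0 : 0 ≤ σ := by linarith [H.σ1]

/-- row norm pointwise: `√p_x ≤ σ` -/
lemma Hy.sp_le {x : ι} (hx : x ∈ F) : Real.sqrt (rn K x) ≤ σ := by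
  calc Real.sqrt (rn K x) ≤ Real.sqrt (σ ^ 2) := Real.sqrt_le_sqrt (H.ps x hx)
    _ = σ := Real.sqrt_sq H.σ0

lemma Hy.abs_sp_le {x : ι} (hx : x ∈ F) : |Real.sqrt (rn K x)| ≤ σ := by
  rw [abs_of_nonneg (Real.sqrt_nonneg _)]; exact H.sp_le hx

lemma Hy.kxx_le {x : ι} (hx : x ∈ F) : |K x x| ≤ v := by
  refine abs_le_of_sq_le_sq ?_ H.v0
  exact (Finset.single_le_sum (f := fun x => K x x ^ 2) (fun _ _ => sq_nonneg _) hx).trans H.vK

lemma Hy.lk : L2 F (fun x => K x x) v := ⟨H.v0, H.vK⟩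

lemma Hy.lone : L2 F (fun _ => (1 : ℝ)) (g ^ 2) := by
  refine ⟨by positivity, ?_⟩
  simp only [one_pow, Finset.sum_const, nsmul_eq_mul, mul_one]
  rw [← pow_mul]; exact H.card

lemma Hy.lp : L2 F (fun x => rn K x) (g ^ 2) :=
  ⟨by positivity, by rw [← pow_mul]; exact H.p2⟩

lemma Hy.lsp : L2 F (fun x => Real.sqrt (rn K x)) (g ^ 2) := by
  refine ⟨by positivity, ?_⟩
  have h1 : ∀ x ∈ F, Real.sqrt (rn K x) ^ 2 = |rn K x| * |(1 : ℝ)| := by
    intro x _
    rw [Real.sq_sqrt (rn_nonneg _ _), abs_one, mul_one, abs_of_nonneg (rn_nonneg _ _)]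
  rw [Finset.sum_congr rfl h1]
  refine (H.lp.sum_mul H.lone).trans (le_of_eq (by ring))

lemma Hy.lsr : L2 F (fun x => Real.sqrt (rn (K * L) x)) m := lsr_aux F H.m0 H.mX

lemma Hy.lsz : L2 F (fun x => Real.sqrt (rn (K * (K * L)) x)) (lam * m) :=
  lsr_aux F (mul_nonneg H.l0 H.m0) H.zK

/-- diagonal of `X` -/
lemma Hy.lX : L2 F (fun x => (K * L) x x) (g ^ 2) := by
  have h1 : L2 F (fun x => Real.sqrt (rn K x) * Real.sqrt (rn L x)) (g ^ 2) := by
    refine ⟨by positivity, ?_⟩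
    have e : ∀ x ∈ F, (Real.sqrt (rn K x) * Real.sqrt (rn L x)) ^ 2 = |rn K x| * |rn L x| := by
      intro x _
      rw [mul_pow, Real.sq_sqrt (rn_nonneg _ _), Real.sq_sqrt (rn_nonneg _ _),
        abs_of_nonneg (rn_nonneg _ _), abs_of_nonneg (rn_nonneg _ _)]
    rw [Finset.sum_congr rfl e]
    exact (H.lp.sum_mul H.swap.lp).trans (le_of_eq (by ring))
  refine h1.of_abs_le fun x _ => ?_
  rw [abs_mul, abs_of_nonneg (Real.sqrt_nonneg _), abs_of_nonneg (Real.sqrt_nonneg _)]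
  exact X_le H.hL x x

/-- `|X_xx| + 1` -/
lemma Hy.lX1 : L2 F (fun x => |(K * L) x x| + 1) (2 * g ^ 2) :=
  (H.lX.abs.add H.lone).mono (by linarith)

end one

/-! ### pair norms -/

section pairs
variable {F : Finset ι} {S : Finset (ι × ι)} {K L : Matrix ι ι ℝ} {g σ m lam v : ℝ}

lemma sum_le_prod {S : Finset (ι × ι)} {f U W : ι × ι → ℝ} {a b : ℝ} (hU : L2 S U a)
    (hW : L2 S W b) (hf : ∀ p ∈ S, f p ≤ |U p| * |W p|) : ∑ p ∈ S, f p ≤ a * b :=
  (Finset.sum_le_sum hf).trans (hU.sum_mul hW)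

/-- weighted rows: `A_xy w_x` -/
lemma L2row {A : Matrix ι ι ℝ} {w : ι → ℝ} {h : ℝ} (hS : S ⊆ F ×ˢ F)
    (hw : L2 F (fun x => Real.sqrt (rn A x) * w x) h) : L2 S (fun p => A p.1 p.2 * w p.1) h := by
  refine L2.subset (T := F ×ˢ F) ⟨hw.1, le_trans ?_ hw.2⟩ hS
  rw [Finset.sum_product]
  refine Finset.sum_le_sum fun x _ => ?_
  simp only [mul_pow, ← Finset.sum_mul]
  rw [Real.sq_sqrt (rn_nonneg _ _)]
  refine mul_le_mul_of_nonneg_right ?_ (sq_nonneg _)
  exact Finset.sum_le_sum_of_subset_of_nonneg (Finset.subset_univ _) fun _ _ _ => sq_nonneg _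

/-- weighted columns: `A_xy w_y`, `A'` the transpose of `A` -/
lemma L2col {A A' : Matrix ι ι ℝ} (hA : ∀ i j, A i j = A' j i) {w : ι → ℝ} {h : ℝ}
    (hS : S ⊆ F ×ˢ F) (hw : L2 F (fun x => Real.sqrt (rn A' x) * w x) h) :
    L2 S (fun p => A p.1 p.2 * w p.2) h := by
  refine L2.subset (T := F ×ˢ F) ⟨hw.1, le_trans ?_ hw.2⟩ hS
  rw [Finset.sum_product_right]
  refine Finset.sum_le_sum fun y _ => ?_
  simp only [mul_pow, ← Finset.sum_mul]
  rw [Real.sq_sqrt (rn_nonneg _ _)]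
  refine mul_le_mul_of_nonneg_right ?_ (sq_nonneg _)
  simp only [hA]
  exact Finset.sum_le_sum_of_subset_of_nonneg (Finset.subset_univ _) fun _ _ _ => sq_nonneg _

end pairs

end Crest.Agent.R62.Cross
end

-- ▼ part R62/CrossE
section

/-!
R62 (helper214): the cross functional — sums of the error terms.
-/

set_option autoImplicit false
set_option linter.unusedSectionVars false
set_option linter.unusedVariables false

open Matrix Finset

namespace Crest.Agent.R62.Cross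

open Crest.Agent.R62.Upd Crest.Agent.R62.AvX1 Crest.Agent.R62.L2P

variable {ι : Type*} [Fintype ι] [DecidableEq ι]

lemma mono {g v : ℝ} (g1 : 1 ≤ g) (v1 : 1 ≤ v) {a b : ℕ} (c d : ℕ) (hac : a ≤ c) (hbd : b ≤ d)
    {r : ℝ} (hr : 0 ≤ r) : g ^ a * v ^ b * r ≤ g ^ c * v ^ d * r := by
  have g0 : 0 ≤ g := by linarith
  have v0 : 0 ≤ v := by linarith
  exact mul_le_mul_of_nonneg_right (mul_le_mul (pow_le_pow_right₀ g1 hac)
    (pow_le_pow_right₀ v1 hbd) (pow_nonneg v0 _) (pow_nonneg g0 _)) hr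

/-! ### first order half -/

/-- error of `h1` -/
def h1err (K L : Matrix ι ι ℝ) (x y : ι) : ℝ :=
  |K y y| * |Yc K L x x| + (|K x y| + |K x x * K y y|) * |Yc K L y x|

lemma h1_sub {s : ℝ} (hs : s ^ 2 = 1) {K L : Matrix ι ι ℝ} {x y : ι} (hg : GoodPair K x y) :
    |h1 s K L x y - s * Yc K L y x| ≤ 4 * h1err K L x y := by
  have e : h1 s K L x y - s * Yc K L y x
      = Bxx s K x y * Yc K L x x + (Bxy s K x y - s) * Yc K L y x := by rw [h1]; ring
  rw [e, h1err]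
  refine (abs_add_le _ _).trans ?_
  rw [abs_mul, abs_mul]
  have a1 := mul_le_mul_of_nonneg_right (abs_Bxx hs hg) (abs_nonneg (Yc K L x x))
  have a2 := mul_le_mul_of_nonneg_right (abs_Bxy_sub hs hg) (abs_nonneg (Yc K L y x))
  linarith

section sums
variable {F : Finset ι} {S : Finset (ι × ι)} {K L : Matrix ι ι ℝ} {g σ m lam v : ℝ}

/-- `K_xy` on pairs -/
lemma Hy.pK (H : Hy F K L g σ m lam v) (hS : S ⊆ F ×ˢ F) :
    L2 S (fun p => K p.1 p.2) (g ^ 2) := by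
  have h := L2row (A := K) (w := fun _ => 1) hS (by simpa using H.lsp)
  simpa using h

/-- `X_xy` on pairs -/
lemma Hy.pX (H : Hy F K L g σ m lam v) (hS : S ⊆ F ×ˢ F) :
    L2 S (fun p => (K * L) p.1 p.2) m := by
  have h := L2row (A := K * L) (w := fun _ => 1) hS (by simpa using H.lsr)
  simpa using h

lemma sum_h1err (H : Hy F K L g σ m lam v) (hS : S ⊆ F ×ˢ F) :
    ∑ p ∈ S, h1err K L p.1 p.2 ≤ 3 * (g ^ 2 * v ^ 2 * (lam * m ^ 2)) := by
  have g0 := H.g0
  have v0 := H.v0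
  have hzk := L2.tensor H.lsz H.lk hS
  have hr1 := L2.tensor H.lsr H.lone hS
  have hrz := L2.tensor H.lsr H.lsz hS
  have hkk := L2.tensor H.lk H.lk hS
  have hK := H.pK hS
  have t1 : ∑ p ∈ S, |K p.2 p.2| * |Yc K L p.1 p.1| ≤ (lam * m * v) * (m * g ^ 2) := by
    refine sum_le_prod hzk hr1 fun p _ => ?_
    have h := Yc_le K L p.1 p.1
    have h2 := mul_le_mul_of_nonneg_left h (abs_nonneg (K p.2 p.2))
    refine h2.trans (le_of_eq ?_)
    rw [abs_mul, abs_mul, abs_one, abs_of_nonneg (Real.sqrt_nonneg (rn (K * (K * L)) p.1)),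
      abs_of_nonneg (Real.sqrt_nonneg (rn (K * L) p.1))]
    ring
  have t2 : ∑ p ∈ S, |K p.1 p.2| * |Yc K L p.2 p.1| ≤ g ^ 2 * (m * (lam * m)) := by
    refine sum_le_prod hK hrz fun p _ => ?_
    refine mul_le_mul_of_nonneg_left ?_ (abs_nonneg _)
    refine (Yc_le K L p.2 p.1).trans (le_of_eq ?_)
    rw [abs_mul, abs_of_nonneg (Real.sqrt_nonneg _), abs_of_nonneg (Real.sqrt_nonneg _)]
    ring
  have t3 : ∑ p ∈ S, |K p.1 p.1 * K p.2 p.2| * |Yc K L p.2 p.1| ≤ (v * v) * (m * (lam * m)) := by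
    refine sum_le_prod hkk hrz fun p _ => ?_
    refine mul_le_mul_of_nonneg_left ?_ (abs_nonneg _)
    refine (Yc_le K L p.2 p.1).trans (le_of_eq ?_)
    rw [abs_mul, abs_of_nonneg (Real.sqrt_nonneg _), abs_of_nonneg (Real.sqrt_nonneg _)]
    ring
  have e : ∑ p ∈ S, h1err K L p.1 p.2 = ∑ p ∈ S, |K p.2 p.2| * |Yc K L p.1 p.1|
      + ∑ p ∈ S, |K p.1 p.2| * |Yc K L p.2 p.1|
      + ∑ p ∈ S, |K p.1 p.1 * K p.2 p.2| * |Yc K L p.2 p.1| := by
    rw [← Finset.sum_add_distrib, ← Finset.sum_add_distrib]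
    exact Finset.sum_congr rfl fun p _ => by rw [h1err]; ring
  rw [e]
  have hlm : 0 ≤ lam * m ^ 2 := mul_nonneg H.l0 (sq_nonneg _)
  have c1 := mono H.g1 H.v1 (a := 2) (b := 1) 2 2 (by norm_num) (by norm_num) hlm
  have c2 := mono H.g1 H.v1 (a := 2) (b := 0) 2 2 (by norm_num) (by norm_num) hlm
  have c3 := mono H.g1 H.v1 (a := 0) (b := 2) 2 2 (by norm_num) (by norm_num) hlm
  linarith

end sums

/-! ### second order half -/

lemma abs_mul_le {a b A B : ℝ} (ha : |a| ≤ A) (hb : |b| ≤ B) : |a * b| ≤ A * B := by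
  rw [abs_mul]
  exact mul_le_mul ha hb (abs_nonneg _) ((abs_nonneg _).trans ha)

/-- error of `h2` -/
def h2err (K L : Matrix ι ι ℝ) (x y : ι) : ℝ :=
  (|(K * L) x x| + 1) * (|K y y * L y y| * |Zc K L x x| + |K y y| * |Zc K L x y|
      + |L y y| * |Zc K L y x|
      + (|K x y| + |K x x * K y y| + (|L x y| + |L x x * L y y|)) * |Zc K L y y|)
    + |(K * L) x y| * (|K y y| * |Zc K L x x| + |K y y * L x x| * |Zc K L x y|
      + |Zc K L y x| + |L x x| * |Zc K L y y|)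

lemma h2_sub {s t : ℝ} (hs : s ^ 2 = 1) (ht : t ^ 2 = 1) {K L : Matrix ι ι ℝ} {x y : ι}
    (hg : GoodPair K x y) (hg' : GoodPair L x y) :
    |h2 s t K L x y - s * t * (((K * L) x x - s * t) * Zc K L y y)| ≤ 16 * h2err K L x y := by
  have a1 := abs_Bxx hs hg
  have a2 := abs_Bxy hs hg
  have a3 := abs_Bxy_sub hs hg
  have b1 := abs_Bxx ht hg'
  have b2 := abs_Bxy ht hg'
  have b3 := abs_Bxy_sub ht hg'
  have b4 := abs_Byy ht hg'
  have hst : |s * t| = 1 := by rw [abs_mul, abs_s hs, abs_s ht, one_mul]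
  -- the form `Faa`
  have f1 : |Faa s t K L x y - s * t * Zc K L y y|
      ≤ 16 * (|K y y * L y y| * |Zc K L x x| + |K y y| * |Zc K L x y|
      + |L y y| * |Zc K L y x|
      + (|K x y| + |K x x * K y y| + (|L x y| + |L x x * L y y|)) * |Zc K L y y|) := by
    have e : Faa s t K L x y - s * t * Zc K L y y
        = (Bxx s K x y * Bxx t L x y) * Zc K L x x + (Bxx s K x y * Bxy t L x y) * Zc K L x y
          + (Bxy s K x y * Bxx t L x y) * Zc K L y x
          + ((Bxy s K x y - s) * Bxy t L x y + s * (Bxy t L x y - t)) * Zc K L y y := by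
      rw [Faa]; ring
    rw [e]
    refine (abs_add_le _ _).trans ?_
    have c1 : |(Bxx s K x y * Bxx t L x y) * Zc K L x x + (Bxx s K x y * Bxy t L x y) * Zc K L x y
          + (Bxy s K x y * Bxx t L x y) * Zc K L y x|
        ≤ |(Bxx s K x y * Bxx t L x y) * Zc K L x x| + |(Bxx s K x y * Bxy t L x y) * Zc K L x y|
          + |(Bxy s K x y * Bxx t L x y) * Zc K L y x| :=
      (abs_add_le _ _).trans (add_le_add_left (abs_add_le _ _) _)
    have d1 : |(Bxx s K x y * Bxx t L x y) * Zc K L x x|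
        ≤ 16 * (|K y y * L y y| * |Zc K L x x|) := by
      rw [abs_mul]
      have := abs_mul_le a1 b1
      have h := mul_le_mul_of_nonneg_right this (abs_nonneg (Zc K L x x))
      rw [abs_mul (K y y)]
      linarith
    have d2 : |(Bxx s K x y * Bxy t L x y) * Zc K L x y| ≤ 16 * (|K y y| * |Zc K L x y|) := by
      rw [abs_mul]
      have := abs_mul_le a1 b2
      have h := mul_le_mul_of_nonneg_right this (abs_nonneg (Zc K L x y))
      linarith
    have d3 : |(Bxy s K x y * Bxx t L x y) * Zc K L y x| ≤ 16 * (|L y y| * |Zc K L y x|) := by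
      rw [abs_mul]
      have := abs_mul_le a2 b1
      have h := mul_le_mul_of_nonneg_right this (abs_nonneg (Zc K L y x))
      linarith
    have d4 : |((Bxy s K x y - s) * Bxy t L x y + s * (Bxy t L x y - t)) * Zc K L y y|
        ≤ 16 * ((|K x y| + |K x x * K y y| + (|L x y| + |L x x * L y y|)) * |Zc K L y y|) := by
      rw [abs_mul]
      have g1 := abs_mul_le a3 b2
      have g2 : |s * (Bxy t L x y - t)| ≤ 4 * (|L x y| + |L x x * L y y|) := by
        rw [abs_mul, abs_s hs, one_mul]; exact b3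
      have g3 := abs_add_le ((Bxy s K x y - s) * Bxy t L x y) (s * (Bxy t L x y - t))
      have g4 : |(Bxy s K x y - s) * Bxy t L x y + s * (Bxy t L x y - t)|
          ≤ 16 * (|K x y| + |K x x * K y y| + (|L x y| + |L x x * L y y|)) := by
        have := abs_nonneg (L x y)
        have := abs_nonneg (L x x * L y y)
        linarith
      have h := mul_le_mul_of_nonneg_right g4 (abs_nonneg (Zc K L y y))
      linarith
    linarith
  have f2 : |Fab s t K L x y|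
      ≤ 16 * (|K y y| * |Zc K L x x| + |K y y * L x x| * |Zc K L x y|
      + |Zc K L y x| + |L x x| * |Zc K L y y|) := by
    have e : Fab s t K L x y
        = (Bxx s K x y * Bxy t L x y) * Zc K L x x + (Bxx s K x y * Byy t L x y) * Zc K L x y
          + (Bxy s K x y * Bxy t L x y) * Zc K L y x
          + (Bxy s K x y * Byy t L x y) * Zc K L y y := by
      rw [Fab]; ring
    rw [e]
    refine (abs_add_le _ _).trans ?_
    have c1 : |(Bxx s K x y * Bxy t L x y) * Zc K L x x + (Bxx s K x y * Byy t L x y) * Zc K L x y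
          + (Bxy s K x y * Bxy t L x y) * Zc K L y x|
        ≤ |(Bxx s K x y * Bxy t L x y) * Zc K L x x| + |(Bxx s K x y * Byy t L x y) * Zc K L x y|
          + |(Bxy s K x y * Bxy t L x y) * Zc K L y x| :=
      (abs_add_le _ _).trans (add_le_add_left (abs_add_le _ _) _)
    have d1 : |(Bxx s K x y * Bxy t L x y) * Zc K L x x| ≤ 16 * (|K y y| * |Zc K L x x|) := by
      rw [abs_mul]
      have h := mul_le_mul_of_nonneg_right (abs_mul_le a1 b2) (abs_nonneg (Zc K L x x))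
      linarith
    have d2 : |(Bxx s K x y * Byy t L x y) * Zc K L x y|
        ≤ 16 * (|K y y * L x x| * |Zc K L x y|) := by
      rw [abs_mul]
      have h := mul_le_mul_of_nonneg_right (abs_mul_le a1 b4) (abs_nonneg (Zc K L x y))
      rw [abs_mul (K y y)]
      linarith
    have d3 : |(Bxy s K x y * Bxy t L x y) * Zc K L y x| ≤ 16 * |Zc K L y x| := by
      rw [abs_mul]
      have h := mul_le_mul_of_nonneg_right (abs_mul_le a2 b2) (abs_nonneg (Zc K L y x))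
      linarith
    have d4 : |(Bxy s K x y * Byy t L x y) * Zc K L y y| ≤ 16 * (|L x x| * |Zc K L y y|) := by
      rw [abs_mul]
      have h := mul_le_mul_of_nonneg_right (abs_mul_le a2 b4) (abs_nonneg (Zc K L y y))
      linarith
    linarith
  have e : h2 s t K L x y - s * t * (((K * L) x x - s * t) * Zc K L y y)
      = ((K * L) x x - s * t) * (Faa s t K L x y - s * t * Zc K L y y)
        + (K * L) x y * Fab s t K L x y := by rw [h2]; ring
  rw [e]
  refine (abs_add_le _ _).trans ?_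
  have g1 : |(K * L) x x - s * t| ≤ |(K * L) x x| + 1 := by
    have := abs_sub (( K * L) x x) (s * t)
    rw [hst] at this; exact this
  have g2 := abs_mul_le g1 f1
  have g3 := abs_mul_le (le_refl |(K * L) x y|) f2
  rw [h2err]
  linarith

end Crest.Agent.R62.Cross
end

-- ▼ part R62/CrossF
section

/-!
R62 (helper214): the cross functional — sum of the second order error.
-/

set_option autoImplicit false
set_option linter.unusedSectionVars false
set_option linter.unusedVariables false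

open Matrix Finset

namespace Crest.Agent.R62.Cross

open Crest.Agent.R62.Upd Crest.Agent.R62.AvX1 Crest.Agent.R62.L2P

variable {ι : Type*} [Fintype ι] [DecidableEq ι]

section sums2
variable {F : Finset ι} {S : Finset (ι × ι)} {K L : Matrix ι ι ℝ} {g σ m lam v : ℝ}

/-- `√p` times something with known norm -/
lemma Hy.mul_sp (H : Hy F K L g σ m lam v) {f : ι → ℝ} {h : ℝ} (hf : L2 F f h) :
    L2 F (fun x => Real.sqrt (rn K x) * f x) (σ * h) :=
  hf.mul_bdd H.σ0 fun x hx => H.abs_sp_le hx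

lemma Hy.mul_k (H : Hy F K L g σ m lam v) {f : ι → ℝ} {h : ℝ} (hf : L2 F f h) :
    L2 F (fun x => K x x * f x) (v * h) :=
  hf.mul_bdd H.v0 fun x hx => H.kxx_le hx

/-- `K_xy √q_y` on pairs -/
lemma Hy.pKq (H : Hy F K L g σ m lam v) (hS : S ⊆ F ×ˢ F) :
    L2 S (fun p => K p.1 p.2 * Real.sqrt (rn L p.2)) (g ^ 2) := by
  refine L2col (A' := K) (w := fun y => Real.sqrt (rn L y)) (fun i j => (H.hK.apply i j).symm) hS ?_
  refine ⟨by positivity, ?_⟩
  have e : ∀ x ∈ F, (Real.sqrt (rn K x) * Real.sqrt (rn L x)) ^ 2 = |rn K x| * |rn L x| := by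
    intro x _
    rw [mul_pow, Real.sq_sqrt (rn_nonneg _ _), Real.sq_sqrt (rn_nonneg _ _),
      abs_of_nonneg (rn_nonneg _ _), abs_of_nonneg (rn_nonneg _ _)]
  rw [Finset.sum_congr rfl e]
  exact (H.lp.sum_mul H.swap.lp).trans (le_of_eq (by ring))

/-- `L_xy √q_y` on pairs -/
lemma Hy.pLq (H : Hy F K L g σ m lam v) (hS : S ⊆ F ×ˢ F) :
    L2 S (fun p => L p.1 p.2 * Real.sqrt (rn L p.2)) (g ^ 2) := by
  refine L2col (A' := L) (w := fun y => Real.sqrt (rn L y)) (fun i j => (H.hL.apply i j).symm) hS ?_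
  refine ⟨by positivity, ?_⟩
  have e : ∀ x ∈ F, (Real.sqrt (rn L x) * Real.sqrt (rn L x)) ^ 2 = |rn L x| * |rn L x| := by
    intro x _
    rw [mul_pow, Real.sq_sqrt (rn_nonneg _ _), abs_of_nonneg (rn_nonneg _ _)]
  rw [Finset.sum_congr rfl e]
  exact (H.swap.lp.sum_mul H.swap.lp).trans (le_of_eq (by ring))

/-- `X_xy √q_x` on pairs -/
lemma Hy.pXq (H : Hy F K L g σ m lam v) (hS : S ⊆ F ×ˢ F) :
    L2 S (fun p => (K * L) p.1 p.2 * Real.sqrt (rn L p.1)) (σ * m) := by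
  refine L2row (A := K * L) (w := fun y => Real.sqrt (rn L y)) hS ?_
  refine (H.swap.mul_sp H.lsr).congr fun x _ => ?_
  ring

/-- `X_xy √p_y` on pairs -/
lemma Hy.pXp (H : Hy F K L g σ m lam v) (hS : S ⊆ F ×ˢ F) :
    L2 S (fun p => (K * L) p.1 p.2 * Real.sqrt (rn K p.2)) (σ * m) := by
  refine L2col (A' := L * K) (w := fun y => Real.sqrt (rn K y)) (fun i j => (mulT H.hK H.hL j i).symm) hS ?_
  refine (H.mul_sp H.swap.lsr).congr fun x _ => ?_
  ring

/-- `(|X_xx| + 1) √q_x` -/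
lemma Hy.lX1q (H : Hy F K L g σ m lam v) :
    L2 F (fun x => Real.sqrt (rn L x) * (|(K * L) x x| + 1)) (σ * (2 * g ^ 2)) :=
  H.swap.mul_sp H.lX1

lemma sum_h2err (H : Hy F K L g σ m lam v) (hS : S ⊆ F ×ˢ F) :
    ∑ p ∈ S, h2err K L p.1 p.2 ≤
      8 * (g ^ 4 * v * (lam * m)) + 6 * (g ^ 2 * σ * v ^ 2 * (lam * m))
        + 2 * (g ^ 2 * v ^ 2 * (lam * m ^ 2)) + 2 * (σ * v * (lam * m ^ 2)) := by
  have g0 := H.g0
  have v0 := H.v0
  have hlm : 0 ≤ lam * m := mul_nonneg H.l0 H.m0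
  have hlm2 : 0 ≤ lam * m ^ 2 := mul_nonneg H.l0 (sq_nonneg _)
  have sn : ∀ a : ℝ, |Real.sqrt a| = Real.sqrt a := fun a => abs_of_nonneg (Real.sqrt_nonneg a)
  have an : ∀ x : ι, |(|(K * L) x x| + 1)| = |(K * L) x x| + 1 := fun x =>
    abs_of_nonneg (by positivity)
  have hX1 := H.lX1
  have hz := H.lsz
  have hz' := H.swap.lsz
  -- (1)
  have t1 : ∑ p ∈ S, (|(K * L) p.1 p.1| + 1) * (|K p.2 p.2 * L p.2 p.2| * |Zc K L p.1 p.1|)
      ≤ (lam * m * v) * ((σ * (2 * g ^ 2)) * v) := by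
    refine sum_le_prod (L2.tensor hz H.lk hS) (L2.tensor H.lX1q H.swap.lk hS) fun p _ => ?_
    have h := mul_le_mul_of_nonneg_left (mul_le_mul_of_nonneg_left (Zc_le K L p.1 p.1)
      (abs_nonneg (K p.2 p.2 * L p.2 p.2))) (by positivity : 0 ≤ |(K * L) p.1 p.1| + 1)
    refine h.trans (le_of_eq ?_)
    simp only [abs_mul, sn, an]
    ring
  -- (2)
  have t2 : ∑ p ∈ S, (|(K * L) p.1 p.1| + 1) * (|K p.2 p.2| * |Zc K L p.1 p.2|)
      ≤ ((2 * g ^ 2) * v) * ((lam * m) * g ^ 2) := by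
    refine sum_le_prod (L2.tensor hX1 H.lk hS) (L2.tensor hz H.swap.lsp hS) fun p _ => ?_
    have h := mul_le_mul_of_nonneg_left (mul_le_mul_of_nonneg_left (Zc_le K L p.1 p.2)
      (abs_nonneg (K p.2 p.2))) (by positivity : 0 ≤ |(K * L) p.1 p.1| + 1)
    refine h.trans (le_of_eq ?_)
    simp only [abs_mul, sn, an]
    ring
  -- (3)
  have t3 : ∑ p ∈ S, (|(K * L) p.1 p.1| + 1) * (|L p.2 p.2| * |Zc K L p.2 p.1|)
      ≤ ((2 * g ^ 2) * v) * ((lam * m) * g ^ 2) := by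
    refine sum_le_prod (L2.tensor hX1 H.swap.lk hS) (L2.tensor hz' H.lsp hS) fun p _ => ?_
    have h := mul_le_mul_of_nonneg_left (mul_le_mul_of_nonneg_left (Zc_le' H.hK H.hL p.2 p.1)
      (abs_nonneg (L p.2 p.2))) (by positivity : 0 ≤ |(K * L) p.1 p.1| + 1)
    refine h.trans (le_of_eq ?_)
    simp only [abs_mul, sn, an]
    ring
  -- (4)
  have t4 : ∑ p ∈ S, (|(K * L) p.1 p.1| + 1) * (|K p.1 p.2| * |Zc K L p.2 p.2|)
      ≤ ((2 * g ^ 2) * (lam * m)) * g ^ 2 := by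
    refine sum_le_prod (L2.tensor hX1 hz hS) (H.pKq hS) fun p _ => ?_
    have h := mul_le_mul_of_nonneg_left (mul_le_mul_of_nonneg_left (Zc_le K L p.2 p.2)
      (abs_nonneg (K p.1 p.2))) (by positivity : 0 ≤ |(K * L) p.1 p.1| + 1)
    refine h.trans (le_of_eq ?_)
    simp only [abs_mul, sn, an]
    ring
  -- (5)
  have t5 : ∑ p ∈ S, (|(K * L) p.1 p.1| + 1) * (|L p.1 p.2| * |Zc K L p.2 p.2|)
      ≤ ((2 * g ^ 2) * (lam * m)) * g ^ 2 := by
    refine sum_le_prod (L2.tensor hX1 hz hS) (H.pLq hS) fun p _ => ?_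
    have h := mul_le_mul_of_nonneg_left (mul_le_mul_of_nonneg_left (Zc_le K L p.2 p.2)
      (abs_nonneg (L p.1 p.2))) (by positivity : 0 ≤ |(K * L) p.1 p.1| + 1)
    refine h.trans (le_of_eq ?_)
    simp only [abs_mul, sn, an]
    ring
  -- (6)
  have t6 : ∑ p ∈ S, (|(K * L) p.1 p.1| + 1) * (|K p.1 p.1 * K p.2 p.2| * |Zc K L p.2 p.2|)
      ≤ ((2 * g ^ 2) * (lam * m)) * (v * (σ * v)) := by
    refine sum_le_prod (L2.tensor hX1 hz hS) (L2.tensor H.lk (H.swap.mul_sp H.lk) hS) fun p _ => ?_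
    have h := mul_le_mul_of_nonneg_left (mul_le_mul_of_nonneg_left (Zc_le K L p.2 p.2)
      (abs_nonneg (K p.1 p.1 * K p.2 p.2))) (by positivity : 0 ≤ |(K * L) p.1 p.1| + 1)
    refine h.trans (le_of_eq ?_)
    simp only [abs_mul, sn, an]
    ring
  -- (7)
  have t7 : ∑ p ∈ S, (|(K * L) p.1 p.1| + 1) * (|L p.1 p.1 * L p.2 p.2| * |Zc K L p.2 p.2|)
      ≤ ((2 * g ^ 2) * (lam * m)) * (v * (σ * v)) := by
    refine sum_le_prod (L2.tensor hX1 hz hS)
      (L2.tensor H.swap.lk (H.swap.mul_sp H.swap.lk) hS) fun p _ => ?_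
    have h := mul_le_mul_of_nonneg_left (mul_le_mul_of_nonneg_left (Zc_le K L p.2 p.2)
      (abs_nonneg (L p.1 p.1 * L p.2 p.2))) (by positivity : 0 ≤ |(K * L) p.1 p.1| + 1)
    refine h.trans (le_of_eq ?_)
    simp only [abs_mul, sn, an]
    ring
  -- (8)
  have t8 : ∑ p ∈ S, |(K * L) p.1 p.2| * (|K p.2 p.2| * |Zc K L p.1 p.1|)
      ≤ (σ * m) * ((lam * m) * v) := by
    refine sum_le_prod (H.pXq hS) (L2.tensor hz H.lk hS) fun p _ => ?_
    have h := mul_le_mul_of_nonneg_left (mul_le_mul_of_nonneg_left (Zc_le K L p.1 p.1)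
      (abs_nonneg (K p.2 p.2))) (abs_nonneg ((K * L) p.1 p.2))
    refine h.trans (le_of_eq ?_)
    simp only [abs_mul, sn]
    ring
  -- (9)
  have t9 : ∑ p ∈ S, |(K * L) p.1 p.2| * (|K p.2 p.2 * L p.1 p.1| * |Zc K L p.1 p.2|)
      ≤ m * ((v * (lam * m)) * (v * g ^ 2)) := by
    refine sum_le_prod (H.pX hS)
      (L2.tensor (H.swap.mul_k hz) (H.mul_k H.swap.lsp) hS) fun p _ => ?_
    have h := mul_le_mul_of_nonneg_left (mul_le_mul_of_nonneg_left (Zc_le K L p.1 p.2)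
      (abs_nonneg (K p.2 p.2 * L p.1 p.1))) (abs_nonneg ((K * L) p.1 p.2))
    refine h.trans (le_of_eq ?_)
    simp only [abs_mul, sn]
    ring
  -- (10)
  have t10 : ∑ p ∈ S, |(K * L) p.1 p.2| * |Zc K L p.2 p.1| ≤ m * (g ^ 2 * (lam * m)) := by
    refine sum_le_prod (H.pX hS) (L2.tensor H.swap.lsp hz hS) fun p _ => ?_
    have h := mul_le_mul_of_nonneg_left (Zc_le K L p.2 p.1) (abs_nonneg ((K * L) p.1 p.2))
    refine h.trans (le_of_eq ?_)
    simp only [abs_mul, sn]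
    ring
  -- (11)
  have t11 : ∑ p ∈ S, |(K * L) p.1 p.2| * (|L p.1 p.1| * |Zc K L p.2 p.2|)
      ≤ (σ * m) * (v * (lam * m)) := by
    refine sum_le_prod (H.pXp hS) (L2.tensor H.swap.lk hz' hS) fun p _ => ?_
    have h := mul_le_mul_of_nonneg_left (mul_le_mul_of_nonneg_left (Zc_le' H.hK H.hL p.2 p.2)
      (abs_nonneg (L p.1 p.1))) (abs_nonneg ((K * L) p.1 p.2))
    refine h.trans (le_of_eq ?_)
    simp only [abs_mul, sn]
    ring
  have e : ∑ p ∈ S, h2err K L p.1 p.2 =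
      ∑ p ∈ S, (|(K * L) p.1 p.1| + 1) * (|K p.2 p.2 * L p.2 p.2| * |Zc K L p.1 p.1|)
      + ∑ p ∈ S, (|(K * L) p.1 p.1| + 1) * (|K p.2 p.2| * |Zc K L p.1 p.2|)
      + ∑ p ∈ S, (|(K * L) p.1 p.1| + 1) * (|L p.2 p.2| * |Zc K L p.2 p.1|)
      + ∑ p ∈ S, (|(K * L) p.1 p.1| + 1) * (|K p.1 p.2| * |Zc K L p.2 p.2|)
      + ∑ p ∈ S, (|(K * L) p.1 p.1| + 1) * (|L p.1 p.2| * |Zc K L p.2 p.2|)
      + ∑ p ∈ S, (|(K * L) p.1 p.1| + 1) * (|K p.1 p.1 * K p.2 p.2| * |Zc K L p.2 p.2|)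
      + ∑ p ∈ S, (|(K * L) p.1 p.1| + 1) * (|L p.1 p.1 * L p.2 p.2| * |Zc K L p.2 p.2|)
      + ∑ p ∈ S, |(K * L) p.1 p.2| * (|K p.2 p.2| * |Zc K L p.1 p.1|)
      + ∑ p ∈ S, |(K * L) p.1 p.2| * (|K p.2 p.2 * L p.1 p.1| * |Zc K L p.1 p.2|)
      + ∑ p ∈ S, |(K * L) p.1 p.2| * |Zc K L p.2 p.1|
      + ∑ p ∈ S, |(K * L) p.1 p.2| * (|L p.1 p.1| * |Zc K L p.2 p.2|) := by
    simp only [← Finset.sum_add_distrib]
    exact Finset.sum_congr rfl fun p _ => by rw [h2err]; ring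
  rw [e]
  have c4 := mono H.g1 H.v1 (a := 4) (b := 0) 4 1 (by norm_num) (by norm_num) hlm
  have c10 := mono H.g1 H.v1 (a := 2) (b := 0) 2 2 (by norm_num) (by norm_num) hlm2
  linarith

end sums2

end Crest.Agent.R62.Cross
end

-- ▼ part R62/CrossG
section

/-!
R62 (helper214): the cross functional — sums of the quadratic errors `h3`, `h4`, `h5`.
-/

set_option autoImplicit false
set_option linter.unusedSectionVars false
set_option linter.unusedVariables false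

open Matrix Finset

namespace Crest.Agent.R62.Cross

open Crest.Agent.R62.Upd Crest.Agent.R62.AvX1 Crest.Agent.R62.L2P

variable {ι : Type*} [Fintype ι] [DecidableEq ι]

section sums3
variable {F : Finset ι} {S : Finset (ι × ι)} {K L : Matrix ι ι ℝ} {g σ m lam v : ℝ}

lemma sq_sqrt_rn (A : Matrix ι ι ℝ) (x : ι) : Real.sqrt (rn A x) ^ 2 = rn A x :=
  Real.sq_sqrt (rn_nonneg _ _)

/-- `√p √q` -/
lemma Hy.lpq (H : Hy F K L g σ m lam v) :
    L2 F (fun x => Real.sqrt (rn K x) * Real.sqrt (rn L x)) (g ^ 2) := by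
  refine ⟨by positivity, ?_⟩
  have e : ∀ x ∈ F, (Real.sqrt (rn K x) * Real.sqrt (rn L x)) ^ 2 = |rn K x| * |rn L x| := by
    intro x _
    rw [mul_pow, Real.sq_sqrt (rn_nonneg _ _), Real.sq_sqrt (rn_nonneg _ _),
      abs_of_nonneg (rn_nonneg _ _), abs_of_nonneg (rn_nonneg _ _)]
  rw [Finset.sum_congr rfl e]
  exact (H.lp.sum_mul H.swap.lp).trans (le_of_eq (by ring))

/-- good pairs for both signs -/
def GP2 (K L : Matrix ι ι ℝ) (S : Finset (ι × ι)) : Prop :=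
  ∀ p ∈ S, GoodPair K p.1 p.2 ∧ GoodPair L p.1 p.2

lemma GP2.swap {K L : Matrix ι ι ℝ} {S : Finset (ι × ι)} (h : GP2 K L S) : GP2 L K S :=
  fun p hp => ⟨(h p hp).2, (h p hp).1⟩

lemma sum_h3 (H : Hy F K L g σ m lam v) (hS : S ⊆ F ×ˢ F) (hg : GP2 K L S) {s : ℝ}
    (hs : s ^ 2 = 1) :
    ∑ p ∈ S, h3 s K L p.1 p.2 ≤
      64 * ((σ * m * v) ^ 2 + (σ * m) * (m * g ^ 2) + (m * v) * ((v * m) * g ^ 2)) := by
  have g0 := H.g0
  have v0 := H.v0
  have t1 : ∑ p ∈ S, (Real.sqrt (rn K p.1) * Real.sqrt (rn (K * L) p.1) * K p.2 p.2) ^ 2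
      ≤ (σ * m * v) ^ 2 := (L2.tensor (H.mul_sp H.lsr) H.lk hS).2
  have hrow : L2 S (fun p => K p.1 p.2 * Real.sqrt (rn (K * L) p.1)) (σ * m) :=
    L2row (A := K) (w := fun x => Real.sqrt (rn (K * L) x)) hS (H.mul_sp H.lsr)
  have t2 : ∑ p ∈ S, |K p.1 p.2| * (rn K p.2 * rn (K * L) p.1) ≤ (σ * m) * (m * g ^ 2) := by
    refine sum_le_prod hrow (L2.tensor H.lsr H.lp hS) fun p _ => le_of_eq ?_
    rw [abs_mul, abs_mul, abs_of_nonneg (Real.sqrt_nonneg _), abs_of_nonneg (rn_nonneg K p.2)]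
    rw [← sq_sqrt_rn (K * L) p.1]; simp only [Real.sqrt_sq (Real.sqrt_nonneg _)]; ring
  have t3 : ∑ p ∈ S, |K p.1 p.1 * K p.2 p.2| * (rn K p.2 * rn (K * L) p.1)
      ≤ (m * v) * ((v * m) * g ^ 2) := by
    refine sum_le_prod (L2.tensor H.lsr H.lk hS) (L2.tensor (H.mul_k H.lsr) H.lp hS)
      fun p _ => le_of_eq ?_
    rw [abs_mul, abs_mul, abs_mul, abs_mul, abs_of_nonneg (Real.sqrt_nonneg _),
      abs_of_nonneg (rn_nonneg K p.2)]
    rw [← sq_sqrt_rn (K * L) p.1]; simp only [Real.sqrt_sq (Real.sqrt_nonneg _)]; ring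
  have hpt : ∀ p ∈ S, h3 s K L p.1 p.2 ≤
      64 * ((Real.sqrt (rn K p.1) * Real.sqrt (rn (K * L) p.1) * K p.2 p.2) ^ 2
        + |K p.1 p.2| * (rn K p.2 * rn (K * L) p.1)
        + |K p.1 p.1 * K p.2 p.2| * (rn K p.2 * rn (K * L) p.1)) := by
    intro p hp
    have hgp := (hg p hp).1
    have h := mul_le_mul_of_nonneg_right (nv_al_sub hs H.hK hgp) (rn_nonneg (K * L) p.1)
    rw [h3]
    refine h.trans ?_
    have e0 : (Real.sqrt (rn K p.1) * Real.sqrt (rn (K * L) p.1) * K p.2 p.2) ^ 2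
        = rn K p.1 * rn (K * L) p.1 * K p.2 p.2 ^ 2 := by
      rw [mul_pow, mul_pow, sq_sqrt_rn, sq_sqrt_rn]
    rw [e0]
    have a1 : K p.1 p.2 ^ 2 ≤ |K p.1 p.2| := by
      rw [← sq_abs]; nlinarith [abs_nonneg (K p.1 p.2), hgp.2.1]
    have a2 : (K p.1 p.1 * K p.2 p.2) ^ 2 ≤ |K p.1 p.1 * K p.2 p.2| := by
      rw [← sq_abs]; nlinarith [abs_nonneg (K p.1 p.1 * K p.2 p.2), hgp.2.2]
    have a3 : 0 ≤ rn K p.2 * rn (K * L) p.1 := mul_nonneg (rn_nonneg _ _) (rn_nonneg _ _)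
    have a4 := mul_le_mul_of_nonneg_right a1 a3
    have a5 := mul_le_mul_of_nonneg_right a2 a3
    linarith
  refine (Finset.sum_le_sum hpt).trans ?_
  rw [← Finset.mul_sum, Finset.sum_add_distrib, Finset.sum_add_distrib]
  linarith

lemma sq_sub_st {s t X : ℝ} (hs : s ^ 2 = 1) (ht : t ^ 2 = 1) :
    (X - s * t) ^ 2 ≤ (|X| + 1) ^ 2 := by
  have hst : |s * t| = 1 := by rw [abs_mul, abs_s hs, abs_s ht, one_mul]
  have := abs_sub X (s * t)
  rw [hst] at this
  rw [← sq_abs]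
  exact pow_le_pow_left₀ (abs_nonneg _) this 2

lemma sum_h4 (H : Hy F K L g σ m lam v) (hS : S ⊆ F ×ˢ F) (hg : GP2 K L S) {s t : ℝ}
    (hs : s ^ 2 = 1) (ht : t ^ 2 = 1) :
    ∑ p ∈ S, h4 s t K L p.1 p.2 ≤
      1024 * (((σ * (σ * (2 * g ^ 2))) * (v * v)) ^ 2 + ((σ * (2 * g ^ 2)) * (σ * v)) ^ 2
        + ((σ * (2 * g ^ 2)) * (σ * v)) ^ 2 + ((2 * g ^ 2) * g ^ 2) ^ 2
        + m * ((σ * (σ * (σ * g ^ 2))) * (v * (σ * v)))
        + m * ((σ * g ^ 2) * (σ * g ^ 2))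
        + m * ((σ * (σ * (σ * (v * v)))) * (σ * (σ * (σ * (v * v)))))
        + m * ((σ * (v * v)) * (σ * (σ * (σ * g ^ 2))))) := by
  have g0 := H.g0
  have v0 := H.v0
  have sn : ∀ a : ℝ, |Real.sqrt a| = Real.sqrt a := fun a => abs_of_nonneg (Real.sqrt_nonneg a)
  have rp : ∀ x, |rn K x| = Real.sqrt (rn K x) ^ 2 := fun x => by
    rw [sq_sqrt_rn, abs_of_nonneg (rn_nonneg _ _)]
  have rq : ∀ x, |rn L x| = Real.sqrt (rn L x) ^ 2 := fun x => by
    rw [sq_sqrt_rn, abs_of_nonneg (rn_nonneg _ _)]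
  have t1 := (L2.tensor (H.swap.mul_sp (H.mul_sp H.lX1)) (H.mul_k H.swap.lk) hS).2
  have t2 := (L2.tensor (H.mul_sp H.lX1) (H.swap.mul_sp H.lk) hS).2
  have t3 := (L2.tensor H.lX1q (H.mul_sp H.swap.lk) hS).2
  have t4 := (L2.tensor H.lX1 H.lpq hS).2
  have hX := H.pX hS
  have t5 := hX.sum_mul (L2.tensor (H.mul_sp (H.mul_sp (H.mul_sp H.swap.lp)))
    (H.mul_k (H.swap.mul_sp H.lk)) hS)
  have t6 := hX.sum_mul (L2.tensor (H.mul_sp H.swap.lp) (H.swap.mul_sp H.lp) hS)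
  have t7 := hX.sum_mul (L2.tensor (H.mul_sp (H.mul_sp (H.mul_sp (H.swap.mul_k H.swap.lk))))
    (H.swap.mul_sp (H.swap.mul_sp (H.swap.mul_sp (H.mul_k H.lk)))) hS)
  have t8 := hX.sum_mul (L2.tensor (H.mul_sp (H.swap.mul_k H.swap.lk))
    (H.swap.mul_sp (H.swap.mul_sp (H.swap.mul_sp H.lp))) hS)
  have hpt : ∀ p ∈ S, h4 s t K L p.1 p.2 ≤
      1024 * ((Real.sqrt (rn L p.1) * (Real.sqrt (rn K p.1) * (|(K * L) p.1 p.1| + 1))
            * (K p.2 p.2 * L p.2 p.2)) ^ 2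
        + (Real.sqrt (rn K p.1) * (|(K * L) p.1 p.1| + 1)
            * (Real.sqrt (rn L p.2) * K p.2 p.2)) ^ 2
        + (Real.sqrt (rn L p.1) * (|(K * L) p.1 p.1| + 1)
            * (Real.sqrt (rn K p.2) * L p.2 p.2)) ^ 2
        + ((|(K * L) p.1 p.1| + 1) * (Real.sqrt (rn K p.2) * Real.sqrt (rn L p.2))) ^ 2
        + |(K * L) p.1 p.2| * |Real.sqrt (rn K p.1) * (Real.sqrt (rn K p.1)
            * (Real.sqrt (rn K p.1) * rn L p.1)) * (K p.2 p.2 * (Real.sqrt (rn L p.2) * K p.2 p.2))|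
        + |(K * L) p.1 p.2| * |Real.sqrt (rn K p.1) * rn L p.1 * (Real.sqrt (rn L p.2) * rn K p.2)|
        + |(K * L) p.1 p.2| * |Real.sqrt (rn K p.1) * (Real.sqrt (rn K p.1)
            * (Real.sqrt (rn K p.1) * (L p.1 p.1 * L p.1 p.1)))
            * (Real.sqrt (rn L p.2) * (Real.sqrt (rn L p.2)
            * (Real.sqrt (rn L p.2) * (K p.2 p.2 * K p.2 p.2))))|
        + |(K * L) p.1 p.2| * |Real.sqrt (rn K p.1) * (L p.1 p.1 * L p.1 p.1)
            * (Real.sqrt (rn L p.2) * (Real.sqrt (rn L p.2)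
            * (Real.sqrt (rn L p.2) * rn K p.2)))|) := by
    intro p hp
    obtain ⟨hgK, hgL⟩ := hg p hp
    have a1 := nv_al hs H.hK hgK
    have a2 := nv_al ht H.hL hgL
    have a3 := nv_be ht H.hL hgL
    have b1 := nv_nonneg (al s K p.1 p.2)
    have b2 := nv_nonneg (al t L p.1 p.2)
    have b3 := nv_nonneg (be t L p.1 p.2)
    have c1 := mul_le_mul a1 a2 b2 (b1.trans a1)
    have c2 := mul_le_mul a1 a3 b3 (b1.trans a1)
    have d1 := mul_le_mul (sq_sub_st (X := (K * L) p.1 p.1) hs ht) c1 (mul_nonneg b1 b2)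
      (sq_nonneg _)
    have d2 := mul_le_mul_of_nonneg_left c2 (sq_nonneg ((K * L) p.1 p.2))
    have hx := X_le (K := K) H.hL p.1 p.2
    have e1 : (K * L) p.1 p.2 ^ 2 ≤ |(K * L) p.1 p.2| * (Real.sqrt (rn K p.1)
        * Real.sqrt (rn L p.2)) := by
      rw [← sq_abs, sq]; exact mul_le_mul_of_nonneg_left hx (abs_nonneg _)
    have hnn : 0 ≤ 32 * (K p.2 p.2 ^ 2 * rn K p.1 + rn K p.2)
        * (32 * (rn L p.1 + L p.1 p.1 ^ 2 * rn L p.2)) := by
      have := rn_nonneg K p.1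
      have := rn_nonneg K p.2
      have := rn_nonneg L p.1
      have := rn_nonneg L p.2
      positivity
    have d3 := mul_le_mul_of_nonneg_right e1 hnn
    rw [h4]
    refine (add_le_add d1 (d2.trans d3)).trans (le_of_eq ?_)
    simp only [abs_mul, sn, rp, rq]
    rw [← sq_sqrt_rn K p.1, ← sq_sqrt_rn K p.2, ← sq_sqrt_rn L p.1, ← sq_sqrt_rn L p.2]
    simp only [Real.sqrt_sq (Real.sqrt_nonneg _)]
    have k1 : |K p.2 p.2| * |K p.2 p.2| = K p.2 p.2 ^ 2 := by rw [← sq, sq_abs]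
    have k2 : |L p.1 p.1| * |L p.1 p.1| = L p.1 p.1 ^ 2 := by rw [← sq, sq_abs]
    have k3 : |K p.2 p.2| * (Real.sqrt (rn L p.2) * |K p.2 p.2|)
        = Real.sqrt (rn L p.2) * K p.2 p.2 ^ 2 := by rw [← k1]; ring
    rw [k1, k2, k3]
    ring
  refine (Finset.sum_le_sum hpt).trans ?_
  rw [← Finset.mul_sum]
  simp only [Finset.sum_add_distrib]
  linarith

lemma h5_pt {s t : ℝ} (hs : s ^ 2 = 1) (ht : t ^ 2 = 1) (hK : K.IsSymm) (hL : L.IsSymm)
    {x y : ι} (hgK : GoodPair K x y) (hgL : GoodPair L x y) :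
    h5 s t K L x y ≤
      6 * (32 * ((K x y * Real.sqrt (rn (K * L) x)) ^ 2
          + (K x x * Real.sqrt (rn (K * L) x) * K y y) ^ 2)
        + 16 * (K x x * Real.sqrt (rn (K * L) y)) ^ 2
        + 288 * ((Real.sqrt (rn L x) * (|(K * L) x x| + 1) * L y y) ^ 2
          + ((|(K * L) x x| + 1) * Real.sqrt (rn L y)) ^ 2)
        + 288 * (((K * L) x y * Real.sqrt (rn L x)) ^ 2
          + (L x x * ((K * L) x y * Real.sqrt (rn L y))) ^ 2)
        + 1024 * ((K x x * (L y y * (Real.sqrt (rn L x) * (K * L) y x))) ^ 2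
          + (K x x * (Real.sqrt (rn L y) * (K * L) y x)) ^ 2)
        + 1024 * ((Real.sqrt (rn L x) * K x x * (|(K * L) y y| + 1)) ^ 2
          + (K x x * L x x
            * (Real.sqrt (rn L y) * (|(K * L) y y| + 1))) ^ 2)) := by
  have a2 := nv_al ht hL hgL
  have a3 := nv_be ht hL hgL
  have b2 := nv_nonneg (al t L x y)
  have b3 := nv_nonneg (be t L x y)
  have r1 := rn_nonneg (K * L) x
  have r2 := rn_nonneg (K * L) y
  have q1 := rn_nonneg L x
  have q2 := rn_nonneg L y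
  have c1 : al s K x y x ^ 2 ≤ 32 * (K x y ^ 2 + K x x ^ 2 * K y y ^ 2) := by
    have h3 := sq_le_of_abs_le (abs_al_x hs hgK)
    have h4 : (4 * (|K x y| + |K x x * K y y|)) ^ 2
        ≤ 32 * (|K x y| ^ 2 + |K x x * K y y| ^ 2) := by
      nlinarith [sq_nonneg (|K x y| - |K x x * K y y|)]
    rw [sq_abs, sq_abs, mul_pow (K x x) (K y y)] at h4
    linarith
  have c2 : al s K x y x ^ 2 ≤ 4 := by
    have h3 := sq_le_of_abs_le (abs_al_x' hs hgK)
    linarith
  have c3 : be s K x y x ^ 2 ≤ 16 * K x x ^ 2 := by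
    have h3 := sq_le_of_abs_le (abs_be_x hs hgK)
    rw [mul_pow, sq_abs] at h3; linarith
  have s1 := sq_sub_st (X := (K * L) x x) hs ht
  have s2 := sq_sub_st (X := (K * L) y y) hs ht
  have s3 : (K * L) x x ^ 2 ≤ (|(K * L) x x| + 1) ^ 2 := by
    rw [← sq_abs]; exact pow_le_pow_left₀ (abs_nonneg _) (by linarith) 2
  have hA1n : 0 ≤ (|(K * L) x x| + 1) ^ 2 := sq_nonneg _
  have hA2n : 0 ≤ (|(K * L) y y| + 1) ^ 2 := sq_nonneg _
  have u1 := mul_le_mul_of_nonneg_right c1 r1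
  have u2 := mul_le_mul_of_nonneg_right c3 r2
  have u3 : (K * L) x x ^ 2 * nv (al t L x y) ≤ (|(K * L) x x| + 1) ^ 2 *
      (32 * (L y y ^ 2 * rn L x + rn L y)) := mul_le_mul s3 a2 b2 hA1n
  have u4 : (K * L) x y ^ 2 * nv (be t L x y) ≤ (K * L) x y ^ 2 *
      (32 * (rn L x + L x x ^ 2 * rn L y)) :=
    mul_le_mul_of_nonneg_left a3 (sq_nonneg _)
  have w1 : ((K * L) x x - s * t) ^ 2 * al s K x y x ^ 2 ≤ (|(K * L) x x| + 1) ^ 2 * 4 :=
    mul_le_mul s1 c2 (sq_nonneg _) hA1n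
  have w2 : (K * L) y x ^ 2 * be s K x y x ^ 2
      ≤ (K * L) y x ^ 2 * (16 * K x x ^ 2) :=
    mul_le_mul_of_nonneg_left c3 (sq_nonneg _)
  have w3 : (K * L) x y ^ 2 * al s K x y x ^ 2 ≤ (K * L) x y ^ 2 * 4 :=
    mul_le_mul_of_nonneg_left c2 (sq_nonneg _)
  have w4 : ((K * L) y y - s * t) ^ 2 * be s K x y x ^ 2
      ≤ (|(K * L) y y| + 1) ^ 2 * (16 * K x x ^ 2) := mul_le_mul s2 c3 (sq_nonneg _) hA2n
  have x1 := mul_le_mul (add_le_add w1 w2) a2 b2
    (add_nonneg (mul_nonneg hA1n (by norm_num))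
      (mul_nonneg (sq_nonneg _) (mul_nonneg (by norm_num) (sq_nonneg _))))
  have x2 := mul_le_mul (add_le_add w3 w4) a3 b3
    (add_nonneg (mul_nonneg (sq_nonneg _) (by norm_num))
      (mul_nonneg hA2n (mul_nonneg (by norm_num) (sq_nonneg _))))
  rw [h5]
  simp only [mul_pow, sq_sqrt_rn]
  generalize (|(K * L) x x| + 1) ^ 2 = A1 at *
  generalize (|(K * L) y y| + 1) ^ 2 = A2 at *
  generalize (K * L) x y ^ 2 = X1 at *
  generalize (K * L) y x ^ 2 = X2 at *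
  generalize (K * L) x x ^ 2 = X3 at *
  generalize ((K * L) x x - s * t) ^ 2 = X4 at *
  generalize ((K * L) y y - s * t) ^ 2 = X5 at *
  generalize al s K x y x ^ 2 = X6 at *
  generalize be s K x y x ^ 2 = X7 at *
  generalize nv (al t L x y) = N1 at *
  generalize nv (be t L x y) = N2 at *
  generalize rn (K * L) x = R1 at *
  generalize rn (K * L) y = R2 at *
  generalize rn L x = P1 at *
  generalize rn L y = P2 at *
  generalize K x x ^ 2 = k1 at *
  generalize L x x ^ 2 = k2 at *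
  generalize L y y ^ 2 = k3 at *
  refine le_trans (b := 6 * (32 * (K x y ^ 2 + k1 * K y y ^ 2) * R1 + 16 * k1 * R2
    + A1 * (32 * (k3 * P1 + P2)) + X1 * (32 * (P1 + k2 * P2))
    + 2 * ((A1 * 4 + X2 * (16 * k1)) * (32 * (k3 * P1 + P2)))
    + 2 * ((X1 * 4 + A2 * (16 * k1)) * (32 * (P1 + k2 * P2))))) ?_ (le_of_eq ?_)
  · linarith
  · ring

lemma sum_h5 (H : Hy F K L g σ m lam v) (hS : S ⊆ F ×ˢ F) (hg : GP2 K L S) {s t : ℝ}
    (hs : s ^ 2 = 1) (ht : t ^ 2 = 1) :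
    ∑ p ∈ S, h5 s t K L p.1 p.2 ≤
      6 * (32 * ((σ * m) ^ 2 + ((v * m) * v) ^ 2) + 16 * (v * m) ^ 2
        + 288 * (((σ * (2 * g ^ 2)) * v) ^ 2 + ((2 * g ^ 2) * g ^ 2) ^ 2)
        + 288 * ((σ * m) ^ 2 + (v * (σ * m)) ^ 2)
        + 1024 * ((v * (v * (σ * m))) ^ 2 + (v * (σ * m)) ^ 2)
        + 1024 * (((σ * v) * (2 * g ^ 2)) ^ 2 + ((v * v) * (σ * (2 * g ^ 2))) ^ 2)) := by
  have g0 := H.g0
  have v0 := H.v0
  have hrow : L2 S (fun p => K p.1 p.2 * Real.sqrt (rn (K * L) p.1)) (σ * m) :=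
    L2row (A := K) (w := fun x => Real.sqrt (rn (K * L) x)) hS (H.mul_sp H.lsr)
  have t1 := hrow.2
  have t2 := (L2.tensor (H.mul_k H.lsr) H.lk hS).2
  have t3 := (L2.tensor H.lk H.lsr hS).2
  have t4 := (L2.tensor H.lX1q H.swap.lk hS).2
  have t5 := (L2.tensor H.lX1 H.swap.lsp hS).2
  have t6 := (H.pXq hS).2
  have hcol : L2 S (fun p => (K * L) p.1 p.2 * Real.sqrt (rn L p.2)) (σ * m) :=
    L2col (A' := L * K) (w := fun y => Real.sqrt (rn L y))
      (fun i j => (mulT H.hK H.hL j i).symm) hS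
      ((H.swap.mul_sp H.swap.lsr).congr fun x _ => by ring)
  have t7 : ∑ p ∈ S, (L p.1 p.1 * ((K * L) p.1 p.2 * Real.sqrt (rn L p.2))) ^ 2
      ≤ (v * (σ * m)) ^ 2 :=
    (hcol.mul_bdd (g := fun p => L p.1 p.1) v0 fun p hp =>
      H.swap.kxx_le (Finset.mem_product.mp (hS hp)).1).2
  -- `X_yx`
  have hXt : L2 S (fun p => (K * L) p.2 p.1) m :=
    (H.swap.pX hS).congr fun p _ => by rw [mulT H.hK H.hL]
  have hXt1 : L2 S (fun p => Real.sqrt (rn L p.1) * (K * L) p.2 p.1) (σ * m) :=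
    hXt.mul_bdd H.σ0 fun p hp => H.swap.abs_sp_le (Finset.mem_product.mp (hS hp)).1
  have hXt2 : L2 S (fun p => Real.sqrt (rn L p.2) * (K * L) p.2 p.1) (σ * m) :=
    hXt.mul_bdd H.σ0 fun p hp => H.swap.abs_sp_le (Finset.mem_product.mp (hS hp)).2
  have t8 : ∑ p ∈ S, (K p.1 p.1 * (L p.2 p.2 * (Real.sqrt (rn L p.1) * (K * L) p.2 p.1))) ^ 2
      ≤ (v * (v * (σ * m))) ^ 2 :=
    ((hXt1.mul_bdd (g := fun p => L p.2 p.2) v0 fun p hp =>
      H.swap.kxx_le (Finset.mem_product.mp (hS hp)).2).mul_bdd (g := fun p => K p.1 p.1) v0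
      fun p hp => H.kxx_le (Finset.mem_product.mp (hS hp)).1).2
  have t9 : ∑ p ∈ S, (K p.1 p.1 * (Real.sqrt (rn L p.2) * (K * L) p.2 p.1)) ^ 2
      ≤ (v * (σ * m)) ^ 2 :=
    (hXt2.mul_bdd (g := fun p => K p.1 p.1) v0
      fun p hp => H.kxx_le (Finset.mem_product.mp (hS hp)).1).2
  have t10 := (L2.tensor (H.swap.mul_sp H.lk) H.lX1 hS).2
  have t11 := (L2.tensor (H.mul_k H.swap.lk) H.lX1q hS).2
  have hpt := fun p (hp : p ∈ S) => h5_pt (K := K) (L := L) hs ht H.hK H.hL (hg p hp).1 (hg p hp).2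
  refine (Finset.sum_le_sum hpt).trans ?_
  rw [← Finset.mul_sum]
  simp only [Finset.sum_add_distrib, ← Finset.mul_sum]
  linarith

end sums3

end Crest.Agent.R62.Cross
end

-- ▼ part R62/CrossH
section

/-!
R62 (helper214): the cross functional — exact sums of the main terms.
-/

set_option autoImplicit false
set_option linter.unusedSectionVars false
set_option linter.unusedVariables false

open Matrix Finset

namespace Crest.Agent.R62.Cross

open Crest.Agent.R62.Upd Crest.Agent.R62.AvX1 Crest.Agent.R62.L2P Crest.Agent.R62.AvBase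

variable {ι : Type*} [Fintype ι] [DecidableEq ι]

/-- dead rows and row sums -/
structure Dr (F : Finset ι) (K : Matrix ι ι ℝ) (s : ℝ) : Prop where
  symm : K.IsSymm
  dead : ∀ i j, i ∉ F → K i j = 0
  row : K *ᵥ ind F = s • ind F
  sq : s ^ 2 = 1

lemma col_sum (A : Matrix ι ι ℝ) (F : Finset ι) (j : ι) :
    ∑ x ∈ F, A x j = (Aᵀ *ᵥ ind F) j := by
  simp [Matrix.mulVec, dotProduct, ind, Finset.sum_ite_mem]

lemma sum_ind (F : Finset ι) : ∑ j, ind F j = F.card := by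
  simp [ind]

lemma sum_Yc {F : Finset ι} {K L : Matrix ι ι ℝ} {s t : ℝ} (hK : Dr F K s) (hL : Dr F L t) :
    ∑ x ∈ F, ∑ y ∈ F, Yc K L y x = s * F.card := by
  have e1 : ∀ j, ∑ y ∈ F, (K * (K * L)) y j = t * ind F j := by
    intro j
    rw [col_sum]
    have : (K * (K * L))ᵀ *ᵥ ind F = t • ind F := by
      rw [Matrix.transpose_mul, Matrix.transpose_mul, hK.symm.eq, hL.symm.eq,
        ← Matrix.mulVec_mulVec, ← Matrix.mulVec_mulVec, hK.row, Matrix.mulVec_smul, hK.row,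
        Matrix.mulVec_smul, Matrix.mulVec_smul, hL.row, smul_smul, ← sq, hK.sq, one_smul]
    rw [this]; rfl
  have e2 : ∀ j, ∑ x ∈ F, (K * L) x j = s * t * ind F j := by
    intro j
    rw [col_sum]
    have : (K * L)ᵀ *ᵥ ind F = (s * t) • ind F := by
      rw [Matrix.transpose_mul, hK.symm.eq, hL.symm.eq, ← Matrix.mulVec_mulVec, hK.row,
        Matrix.mulVec_smul, hL.row, smul_smul]
    rw [this]; rfl
  have e3 : ∑ x ∈ F, ∑ y ∈ F, Yc K L y x
      = ∑ j, (∑ y ∈ F, (K * (K * L)) y j) * ∑ x ∈ F, (K * L) x j := by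
    simp only [Yc]
    calc ∑ x ∈ F, ∑ y ∈ F, ∑ j, (K * (K * L)) y j * (K * L) x j
        = ∑ x ∈ F, ∑ j, ∑ y ∈ F, (K * (K * L)) y j * (K * L) x j :=
          Finset.sum_congr rfl fun x _ => Finset.sum_comm
      _ = ∑ j, ∑ x ∈ F, ∑ y ∈ F, (K * (K * L)) y j * (K * L) x j := Finset.sum_comm
      _ = _ := by
          refine Finset.sum_congr rfl fun j _ => ?_
          rw [Finset.mul_sum]
          exact Finset.sum_congr rfl fun x _ => by rw [Finset.sum_mul]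
  rw [e3]
  simp only [e1, e2]
  have e4 : ∀ j, t * ind F j * (s * t * ind F j) = s * ind F j := by
    intro j
    have : ind F j * ind F j = ind F j := by unfold ind; split_ifs <;> simp
    calc t * ind F j * (s * t * ind F j) = s * t ^ 2 * (ind F j * ind F j) := by ring
      _ = _ := by rw [this, hL.sq]; ring
  simp only [e4, ← Finset.mul_sum, sum_ind]

lemma Zc_eq' {K L : Matrix ι ι ℝ} (hL : L.IsSymm) (u v : ι) :
    Zc K L u v = (K * (K * L) * L) u v := by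
  rw [Zc, Matrix.mul_apply (M := K * (K * L))]
  exact Finset.sum_congr rfl fun j _ => by rw [hL.apply v j]

/-- `Tr (A Aᵀ)`-type identity -/
lemma fr_eq_trace (A : Matrix ι ι ℝ) : fr A = (A * Aᵀ).trace := by
  unfold fr Matrix.trace
  refine Finset.sum_congr rfl fun i _ => ?_
  rw [Matrix.diag_apply, Matrix.mul_apply]
  exact Finset.sum_congr rfl fun j _ => by rw [Matrix.transpose_apply]; ring

lemma trace_KXL {K L : Matrix ι ι ℝ} (hK : K.IsSymm) (hL : L.IsSymm) :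
    (K * (K * L) * L).trace = fr (K * L) := by
  rw [fr_eq_trace, Matrix.transpose_mul, hK.eq, hL.eq]
  rw [Matrix.mul_assoc K, Matrix.trace_mul_comm K]
  simp only [Matrix.mul_assoc]

lemma sum_Zc {F : Finset ι} {K L : Matrix ι ι ℝ} {s t : ℝ} (hK : Dr F K s) (hL : Dr F L t) :
    ∑ y ∈ F, Zc K L y y = fr (K * L) := by
  rw [← trace_KXL hK.symm hL.symm, sum_F_eq_univ]
  · exact Finset.sum_congr rfl fun y _ => by rw [Zc_eq' hL.symm, Matrix.diag_apply]
  · intro y hy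
    rw [Zc]
    refine Finset.sum_eq_zero fun j _ => ?_
    rw [Matrix.mul_apply]
    rw [Finset.sum_eq_zero fun k _ => by rw [hK.dead y k hy, zero_mul], zero_mul]

lemma sum_Xd {F : Finset ι} {K L : Matrix ι ι ℝ} {s : ℝ} (hK : Dr F K s) :
    ∑ y ∈ F, (K * L) y y = (K * L).trace := by
  rw [sum_F_eq_univ]
  · rfl
  · intro y hy
    rw [Matrix.mul_apply]
    exact Finset.sum_eq_zero fun k _ => by rw [hK.dead y k hy, zero_mul]

/-! ### the Gaussian part -/

/-- dot product -/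
def dp (f g : ι → ℝ) : ℝ := ∑ i, f i * g i

lemma dp_sum (f f' g g' : ι → ℝ) :
    ∑ i, ∑ j, (f i * g j) * (f' i * g' j) = dp f f' * dp g g' := by
  unfold dp
  rw [Finset.sum_mul_sum]
  exact Finset.sum_congr rfl fun i _ => Finset.sum_congr rfl fun j _ => by ring

lemma fr_four (s t : ℝ) (a a' c c' b b' e e' : ι → ℝ) :
    ∑ i, ∑ j, (s * (a i * b j + a' i * b' j) + t * (c i * e j + c' i * e' j)) ^ 2
      = s ^ 2 * (dp a a * dp b b + dp a' a' * dp b' b' + 2 * (dp a a' * dp b b'))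
        + t ^ 2 * (dp c c * dp e e + dp c' c' * dp e' e' + 2 * (dp c c' * dp e e'))
        + 2 * (s * t) * (dp a c * dp b e + dp a c' * dp b e' + dp a' c * dp b' e
          + dp a' c' * dp b' e') := by
  simp only [← dp_sum]
  simp only [Finset.mul_sum, ← Finset.sum_add_distrib]
  exact Finset.sum_congr rfl fun i _ => Finset.sum_congr rfl fun j _ => by ring

lemma fr_G0 {s t : ℝ} (hs : s ^ 2 = 1) (ht : t ^ 2 = 1) {K L : Matrix ι ι ℝ} (hK : K.IsSymm)
    (hL : L.IsSymm) (x y : ι) :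
    fr (G0 s t K L x y) = rn K y * rn (K * L) x + rn K x * rn (K * L) y
      + 2 * ((K * K) x y * ((K * L) * (K * L)ᵀ) x y)
      + (rn (L * K) x * rn L y + rn (L * K) y * rn L x
        + 2 * (((K * L)ᵀ * (K * L)) x y * (L * L) x y))
      + 2 * (s * t) * ((K * (K * L)) y x * ((K * L) * L) x y
        + (K * (K * L)) y y * ((K * L) * L) x x + (K * (K * L)) x x * ((K * L) * L) y y
        + (K * (K * L)) x y * ((K * L) * L) y x) := by
  have h := fr_four s t (fun i => K i y) (fun i => K i x) (fun i => (K * L) i x)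
    (fun i => (K * L) i y) (fun j => (K * L) x j) (fun j => (K * L) y j) (fun j => L j y)
    (fun j => L j x)
  have e0 : fr (G0 s t K L x y) = ∑ i, ∑ j, (s * (K i y * (K * L) x j + K i x * (K * L) y j)
      + t * ((K * L) i x * L j y + (K * L) i y * L j x)) ^ 2 := rfl
  rw [e0, h, hs, ht]
  have d1 : ∀ z, dp (fun i => K i z) (fun i => K i z) = rn K z := fun z => by
    unfold dp rn
    exact Finset.sum_congr rfl fun i _ => by beta_reduce; rw [hK.apply z i]; ring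
  have d2 : ∀ z, dp (fun i => L i z) (fun i => L i z) = rn L z := fun z => by
    unfold dp rn
    exact Finset.sum_congr rfl fun i _ => by beta_reduce; rw [hL.apply z i]; ring
  have d3 : ∀ z, dp (fun j => (K * L) z j) (fun j => (K * L) z j) = rn (K * L) z := fun z => by
    unfold dp rn
    exact Finset.sum_congr rfl fun i _ => by beta_reduce; ring
  have d4 : ∀ z, dp (fun j => (K * L) j z) (fun j => (K * L) j z) = rn (L * K) z := fun z => by
    rw [← nv_colX hK hL z]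
    unfold dp
    exact Finset.sum_congr rfl fun i _ => by beta_reduce; ring
  have d5 : dp (fun i => K i y) (fun i => K i x) = (K * K) x y := by
    unfold dp
    rw [Matrix.mul_apply]
    exact Finset.sum_congr rfl fun i _ => by beta_reduce; rw [hK.apply x i]; ring
  have d6 : dp (fun j => (K * L) x j) (fun j => (K * L) y j) = ((K * L) * (K * L)ᵀ) x y := by
    unfold dp
    rw [Matrix.mul_apply (M := K * L)]
    rfl
  have d7 : dp (fun j => (K * L) j x) (fun j => (K * L) j y) = ((K * L)ᵀ * (K * L)) x y := by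
    unfold dp
    rw [Matrix.mul_apply (M := (K * L)ᵀ)]
    rfl
  have d8 : dp (fun j => L j y) (fun j => L j x) = (L * L) x y := by
    unfold dp
    rw [Matrix.mul_apply]
    exact Finset.sum_congr rfl fun i _ => by beta_reduce; rw [hL.apply x i]; ring
  have d9 : ∀ u v, dp (fun i => K i u) (fun i => (K * L) i v) = (K * (K * L)) u v := fun u v => by
    unfold dp
    rw [Matrix.mul_apply (M := K) (N := K * L)]
    exact Finset.sum_congr rfl fun i _ => by beta_reduce; rw [hK.apply u i]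
  have d10 : ∀ u v, dp (fun j => (K * L) u j) (fun j => L j v) = ((K * L) * L) u v :=
    fun u v => by
    unfold dp
    rw [Matrix.mul_apply (M := K * L)]
  rw [d1, d1, d2, d2, d3, d3, d4, d4, d5, d6, d7, d8, d9, d9, d9, d9, d10, d10, d10, d10]
  ring

/-- `∑ A_xy B_xy ≤ ‖A‖ ‖B‖` -/
lemma ip_le {A B : Matrix ι ι ℝ} {a b : ℝ} (ha : 0 ≤ a) (hb : 0 ≤ b) (hA : fr A ≤ a ^ 2)
    (hB : fr B ≤ b ^ 2) : |∑ x, ∑ y, A x y * B x y| ≤ a * b := by
  have hA' : L2 (Finset.univ : Finset (ι × ι)) (fun p => A p.1 p.2) a := by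
    refine ⟨ha, le_trans (le_of_eq ?_) hA⟩
    rw [← Finset.univ_product_univ, Finset.sum_product]; rfl
  have hB' : L2 (Finset.univ : Finset (ι × ι)) (fun p => B p.1 p.2) b := by
    refine ⟨hb, le_trans (le_of_eq ?_) hB⟩
    rw [← Finset.univ_product_univ, Finset.sum_product]; rfl
  have h := hA'.abs_sum_mul hB'
  rwa [← Finset.univ_product_univ, Finset.sum_product] at h

lemma fr_transpose (A : Matrix ι ι ℝ) : fr Aᵀ = fr A := by
  unfold fr
  rw [Finset.sum_comm]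
  rfl

lemma sum_fr_G0 {s t m lam : ℝ} (hs : s ^ 2 = 1) (ht : t ^ 2 = 1) {K L : Matrix ι ι ℝ}
    (hK : K.IsSymm) (hL : L.IsSymm) (h0 : 0 ≤ lam * m)
    (zK : fr (K * (K * L)) ≤ (lam * m) ^ 2) (zL : fr (L * (L * K)) ≤ (lam * m) ^ 2) :
    ∑ x, ∑ y, fr (G0 s t K L x y) ≤ 2 * (fr K + fr L) * fr (K * L)
      + 4 * (s * t) * ((K * (K * L)).trace * ((K * L) * L).trace) + 8 * (lam * m) ^ 2 := by
  have hst : |s * t| = 1 := by rw [abs_mul, abs_s hs, abs_s ht, one_mul]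
  have zL' : fr ((K * L) * L) ≤ (lam * m) ^ 2 := by
    rw [← fr_transpose]
    simpa only [Matrix.transpose_mul, hK.eq, hL.eq] using zL
  have s1 : ∑ x, ∑ y, rn K y * rn (K * L) x = fr K * fr (K * L) := by
    rw [← sum_rn K, ← sum_rn (K * L), Finset.sum_mul_sum, Finset.sum_comm]
  have s2 : ∑ x, ∑ y, rn K x * rn (K * L) y = fr K * fr (K * L) := by
    rw [← sum_rn K, ← sum_rn (K * L), Finset.sum_mul_sum]
  have s3 : ∑ x, ∑ y, rn (L * K) x * rn L y = fr L * fr (K * L) := by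
    rw [← sum_rn L, ← fr_comm hK hL, ← sum_rn (L * K), Finset.sum_mul_sum, Finset.sum_comm]
    exact Finset.sum_congr rfl fun x _ => Finset.sum_congr rfl fun y _ => by ring
  have s4 : ∑ x, ∑ y, rn (L * K) y * rn L x = fr L * fr (K * L) := by
    rw [← sum_rn L, ← fr_comm hK hL, ← sum_rn (L * K), Finset.sum_mul_sum]
    exact Finset.sum_congr rfl fun x _ => Finset.sum_congr rfl fun y _ => by ring
  have trp : ∀ A B : Matrix ι ι ℝ, ∑ x, ∑ y, A x y * B x y = (A * Bᵀ).trace := by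
    intro A B
    unfold Matrix.trace
    refine Finset.sum_congr rfl fun i _ => ?_
    rw [Matrix.diag_apply, Matrix.mul_apply]
    rfl
  have s5 : ∑ x, ∑ y, (K * K) x y * ((K * L) * (K * L)ᵀ) x y ≤ (lam * m) ^ 2 := by
    rw [trp]
    refine le_trans (le_of_eq ?_) zK
    rw [fr_eq_trace, Matrix.transpose_mul, Matrix.transpose_transpose,
      Matrix.transpose_mul K (K * L), hK.eq]
    rw [Matrix.mul_assoc K K, Matrix.trace_mul_comm K]
    simp only [Matrix.mul_assoc]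
  have s6 : ∑ x, ∑ y, ((K * L)ᵀ * (K * L)) x y * (L * L) x y ≤ (lam * m) ^ 2 := by
    rw [trp]
    refine le_trans (le_of_eq ?_) zL
    rw [fr_eq_trace, Matrix.transpose_mul L L, Matrix.transpose_mul K L,
      Matrix.transpose_mul L (L * K), Matrix.transpose_mul L K, hK.eq, hL.eq]
    rw [← Matrix.mul_assoc (L * K * (K * L)) L L, Matrix.trace_mul_comm _ L]
    simp only [Matrix.mul_assoc]
  have s7 : |∑ x, ∑ y, (K * (K * L)) y x * ((K * L) * L) x y| ≤ (lam * m) * (lam * m) := by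
    have h := ip_le (A := (K * (K * L))ᵀ) (B := (K * L) * L) h0 h0
      (by rw [fr_transpose]; exact zK) zL'
    simpa only [Matrix.transpose_apply] using h
  have s8 : |∑ x, ∑ y, (K * (K * L)) x y * ((K * L) * L) y x| ≤ (lam * m) * (lam * m) := by
    have h := ip_le (A := K * (K * L)) (B := ((K * L) * L)ᵀ) h0 h0 zK
      (by rw [fr_transpose]; exact zL')
    simpa only [Matrix.transpose_apply] using h
  have s9 : ∑ x, ∑ y, (K * (K * L)) y y * ((K * L) * L) x x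
      = (K * (K * L)).trace * ((K * L) * L).trace := by
    unfold Matrix.trace
    rw [Finset.sum_mul_sum, Finset.sum_comm]
    rfl
  have s10 : ∑ x, ∑ y, (K * (K * L)) x x * ((K * L) * L) y y
      = (K * (K * L)).trace * ((K * L) * L).trace := by
    unfold Matrix.trace
    rw [Finset.sum_mul_sum]
    rfl
  have e : ∑ x, ∑ y, fr (G0 s t K L x y)
      = ∑ x, ∑ y, rn K y * rn (K * L) x + ∑ x, ∑ y, rn K x * rn (K * L) y
        + 2 * ∑ x, ∑ y, (K * K) x y * ((K * L) * (K * L)ᵀ) x y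
        + (∑ x, ∑ y, rn (L * K) x * rn L y + ∑ x, ∑ y, rn (L * K) y * rn L x
          + 2 * ∑ x, ∑ y, ((K * L)ᵀ * (K * L)) x y * (L * L) x y)
        + 2 * (s * t) * (∑ x, ∑ y, (K * (K * L)) y x * ((K * L) * L) x y
          + ∑ x, ∑ y, (K * (K * L)) y y * ((K * L) * L) x x
          + ∑ x, ∑ y, (K * (K * L)) x x * ((K * L) * L) y y
          + ∑ x, ∑ y, (K * (K * L)) x y * ((K * L) * L) y x) := by
    simp only [fr_G0 hs ht hK hL, Finset.sum_add_distrib, ← Finset.mul_sum]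
  rw [e, s1, s2, s3, s4, s9, s10]
  have u1 : s * t * (∑ x, ∑ y, (K * (K * L)) y x * ((K * L) * L) x y) ≤ (lam * m) * (lam * m) := by
    refine (le_abs_self _).trans ?_
    rw [abs_mul, hst, one_mul]; exact s7
  have u2 : s * t * (∑ x, ∑ y, (K * (K * L)) x y * ((K * L) * L) y x) ≤ (lam * m) * (lam * m) := by
    refine (le_abs_self _).trans ?_
    rw [abs_mul, hst, one_mul]; exact s8
  linarith

end Crest.Agent.R62.Cross
end

-- ▼ part R62/CrossI
section

/-!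
R62 (helper214): the cross functional — averages over allowed pairs with weights `1 - Θ`.
-/

set_option autoImplicit false
set_option linter.unusedSectionVars false
set_option linter.unusedVariables false

open Matrix Finset

namespace Crest.Agent.R62.Cross

open Crest.Agent.R62.Upd Crest.Agent.R62.AvX1 Crest.Agent.R62.L2P Crest.Agent.R62.AvBase

variable {ι : Type*} [Fintype ι] [DecidableEq ι]

/-- the pairs and the weights -/
structure Av (F : Finset ι) (S : Finset (ι × ι)) (Θ : ι → ι → ℝ) (η N nb Db : ℝ) : Prop where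
  sub : S ⊆ F ×ˢ F
  symS : ∀ x y, (x, y) ∈ S → (y, x) ∈ S
  symm : ∀ x y, Θ x y = Θ y x
  supp : ∀ x y, (x, y) ∉ S → Θ x y = 0
  η0 : 0 ≤ η
  η1 : η ≤ 1
  absΘ : ∀ x y, |Θ x y| ≤ η
  op : OpB (Matrix.of Θ) N
  nb0 : 0 ≤ nb
  bad : (((F ×ˢ F) \ S).card : ℝ) ≤ nb ^ 2
  row : ∀ x ∈ F, ((F.filter fun y => (x, y) ∉ S).card : ℝ) ≤ Db

section av
variable {F : Finset ι} {S : Finset (ι × ι)} {Θ : ι → ι → ℝ} {η N nb Db : ℝ}
  (A : Av F S Θ η N nb Db)
include A

lemma Av.w_nonneg (x y : ι) : 0 ≤ 1 - Θ x y := by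
  have := (abs_le.mp (A.absΘ x y)).2
  have := A.η1
  linarith

lemma Av.w_ge (x y : ι) : 1 - η ≤ 1 - Θ x y := by
  have := (abs_le.mp (A.absΘ x y)).2
  linarith

lemma Av.w_le (x y : ι) : 1 - Θ x y ≤ 1 + η := by
  have := (abs_le.mp (A.absΘ x y)).1
  linarith

lemma Av.w_le2 (x y : ι) : 1 - Θ x y ≤ 2 := by
  have := A.w_le x y
  have := A.η1
  linarith

/-- symmetric weights, symmetric set -/
lemma Av.swap (f : ι → ι → ℝ) :
    ∑ p ∈ S, (1 - Θ p.1 p.2) * f p.2 p.1 = ∑ p ∈ S, (1 - Θ p.1 p.2) * f p.1 p.2 := by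
  refine Finset.sum_bij' (fun p _ => (p.2, p.1)) (fun p _ => (p.2, p.1))
    (fun p hp => A.symS _ _ hp) (fun p hp => A.symS _ _ hp) (fun _ _ => rfl) (fun _ _ => rfl)
    fun p _ => ?_
  simp only
  rw [A.symm p.1 p.2]

lemma Av.split (f : ι × ι → ℝ) :
    ∑ p ∈ S, f p = ∑ p ∈ F ×ˢ F, f p - ∑ p ∈ (F ×ˢ F) \ S, f p := by
  rw [← Finset.sum_sdiff A.sub]; ring

lemma Av.sum_bias {f : ι × ι → ℝ} {a : ℝ} (hf : L2 (F ×ˢ F) f a) :
    |∑ p ∈ (F ×ˢ F) \ S, f p| ≤ nb * a := by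
  have h := (hf.subset Finset.sdiff_subset).abs_sum_le' A.bad
  rwa [Real.sqrt_sq A.nb0] at h

lemma Av.sum_theta (f : ι → ι → ℝ) :
    ∑ p ∈ S, Θ p.1 p.2 * f p.1 p.2 = ∑ x, ∑ y, Θ x y * f x y := by
  rw [← Finset.sum_product', Finset.univ_product_univ]
  refine Finset.sum_subset (Finset.subset_univ _) fun p _ hp => ?_
  rw [A.supp p.1 p.2 hp, zero_mul]

/-- the tilted average of a function of pairs -/
lemma Av.avg {f : ι → ι → ℝ} {a b : ℝ} (hf : L2 (F ×ˢ F) (fun p => f p.1 p.2) a)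
    (hΘ : |∑ x, ∑ y, Θ x y * f x y| ≤ b) :
    |∑ p ∈ S, (1 - Θ p.1 p.2) * f p.1 p.2 - ∑ x ∈ F, ∑ y ∈ F, f x y| ≤ nb * a + b := by
  have e : ∑ p ∈ S, (1 - Θ p.1 p.2) * f p.1 p.2
      = ∑ p ∈ S, f p.1 p.2 - ∑ p ∈ S, Θ p.1 p.2 * f p.1 p.2 := by
    rw [← Finset.sum_sub_distrib]
    exact Finset.sum_congr rfl fun p _ => by ring
  have h1 := A.sum_bias hf
  rw [e, A.split (fun p => f p.1 p.2), A.sum_theta, Finset.sum_product]
  have h2 : ∑ x ∈ F, ∑ y ∈ F, f x y - ∑ p ∈ (F ×ˢ F) \ S, f p.1 p.2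
      - ∑ x, ∑ y, Θ x y * f x y - ∑ x ∈ F, ∑ y ∈ F, f x y
      = -(∑ p ∈ (F ×ˢ F) \ S, f p.1 p.2 + ∑ x, ∑ y, Θ x y * f x y) := by ring
  simp only
  rw [h2, abs_neg]
  exact (abs_add_le _ _).trans (add_le_add h1 hΘ)

lemma Av.sum_le {f : ι → ι → ℝ} (h0 : ∀ x y, 0 ≤ f x y) :
    ∑ p ∈ S, (1 - Θ p.1 p.2) * f p.1 p.2 ≤ (1 + η) * ∑ x ∈ F, ∑ y ∈ F, f x y := by
  have hη : 0 ≤ 1 + η := by linarith [A.η0]
  rw [← Finset.sum_product', Finset.mul_sum]
  refine (Finset.sum_le_sum fun p _ => mul_le_mul_of_nonneg_right (A.w_le p.1 p.2)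
    (h0 p.1 p.2)).trans ?_
  exact Finset.sum_le_sum_of_subset_of_nonneg A.sub fun p _ _ => mul_nonneg hη (h0 p.1 p.2)

/-- lower bound for the removal term -/
lemma Av.removal {r : ι → ℝ} (h0 : ∀ x, 0 ≤ r x) :
    (1 - η) * ((F.card : ℝ) * (∑ x ∈ F, r x) - Db * ∑ x ∈ F, r x)
      ≤ ∑ p ∈ S, (1 - Θ p.1 p.2) * r p.1 := by
  have h1 : ∑ p ∈ S, (1 - η) * r p.1 ≤ ∑ p ∈ S, (1 - Θ p.1 p.2) * r p.1 :=
    Finset.sum_le_sum fun p _ => mul_le_mul_of_nonneg_right (A.w_ge p.1 p.2) (h0 p.1)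
  refine le_trans ?_ h1
  rw [← Finset.mul_sum]
  refine mul_le_mul_of_nonneg_left ?_ (by linarith [A.η1])
  rw [A.split (fun p => r p.1)]
  have h2 : ∑ p ∈ F ×ˢ F, r p.1 = (F.card : ℝ) * ∑ x ∈ F, r x := by
    rw [Finset.sum_product, Finset.mul_sum]
    simp only [Finset.sum_const, nsmul_eq_mul]
  have h3 : ∑ p ∈ (F ×ˢ F) \ S, r p.1 ≤ Db * ∑ x ∈ F, r x := by
    have e : ∑ p ∈ (F ×ˢ F) \ S, r p.1
        = ∑ x ∈ F, ((F.filter fun y => (x, y) ∉ S).card : ℝ) * r x := by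
      have e1 : (F ×ˢ F) \ S = (F ×ˢ F).filter (fun p => p ∉ S) := by
        ext p; simp [Finset.mem_sdiff]
      rw [e1, Finset.sum_filter, Finset.sum_product]
      refine Finset.sum_congr rfl fun x _ => ?_
      rw [← Finset.sum_filter]
      simp only [Finset.sum_const, nsmul_eq_mul]
    rw [e, Finset.mul_sum]
    exact Finset.sum_le_sum fun x hx => mul_le_mul_of_nonneg_right (A.row x hx) (h0 x)
  rw [h2]
  linarith

lemma Av.removal' {r : ι → ℝ} (h0 : ∀ x, 0 ≤ r x) :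
    (1 - η) * ((F.card : ℝ) * (∑ x ∈ F, r x) - Db * ∑ x ∈ F, r x)
      ≤ ∑ p ∈ S, (1 - Θ p.1 p.2) * r p.2 := by
  have h := A.swap (fun x _ => r x)
  rw [h]
  exact A.removal h0

/-- errors: weights at most `2` -/
lemma Av.err {f : ι → ι → ℝ} {b : ℝ} (h0 : ∀ p ∈ S, 0 ≤ f p.1 p.2)
    (hb : ∑ p ∈ S, f p.1 p.2 ≤ b) : ∑ p ∈ S, (1 - Θ p.1 p.2) * f p.1 p.2 ≤ 2 * b := by
  refine le_trans ?_ (mul_le_mul_of_nonneg_left hb (by norm_num : (0 : ℝ) ≤ 2))
  rw [Finset.mul_sum]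
  exact Finset.sum_le_sum fun p hp => mul_le_mul_of_nonneg_right (A.w_le2 p.1 p.2) (h0 p hp)

/-- comparison with a main term -/
lemma Av.cmp {f h e : ι → ι → ℝ} {b c : ℝ} (c0 : 0 ≤ c)
    (hfh : ∀ p ∈ S, |f p.1 p.2 - h p.1 p.2| ≤ c * e p.1 p.2)
    (hb : ∑ p ∈ S, e p.1 p.2 ≤ b) :
    ∑ p ∈ S, (1 - Θ p.1 p.2) * f p.1 p.2
      ≤ ∑ p ∈ S, (1 - Θ p.1 p.2) * h p.1 p.2 + 2 * (c * b) := by
  have h1 : ∀ p ∈ S, (1 - Θ p.1 p.2) * f p.1 p.2
      ≤ (1 - Θ p.1 p.2) * h p.1 p.2 + 2 * (c * e p.1 p.2) := by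
    intro p hp
    have a1 := hfh p hp
    have a2 := (_root_.abs_le.mp a1).2
    have a3 : 0 ≤ c * e p.1 p.2 := (abs_nonneg _).trans a1
    have a4 := mul_le_mul_of_nonneg_left a2 (A.w_nonneg p.1 p.2)
    have a5 := mul_le_mul_of_nonneg_right (A.w_le2 p.1 p.2) a3
    linarith
  refine (Finset.sum_le_sum h1).trans ?_
  rw [Finset.sum_add_distrib, ← Finset.mul_sum, ← Finset.mul_sum]
  have := mul_le_mul_of_nonneg_left hb c0
  linarith

/-- bilinear form of the tilt -/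
lemma Av.theta_bilin {f h : ι → ℝ} {a b : ℝ} (hf : L2 F f a) (hh : L2 F h b) :
    |∑ x, ∑ y, Θ x y * (f x * h y)| ≤ N * (a * b) := by
  set f' : ι → ℝ := fun x => if x ∈ F then f x else 0 with hf'
  set h' : ι → ℝ := fun x => if x ∈ F then h x else 0 with hh'
  have e1 : ∑ x, ∑ y, Θ x y * (f x * h y) = f' ⬝ᵥ ((Matrix.of Θ) *ᵥ h') := by
    simp only [dotProduct, Matrix.mulVec, Finset.mul_sum, Matrix.of_apply]
    refine Finset.sum_congr rfl fun x _ => Finset.sum_congr rfl fun y _ => ?_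
    by_cases hx : x ∈ F
    · by_cases hy : y ∈ F
      · simp only [hf', hh', hx, hy, if_true]; ring
      · rw [A.supp x y fun hp => hy (Finset.mem_product.mp (A.sub hp)).2]; ring
    · rw [A.supp x y fun hp => hx (Finset.mem_product.mp (A.sub hp)).1]; ring
  have e2 : f' ⬝ᵥ f' ≤ a ^ 2 := by
    refine le_trans (le_of_eq ?_) hf.2
    simp only [dotProduct, hf', ← Finset.sum_filter, mul_ite, ite_mul, zero_mul, mul_zero]
    simp [sq]
  have e3 : h' ⬝ᵥ h' ≤ b ^ 2 := by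
    refine le_trans (le_of_eq ?_) hh.2
    simp only [dotProduct, hh', ← Finset.sum_filter, mul_ite, ite_mul, zero_mul, mul_zero]
    simp [sq]
  rw [e1]
  refine abs_le_of_sq_le_sq ?_ (mul_nonneg A.op.1 (mul_nonneg hf.1 hh.1))
  have c1 := dot_sq_le f' ((Matrix.of Θ) *ᵥ h')
  have c2 := A.op.2 h'
  calc (f' ⬝ᵥ ((Matrix.of Θ) *ᵥ h')) ^ 2 ≤ _ := c1
    _ ≤ a ^ 2 * (N ^ 2 * b ^ 2) := mul_le_mul e2 (c2.trans (mul_le_mul_of_nonneg_left e3
        (sq_nonneg N))) (dot_self_nonneg _) (sq_nonneg a)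
    _ = _ := by ring

/-- tilt against a product of matrices -/
lemma Av.theta_mul {X Y : Matrix ι ι ℝ} {a b : ℝ} (ha : 0 ≤ a) (hb : 0 ≤ b) (hX : fr X ≤ a ^ 2)
    (hY : fr Y ≤ b ^ 2) : |∑ x, ∑ y, Θ x y * (X * Y) x y| ≤ N * (a * b) := by
  have h := TiltK.ip_mul_le A.op X Y
  refine h.trans (mul_le_mul_of_nonneg_left ?_ A.op.1)
  refine mul_le_mul ?_ ?_ (Real.sqrt_nonneg _) ha
  · rw [← Real.sqrt_sq ha]; exact Real.sqrt_le_sqrt hX
  · rw [← Real.sqrt_sq hb]; exact Real.sqrt_le_sqrt hY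

end av

end Crest.Agent.R62.Cross
end

-- ▼ part R62/CrossJ
section

/-!
R62 (helper214): the cross functional — the averaged inequality `cross_avg`.
-/

set_option autoImplicit false
set_option linter.unusedSectionVars false
set_option linter.unusedVariables false

open Matrix Finset

namespace Crest.Agent.R62.Cross

open Crest.Agent.R62.Upd Crest.Agent.R62.AvX1 Crest.Agent.R62.L2P Crest.Agent.R62.AvBase

variable {ι : Type*} [Fintype ι] [DecidableEq ι]

/-- bound for the sum of the errors of the second order term -/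
def b2 (g σ m lam v : ℝ) : ℝ :=
  8 * (g ^ 4 * v * (lam * m)) + 6 * (g ^ 2 * σ * v ^ 2 * (lam * m))
        + 2 * (g ^ 2 * v ^ 2 * (lam * m ^ 2)) + 2 * (σ * v * (lam * m ^ 2))
def b3 (g σ m v : ℝ) : ℝ :=
  64 * ((σ * m * v) ^ 2 + (σ * m) * (m * g ^ 2) + (m * v) * ((v * m) * g ^ 2))
def b4 (g σ m v : ℝ) : ℝ :=
  1024 * (((σ * (σ * (2 * g ^ 2))) * (v * v)) ^ 2 + ((σ * (2 * g ^ 2)) * (σ * v)) ^ 2
        + ((σ * (2 * g ^ 2)) * (σ * v)) ^ 2 + ((2 * g ^ 2) * g ^ 2) ^ 2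
        + m * ((σ * (σ * (σ * g ^ 2))) * (v * (σ * v)))
        + m * ((σ * g ^ 2) * (σ * g ^ 2))
        + m * ((σ * (σ * (σ * (v * v)))) * (σ * (σ * (σ * (v * v)))))
        + m * ((σ * (v * v)) * (σ * (σ * (σ * g ^ 2)))))
def b5 (g σ m v : ℝ) : ℝ :=
  6 * (32 * ((σ * m) ^ 2 + ((v * m) * v) ^ 2) + 16 * (v * m) ^ 2
        + 288 * (((σ * (2 * g ^ 2)) * v) ^ 2 + ((2 * g ^ 2) * g ^ 2) ^ 2)
        + 288 * ((σ * m) ^ 2 + (v * (σ * m)) ^ 2)
        + 1024 * ((v * (v * (σ * m))) ^ 2 + (v * (σ * m)) ^ 2)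
        + 1024 * (((σ * v) * (2 * g ^ 2)) ^ 2 + ((v * v) * (σ * (2 * g ^ 2))) ^ 2))

section
variable {F : Finset ι} {S : Finset (ι × ι)} {Θ : ι → ι → ℝ} {η N nb Db : ℝ}
  {K L : Matrix ι ι ℝ} {g σ m lam v s t : ℝ}

lemma dead_row {A : Matrix ι ι ℝ} (hA : ∀ i j, i ∉ F → A i j = 0) (B : Matrix ι ι ℝ) {x y : ι}
    (hx : x ∉ F) : (A * B) x y = 0 := by
  rw [Matrix.mul_apply]
  exact Finset.sum_eq_zero fun k _ => by rw [hA x k hx, zero_mul]

lemma sum_F_rn {A : Matrix ι ι ℝ} (hA : ∀ i j, i ∉ F → A i j = 0) :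
    ∑ x ∈ F, rn A x = fr A := by
  rw [← sum_rn, sum_F_eq_univ]
  intro x hx
  exact Finset.sum_eq_zero fun j _ => by rw [hA x j hx]; ring

/-- first order term, weighted -/
lemma wh1 (H : Hy F K L g σ m lam v) (A : Av F S Θ η N nb Db) (DK : Dr F K s) (DL : Dr F L t)
    (hg : GP2 K L S) :
    ∑ p ∈ S, (1 - Θ p.1 p.2) * h1 s K L p.1 p.2
      ≤ F.card + (nb + N) * (lam * m ^ 2) + 24 * (g ^ 2 * v ^ 2 * (lam * m ^ 2)) := by
  have c := A.cmp (f := h1 s K L) (h := fun x y => s * Yc K L y x) (e := h1err K L)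
    (by norm_num : (0 : ℝ) ≤ 4) (fun p hp => h1_sub DK.sq (hg p hp).1) (sum_h1err H A.sub)
  have hL2 : L2 (F ×ˢ F) (fun p : ι × ι => Yc K L p.2 p.1) (m * (lam * m)) := by
    refine (L2.tensor H.lsr H.lsz (subset_refl _)).of_abs_le fun p _ => ?_
    refine (Yc_le K L p.2 p.1).trans (le_of_eq ?_)
    rw [abs_mul, abs_of_nonneg (Real.sqrt_nonneg _), abs_of_nonneg (Real.sqrt_nonneg _)]
    ring
  have hth : |∑ x, ∑ y, Θ x y * Yc K L y x| ≤ N * (m * (lam * m)) := by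
    have h := A.theta_mul (X := K * L) (Y := (K * (K * L))ᵀ) H.m0 (mul_nonneg H.l0 H.m0) H.mX
      (by rw [fr_transpose]; exact H.zK)
    refine le_trans (le_of_eq ?_) h
    congr 1
    refine Finset.sum_congr rfl fun x _ => Finset.sum_congr rfl fun y _ => ?_
    rw [Matrix.mul_apply (M := K * L), Yc]
    congr 1
    exact Finset.sum_congr rfl fun j _ => by rw [Matrix.transpose_apply]; ring
  have a := A.avg (f := fun x y => Yc K L y x) hL2 hth
  rw [sum_Yc DK DL] at a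
  have e1 : ∑ p ∈ S, (1 - Θ p.1 p.2) * (s * Yc K L p.2 p.1)
      = s * ∑ p ∈ S, (1 - Θ p.1 p.2) * Yc K L p.2 p.1 := by
    rw [Finset.mul_sum]
    exact Finset.sum_congr rfl fun p _ => by ring
  rw [e1] at c
  have e2 : s * ∑ p ∈ S, (1 - Θ p.1 p.2) * Yc K L p.2 p.1
      ≤ F.card + (nb * (m * (lam * m)) + N * (m * (lam * m))) := by
    have e3 : s * ∑ p ∈ S, (1 - Θ p.1 p.2) * Yc K L p.2 p.1
        = F.card + s * (∑ p ∈ S, (1 - Θ p.1 p.2) * Yc K L p.2 p.1 - s * F.card) := by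
      have : s * (s * (F.card : ℝ)) = F.card := by rw [← mul_assoc, ← sq, DK.sq, one_mul]
      rw [mul_sub, this]; ring
    rw [e3]
    have e4 : s * (∑ p ∈ S, (1 - Θ p.1 p.2) * Yc K L p.2 p.1 - s * F.card)
        ≤ nb * (m * (lam * m)) + N * (m * (lam * m)) := by
      refine (le_abs_self _).trans ?_
      rw [abs_mul, abs_s DK.sq, one_mul]; exact a
    linarith
  refine c.trans ?_
  nlinarith [e2]

/-- second order term, weighted -/
lemma wh2 (H : Hy F K L g σ m lam v) (A : Av F S Θ η N nb Db) (DK : Dr F K s) (DL : Dr F L t)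
    (hg : GP2 K L S) :
    ∑ p ∈ S, (1 - Θ p.1 p.2) * h2 s t K L p.1 p.2
      ≤ (s * t) * (((K * L).trace - (s * t) * F.card) * fr (K * L))
        + (nb + N) * (2 * g ^ 2 * (σ * (lam * m))) + 32 * b2 g σ m lam v := by
  have hst : |s * t| = 1 := by rw [abs_mul, abs_s DK.sq, abs_s DL.sq, one_mul]
  have c := A.cmp (f := h2 s t K L)
    (h := fun x y => s * t * (((K * L) x x - s * t) * Zc K L y y)) (e := h2err K L)
    (by norm_num : (0 : ℝ) ≤ 16) (fun p hp => h2_sub DK.sq DL.sq (hg p hp).1 (hg p hp).2)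
    (sum_h2err H A.sub)
  have hf : L2 F (fun x => (K * L) x x - s * t) (2 * g ^ 2) := by
    refine H.lX1.of_abs_le fun x _ => ?_
    have := abs_sub ((K * L) x x) (s * t)
    rw [hst] at this
    exact this.trans (le_abs_self _)
  have hh : L2 F (fun y => Zc K L y y) (σ * (lam * m)) := by
    refine (H.swap.mul_sp H.lsz).of_abs_le fun y _ => ?_
    refine (Zc_le K L y y).trans (le_of_eq ?_)
    rw [abs_mul, abs_of_nonneg (Real.sqrt_nonneg _), abs_of_nonneg (Real.sqrt_nonneg _)]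
    ring
  have hL2 : L2 (F ×ˢ F) (fun p : ι × ι => ((K * L) p.1 p.1 - s * t) * Zc K L p.2 p.2)
      (2 * g ^ 2 * (σ * (lam * m))) := L2.tensor hf hh (subset_refl _)
  have hth := A.theta_bilin hf hh
  have a := A.avg (f := fun x y => ((K * L) x x - s * t) * Zc K L y y) hL2 hth
  have e0 : ∑ x ∈ F, ∑ y ∈ F, ((K * L) x x - s * t) * Zc K L y y
      = ((K * L).trace - (s * t) * F.card) * fr (K * L) := by
    rw [← Finset.sum_mul_sum, sum_Zc DK DL, Finset.sum_sub_distrib, sum_Xd DK]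
    simp only [Finset.sum_const, nsmul_eq_mul]
    ring
  rw [e0] at a
  have e1 : ∑ p ∈ S, (1 - Θ p.1 p.2) * (s * t * (((K * L) p.1 p.1 - s * t) * Zc K L p.2 p.2))
      = s * t * ∑ p ∈ S, (1 - Θ p.1 p.2) * (((K * L) p.1 p.1 - s * t) * Zc K L p.2 p.2) := by
    rw [Finset.mul_sum]
    exact Finset.sum_congr rfl fun p _ => by ring
  rw [e1] at c
  have e2 : s * t * (∑ p ∈ S, (1 - Θ p.1 p.2) * (((K * L) p.1 p.1 - s * t) * Zc K L p.2 p.2)
        - ((K * L).trace - (s * t) * F.card) * fr (K * L))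
      ≤ nb * (2 * g ^ 2 * (σ * (lam * m))) + N * (2 * g ^ 2 * (σ * (lam * m))) := by
    refine (le_abs_self _).trans ?_
    rw [abs_mul, hst, one_mul]; exact a
  rw [b2]
  rw [mul_sub] at e2
  linarith

/-- the Gaussian term, weighted -/
lemma wG (H : Hy F K L g σ m lam v) (A : Av F S Θ η N nb Db) (DK : Dr F K s) (DL : Dr F L t) :
    ∑ p ∈ S, (1 - Θ p.1 p.2) * fr (G0 s t K L p.1 p.2)
      ≤ (1 + η) * (2 * (fr K + fr L) * fr (K * L)
      + 4 * (s * t) * ((K * (K * L)).trace * ((K * L) * L).trace) + 8 * (lam * m) ^ 2) := by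
  have frn : ∀ B : Matrix ι ι ℝ, 0 ≤ fr B := fun B =>
    Finset.sum_nonneg fun _ _ => Finset.sum_nonneg fun _ _ => sq_nonneg _
  have h := A.sum_le (f := fun x y => fr (G0 s t K L x y)) (fun x y => frn _)
  refine h.trans (mul_le_mul_of_nonneg_left ?_ (by linarith [A.η0]))
  refine le_trans ?_ (sum_fr_G0 DK.sq DL.sq DK.symm DL.symm (mul_nonneg H.l0 H.m0) H.zK H.zL)
  refine (Finset.sum_le_sum fun x _ => Finset.sum_le_sum_of_subset_of_nonneg
    (Finset.subset_univ F) fun y _ _ => frn _).trans ?_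
  exact Finset.sum_le_sum_of_subset_of_nonneg (Finset.subset_univ F) fun x _ _ =>
    Finset.sum_nonneg fun y _ => frn _

/-- removal term, weighted -/
lemma wrem (A : Av F S Θ η N nb Db) (DK : Dr F K s) (DL : Dr F L t) :
    (1 - η) * (4 * F.card * fr (K * L) - 4 * Db * fr (K * L))
      ≤ ∑ p ∈ S, (1 - Θ p.1 p.2) * (rn (K * L) p.1 + rn (K * L) p.2 + rn (L * K) p.1
        + rn (L * K) p.2) := by
  have h1 := A.removal (r := rn (K * L)) (rn_nonneg _)
  have h2 := A.removal' (r := rn (K * L)) (rn_nonneg _)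
  have h3 := A.removal (r := rn (L * K)) (rn_nonneg _)
  have h4 := A.removal' (r := rn (L * K)) (rn_nonneg _)
  have e1 : ∑ x ∈ F, rn (K * L) x = fr (K * L) :=
    sum_F_rn fun i j hi => dead_row DK.dead L hi
  have e2 : ∑ x ∈ F, rn (L * K) x = fr (K * L) := by
    rw [sum_F_rn fun i j hi => dead_row DL.dead K hi, fr_comm DK.symm DL.symm]
  rw [e1] at h1 h2
  rw [e2] at h3 h4
  have e : ∑ p ∈ S, (1 - Θ p.1 p.2) * (rn (K * L) p.1 + rn (K * L) p.2 + rn (L * K) p.1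
        + rn (L * K) p.2)
      = ∑ p ∈ S, (1 - Θ p.1 p.2) * rn (K * L) p.1 + ∑ p ∈ S, (1 - Θ p.1 p.2) * rn (K * L) p.2
        + ∑ p ∈ S, (1 - Θ p.1 p.2) * rn (L * K) p.1
        + ∑ p ∈ S, (1 - Θ p.1 p.2) * rn (L * K) p.2 := by
    rw [← Finset.sum_add_distrib, ← Finset.sum_add_distrib, ← Finset.sum_add_distrib]
    exact Finset.sum_congr rfl fun p _ => by ring
  rw [e]
  linarith

/-- the corner term, weighted -/
lemma wX (H : Hy F K L g σ m lam v) (A : Av F S Θ η N nb Db) :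
    ∑ p ∈ S, (1 - Θ p.1 p.2) * ((K * L) p.1 p.1 ^ 2 + (K * L) p.1 p.2 ^ 2
        + (K * L) p.2 p.1 ^ 2 + (K * L) p.2 p.2 ^ 2) ≤ 4 * (g ^ 8 + m ^ 2) := by
  have h1 := (L2.tensor H.lX H.lone A.sub).2
  have h2 := (L2.tensor H.lone H.lX A.sub).2
  have h3 := (H.pX A.sub).2
  have h4 : ∑ p ∈ S, (K * L) p.2 p.1 ^ 2 ≤ m ^ 2 :=
    ((H.swap.pX A.sub).congr fun p _ => by rw [mulT H.hK H.hL]).2
  simp only [mul_one, one_mul] at h1 h2
  have h : ∑ p ∈ S, ((K * L) p.1 p.1 ^ 2 + (K * L) p.1 p.2 ^ 2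
        + (K * L) p.2 p.1 ^ 2 + (K * L) p.2 p.2 ^ 2) ≤ 2 * (g ^ 8 + m ^ 2) := by
    simp only [Finset.sum_add_distrib]
    have e : (g ^ 2 * g ^ 2) ^ 2 = g ^ 8 := by ring
    rw [e] at h1 h2
    linarith
  have := A.err (f := fun x y => (K * L) x x ^ 2 + (K * L) x y ^ 2
        + (K * L) y x ^ 2 + (K * L) y y ^ 2) (fun p _ => by positivity) h
  linarith

/-- **the averaged inequality** -/
theorem cross_avg {δ : ℝ} (hδ : 0 < δ) (hδ1 : δ ≤ 1) (H : Hy F K L g σ m lam v)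
    (A : Av F S Θ η N nb Db) (DK : Dr F K s) (DL : Dr F L t) (hg : GP2 K L S) :
    ∑ p ∈ S, (1 - Θ p.1 p.2) * (fr (upd s K p.1 p.2 * upd t L p.1 p.2) - fr (K * L))
      ≤ 8 * (F.card + (nb + N) * (lam * m ^ 2) + 24 * (g ^ 2 * v ^ 2 * (lam * m ^ 2)))
      + 4 * ((s * t) * (((K * L).trace - (s * t) * F.card) * fr (K * L))
        + (nb + N) * (2 * g ^ 2 * (σ * (lam * m))) + 32 * b2 g σ m lam v)
      + (1 + δ) * ((1 + η) * (2 * (fr K + fr L) * fr (K * L)
      + 4 * (s * t) * ((K * (K * L)).trace * ((K * L) * L).trace) + 8 * (lam * m) ^ 2))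
      + (1 + δ⁻¹) * (8 * (8 * b3 g σ m v + 4 * b4 g σ m v))
      - (1 - δ) * ((1 - η) * (4 * F.card * fr (K * L) - 4 * Db * fr (K * L)))
      + 4 * (g ^ 8 + m ^ 2) + δ⁻¹ * (8 * b5 g σ m v) := by
  have hδi : 0 ≤ δ⁻¹ := inv_nonneg.mpr hδ.le
  have hg' := hg.swap
  -- pointwise, weighted
  have hpt : ∀ p ∈ S, (1 - Θ p.1 p.2) * (fr (upd s K p.1 p.2 * upd t L p.1 p.2) - fr (K * L))
      ≤ 2 * ((1 - Θ p.1 p.2) * h1 s K L p.1 p.2 + (1 - Θ p.1 p.2) * h1 s K L p.2 p.1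
          + ((1 - Θ p.1 p.2) * h1 t L K p.1 p.2 + (1 - Θ p.1 p.2) * h1 t L K p.2 p.1))
        + 2 * ((1 - Θ p.1 p.2) * h2 s t K L p.1 p.2 + (1 - Θ p.1 p.2) * h2 s t K L p.2 p.1)
        + (1 + δ) * ((1 - Θ p.1 p.2) * fr (G0 s t K L p.1 p.2))
        + (1 + δ⁻¹) * (8 * ((1 - Θ p.1 p.2) * h3 s K L p.1 p.2
          + (1 - Θ p.1 p.2) * h3 s K L p.2 p.1 + ((1 - Θ p.1 p.2) * h3 t L K p.1 p.2
          + (1 - Θ p.1 p.2) * h3 t L K p.2 p.1) + ((1 - Θ p.1 p.2) * h4 s t K L p.1 p.2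
          + (1 - Θ p.1 p.2) * h4 s t K L p.2 p.1)))
        - (1 - δ) * ((1 - Θ p.1 p.2) * (rn (K * L) p.1 + rn (K * L) p.2 + rn (L * K) p.1
          + rn (L * K) p.2))
        + (1 - Θ p.1 p.2) * ((K * L) p.1 p.1 ^ 2 + (K * L) p.1 p.2 ^ 2
          + (K * L) p.2 p.1 ^ 2 + (K * L) p.2 p.2 ^ 2)
        + δ⁻¹ * ((1 - Θ p.1 p.2) * h5 s t K L p.1 p.2 + (1 - Θ p.1 p.2) * h5 s t K L p.2 p.1
          + (1 - Θ p.1 p.2) * h5 t s L K p.1 p.2 + (1 - Θ p.1 p.2) * h5 t s L K p.2 p.1) := by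
    intro p hp
    have h := pointwise DK.sq DL.sq hδ hδ1 DK.symm DL.symm (hg p hp).1 (hg p hp).2
    have h' := mul_le_mul_of_nonneg_left h (A.w_nonneg p.1 p.2)
    linarith
  refine (Finset.sum_le_sum hpt).trans ?_
  simp only [Finset.sum_add_distrib, Finset.sum_sub_distrib, ← Finset.mul_sum]
  rw [A.swap (h1 s K L), A.swap (h1 t L K), A.swap (h2 s t K L), A.swap (h3 s K L),
    A.swap (h3 t L K), A.swap (h4 s t K L), A.swap (h5 s t K L), A.swap (h5 t s L K)]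
  have n3 : ∀ (s : ℝ) (K L : Matrix ι ι ℝ) (x y : ι), 0 ≤ h3 s K L x y := fun s K L x y =>
    mul_nonneg (nv_nonneg _) (rn_nonneg _ _)
  have n4 : ∀ (s t : ℝ) (K L : Matrix ι ι ℝ) (x y : ι), 0 ≤ h4 s t K L x y :=
    fun s t K L x y => add_nonneg
      (mul_nonneg (sq_nonneg _) (mul_nonneg (nv_nonneg _) (nv_nonneg _)))
      (mul_nonneg (sq_nonneg _) (mul_nonneg (nv_nonneg _) (nv_nonneg _)))
  have n5 : ∀ (s t : ℝ) (K L : Matrix ι ι ℝ) (x y : ι), 0 ≤ h5 s t K L x y := by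
    intro s t K L x y
    have a1 := rn_nonneg (K * L) x
    have a2 := rn_nonneg (K * L) y
    have a3 := nv_nonneg (al t L x y)
    have a4 := nv_nonneg (be t L x y)
    unfold h5
    positivity
  have i1 := wh1 H A DK DL hg
  have i1' := wh1 H.swap A DL DK hg'
  have i2 := wh2 H A DK DL hg
  have iG := wG H A DK DL
  have i3 := A.err (f := h3 s K L) (fun p _ => n3 _ _ _ _ _) (sum_h3 H A.sub hg DK.sq)
  have i3' := A.err (f := h3 t L K) (fun p _ => n3 _ _ _ _ _) (sum_h3 H.swap A.sub hg' DL.sq)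
  have i4 := A.err (f := h4 s t K L) (fun p _ => n4 _ _ _ _ _ _)
    (sum_h4 H A.sub hg DK.sq DL.sq)
  have i5 := A.err (f := h5 s t K L) (fun p _ => n5 _ _ _ _ _ _)
    (sum_h5 H A.sub hg DK.sq DL.sq)
  have i5' := A.err (f := h5 t s L K) (fun p _ => n5 _ _ _ _ _ _)
    (sum_h5 H.swap A.sub hg' DL.sq DK.sq)
  have iR := wrem A DK DL
  have iX := wX H A
  have jG := mul_le_mul_of_nonneg_left iG (by linarith : (0 : ℝ) ≤ 1 + δ)
  have j34 := mul_le_mul_of_nonneg_left (add_le_add (add_le_add i3 i3') i4)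
    (by linarith : (0 : ℝ) ≤ 16 * (1 + δ⁻¹))
  have j5 := mul_le_mul_of_nonneg_left (add_le_add i5 i5')
    (by linarith : (0 : ℝ) ≤ 2 * δ⁻¹)
  have jR := mul_le_mul_of_nonneg_left iR (by linarith : (0 : ℝ) ≤ 1 - δ)
  simp only [Finset.sum_add_distrib, Finset.sum_sub_distrib, mul_add (1 - Θ _ _)] at *
  rw [b3, b4, b5]
  linarith

end

end Crest.Agent.R62.Cross
end

-- ▼ part R62/CrossK
section

/-!
R62 (helper214): the cross functional — lower bounds of the mixed traces from `K, L ≥ -γ` on `u^⊥`.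
-/

set_option autoImplicit false
set_option linter.unusedSectionVars false
set_option linter.unusedVariables false

open Matrix Finset

namespace Crest.Agent.R62.Cross

open Crest.Agent.R62.Upd Crest.Agent.R62.AvX1 Crest.Agent.R62.L2P Crest.Agent.R62.AvBase

variable {ι : Type*} [Fintype ι] [DecidableEq ι]

/-- `K ≥ -γ` on the vectors with sum zero on `F` -/
def Low (F : Finset ι) (K : Matrix ι ι ℝ) (γ : ℝ) : Prop :=
  ∀ f : ι → ℝ, ∑ i ∈ F, f i = 0 → -γ * ∑ i ∈ F, f i ^ 2 ≤ f ⬝ᵥ (K *ᵥ f)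

lemma dot_ind (F : Finset ι) (f : ι → ℝ) : f ⬝ᵥ ind F = ∑ i ∈ F, f i := by
  simp only [dotProduct, ind, mul_ite, mul_one, mul_zero]
  rw [Finset.sum_ite_mem, Finset.univ_inter]

lemma quad_low {F : Finset ι} {K : Matrix ι ι ℝ} {s γ : ℝ} (hK : Dr F K s) (hl : Low F K γ)
    (hF : F.Nonempty) (f : ι → ℝ) :
    -γ * ∑ i ∈ F, f i ^ 2 + (s + γ) / F.card * (∑ i ∈ F, f i) ^ 2 ≤ f ⬝ᵥ (K *ᵥ f) := by
  have hρ : (0 : ℝ) < F.card := by exact_mod_cast Finset.card_pos.mpr hF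
  set ρ : ℝ := (F.card : ℝ) with hρdef
  set T : ℝ := ∑ i ∈ F, f i with hT
  set g : ι → ℝ := fun i => f i - T / ρ * ind F i with hg
  have hu : ∀ i ∈ F, ind F i = 1 := fun i hi => by simp [ind, hi]
  have hsum : ∑ i ∈ F, g i = 0 := by
    simp only [hg, Finset.sum_sub_distrib, ← Finset.mul_sum]
    rw [Finset.sum_congr rfl hu]
    simp only [Finset.sum_const, nsmul_eq_mul, mul_one]
    rw [← hT, ← hρdef]
    field_simp
    ring
  have hg2 : ∑ i ∈ F, g i ^ 2 = ∑ i ∈ F, f i ^ 2 - T ^ 2 / ρ := by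
    have e : ∀ i ∈ F, g i ^ 2 = f i ^ 2 - 2 * (T / ρ) * f i + (T / ρ) ^ 2 := fun i hi => by
      simp only [hg, hu i hi]; ring
    rw [Finset.sum_congr rfl e, Finset.sum_add_distrib, Finset.sum_sub_distrib, ← Finset.mul_sum]
    rw [← hT, Finset.sum_const, nsmul_eq_mul, ← hρdef]
    field_simp
    ring
  have hkg : f = g + (T / ρ) • ind F := by
    funext i; simp [hg]
  have hgu : g ⬝ᵥ ind F = 0 := by rw [dot_ind, hsum]
  have hukk : ind F ⬝ᵥ (K *ᵥ g) = 0 := by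
    rw [Matrix.dotProduct_mulVec, ← Matrix.mulVec_transpose, hK.symm.eq, hK.row, smul_dotProduct,
      dotProduct_comm, hgu, smul_zero]
  have hguu : g ⬝ᵥ (K *ᵥ ind F) = 0 := by
    rw [hK.row, dotProduct_smul, hgu, smul_zero]
  have huu : ind F ⬝ᵥ (K *ᵥ ind F) = s * ρ := by
    rw [hK.row, dotProduct_smul, smul_eq_mul]
    congr 1
    simp [dotProduct, ind, hρdef]
  have e1 : f ⬝ᵥ (K *ᵥ f) = g ⬝ᵥ (K *ᵥ g) + T ^ 2 / ρ * s := by
    conv_lhs => rw [hkg]
    rw [Matrix.mulVec_add, add_dotProduct, dotProduct_add, dotProduct_add, Matrix.mulVec_smul,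
      dotProduct_smul, dotProduct_smul, smul_dotProduct, smul_dotProduct, hguu, hukk, huu]
    simp only [smul_eq_mul, mul_zero, add_zero, zero_add]
    field_simp
  have h := hl g hsum
  rw [e1]
  rw [hg2] at h
  have e2 : -γ * (∑ i ∈ F, f i ^ 2 - T ^ 2 / ρ) + T ^ 2 / ρ * s
      = -γ * ∑ i ∈ F, f i ^ 2 + (s + γ) / ρ * T ^ 2 := by
    field_simp
    ring
  rw [← e2]
  linarith

lemma trace_vec {K : Matrix ι ι ℝ} (v w : ι → ℝ) :
    (K * vecMulVec v w).trace = w ⬝ᵥ (K *ᵥ v) := by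
  simp only [Matrix.trace, Matrix.diag_apply, Matrix.mul_apply, Matrix.vecMulVec_apply,
    dotProduct, Matrix.mulVec, Finset.mul_sum]
  exact Finset.sum_congr rfl fun i _ => Finset.sum_congr rfl fun j _ => by ring

/-- `Tr K B ≥ -γ Tr_F B + (s+γ)/ρ uᵀBu` for PSD `B` -/
lemma trace_mul_low {F : Finset ι} {K : Matrix ι ι ℝ} {s γ : ℝ} (hK : Dr F K s)
    (hl : Low F K γ) (hF : F.Nonempty) {B : Matrix ι ι ℝ} (hB : B.PosSemidef) :
    -γ * ∑ i ∈ F, B i i + (s + γ) / F.card * (ind F ⬝ᵥ (B *ᵥ ind F)) ≤ (K * B).trace := by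
  obtain ⟨m, v, hv⟩ := Matrix.posSemidef_iff_eq_sum_vecMulVec.mp hB
  have e1 : (K * B).trace = ∑ i, (v i) ⬝ᵥ (K *ᵥ (v i)) := by
    rw [hv, Finset.mul_sum, Matrix.trace_sum]
    exact Finset.sum_congr rfl fun i _ => by rw [trace_vec]; simp
  have e2 : ∑ i ∈ F, B i i = ∑ k, ∑ i ∈ F, v k i ^ 2 := by
    rw [Finset.sum_comm]
    refine Finset.sum_congr rfl fun i _ => ?_
    rw [hv, Matrix.sum_apply]
    exact Finset.sum_congr rfl fun k _ => by
      rw [Matrix.vecMulVec_apply]; simp [sq]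
  have e3 : ind F ⬝ᵥ (B *ᵥ ind F) = ∑ k, (∑ i ∈ F, v k i) ^ 2 := by
    rw [hv, Matrix.sum_mulVec, dotProduct_sum]
    refine Finset.sum_congr rfl fun k _ => ?_
    have : vecMulVec (v k) (star (v k)) *ᵥ ind F = (∑ i ∈ F, v k i) • v k := by
      funext i
      simp only [Matrix.mulVec, dotProduct, Matrix.vecMulVec_apply, Pi.smul_apply, smul_eq_mul,
        Pi.star_apply, star_trivial, ind, mul_ite, mul_one, mul_zero]
      rw [Finset.sum_ite_mem, Finset.univ_inter, ← Finset.mul_sum, mul_comm]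
    rw [this, dotProduct_smul, dotProduct_comm, dot_ind, smul_eq_mul, sq]
  rw [e1, e2, e3, Finset.mul_sum, Finset.mul_sum, ← Finset.sum_add_distrib]
  exact Finset.sum_le_sum fun k _ => quad_low hK hl hF (v k)

/-- the PSD matrix `L - (t+γ)/ρ uuᵀ + γ 1_F` -/
lemma psd_shift {F : Finset ι} {L : Matrix ι ι ℝ} {t γ : ℝ} (hL : Dr F L t)
    (hl : Low F L γ) (hF : F.Nonempty) :
    (L - ((t + γ) / F.card) • vecMulVec (ind F) (ind F)
      + γ • Matrix.diagonal (ind F)).PosSemidef := by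
  refine Matrix.PosSemidef.of_dotProduct_mulVec_nonneg ?_ fun f => ?_
  · rw [Matrix.IsHermitian]
    ext i j
    simp only [Matrix.conjTranspose_apply, Matrix.add_apply, Matrix.sub_apply, Matrix.smul_apply,
      Matrix.vecMulVec_apply, star_trivial, smul_eq_mul, hL.symm.apply j i]
    have : Matrix.diagonal (ind F) j i = Matrix.diagonal (ind F) i j := by
      by_cases h : i = j
      · subst h; rfl
      · rw [Matrix.diagonal_apply_ne _ h, Matrix.diagonal_apply_ne _ (Ne.symm h)]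
    rw [this]
    have h2 := hL.symm.apply i j
    rw [h2]
    ring
  · have h := quad_low hL hl hF f
    have e1 : star f ⬝ᵥ ((L - ((t + γ) / F.card) • vecMulVec (ind F) (ind F)
        + γ • Matrix.diagonal (ind F)) *ᵥ f)
        = f ⬝ᵥ (L *ᵥ f) - (t + γ) / F.card * (∑ i ∈ F, f i) ^ 2 + γ * ∑ i ∈ F, f i ^ 2 := by
      rw [star_trivial, Matrix.add_mulVec, Matrix.sub_mulVec, Matrix.smul_mulVec,
        Matrix.smul_mulVec, dotProduct_add, dotProduct_sub, dotProduct_smul, dotProduct_smul]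
      have a1 : f ⬝ᵥ (vecMulVec (ind F) (ind F) *ᵥ f) = (∑ i ∈ F, f i) ^ 2 := by
        have : vecMulVec (ind F) (ind F) *ᵥ f = (∑ i ∈ F, f i) • ind F := by
          funext i
          rw [Pi.smul_apply, smul_eq_mul, ← dot_ind, dotProduct_comm]
          simp only [Matrix.mulVec, dotProduct, Matrix.vecMulVec_apply, Finset.sum_mul]
          exact Finset.sum_congr rfl fun j _ => by ring
        rw [this, dotProduct_smul, dot_ind, smul_eq_mul, sq]
      have a2 : f ⬝ᵥ (Matrix.diagonal (ind F) *ᵥ f) = ∑ i ∈ F, f i ^ 2 := by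
        rw [← dot_ind F (fun i => f i ^ 2)]
        simp only [dotProduct, Matrix.mulVec_diagonal]
        exact Finset.sum_congr rfl fun j _ => by ring
      rw [a1, a2]
      simp only [smul_eq_mul]
    rw [e1]
    linarith

lemma trace_KL_ge {F : Finset ι} {K L : Matrix ι ι ℝ} {s t γ : ℝ} (hK : Dr F K s)
    (hL : Dr F L t) (lK : Low F K γ) (lL : Low F L γ) (hF : F.Nonempty) :
    s * t + γ * (s + t) + γ ^ 2 - γ * (K.trace + L.trace) - γ ^ 2 * F.card ≤ (K * L).trace := by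
  have hρ : (0 : ℝ) < F.card := by exact_mod_cast Finset.card_pos.mpr hF
  have h := trace_mul_low hK lK hF (psd_shift hL lL hF)
  set B := L - ((t + γ) / F.card) • vecMulVec (ind F) (ind F)
      + γ • Matrix.diagonal (ind F) with hB
  have i2 : ∀ i ∈ F, ind F i = 1 := fun i hi => by simp [ind, hi]
  have trF : ∀ {A : Matrix ι ι ℝ}, (∀ i j, i ∉ F → A i j = 0) → ∑ i ∈ F, A i i = A.trace := by
    intro A hA
    rw [sum_F_eq_univ _ _ fun x hx => hA x x hx]; rfl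
  have e1 : ∑ i ∈ F, B i i = L.trace - (t + γ) + γ * F.card := by
    have : ∀ i ∈ F, B i i = L i i - (t + γ) / F.card + γ := fun i hi => by
      simp only [hB, Matrix.add_apply, Matrix.sub_apply, Matrix.smul_apply,
        Matrix.vecMulVec_apply, Matrix.diagonal_apply_eq, i2 i hi, smul_eq_mul, mul_one]
    rw [Finset.sum_congr rfl this, Finset.sum_add_distrib, Finset.sum_sub_distrib,
      trF hL.dead]
    simp only [Finset.sum_const, nsmul_eq_mul]
    field_simp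
  have uu : ind F ⬝ᵥ ind F = (F.card : ℝ) := by
    rw [dot_ind, Finset.sum_congr rfl i2]; simp
  have vu : vecMulVec (ind F) (ind F) *ᵥ ind F = (F.card : ℝ) • ind F := by
    funext i
    rw [Pi.smul_apply, smul_eq_mul, ← uu]
    simp only [Matrix.mulVec, dotProduct, Matrix.vecMulVec_apply, Finset.sum_mul]
    exact Finset.sum_congr rfl fun j _ => by ring
  have du : Matrix.diagonal (ind F) *ᵥ ind F = ind F := by
    funext i
    rw [Matrix.mulVec_diagonal]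
    unfold ind; split_ifs <;> simp
  have e2 : ind F ⬝ᵥ (B *ᵥ ind F) = 0 := by
    rw [hB, Matrix.add_mulVec, Matrix.sub_mulVec, Matrix.smul_mulVec, Matrix.smul_mulVec, vu, du,
      hL.row, dotProduct_add, dotProduct_sub, dotProduct_smul, dotProduct_smul, dotProduct_smul,
      dotProduct_smul, uu]
    simp only [smul_eq_mul]
    field_simp
    ring
  have e3 : (K * B).trace = (K * L).trace - (t + γ) * s + γ * K.trace := by
    rw [hB, Matrix.mul_add, Matrix.mul_sub, Matrix.mul_smul, Matrix.mul_smul, Matrix.trace_add,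
      Matrix.trace_sub, Matrix.trace_smul, Matrix.trace_smul, trace_vec, hK.row, dotProduct_smul,
      uu]
    have : (K * Matrix.diagonal (ind F)).trace = K.trace := by
      rw [← trF hK.dead, ← dot_ind F (fun i => K i i)]
      simp only [Matrix.trace, Matrix.diag_apply, Matrix.mul_diagonal, dotProduct]
    rw [this]
    simp only [smul_eq_mul]
    field_simp
  rw [e1, e2, e3] at h
  linarith

/-- `Tr K L² ≥ -1 - γ Tr L²` -/
lemma trace_KLL_ge {F : Finset ι} {K L : Matrix ι ι ℝ} {s t γ : ℝ} (hK : Dr F K s)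
    (hL : Dr F L t) (lK : Low F K γ) (hγ : 0 ≤ γ) (hF : F.Nonempty) :
    -1 - γ * fr L ≤ (K * (L * L)).trace := by
  have hρ : (0 : ℝ) < F.card := by exact_mod_cast Finset.card_pos.mpr hF
  have hB : (L * L).PosSemidef := by
    have := Matrix.posSemidef_conjTranspose_mul_self L
    rwa [Matrix.conjTranspose_eq_transpose_of_trivial, hL.symm.eq] at this
  have h := trace_mul_low hK lK hF hB
  have e1 : ∑ i ∈ F, (L * L) i i = fr L := by
    rw [← sum_F_rn hL.dead]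
    refine Finset.sum_congr rfl fun i _ => ?_
    rw [Matrix.mul_apply]
    unfold rn
    exact Finset.sum_congr rfl fun j _ => by rw [hL.symm.apply i j]; ring
  have e2 : ind F ⬝ᵥ ((L * L) *ᵥ ind F) = F.card := by
    have i2 : ∀ i ∈ F, ind F i = 1 := fun i hi => by simp [ind, hi]
    rw [← Matrix.mulVec_mulVec, hL.row, Matrix.mulVec_smul, hL.row, smul_smul, ← sq, hL.sq,
      one_smul, dot_ind, Finset.sum_congr rfl i2]
    simp
  rw [e1, e2] at h
  have e3 : (s + γ) / (F.card : ℝ) * F.card = s + γ := by field_simp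
  rw [e3] at h
  have : -1 ≤ s := by nlinarith [hK.sq]
  linarith

end Crest.Agent.R62.Cross
end

-- ▼ part R62/CrossL

/-!
R62 (helper214): the cross functional — opposite signs, the drift absorbs the relative errors.
-/

set_option autoImplicit false
set_option linter.unusedSectionVars false
set_option linter.unusedVariables false

open Matrix Finset

namespace Crest.Agent.R62.Cross

open Crest.Agent.R62.Upd Crest.Agent.R62.AvX1 Crest.Agent.R62.L2P Crest.Agent.R62.AvBase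

variable {ι : Type*} [Fintype ι] [DecidableEq ι]

section
variable {F : Finset ι} {S : Finset (ι × ι)} {Θ : ι → ι → ℝ} {η N nb Db : ℝ}
  {K L : Matrix ι ι ℝ} {g σ m lam v s t : ℝ}

lemma trace_mul_le {A B : Matrix ι ι ℝ} {a b : ℝ} (ha : 0 ≤ a) (hb : 0 ≤ b) (hA : fr A ≤ a ^ 2)
    (hB : fr B ≤ b ^ 2) : |(A * B).trace| ≤ a * b := by
  have h := ip_le ha hb hA (B := Bᵀ) (by rw [fr_transpose]; exact hB)
  have e : (A * B).trace = ∑ x, ∑ y, A x y * Bᵀ x y := by
    unfold Matrix.trace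
    refine Finset.sum_congr rfl fun i _ => ?_
    rw [Matrix.diag_apply, Matrix.mul_apply]
    rfl
  rw [e]; exact h

lemma neg_mul_le {x y r q : ℝ} (hx : -r ≤ x) (hy : -r ≤ y) (hx' : |x| ≤ q) (hy' : |y| ≤ q)
    (hr : 0 ≤ r) : -(x * y) ≤ r * q := by
  have h1 := (abs_le.mp hx').2
  have h2 := (abs_le.mp hy').2
  have hq : 0 ≤ q := (abs_nonneg _).trans hx'
  by_cases h : 0 ≤ x
  · have := mul_le_mul_of_nonneg_left hy h
    have := mul_le_mul_of_nonneg_right h1 hr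
    nlinarith
  · push Not at h
    by_cases h' : 0 ≤ y
    · have := mul_le_mul_of_nonneg_right hx h'
      have := mul_le_mul_of_nonneg_right h2 hr
      nlinarith
    · push Not at h'
      nlinarith [mul_nonneg hr hq, mul_pos_of_neg_of_neg h h']

lemma amgm (g m : ℝ) : 9 * (g ^ 2 * m) ≤ 1 / 2 * m ^ 2 + 41 * g ^ 4 := by
  nlinarith [sq_nonneg (m - 9 * g ^ 2), sq_nonneg (g ^ 2)]

theorem cross_fin {γ τ : ℝ} (H : Hy F K L g σ m lam v) (A : Av F S Θ η N nb Db) (DK : Dr F K s)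
    (DL : Dr F L t) (hg : GP2 K L S) (hst : s * t = -1) (hsum : s + t = 0) (lK : Low F K γ)
    (lL : Low F L γ) (γ0 : 0 ≤ γ) (γ1 : γ ^ 2 ≤ 1 / 2) (hη : η ≤ 1 / 64)
    (hP : fr K ≤ F.card) (hQ : fr L ≤ F.card) (hm : fr (K * L) = m ^ 2)
    (hτ : γ * (K.trace + L.trace) ≤ τ) (hD : 8 * (1 + τ + Db) ≤ F.card) (hF : F.Nonempty) :
    ∑ p ∈ S, (1 - Θ p.1 p.2) * (fr (upd s K p.1 p.2 * upd t L p.1 p.2) - fr (K * L))
      ≤ 8 * F.card + 41 * (F.card * g ^ 4) + 9 * (lam * m) ^ 2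
      + 8 * ((nb + N) * (lam * m ^ 2) + 24 * (g ^ 2 * v ^ 2 * (lam * m ^ 2)))
      + 4 * ((nb + N) * (2 * g ^ 2 * (σ * (lam * m))) + 32 * b2 g σ m lam v)
      + 264 * (8 * b3 g σ m v + 4 * b4 g σ m v)
      + 4 * (g ^ 8 + m ^ 2) + 256 * b5 g σ m v := by
  have h := cross_avg (δ := 1 / 32) (by norm_num) (by norm_num) H A DK DL hg
  have hρ1 : (1 : ℝ) ≤ F.card := by exact_mod_cast Finset.card_pos.mpr hF
  set ρ : ℝ := (F.card : ℝ) with hρ
  have hγ : γ ≤ 1 := by nlinarith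
  have frn : ∀ B : Matrix ι ι ℝ, 0 ≤ fr B := fun B =>
    Finset.sum_nonneg fun _ _ => Finset.sum_nonneg fun _ _ => sq_nonneg _
  have g0 := H.g0
  -- the mixed traces
  have t11 := trace_KL_ge DK DL lK lL hF
  rw [hst, hsum] at t11
  have t11' : -(1 + τ + ρ / 2) ≤ (K * L).trace := by
    have : γ ^ 2 * ρ ≤ 1 / 2 * ρ := mul_le_mul_of_nonneg_right γ1 (by linarith)
    have := sq_nonneg γ
    linarith
  have e12 : ((K * L) * L).trace = (K * (L * L)).trace := by rw [Matrix.mul_assoc]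
  have e21 : (K * (K * L)).trace = (L * (K * K)).trace := by
    rw [← Matrix.mul_assoc, Matrix.trace_mul_comm]
  have t12 : -(2 * ρ) ≤ ((K * L) * L).trace := by
    rw [e12]
    have := trace_KLL_ge DK DL lK γ0 hF
    have h2 : γ * fr L ≤ 1 * ρ := mul_le_mul hγ hQ (frn _) (by norm_num)
    linarith
  have t21 : -(2 * ρ) ≤ (K * (K * L)).trace := by
    rw [e21]
    have := trace_KLL_ge DL DK lL γ0 hF
    have h2 : γ * fr K ≤ 1 * ρ := mul_le_mul hγ hP (frn _) (by norm_num)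
    linarith
  have gK : fr K ≤ (g ^ 2) ^ 2 := by
    rw [← pow_mul]; exact hP.trans H.card
  have gL : fr L ≤ (g ^ 2) ^ 2 := by
    rw [← pow_mul]; exact hQ.trans H.card
  have a21 : |(K * (K * L)).trace| ≤ g ^ 2 * m :=
    trace_mul_le (by positivity) H.m0 gK hm.le
  have a12 : |((K * L) * L).trace| ≤ g ^ 2 * m := by
    rw [mul_comm]
    exact trace_mul_le H.m0 (by positivity) hm.le gL
  have hprod := neg_mul_le t21 t12 a21 a12 (by linarith)
  rw [hst, hm] at h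
  rw [hm]
  -- the three parts
  have hm2 : 0 ≤ m ^ 2 := sq_nonneg m
  have p1 : (-1 : ℝ) * (((K * L).trace - -1 * ρ) * m ^ 2) ≤ (1 + τ - ρ / 2) * m ^ 2 := by
    have := mul_le_mul_of_nonneg_right t11' hm2
    linarith
  have p2 : 2 * (fr K + fr L) * m ^ 2
      + 4 * -1 * ((K * (K * L)).trace * ((K * L) * L).trace) + 8 * (lam * m) ^ 2
      ≤ 4 * ρ * m ^ 2 + 8 * (ρ * (g ^ 2 * m)) + 8 * (lam * m) ^ 2 := by
    have : (fr K + fr L) * m ^ 2 ≤ (ρ + ρ) * m ^ 2 :=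
      mul_le_mul_of_nonneg_right (add_le_add hP hQ) hm2
    linarith
  have q0 : 0 ≤ ρ * m ^ 2 := mul_nonneg (by linarith) hm2
  have q1 : 0 ≤ ρ * (g ^ 2 * m) := mul_nonneg (by linarith) (mul_nonneg (sq_nonneg _) H.m0)
  have q2 : 0 ≤ (lam * m) ^ 2 := sq_nonneg _
  have p3 : (1 + 1 / 32) * ((1 + η) * (2 * (fr K + fr L) * m ^ 2
      + 4 * -1 * ((K * (K * L)).trace * ((K * L) * L).trace) + 8 * (lam * m) ^ 2))
      ≤ (2145 / 2048) * (4 * ρ * m ^ 2 + 8 * (ρ * (g ^ 2 * m)) + 8 * (lam * m) ^ 2) := by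
    have h1 := mul_le_mul_of_nonneg_left p2 (by linarith [A.η0] : (0 : ℝ) ≤ 1 + η)
    have h2 : (1 + η) * (4 * ρ * m ^ 2 + 8 * (ρ * (g ^ 2 * m)) + 8 * (lam * m) ^ 2)
        ≤ (65 / 64) * (4 * ρ * m ^ 2 + 8 * (ρ * (g ^ 2 * m)) + 8 * (lam * m) ^ 2) :=
      mul_le_mul_of_nonneg_right (by linarith) (by linarith)
    linarith
  have hDb : 0 ≤ Db := by
    obtain ⟨x, hx⟩ := hF
    exact le_trans (Nat.cast_nonneg _) (A.row x hx)
  have p4 : 1953 / 2048 * (4 * ρ * m ^ 2) - 4 * Db * m ^ 2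
      ≤ (1 - 1 / 32) * ((1 - η) * (4 * ρ * m ^ 2 - 4 * Db * m ^ 2)) := by
    have h1 : 63 / 64 * (4 * ρ * m ^ 2) ≤ (1 - η) * (4 * ρ * m ^ 2) :=
      mul_le_mul_of_nonneg_right (by linarith) (by linarith)
    have h2 : (1 - η) * (4 * Db * m ^ 2) ≤ 1 * (4 * Db * m ^ 2) :=
      mul_le_mul_of_nonneg_right (by linarith [A.η0]) (by positivity)
    have h3 : 0 ≤ 4 * Db * m ^ 2 := by positivity
    linarith
  have p5 : 4 * (1 + τ) * m ^ 2 + 4 * Db * m ^ 2 ≤ 1 / 2 * (ρ * m ^ 2) := by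
    have := mul_le_mul_of_nonneg_right hD hm2
    linarith
  have p6 : 9 * (ρ * (g ^ 2 * m)) ≤ 1 / 2 * (ρ * m ^ 2) + 41 * (ρ * g ^ 4) := by
    have := mul_le_mul_of_nonneg_left (amgm g m) (by linarith : (0 : ℝ) ≤ ρ)
    linarith
  have e32 : (1 / 32 : ℝ)⁻¹ = 32 := by norm_num
  rw [e32] at h
  have r1 := mul_le_mul_of_nonneg_left p1 (by norm_num : (0 : ℝ) ≤ 4)
  generalize hG : (1 + 1 / 32) * ((1 + η) * (2 * (fr K + fr L) * m ^ 2
      + 4 * -1 * ((K * (K * L)).trace * ((K * L) * L).trace) + 8 * (lam * m) ^ 2)) = GG at h p3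
  generalize hR : (1 - 1 / 32) * ((1 - η) * (4 * ρ * m ^ 2 - 4 * Db * m ^ 2)) = RR at h p4
  generalize b3 g σ m v = B3 at *
  generalize b4 g σ m v = B4 at *
  generalize b5 g σ m v = B5 at *
  generalize b2 g σ m lam v = B2 at *
  clear hG hR t11 t11' t12 t21 a12 a21 hprod p2 p1 e12 e21 gK gL
  linarith

end

end Crest.Agent.R62.Cross
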