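import Crest.Agent.R62.GoodPairs
import Crest.Agent.R62.AvBase
import Crest.Agent.R62.StepDefs
import Crest.Agent.R62.Start_Mg
import Crest.Agent.R62.Box

-- ▼ part R62/Weights
section

/-!
R62 (helper114): the averaging set `Sp ⊆ Sg` (good pairs with bounded `(K²)_xy` and
`K_xx ((K²)_yy - 1)`), its size, and the sum of the weights.
-/

set_option autoImplicit false
set_option linter.unusedSectionVars false
set_option linter.unusedVariables false
open scoped Matrix BigOperators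

namespace Crest.Agent.R62.Weights

open Crest.Agent.R62.State Crest.Agent.R62.EvalKit Crest.Agent.R062 Crest.Agent.R062.Mach
open Crest.Agent.R62.SpecOf Crest.Agent.R62.GoodPairs Crest.Agent.R62.AvBase

variable {P : Par} {d n : ℕ} {l : List (ℕ × ℕ)}

lemma KR_symm (b : Bool) : (KR P d n b l)ᵀ = KR P d n b l :=
  Kmat_symm (P.gam.v n) (sg b) (P.mu.v n) n d l

lemma KR_sq_symm (b : Bool) (x y : Fin (n * d)) :
    (KR P d n b l ^ 2) x y = (KR P d n b l ^ 2) y x := by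
  have h : (KR P d n b l ^ 2)ᵀ = KR P d n b l ^ 2 := by
    rw [Matrix.transpose_pow, KR_symm]
  exact congrFun (congrFun h y) x |>.symm ▸ rfl

/-- the extra conditions on a pair -/
def Ex (P : Par) (d n : ℕ) (l : List (ℕ × ℕ)) (a c : ℝ) (x y : Fin (n * d)) : Prop :=
  ∀ b, |(KR P d n b l ^ 2) x y| ≤ a ∧
    |KR P d n b l x x * ((KR P d n b l ^ 2) y y - 1)| ≤ c ∧
    |KR P d n b l y y * ((KR P d n b l ^ 2) x x - 1)| ≤ c

lemma Ex.symm {a c : ℝ} {x y : Fin (n * d)} (h : Ex P d n l a c x y) : Ex P d n l a c y x := by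
  intro b
  obtain ⟨h1, h2, h3⟩ := h b
  exact ⟨by rw [KR_sq_symm]; exact h1, h3, h2⟩

open Classical in
/-- the averaging set -/
noncomputable def Sp (P : Par) (d n : ℕ) (l : List (ℕ × ℕ)) (a c : ℝ) :
    Finset (Fin (n * d) × Fin (n * d)) :=
  (Sg P d n l).filter fun p => Ex P d n l a c p.1 p.2

lemma mem_Sp {a c : ℝ} {p : Fin (n * d) × Fin (n * d)} :
    p ∈ Sp P d n l a c ↔ Gp P d n l p.1 p.2 ∧ Ex P d n l a c p.1 p.2 := by
  classical
  unfold Sp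
  rw [Finset.mem_filter, mem_Sg]

lemma Sp_subset_Sg (a c : ℝ) : Sp P d n l a c ⊆ Sg P d n l := by
  classical
  exact Finset.filter_subset _ _

lemma Sp_subset (a c : ℝ) : Sp P d n l a c ⊆ Fs n d l ×ˢ Fs n d l :=
  (Sp_subset_Sg a c).trans (Sg_subset P d n l)

lemma Sp_symm {a c : ℝ} {x y : Fin (n * d)} (h : (x, y) ∈ Sp P d n l a c) :
    (y, x) ∈ Sp P d n l a c := by
  rw [mem_Sp] at h ⊢
  exact ⟨h.1.symm, h.2.symm⟩

/-- `(K²)_xy² ≤ (K²)_xx (K²)_yy` -/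
lemma sq_entry_sq_le (b : Bool) (x y : Fin (n * d)) :
    (KR P d n b l ^ 2) x y ^ 2 ≤ (KR P d n b l ^ 2) x x * (KR P d n b l ^ 2) y y := by
  have h := entry_sq_le (KR_symm (P := P) (d := d) (n := n) (l := l) b) 1 1 x y
  simpa using h


lemma sum_prod_sq (F : Finset (Fin (n * d))) (f g : Fin (n * d) → ℝ) :
    ∑ p ∈ F ×ˢ F, (f p.1 * g p.2) ^ 2 = (∑ x ∈ F, f x ^ 2) * ∑ y ∈ F, g y ^ 2 := by
  rw [Finset.sum_product, Finset.sum_mul_sum]
  exact Finset.sum_congr rfl fun x _ => Finset.sum_congr rfl fun y _ => mul_pow _ _ _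

open Classical in
/-- size of the complement of the averaging set -/
theorem card_compl {a c : ℝ} (ha : 0 < a) (hc : 0 < c) :
    (((Fs n d l ×ˢ Fs n d l) \ Sp P d n l a c).card : ℝ)
      ≤ (((Fs n d l ×ˢ Fs n d l) \ Sg P d n l).card : ℝ)
        + ((a ^ 4)⁻¹ * (∑ z ∈ Fs n d l, ((KR P d n true l ^ 2) z z) ^ 2) ^ 2
          + 2 * (c ^ 2)⁻¹ * ((∑ z ∈ Fs n d l, KR P d n true l z z ^ 2)
            * ∑ z ∈ Fs n d l, ((KR P d n true l ^ 2) z z - 1) ^ 2))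
        + ((a ^ 4)⁻¹ * (∑ z ∈ Fs n d l, ((KR P d n false l ^ 2) z z) ^ 2) ^ 2
          + 2 * (c ^ 2)⁻¹ * ((∑ z ∈ Fs n d l, KR P d n false l z z ^ 2)
            * ∑ z ∈ Fs n d l, ((KR P d n false l ^ 2) z z - 1) ^ 2)) := by
  set F := Fs n d l with hF
  have hsub : (F ×ˢ F) \ Sp P d n l a c ⊆ ((F ×ˢ F) \ Sg P d n l) ∪
      (((F ×ˢ F).filter (fun p => ¬ |(KR P d n true l ^ 2) p.1 p.2| ≤ a) ∪
        ((F ×ˢ F).filter (fun p =>
          ¬ |KR P d n true l p.1 p.1 * ((KR P d n true l ^ 2) p.2 p.2 - 1)| ≤ c) ∪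
        (F ×ˢ F).filter (fun p =>
          ¬ |KR P d n true l p.2 p.2 * ((KR P d n true l ^ 2) p.1 p.1 - 1)| ≤ c))) ∪
      ((F ×ˢ F).filter (fun p => ¬ |(KR P d n false l ^ 2) p.1 p.2| ≤ a) ∪
        ((F ×ˢ F).filter (fun p =>
          ¬ |KR P d n false l p.1 p.1 * ((KR P d n false l ^ 2) p.2 p.2 - 1)| ≤ c) ∪
        (F ×ˢ F).filter (fun p =>
          ¬ |KR P d n false l p.2 p.2 * ((KR P d n false l ^ 2) p.1 p.1 - 1)| ≤ c)))) := by
    intro p hp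
    rw [Finset.mem_sdiff, mem_Sp] at hp
    obtain ⟨hp1, hp2⟩ := hp
    simp only [Finset.mem_union, Finset.mem_filter, Finset.mem_sdiff, mem_Sg]
    by_cases hg : Gp P d n l p.1 p.2
    · right
      by_contra hcon
      push Not at hcon
      obtain ⟨⟨h1, h2, h3⟩, h4, h5, h6⟩ := hcon
      apply hp2
      refine ⟨hg, fun b => ?_⟩
      cases b
      · exact ⟨h4 hp1, h5 hp1, h6 hp1⟩
      · exact ⟨h1 hp1, h2 hp1, h3 hp1⟩
    · exact Or.inl ⟨hp1, hg⟩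
  have hcard := (Finset.card_le_card hsub).trans ((Finset.card_union_le _ _).trans
    (Nat.add_le_add le_rfl ((Finset.card_union_le _ _).trans
      (Nat.add_le_add ((Finset.card_union_le _ _).trans (Nat.add_le_add le_rfl
        (Finset.card_union_le _ _))) ((Finset.card_union_le _ _).trans (Nat.add_le_add le_rfl
        (Finset.card_union_le _ _)))))))
  have hcard' := (Nat.cast_le (α := ℝ)).2 hcard
  push_cast at hcard'
  have hA : ∀ b, (((F ×ˢ F).filter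
      (fun p => ¬ |(KR P d n b l ^ 2) p.1 p.2| ≤ a)).card : ℝ)
      ≤ (a ^ 4)⁻¹ * (∑ z ∈ F, ((KR P d n b l ^ 2) z z) ^ 2) ^ 2 := fun b => by
    have h1 := card_filter_le (F ×ˢ F) (fun p : Fin (n * d) × Fin (n * d) =>
        (KR P d n b l ^ 2) p.1 p.1 * (KR P d n b l ^ 2) p.2 p.2) (a ^ 2) (by positivity)
      (fun p => ¬ |(KR P d n b l ^ 2) p.1 p.2| ≤ a) (fun p _ hp => by
        have h2 := sq_entry_sq_le (P := P) (l := l) b p.1 p.2
        have h3 : a < |(KR P d n b l ^ 2) p.1 p.2| := not_le.1 hp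
        have h4 : a ^ 2 < (KR P d n b l ^ 2) p.1 p.2 ^ 2 := by
          rw [← sq_abs ((KR P d n b l ^ 2) p.1 p.2)]
          exact pow_lt_pow_left₀ h3 ha.le two_ne_zero
        exact (h4.trans_le h2).trans_le (le_abs_self _))
    refine h1.trans (le_of_eq ?_)
    rw [sum_prod_sq F (fun z => (KR P d n b l ^ 2) z z) (fun z => (KR P d n b l ^ 2) z z),
      ← pow_two, ← pow_mul]
  have hB : ∀ b, (((F ×ˢ F).filter
      (fun p => ¬ |KR P d n b l p.1 p.1 * ((KR P d n b l ^ 2) p.2 p.2 - 1)| ≤ c)).card : ℝ)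
      ≤ (c ^ 2)⁻¹ * ((∑ z ∈ F, KR P d n b l z z ^ 2) *
        ∑ z ∈ F, ((KR P d n b l ^ 2) z z - 1) ^ 2) := fun b => by
    have h1 := card_filter_le (F ×ˢ F) (fun p : Fin (n * d) × Fin (n * d) =>
        KR P d n b l p.1 p.1 * ((KR P d n b l ^ 2) p.2 p.2 - 1)) c hc
      (fun p => ¬ |KR P d n b l p.1 p.1 * ((KR P d n b l ^ 2) p.2 p.2 - 1)| ≤ c)
      (fun p _ hp => not_le.1 hp)
    refine h1.trans (le_of_eq ?_)
    rw [sum_prod_sq F (fun z => KR P d n b l z z) (fun z => (KR P d n b l ^ 2) z z - 1)]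
  have hC : ∀ b, (((F ×ˢ F).filter
      (fun p => ¬ |KR P d n b l p.2 p.2 * ((KR P d n b l ^ 2) p.1 p.1 - 1)| ≤ c)).card : ℝ)
      ≤ (c ^ 2)⁻¹ * ((∑ z ∈ F, KR P d n b l z z ^ 2) *
        ∑ z ∈ F, ((KR P d n b l ^ 2) z z - 1) ^ 2) := fun b => by
    have h1 := card_filter_le (F ×ˢ F) (fun p : Fin (n * d) × Fin (n * d) =>
        ((KR P d n b l ^ 2) p.1 p.1 - 1) * KR P d n b l p.2 p.2) c hc
      (fun p => ¬ |KR P d n b l p.2 p.2 * ((KR P d n b l ^ 2) p.1 p.1 - 1)| ≤ c)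
      (fun p _ hp => by rw [mul_comm]; exact not_le.1 hp)
    refine h1.trans (le_of_eq ?_)
    rw [sum_prod_sq F (fun z => (KR P d n b l ^ 2) z z - 1) (fun z => KR P d n b l z z)]
    ring
  linarith [hcard', hA true, hA false, hB true, hB false, hC true, hC false]

/-- the count with all bounds inserted -/
theorem card_compl_le (hd : 0 < d) (hv : Pairs.Valid d n l) {a c : ℝ} (ha : 0 < a) (hc : 0 < c)
    {ρ x v w r : ℝ} (hρ : ((Fs n d l).card : ℝ) = ρ)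
    (hx : ∀ b, Matrix.trace (KR P d n b l ^ 2) ≤ x)
    (hv' : ∀ b, ∑ z, KR P d n b l z z ^ 2 ≤ v)
    (hw : ∀ b, ∑ z ∈ Fs n d l, ((KR P d n b l ^ 2) z z - 1) ^ 2 ≤ w)
    (hr : ∀ b, ∑ z, ((KR P d n b l ^ 2) z z) ^ 2 ≤ r) :
    (((Fs n d l ×ˢ Fs n d l) \ Sp P d n l a c).card : ℝ)
      ≤ (d + 1) * d * ρ + 50 * x + 200 * v ^ 2 + 2 * r ^ 2 / a ^ 4 + 4 * (v * w) / c ^ 2 := by
  classical
  have h1 := card_compl (P := P) (l := l) (n := n) (d := d) ha hc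
  have h2 := card_bad (P := P) hd hv
  have hv0 : ∀ b, 0 ≤ ∑ z, KR P d n b l z z ^ 2 := fun b =>
    Finset.sum_nonneg fun z _ => sq_nonneg _
  have hr0 : ∀ b, 0 ≤ ∑ z ∈ Fs n d l, ((KR P d n b l ^ 2) z z) ^ 2 := fun b =>
    Finset.sum_nonneg fun z _ => sq_nonneg _
  have hw0 : ∀ b, 0 ≤ ∑ z ∈ Fs n d l, ((KR P d n b l ^ 2) z z - 1) ^ 2 := fun b =>
    Finset.sum_nonneg fun z _ => sq_nonneg _
  have hvF : ∀ b, ∑ z ∈ Fs n d l, KR P d n b l z z ^ 2 = ∑ z, KR P d n b l z z ^ 2 :=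
    fun b => sum_Fs_diag
  have hrF : ∀ b, ∑ z ∈ Fs n d l, ((KR P d n b l ^ 2) z z) ^ 2 ≤ r := fun b =>
    (Finset.sum_le_sum_of_subset_of_nonneg (Finset.subset_univ _)
      fun z _ _ => sq_nonneg _).trans (hr b)
  have hv2 : ∀ b, (∑ z, KR P d n b l z z ^ 2) ^ 2 ≤ v ^ 2 := fun b =>
    pow_le_pow_left₀ (hv0 b) (hv' b) 2
  have hr2 : ∀ b, (a ^ 4)⁻¹ * (∑ z ∈ Fs n d l, ((KR P d n b l ^ 2) z z) ^ 2) ^ 2
      ≤ r ^ 2 / a ^ 4 := fun b => by
    rw [inv_mul_eq_div]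
    exact div_le_div_of_nonneg_right (pow_le_pow_left₀ (hr0 b) (hrF b) 2) (by positivity)
  have hvw : ∀ b, 2 * (c ^ 2)⁻¹ * ((∑ z ∈ Fs n d l, KR P d n b l z z ^ 2)
      * ∑ z ∈ Fs n d l, ((KR P d n b l ^ 2) z z - 1) ^ 2) ≤ 2 * (v * w) / c ^ 2 := fun b => by
    have h3 : (∑ z ∈ Fs n d l, KR P d n b l z z ^ 2)
      * ∑ z ∈ Fs n d l, ((KR P d n b l ^ 2) z z - 1) ^ 2 ≤ v * w := by
      rw [hvF]
      exact mul_le_mul (hv' b) (hw b) (hw0 b) ((hv0 b).trans (hv' b))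
    have h4 : 0 ≤ (c ^ 2)⁻¹ := by positivity
    calc 2 * (c ^ 2)⁻¹ * ((∑ z ∈ Fs n d l, KR P d n b l z z ^ 2)
      * ∑ z ∈ Fs n d l, ((KR P d n b l ^ 2) z z - 1) ^ 2) ≤ 2 * (c ^ 2)⁻¹ * (v * w) :=
          mul_le_mul_of_nonneg_left h3 (by positivity)
      _ = 2 * (v * w) / c ^ 2 := by rw [div_eq_mul_inv]; ring
  rw [hρ] at h2
  have e : 2 * r ^ 2 / a ^ 4 + 4 * (v * w) / c ^ 2 =
      (r ^ 2 / a ^ 4 + 2 * (v * w) / c ^ 2) + (r ^ 2 / a ^ 4 + 2 * (v * w) / c ^ 2) := by ring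
  linarith [hr2 true, hr2 false, hvw true, hvw false, hv2 true, hv2 false, hx true, hx false]




end Crest.Agent.R62.Weights
end

-- ▼ part R62/StepAbs
section

/-!
R62: one step of stage 1 and of stage 2, from the pieces (helper800).
-/

set_option autoImplicit false
set_option linter.unusedSectionVars false
set_option linter.unusedVariables false

open Matrix Finset

namespace Crest.Agent.R62.Step

open Crest.Agent.R62.Upd Crest.Agent.R62.AvBase Crest.Agent.R62.AvX1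
open Crest.Agent.R062

variable {ι : Type} [Fintype ι] [DecidableEq ι]

/-- all pieces of stage 1 -/
structure Pieces1 (ι : Type) [Fintype ι] [DecidableEq ι] : Prop where
  x1u : S1X1u ι
  x1l : S1X1l ι
  x2u : S1X2u ι
  x2l : S1X2l ι
  x3l : S1X3l ι
  x3u : S1X3u ι
  x4 : S1X4 ι
  v : S1V ι
  w : S1W ι
  mm : S1M ι
  tilt : ExTilt ι

/-- all pieces of stage 2 -/
structure Pieces2 (ι : Type) [Fintype ι] [DecidableEq ι] : Prop where
  x1 : S2X1 ι
  x2 : S2X2 ι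
  x2l : S2X2l ι
  x3 : S2X3 ι
  x4 : S2X4 ι
  v : S2V ι
  w : S2W ι

lemma card_erase2 {F : Finset ι} {x y : ι} (hx : x ∈ F) (hy : y ∈ F) (hxy : x ≠ y) :
    (((F.erase x).erase y).card : ℝ) = (F.card : ℝ) - 2 := by
  have h1 : y ∈ F.erase x := Finset.mem_erase.mpr ⟨hxy.symm, hy⟩
  rw [Finset.card_erase_of_mem h1, Finset.card_erase_of_mem hx]
  have h2 : 1 < F.card := Finset.one_lt_card.mpr ⟨x, hx, y, hy, hxy⟩
  have h3 : F.card - 1 - 1 = F.card - 2 := by omega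
  rw [h3, Nat.cast_sub (by omega)]
  norm_num

lemma inc_add (S : Finset (ι × ι)) (Θ : ι → ι → ℝ) (f g : ι → ι → ℝ) (a b : ℝ) :
    inc S Θ (fun x y => f x y + g x y) (a + b) = inc S Θ f a + inc S Θ g b := by
  unfold inc
  rw [← Finset.sum_add_distrib]
  exact Finset.sum_congr rfl fun p _ => by ring

lemma inc_congr (S : Finset (ι × ι)) (Θ : ι → ι → ℝ) {f g : ι → ι → ℝ} (a : ℝ)
    (h : ∀ p ∈ S, f p.1 p.2 = g p.1 p.2) : inc S Θ f a = inc S Θ g a := by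
  unfold inc
  exact Finset.sum_congr rfl fun p hp => by rw [h p hp]

/-- averaging -/
lemma exists_of_inc {S : Finset (ι × ι)} {Θ : ι → ι → ℝ} {f : ι → ι → ℝ} {a c : ℝ}
    (hne : S.Nonempty) (hw : ∀ p ∈ S, 0 < 1 - Θ p.1 p.2)
    (h : inc S Θ f a ≤ c * ∑ p ∈ S, (1 - Θ p.1 p.2)) :
    ∃ p ∈ S, f p.1 p.2 ≤ a + c := by
  by_contra hcon
  push Not at hcon
  have h1 : ∑ p ∈ S, (1 - Θ p.1 p.2) * c < inc S Θ f a := by
    unfold inc
    refine Finset.sum_lt_sum_of_nonempty hne fun p hp => ?_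
    exact mul_lt_mul_of_pos_left (by linarith [hcon p hp]) (hw p hp)
  rw [← Finset.sum_mul] at h1
  linarith [mul_comm c (∑ p ∈ S, (1 - Θ p.1 p.2))]

lemma Prm.m_pos {d n m : ℕ} (h : Prm d n m) : (0 : ℝ) < m := by
  have h3 : (3 : ℝ) ≤ d := by exact_mod_cast h.hd
  have : (0 : ℝ) < (10 : ℝ) ^ 10 * (d : ℝ) ^ 10 := by positivity
  linarith [h.hm]

/-- `10^10 ≤ m` and `10^10 d^2 ≤ m` -/
lemma Prm.m_ge {d n m : ℕ} (h : Prm d n m) (k : ℕ) (hk : k ≤ 10) :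
    (10 : ℝ) ^ 10 * (d : ℝ) ^ k ≤ m := by
  have h3 : (1 : ℝ) ≤ d := by
    have : (3 : ℝ) ≤ d := by exact_mod_cast h.hd
    linarith
  refine le_trans ?_ h.hm
  exact mul_le_mul_of_nonneg_left (pow_le_pow_right₀ h3 hk) (by positivity)

/-- the sum of the weights -/
lemma sum_w {d m : ℕ} {γ : ℝ} {F : Finset ι} {K : Bool → Matrix ι ι ℝ} {S : Finset (ι × ι)}
    (hC : Ctx d m γ F K S) {Θ : ι → ι → ℝ} {η : ℝ} (hη : η ≤ 1 / 4)
    (hΘ : ∀ x y, |Θ x y| ≤ η) (hρ : 1000 * (d : ℝ) ^ 2 ≤ F.card) (hρ0 : 0 < F.card) :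
    (F.card : ℝ) ^ 2 / 2 ≤ ∑ p ∈ S, (1 - Θ p.1 p.2) := by
  have h1 : (S.card : ℝ) = (F.card : ℝ) ^ 2 - (((F ×ˢ F) \ S).card : ℝ) := by
    have := Finset.card_sdiff_add_card_eq_card hC.sub
    rw [Finset.card_product] at this
    have h2 : (((F ×ˢ F) \ S).card : ℝ) + S.card = (F.card : ℝ) * F.card := by exact_mod_cast this
    linarith [sq (F.card : ℝ)]
  have hbad := hC.bad
  have hS : (9 / 10 : ℝ) * (F.card : ℝ) ^ 2 ≤ S.card := by
    have h0 : (0 : ℝ) ≤ F.card := Nat.cast_nonneg _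
    have : 100 * (d : ℝ) ^ 2 * F.card ≤ 1 / 10 * (F.card : ℝ) ^ 2 := by nlinarith
    linarith
  have h2 : ∑ p ∈ S, (3 / 4 : ℝ) ≤ ∑ p ∈ S, (1 - Θ p.1 p.2) :=
    Finset.sum_le_sum fun p _ => by linarith [(abs_le.mp (hΘ p.1 p.2)).2]
  rw [Finset.sum_const, nsmul_eq_mul] at h2
  have h0 : (0 : ℝ) ≤ (F.card : ℝ) ^ 2 := sq_nonneg _
  linarith

/-- stage 1 step -/
theorem step1 (P : Pieces1 ι) {d n m : ℕ} {γ : ℝ} {F : Finset ι} {K : Bool → Matrix ι ι ℝ}
    {S : Finset (ι × ι)} (hP : Prm d n m) (hC : Ctx d m γ F K S) (hB : Box1 d n m F K) :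
    ∃ p ∈ S, Phi1 d n m ((F.erase p.1).erase p.2) (fun b => nx b K p.1 p.2)
      ≤ Phi1 d n m F K + 38 / ((m : ℝ) ^ 2 * F.card) := by
  obtain ⟨Θ, hΘ⟩ := P.tilt d n m γ F K S hP hC hB
  have hm0 := hP.m_pos
  have hm1 : (10 : ℝ) ^ 10 ≤ m := by simpa using hP.m_ge 0 (by norm_num)
  have hm2 := hP.m_ge 2 (by norm_num)
  have hρm : (m : ℝ) ≤ F.card := by
    have h1 := hB.rho_ge
    have h2 : (m : ℝ) ^ 1 ≤ (m : ℝ) ^ 800 := pow_le_pow_right₀ (by linarith) (by norm_num)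
    rw [pow_one] at h2
    linarith
  have hρ0 : (0 : ℝ) < F.card := by linarith
  have hρ0' : 0 < F.card := by exact_mod_cast hρ0
  have hd2 : 1000 * (d : ℝ) ^ 2 ≤ F.card := by
    have : (0 : ℝ) ≤ (d : ℝ) ^ 2 := sq_nonneg _
    nlinarith
  have hη : 1 / (m : ℝ) ≤ 1 / 4 := by
    apply one_div_le_one_div_of_le <;> linarith
  have hW := sum_w hC hη hΘ.abs_le hd2 hρ0'
  have hW0 : 0 < ∑ p ∈ S, (1 - Θ p.1 p.2) := lt_of_lt_of_le (by positivity) hW
  have hne : S.Nonempty := by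
    rw [Finset.nonempty_iff_ne_empty]
    rintro rfl
    simp at hW0
  have hpos : ∀ p ∈ S, 0 < 1 - Θ p.1 p.2 := fun p _ => by
    have := (abs_le.mp (hΘ.abs_le p.1 p.2)).2
    linarith
  -- sum of the pieces
  have key : inc S Θ (fun x y => Phi1 d n m ((F.erase x).erase y) (fun b => nx b K x y))
      (Phi1 d n m F K) ≤ 19 * (F.card / (m : ℝ) ^ 2) := by
    have e1 : inc S Θ (fun x y => Phi1 d n m ((F.erase x).erase y) (fun b => nx b K x y))
        (Phi1 d n m F K)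
      = inc S Θ (fun x y =>
          (∑ b : Bool, (p1X1u m ((F.card : ℝ) - 2) (nx b K x y).trace
            + p1X1l m (nx b K x y).trace
            + p1X2u (r1 d n m) ((F.card : ℝ) - 2) (nx b K x y ^ 2).trace
            + p1X2l (r1 d n m) ((F.card : ℝ) - 2) (nx b K x y ^ 2).trace
            + p1X3l n (nx b K x y ^ 3).trace + p1X3u d n (nx b K x y ^ 3).trace
            + p1X4 m ((F.card : ℝ) - 2) (nx b K x y ^ 4).trace + p1V m (Vf (nx b K x y))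
            + p1W m (Wf ((F.erase x).erase y) (nx b K x y))))
            + p1M m (Mf (fun b => nx b K x y))) (Phi1 d n m F K) := by
      refine inc_congr S Θ _ fun p hp => ?_
      have hp' := Finset.mem_product.mp (hC.sub hp)
      have hc := card_erase2 hp'.1 hp'.2 (hC.ne p hp)
      simp only [Phi1, hc]
    rw [e1]
    have h1 := P.x1u d n m γ F K S Θ hP hC hB hΘ
    have h2 := P.x1l d n m γ F K S Θ hP hC hB hΘ
    have h3 := P.x2u d n m γ F K S Θ hP hC hB hΘ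
    have h4 := P.x2l d n m γ F K S Θ hP hC hB hΘ
    have h5 := P.x3l d n m γ F K S Θ hP hC hB hΘ
    have h6 := P.x3u d n m γ F K S Θ hP hC hB hΘ
    have h7 := P.x4 d n m γ F K S Θ hP hC hB hΘ
    have h8 := P.v d n m γ F K S Θ hP hC hB hΘ
    have h9 := P.w d n m γ F K S Θ hP hC hB hΘ
    have h10 := P.mm d n m γ F K S Θ hP hC hB hΘ
    simp only [Fintype.sum_bool, Phi1, inc_add]
    have a1 := h1 true; have b1 := h1 false
    have a2 := h2 true; have b2 := h2 false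
    have a3 := h3 true; have b3 := h3 false
    have a4 := h4 true; have b4 := h4 false
    have a5 := h5 true; have b5 := h5 false
    have a6 := h6 true; have b6 := h6 false
    have a7 := h7 true; have b7 := h7 false
    have a8 := h8 true; have b8 := h8 false
    have a9 := h9 true; have b9 := h9 false
    linarith
  have h2 : inc S Θ (fun x y => Phi1 d n m ((F.erase x).erase y) (fun b => nx b K x y))
      (Phi1 d n m F K) ≤ 38 / ((m : ℝ) ^ 2 * F.card) * ∑ p ∈ S, (1 - Θ p.1 p.2) := by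
    refine key.trans ?_
    calc 19 * ((F.card : ℝ) / (m : ℝ) ^ 2)
        = 38 / ((m : ℝ) ^ 2 * F.card) * ((F.card : ℝ) ^ 2 / 2) := by
          field_simp; norm_num
      _ ≤ _ := mul_le_mul_of_nonneg_left hW (by positivity)
  exact exists_of_inc hne hpos h2

/-- stage 2 step -/
theorem step2 (P : Pieces2 ι) {d n m : ℕ} {γ x0 : ℝ} {F : Finset ι} {K : Bool → Matrix ι ι ℝ}
    {S : Finset (ι × ι)} (hP : Prm d n m) (hC : Ctx d m γ F K S) (hB : Box2 d n m x0 F K) :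
    ∃ p ∈ S, Phi2 d n m ((F.erase p.1).erase p.2) (fun b => nx b K p.1 p.2)
      ≤ Phi2 d n m F K + 38 / ((m : ℝ) ^ 2 * F.card) := by
  have hm0 := hP.m_pos
  have hm1 : (10 : ℝ) ^ 10 ≤ m := by simpa using hP.m_ge 0 (by norm_num)
  have hm2 := hP.m_ge 2 (by norm_num)
  have hd3 : (3 : ℝ) ≤ d := by exact_mod_cast hP.hd
  have hn0 : (0 : ℝ) < n := lt_of_lt_of_le (by positivity) hP.hn1
  have hρm : (m : ℝ) ≤ F.card := by
    have h1 := hB.rho_ge
    have hr : (m : ℝ) ^ 680 * 3 ≤ r1 d n m := by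
      unfold r1
      rw [le_div_iff₀ (by positivity)]
      have e1 : (m : ℝ) ^ 680 * 3 * (m : ℝ) ^ 320 = (m : ℝ) ^ 1000 * 3 := by ring
      rw [e1]
      exact mul_le_mul hP.hn1 hd3 (by norm_num) hn0.le
    have hx : 1 ≤ m * x0 := by
      have h2 := hB.x0_m
      have h3 : x0 ^ 4 ≤ x0 := by
        have := pow_le_of_le_one hB.x0_pos.le hB.x0_le (n := 4) (by norm_num)
        exact this
      nlinarith
    have h3 : (m : ℝ) ≤ x0 * r1 d n m := by
      calc (m : ℝ) ≤ (m * x0) * (m : ℝ) ^ 679 := by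
            have h4 : (m : ℝ) ^ 1 ≤ (m : ℝ) ^ 679 := pow_le_pow_right₀ (by linarith) (by norm_num)
            rw [pow_one] at h4
            nlinarith [pow_pos hm0 679]
        _ = x0 * ((m : ℝ) ^ 680) := by ring
        _ ≤ x0 * r1 d n m := by
            apply mul_le_mul_of_nonneg_left _ hB.x0_pos.le
            nlinarith [pow_pos hm0 680]
    linarith
  have hρ0 : (0 : ℝ) < F.card := by linarith
  have hρ0' : 0 < F.card := by exact_mod_cast hρ0
  have hd2 : 1000 * (d : ℝ) ^ 2 ≤ F.card := by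
    have : (0 : ℝ) ≤ (d : ℝ) ^ 2 := sq_nonneg _
    nlinarith
  have hW := sum_w hC (Θ := fun _ _ => 0) (η := 0) (by norm_num) (by simp) hd2 hρ0'
  have hW0 : 0 < ∑ p ∈ S, (1 - (fun _ _ => 0 : ι → ι → ℝ) p.1 p.2) :=
    lt_of_lt_of_le (by positivity) hW
  have hne : S.Nonempty := by
    rw [Finset.nonempty_iff_ne_empty]
    rintro rfl
    simp at hW0
  have key : inc S (fun _ _ => 0) (fun x y => Phi2 d n m ((F.erase x).erase y)
      (fun b => nx b K x y)) (Phi2 d n m F K) ≤ 19 * (F.card / (m : ℝ) ^ 2) := by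
    have e1 : inc S (fun _ _ => 0) (fun x y => Phi2 d n m ((F.erase x).erase y)
        (fun b => nx b K x y)) (Phi2 d n m F K)
      = inc S (fun _ _ => 0) (fun x y =>
          (∑ b : Bool, (p2X1 m (nx b K x y).trace
            + p2X2 m (r1 d n m) ((F.card : ℝ) - 2) (nx b K x y ^ 2).trace
            + p2X2l (r1 d n m) ((F.card : ℝ) - 2) (nx b K x y ^ 2).trace
            + p2X3 d n (nx b K x y ^ 3).trace
            + p2X4 m ((F.card : ℝ) - 2) (nx b K x y ^ 4).trace + p2V m (Vf (nx b K x y))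
            + p2W m (Wf ((F.erase x).erase y) (nx b K x y))))) (Phi2 d n m F K) := by
      refine inc_congr S _ _ fun p hp => ?_
      have hp' := Finset.mem_product.mp (hC.sub hp)
      have hc := card_erase2 hp'.1 hp'.2 (hC.ne p hp)
      simp only [Phi2, hc]
    rw [e1]
    have h1 := P.x1 d n m γ x0 F K S hP hC hB
    have h2 := P.x2 d n m γ x0 F K S hP hC hB
    have h3 := P.x2l d n m γ x0 F K S hP hC hB
    have h4 := P.x3 d n m γ x0 F K S hP hC hB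
    have h5 := P.x4 d n m γ x0 F K S hP hC hB
    have h6 := P.v d n m γ x0 F K S hP hC hB
    have h7 := P.w d n m γ x0 F K S hP hC hB
    simp only [Fintype.sum_bool, Phi2, inc_add]
    have a1 := h1 true; have b1 := h1 false
    have a2 := h2 true; have b2 := h2 false
    have a3 := h3 true; have b3 := h3 false
    have a4 := h4 true; have b4 := h4 false
    have a5 := h5 true; have b5 := h5 false
    have a6 := h6 true; have b6 := h6 false
    have a7 := h7 true; have b7 := h7 false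
    have hp : 0 ≤ (F.card : ℝ) / (m : ℝ) ^ 2 := by positivity
    linarith
  have h2 : inc S (fun _ _ => 0) (fun x y => Phi2 d n m ((F.erase x).erase y)
      (fun b => nx b K x y)) (Phi2 d n m F K) ≤ 38 / ((m : ℝ) ^ 2 * F.card) *
        ∑ p ∈ S, (1 - (fun _ _ => 0 : ι → ι → ℝ) p.1 p.2) := by
    refine key.trans ?_
    calc 19 * ((F.card : ℝ) / (m : ℝ) ^ 2)
        = 38 / ((m : ℝ) ^ 2 * F.card) * ((F.card : ℝ) ^ 2 / 2) := by
          field_simp; norm_num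
      _ ≤ _ := mul_le_mul_of_nonneg_left hW (by positivity)
  exact exists_of_inc hne (fun _ _ => by norm_num) h2

end Crest.Agent.R62.Step
end

-- ▼ part R62/CtxReal

/-!
R62 (helper114): the real state satisfies `Step.Ctx`.
-/

set_option autoImplicit false
set_option linter.unusedSectionVars false
set_option linter.unusedVariables false
open scoped Matrix BigOperators

namespace Crest.Agent.R62.CtxReal

open Crest.Agent.R62.State Crest.Agent.R62.EvalKit Crest.Agent.R062 Crest.Agent.R062.Mach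
open Crest.Agent.R62.SpecOf Crest.Agent.R62.GoodPairs Crest.Agent.R62.AvBase
open Crest.Agent.R62.Weights Crest.Agent.R62.Step Crest.Agent.R62.AvX1

variable {P : Par} {d n : ℕ} {l : List (ℕ × ℕ)}

/-- the structural facts about the list `l` -/
structure Lst (P : Par) (d n : ℕ) (l : List (ℕ × ℕ)) : Prop where
  hd : 3 ≤ d
  hn : 0 < n
  ev : Even n
  valid : Pairs.Valid d n l
  del : ∀ b p L', (p :: L') <:+ l → 1 / 4 ≤ Del (sg b) (P.K d n b L') p.1 p.2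
  γ0 : 0 < P.gam.v n
  γ1 : P.gam.v n ^ 2 ≤ 1 / 2
  hb : 0 < 2 * Real.sqrt ((d : ℝ) - 1) - P.gam.v n * d
  hμ : P.mu.v n = Glue.muOf d (P.gam.v n)
  len : 2 * l.length < n * d

lemma uv_ind : uv n d l = ind (Fs n d l) := by
  funext i
  rw [uv_eq_ind]
  rfl

lemma Lst.row (h : Lst P d n l) (b : Bool) :
    KR P d n b l *ᵥ ind (Fs n d l) = (sg b : ℝ) • ind (Fs n d l) := by
  rw [← uv_ind]
  refine Kmat_row (sg_eq b) h.hn (by have := h.hd; omega) l
    (SpecBridge.mat_of_valid h.valid) ?_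
  intro p L' hp
  have h1 := h.del b p L' hp
  unfold Par.K at h1
  linarith

lemma Lst.low (h : Lst P d n l) (b : Bool) (f : Fin (n * d) → ℝ)
    (hf : ∑ i ∈ Fs n d l, f i = 0) :
    -(P.gam.v n) * ∑ i ∈ Fs n d l, f i ^ 2 ≤ f ⬝ᵥ (KR P d n b l *ᵥ f) := by
  have hγ1 : P.gam.v n < 1 := by
    have h1 := h.γ1
    have h0 := h.γ0
    nlinarith
  have h1 := Kmat_ge (s := sg b) (γ := P.gam.v n) (b := 2 * Real.sqrt ((d : ℝ) - 1))
    (sg_eq b) h.γ0 hγ1 h.hb h.hn (by have := h.hd; omega) l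
    (SpecBridge.mat_of_valid h.valid) h.len ?_ f ?_
  · rw [sum_uv] at h1
    have h2 : KR P d n b l = Kmat (P.gam.v n) (sg b)
        ((1 - P.gam.v n ^ 2) / (2 * Real.sqrt ((d : ℝ) - 1) - P.gam.v n * d)) n d l := by
      unfold KR
      rw [h.hμ]
      rfl
    rw [h2]
    exact h1
  · intro p L' hp
    have h1 := h.del b p L' hp
    unfold Par.K at h1
    rw [h.hμ] at h1
    have h2 : (0 : ℝ) < 1 / 4 := by norm_num
    exact lt_of_lt_of_le h2 h1
  · rw [sum_uv]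
    exact hf

lemma Lst.card (h : Lst P d n l) : (Fs n d l).card + 2 * l.length = n * d := by
  have h1 := card_Fs (SpecBridge.mat_of_valid h.valid)
  have h2 : (((Fs n d l).card + 2 * l.length : ℕ) : ℝ) = ((n * d : ℕ) : ℝ) := by
    push_cast
    linarith
  exact_mod_cast h2

lemma Lst.even (h : Lst P d n l) : Even (Fs n d l).card := by
  have h1 := h.card
  have h2 : Even (n * d) := h.ev.mul_right d
  have h3 : Even ((Fs n d l).card + 2 * l.length) := by rw [h1]; exact h2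
  exact (Nat.even_add.1 h3).2 (even_two_mul _)


lemma Wf_KR (b : Bool) : Wf (Fs n d l) (KR P d n b l) =
    ∑ z ∈ Fs n d l, ((KR P d n b l ^ 2) z z - 1) ^ 2 := rfl

lemma diag_dead (b : Bool) {z : Fin (n * d)} (hz : z ∉ Fs n d l) :
    (KR P d n b l ^ 2) z z = 0 := by
  rw [diag_sq]
  exact Finset.sum_eq_zero fun j _ => by rw [KR_dead (Or.inl hz)]; simp

/-- `∑ (K²)_zz² = W + 2 X₂ - ρ` -/
lemma R_eq (b : Bool) : ∑ z, ((KR P d n b l ^ 2) z z) ^ 2 =
    Wf (Fs n d l) (KR P d n b l) + 2 * (KR P d n b l ^ 2).trace - (Fs n d l).card := by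
  have h1 : ∑ z, ((KR P d n b l ^ 2) z z) ^ 2 =
      ∑ z ∈ Fs n d l, ((KR P d n b l ^ 2) z z) ^ 2 := by
    symm
    refine Finset.sum_subset (Finset.subset_univ _) fun z _ hz => ?_
    rw [diag_dead b hz]; simp
  have h2 : (KR P d n b l ^ 2).trace = ∑ z ∈ Fs n d l, (KR P d n b l ^ 2) z z := by
    symm
    rw [Matrix.trace]
    refine Finset.sum_subset (Finset.subset_univ _) fun z _ hz => ?_
    rw [diag_dead b hz]
  rw [h1, h2, Wf_KR, Finset.mul_sum, ← Finset.sum_add_distrib]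
  have h3 : ((Fs n d l).card : ℝ) = ∑ z ∈ Fs n d l, (1 : ℝ) := by simp
  rw [h3, ← Finset.sum_sub_distrib]
  exact Finset.sum_congr rfl fun z _ => by ring

open Classical in
/-- removed pairs per row -/
lemma card_row (hd : 0 < d) (hv : Pairs.Valid d n l) {m : ℕ} (hm : 1 ≤ m)
    (x : Fin (n * d)) (hx : x ∈ Fs n d l) :
    (((Fs n d l).filter fun y => (x, y) ∉ Sp P d n l ((m : ℝ) ^ 250) ((m : ℝ) ^ 200)).card : ℝ)
      ≤ (d + 1) * d
    + ∑ b : Bool, (25 * (KR P d n b l ^ 2) x x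
      + 100 * (KR P d n b l x x ^ 2 * Vf (KR P d n b l))
      + (KR P d n b l ^ 4) x x / (m : ℝ) ^ 500
      + KR P d n b l x x ^ 2 * Wf (Fs n d l) (KR P d n b l) / (m : ℝ) ^ 400
      + ((KR P d n b l ^ 2) x x - 1) ^ 2 * Vf (KR P d n b l) / (m : ℝ) ^ 400) := by
  set F := Fs n d l with hF
  have hm0 : (0 : ℝ) < m := by exact_mod_cast hm
  have hsub : F.filter (fun y => (x, y) ∉ Sp P d n l ((m : ℝ) ^ 250) ((m : ℝ) ^ 200)) ⊆
      F.filter (fun y => ¬ Gp P d n l x y) ∪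
      ((F.filter (fun y => ¬ |(KR P d n true l ^ 2) x y| ≤ (m : ℝ) ^ 250) ∪
        (F.filter (fun y => ¬ |KR P d n true l x x * ((KR P d n true l ^ 2) y y - 1)|
          ≤ (m : ℝ) ^ 200) ∪
        F.filter (fun y => ¬ |KR P d n true l y y * ((KR P d n true l ^ 2) x x - 1)|
          ≤ (m : ℝ) ^ 200))) ∪
       (F.filter (fun y => ¬ |(KR P d n false l ^ 2) x y| ≤ (m : ℝ) ^ 250) ∪
        (F.filter (fun y => ¬ |KR P d n false l x x * ((KR P d n false l ^ 2) y y - 1)|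
          ≤ (m : ℝ) ^ 200) ∪
        F.filter (fun y => ¬ |KR P d n false l y y * ((KR P d n false l ^ 2) x x - 1)|
          ≤ (m : ℝ) ^ 200)))) := by
    intro y hy
    rw [Finset.mem_filter, mem_Sp] at hy
    obtain ⟨hy1, hy2⟩ := hy
    simp only [Finset.mem_union, Finset.mem_filter]
    by_cases hg : Gp P d n l x y
    · right
      by_contra hcon
      push Not at hcon
      obtain ⟨⟨h1, h2, h3⟩, h4, h5, h6⟩ := hcon
      apply hy2
      refine ⟨hg, fun b => ?_⟩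
      cases b
      · exact ⟨h4 hy1, h5 hy1, h6 hy1⟩
      · exact ⟨h1 hy1, h2 hy1, h3 hy1⟩
    · exact Or.inl ⟨hy1, hg⟩
  have hcard := (Finset.card_le_card hsub).trans ((Finset.card_union_le _ _).trans
    (Nat.add_le_add le_rfl ((Finset.card_union_le _ _).trans
      (Nat.add_le_add ((Finset.card_union_le _ _).trans (Nat.add_le_add le_rfl
        (Finset.card_union_le _ _))) ((Finset.card_union_le _ _).trans (Nat.add_le_add le_rfl
        (Finset.card_union_le _ _)))))))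
  have hcard' := (Nat.cast_le (α := ℝ)).2 hcard
  push_cast at hcard'
  have h0 := card_bad_row (P := P) hd hv x hx
  have hA : ∀ b, ((F.filter (fun y => ¬ |(KR P d n b l ^ 2) x y| ≤ (m : ℝ) ^ 250)).card : ℝ)
      ≤ (KR P d n b l ^ 4) x x / (m : ℝ) ^ 500 := fun b => by
    have h1 := card_filter_le F (fun y => (KR P d n b l ^ 2) x y) ((m : ℝ) ^ 250)
      (by positivity) (fun y => ¬ |(KR P d n b l ^ 2) x y| ≤ (m : ℝ) ^ 250)
      (fun y _ hy => not_le.1 hy)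
    refine h1.trans ?_
    rw [← pow_mul, inv_mul_eq_div]
    refine div_le_div_of_nonneg_right ?_ (by positivity)
    have h2 : (KR P d n b l ^ 4) x x = ∑ y, (KR P d n b l ^ 2) x y ^ 2 := by
      rw [show (4 : ℕ) = 2 + 2 from rfl, pow_add, Matrix.mul_apply]
      exact Finset.sum_congr rfl fun y _ => by
        rw [KR_sq_symm b y x]; exact (pow_two _).symm
    rw [h2]
    exact Finset.sum_le_sum_of_subset_of_nonneg (Finset.subset_univ _)
      fun y _ _ => sq_nonneg _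
  have hB : ∀ b, ((F.filter (fun y => ¬ |KR P d n b l x x * ((KR P d n b l ^ 2) y y - 1)|
      ≤ (m : ℝ) ^ 200)).card : ℝ)
      ≤ KR P d n b l x x ^ 2 * Wf F (KR P d n b l) / (m : ℝ) ^ 400 := fun b => by
    have h1 := card_filter_le F (fun y => KR P d n b l x x * ((KR P d n b l ^ 2) y y - 1))
      ((m : ℝ) ^ 200) (by positivity)
      (fun y => ¬ |KR P d n b l x x * ((KR P d n b l ^ 2) y y - 1)| ≤ (m : ℝ) ^ 200)
      (fun y _ hy => not_le.1 hy)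
    refine h1.trans (le_of_eq ?_)
    rw [← pow_mul, inv_mul_eq_div]
    simp only [mul_pow]
    rw [← Finset.mul_sum]
    rfl
  have hC : ∀ b, ((F.filter (fun y => ¬ |KR P d n b l y y * ((KR P d n b l ^ 2) x x - 1)|
      ≤ (m : ℝ) ^ 200)).card : ℝ)
      ≤ ((KR P d n b l ^ 2) x x - 1) ^ 2 * Vf (KR P d n b l) / (m : ℝ) ^ 400 := fun b => by
    have h1 := card_filter_le F (fun y => KR P d n b l y y * ((KR P d n b l ^ 2) x x - 1))
      ((m : ℝ) ^ 200) (by positivity)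
      (fun y => ¬ |KR P d n b l y y * ((KR P d n b l ^ 2) x x - 1)| ≤ (m : ℝ) ^ 200)
      (fun y _ hy => not_le.1 hy)
    refine h1.trans (le_of_eq ?_)
    rw [← pow_mul, inv_mul_eq_div]
    simp only [mul_pow]
    rw [← Finset.sum_mul, sum_Fs_diag, mul_comm]
    rfl
  rw [Fintype.sum_bool]
  have hVt : Vf (KR P d n true l) = ∑ z, KR P d n true l z z ^ 2 := rfl
  have hVf : Vf (KR P d n false l) = ∑ z, KR P d n false l z z ^ 2 := rfl
  rw [hVt, hVf]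
  have hCt := hC true
  have hCf := hC false
  rw [hVt] at hCt
  rw [hVf] at hCf
  linarith [hcard', h0, hA true, hA false, hB true, hB false]

/-- all fields except the count -/
theorem Lst.ctx (h : Lst P d n l) {m : ℕ} (hm : 1 ≤ m)
    (hbad : (((Fs n d l ×ˢ Fs n d l) \ Sp P d n l ((m : ℝ) ^ 250) ((m : ℝ) ^ 200)).card : ℝ)
      ≤ 100 * (d : ℝ) ^ 2 * (Fs n d l).card) :
    Ctx d m (P.gam.v n) (Fs n d l) (fun b => KR P d n b l)
      (Sp P d n l ((m : ℝ) ^ 250) ((m : ℝ) ^ 200)) where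
  even := h.even
  symm b := Kmat_symm (P.gam.v n) (sg b) (P.mu.v n) n d l
  dead b i j hi := KR_dead (Or.inl hi)
  row b := h.row b
  γ0 := h.γ0
  γ1 := h.γ1
  low b f hf := h.low b f hf
  sub := Sp_subset _ _
  symS x y hxy := Sp_symm hxy
  ne p hp e := (adm_ne (mem_Sp.1 hp).1.1) (congrArg Fin.val e)
  good1 p hp b := (mem_Sp.1 hp).1.2.1 b
  good2 p hp b := (mem_Sp.1 hp).1.2.2 b
  good3 p hp b := ((mem_Sp.1 hp).2 b).1
  good4 p hp b := ((mem_Sp.1 hp).2 b).2.1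
  bad := hbad
  badrow x hx := by
    classical
    have := card_row (P := P) (by have := h.hd; omega) h.valid hm x hx
    convert this

/-! ### the count in the boxes -/

lemma m_ge {d n m : ℕ} (hP : Prm d n m) : (10 : ℝ) ^ 10 ≤ m := by
  have h1 := hP.hm
  have hd : (3 : ℝ) ≤ d := by exact_mod_cast hP.hd
  have h2 : (1 : ℝ) ≤ (d : ℝ) ^ 10 := one_le_pow₀ (by linarith)
  nlinarith

lemma nat_one_le_m {d n m : ℕ} (hP : Prm d n m) : 1 ≤ m := by
  have h1 := m_ge hP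
  have : (1 : ℝ) ≤ m := by linarith [show (1 : ℝ) ≤ 10 ^ 10 by norm_num]
  exact_mod_cast this

lemma bad_num {d ρ : ℝ} (hd : 3 ≤ d) (hρ : 0 ≤ ρ) {x A B C : ℝ} (hx : x ≤ 2 * ρ)
    (hA : A ≤ ρ) (hB : B ≤ 16 * d * ρ) (hC : C ≤ ρ) :
    (d + 1) * d * ρ + 50 * x + A + B + C ≤ 100 * d ^ 2 * ρ := by
  have h1 : (d + 1) * d ≤ 2 * d ^ 2 := by nlinarith
  have h2 : (d + 1) * d * ρ ≤ 2 * d ^ 2 * ρ := mul_le_mul_of_nonneg_right h1 hρ
  have h3 : 9 * ρ ≤ d ^ 2 * ρ := by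
    apply mul_le_mul_of_nonneg_right _ hρ
    nlinarith
  have h4 : 3 * (d * ρ) ≤ d ^ 2 * ρ := by
    have : d ^ 2 * ρ = d * (d * ρ) := by ring
    rw [this]
    exact mul_le_mul_of_nonneg_right hd (by positivity)
  nlinarith

/-- number of removed pairs in the box of stage 1 -/
theorem bad1 {m : ℕ} (hP : Prm d n m) (hv : Pairs.Valid d n l)
    (hB : Box1 d n m (Fs n d l) (fun b => KR P d n b l)) :
    (((Fs n d l ×ˢ Fs n d l) \ Sp P d n l ((m : ℝ) ^ 250) ((m : ℝ) ^ 200)).card : ℝ)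
      ≤ 100 * (d : ℝ) ^ 2 * (Fs n d l).card := by
  have hm := m_ge hP
  have hm1 : (1 : ℝ) ≤ m := by linarith [show (1 : ℝ) ≤ 10 ^ 10 by norm_num]
  have hm0 : (0 : ℝ) < m := by linarith
  have hd3 : (3 : ℝ) ≤ d := by exact_mod_cast hP.hd
  set ρ : ℝ := ((Fs n d l).card : ℝ) with hρ
  have hρ1 := hB.rho_ge
  have hρ2 := hB.rho_le
  rw [← hρ] at hρ1 hρ2
  have h680 : (0 : ℝ) < (m : ℝ) ^ 680 := by positivity
  have hr1 := Box.r1_ge' hP
  have hpow : ∀ {a b : ℕ}, a ≤ b → (m : ℝ) ^ a ≤ (m : ℝ) ^ b := fun h => pow_le_pow_right₀ hm1 h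
  have h800 : (m : ℝ) ^ 799 * 10 ^ 10 ≤ ρ := by
    have : (m : ℝ) ^ 800 = (m : ℝ) ^ 799 * m := by ring
    have h1 : (m : ℝ) ^ 799 * 10 ^ 10 ≤ (m : ℝ) ^ 799 * m :=
      mul_le_mul_of_nonneg_left hm (by positivity)
    linarith
  have h799 : (1 : ℝ) ≤ (m : ℝ) ^ 799 := one_le_pow₀ hm1
  have hρ0 : 0 < ρ := by nlinarith
  have hx : ∀ b, Matrix.trace (KR P d n b l ^ 2) ≤ ρ := fun b => by
    have := hB.X2u b
    rw [← hρ] at this
    have h2 : 0 < r1 d n m := lt_of_lt_of_le h680 hr1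
    linarith
  have hw : ∀ b, Wf (Fs n d l) (KR P d n b l) ≤ (m : ℝ) ^ 630 := fun b =>
    (hB.Wu b).trans (hpow (by norm_num))
  have hv' : ∀ b, Vf (KR P d n b l) ≤ (m : ℝ) ^ 10 := fun b =>
    (hB.Vu b).trans (hpow (by norm_num))
  have hr : ∀ b, ∑ z, ((KR P d n b l ^ 2) z z) ^ 2 ≤ 2 * ρ := fun b => by
    rw [R_eq]
    have h1 := hw b
    have h2 := hx b
    have h3 := hpow (show 630 ≤ 799 by norm_num)
    nlinarith
  have h := card_compl_le (P := P) (l := l) (n := n) (d := d) (a := (m : ℝ) ^ 250)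
    (c := (m : ℝ) ^ 200) (by have := hP.hd; omega) hv (by positivity) (by positivity)
    (ρ := ρ) (x := ρ) (v := (m : ℝ) ^ 10) (w := (m : ℝ) ^ 630) (r := 2 * ρ) rfl hx hv' hw hr
  refine h.trans (bad_num hd3 hρ0.le ?_ ?_ ?_ ?_)
  · linarith
  · have h1 := hpow (show 20 ≤ 799 by norm_num)
    have h2 : ((m : ℝ) ^ 10) ^ 2 = (m : ℝ) ^ 20 := by ring
    rw [h2]
    nlinarith
  · rw [div_le_iff₀ (by positivity)]
    have h1 : ((m : ℝ) ^ 250) ^ 4 = (m : ℝ) ^ 1000 := by ring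
    rw [h1]
    have h2 : ρ ≤ 2 * (m : ℝ) ^ 1000 * d := hρ2.trans (mul_le_mul_of_nonneg_right hP.hn2 (by positivity))
    nlinarith
  · rw [div_le_iff₀ (by positivity)]
    have h1 : ((m : ℝ) ^ 200) ^ 2 = (m : ℝ) ^ 400 := by ring
    have h2 : (m : ℝ) ^ 10 * (m : ℝ) ^ 630 = (m : ℝ) ^ 240 * (m : ℝ) ^ 400 := by ring
    rw [h1, h2, ← mul_assoc]
    apply mul_le_mul_of_nonneg_right _ (by positivity)
    have h3 := hpow (show 240 ≤ 799 by norm_num)
    nlinarith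

/-- number of removed pairs in the box of stage 2 -/
theorem bad2 {m : ℕ} {x0 : ℝ} (hP : Prm d n m) (hv : Pairs.Valid d n l)
    (hB : Box2 d n m x0 (Fs n d l) (fun b => KR P d n b l)) :
    (((Fs n d l ×ˢ Fs n d l) \ Sp P d n l ((m : ℝ) ^ 250) ((m : ℝ) ^ 200)).card : ℝ)
      ≤ 100 * (d : ℝ) ^ 2 * (Fs n d l).card := by
  have hm := m_ge hP
  have hm1 : (1 : ℝ) ≤ m := by linarith [show (1 : ℝ) ≤ 10 ^ 10 by norm_num]
  have hm0 : (0 : ℝ) < m := by linarith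
  have hd3 : (3 : ℝ) ≤ d := by exact_mod_cast hP.hd
  set ρ : ℝ := ((Fs n d l).card : ℝ) with hρ
  have hρ1 := hB.rho_ge
  have hρ2 := hB.rho_le
  rw [← hρ] at hρ1 hρ2
  have h680 : (0 : ℝ) < (m : ℝ) ^ 680 := by positivity
  have hr1 := Box.r1_ge' hP
  have hpow : ∀ {a b : ℕ}, a ≤ b → (m : ℝ) ^ a ≤ (m : ℝ) ^ b := fun h => pow_le_pow_right₀ hm1 h
  have h679 : (m : ℝ) ^ 679 * 10 ^ 10 ≤ ρ := by
    have h1 : (10 : ℝ) ^ 10 ≤ m * x0 := by
      have h2 := hB.x0_m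
      have h3 : x0 ^ 4 ≤ x0 := by
        have h4 : x0 ^ 3 ≤ 1 := pow_le_one₀ hB.x0_pos.le hB.x0_le
        have : x0 ^ 4 = x0 * x0 ^ 3 := by ring
        rw [this]
        nlinarith [hB.x0_pos]
      nlinarith
    have h2 : x0 * (m : ℝ) ^ 680 ≤ x0 * r1 d n m := mul_le_mul_of_nonneg_left hr1 hB.x0_pos.le
    have h3 : x0 * (m : ℝ) ^ 680 = (m : ℝ) ^ 679 * (m * x0) := by ring
    have h4 : (m : ℝ) ^ 679 * 10 ^ 10 ≤ (m : ℝ) ^ 679 * (m * x0) :=
      mul_le_mul_of_nonneg_left h1 (by positivity)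
    linarith
  have h1679 : (1 : ℝ) ≤ (m : ℝ) ^ 679 := one_le_pow₀ hm1
  have hρ0 : 0 < ρ := by nlinarith
  have hphi : phi2 (r1 d n m) ρ ≤ ρ := by
    unfold phi2
    have : 0 < r1 d n m := lt_of_lt_of_le h680 hr1
    rw [div_le_iff₀ (by positivity)]
    nlinarith
  have hx : ∀ b, Matrix.trace (KR P d n b l ^ 2) ≤ 2 * ρ := fun b => by
    have h1 := hB.X2u b
    have h2 := hpow (show 670 ≤ 679 by norm_num)
    rw [← hρ] at h1
    nlinarith
  have hw : ∀ b, Wf (Fs n d l) (KR P d n b l) ≤ (m : ℝ) ^ 683 := hB.Wu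
  have hv' : ∀ b, Vf (KR P d n b l) ≤ (m : ℝ) ^ 10 := fun b =>
    (hB.Vu b).trans (hpow (by norm_num))
  have hr : ∀ b, ∑ z, ((KR P d n b l ^ 2) z z) ^ 2 ≤ (m : ℝ) ^ 5 * ρ := fun b => by
    rw [R_eq]
    have h1 := hw b
    have h2 := hx b
    have h3 : (m : ℝ) ^ 683 ≤ (m : ℝ) ^ 4 * ρ := by
      have h4 : (m : ℝ) ^ 683 = (m : ℝ) ^ 4 * (m : ℝ) ^ 679 := by ring
      rw [h4]
      apply mul_le_mul_of_nonneg_left _ (by positivity)
      nlinarith
    have h5 : (m : ℝ) ^ 5 * ρ = m * ((m : ℝ) ^ 4 * ρ) := by ring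
    have h6 : ρ ≤ (m : ℝ) ^ 4 * ρ := by
      have : (1 : ℝ) ≤ (m : ℝ) ^ 4 := one_le_pow₀ hm1
      nlinarith
    have h7 : (10 : ℝ) ^ 10 * ((m : ℝ) ^ 4 * ρ) ≤ m * ((m : ℝ) ^ 4 * ρ) :=
      mul_le_mul_of_nonneg_right hm (by positivity)
    rw [h5]
    linarith
  have h := card_compl_le (P := P) (l := l) (n := n) (d := d) (a := (m : ℝ) ^ 250)
    (c := (m : ℝ) ^ 200) (by have := hP.hd; omega) hv (by positivity) (by positivity)
    (ρ := ρ) (x := 2 * ρ) (v := (m : ℝ) ^ 10) (w := (m : ℝ) ^ 683) (r := (m : ℝ) ^ 5 * ρ)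
    rfl hx hv' hw hr
  refine h.trans (bad_num hd3 hρ0.le le_rfl ?_ ?_ ?_)
  · have h1 := hpow (show 20 ≤ 679 by norm_num)
    have h2 : ((m : ℝ) ^ 10) ^ 2 = (m : ℝ) ^ 20 := by ring
    rw [h2]
    nlinarith
  · rw [div_le_iff₀ (by positivity)]
    have h1 : ((m : ℝ) ^ 250) ^ 4 = (m : ℝ) ^ 1000 := by ring
    have h2 : 2 * ((m : ℝ) ^ 5 * ρ) ^ 2 = 2 * (m : ℝ) ^ 10 * ρ * ρ := by ring
    rw [h1, h2]
    have h3 : ρ ≤ 2 * (m : ℝ) ^ 800 := by
      have := hpow (show 0 ≤ 800 by norm_num)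
      rw [pow_zero] at this
      linarith
    have h4 : 2 * (m : ℝ) ^ 10 * ρ ≤ 4 * (m : ℝ) ^ 1000 := by
      have h5 : 2 * (m : ℝ) ^ 10 * ρ ≤ 2 * (m : ℝ) ^ 10 * (2 * (m : ℝ) ^ 800) :=
        mul_le_mul_of_nonneg_left h3 (by positivity)
      have h6 : 2 * (m : ℝ) ^ 10 * (2 * (m : ℝ) ^ 800) = 4 * (m : ℝ) ^ 810 := by ring
      have h7 := hpow (show 810 ≤ 1000 by norm_num)
      linarith
    have h5 : 2 * (m : ℝ) ^ 10 * ρ * ρ ≤ 4 * (m : ℝ) ^ 1000 * ρ :=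
      mul_le_mul_of_nonneg_right h4 hρ0.le
    have h6 : 0 ≤ ρ * (m : ℝ) ^ 1000 := by positivity
    nlinarith
  · rw [div_le_iff₀ (by positivity)]
    have h1 : ((m : ℝ) ^ 200) ^ 2 = (m : ℝ) ^ 400 := by ring
    have h2 : (m : ℝ) ^ 10 * (m : ℝ) ^ 683 = (m : ℝ) ^ 293 * (m : ℝ) ^ 400 := by ring
    rw [h1, h2, ← mul_assoc]
    apply mul_le_mul_of_nonneg_right _ (by positivity)
    have h3 := hpow (show 293 ≤ 679 by norm_num)
    nlinarith

/-- the context of stage 1 -/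
theorem ctx_box1 {m : ℕ} (hP : Prm d n m) (h : Lst P d n l)
    (hB : Box1 d n m (Fs n d l) (fun b => KR P d n b l)) :
    Ctx d m (P.gam.v n) (Fs n d l) (fun b => KR P d n b l)
      (Sp P d n l ((m : ℝ) ^ 250) ((m : ℝ) ^ 200)) :=
  h.ctx (nat_one_le_m hP) (bad1 hP h.valid hB)

/-- the context of stage 2 -/
theorem ctx_box2 {m : ℕ} {x0 : ℝ} (hP : Prm d n m) (h : Lst P d n l)
    (hB : Box2 d n m x0 (Fs n d l) (fun b => KR P d n b l)) :
    Ctx d m (P.gam.v n) (Fs n d l) (fun b => KR P d n b l)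
      (Sp P d n l ((m : ℝ) ^ 250) ((m : ℝ) ^ 200)) :=
  h.ctx (nat_one_le_m hP) (bad2 hP h.valid hB)

/-! ### the step of the real state -/

lemma KR_cons (b : Bool) (x y : Fin (n * d)) :
    KR P d n b (((x : ℕ), (y : ℕ)) :: l) = nx b (fun b => KR P d n b l) x y :=
  Kmat_cons _ _ _ n d l x y

lemma Fs_cons (x y : Fin (n * d)) :
    Fs n d (((x : ℕ), (y : ℕ)) :: l) = ((Fs n d l).erase x).erase y := by
  ext i
  rw [Finset.mem_erase, Finset.mem_erase, mem_Fs, mem_Fs, unused_cons]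
  constructor
  · rintro ⟨⟨h1, h2⟩, h3⟩
    exact ⟨fun e => h2 (by rw [e]), fun e => h1 (by rw [e]), h3⟩
  · rintro ⟨h2, h1, h3⟩
    exact ⟨⟨fun e => h1 (Fin.ext e.symm), fun e => h2 (Fin.ext e.symm)⟩, h3⟩

lemma mem_of_Sg {x y : Fin (n * d)} (h : (x, y) ∈ Sg P d n l) :
    x ∈ Fs n d l ∧ y ∈ Fs n d l ∧ x ≠ y := by
  have h1 := Finset.mem_product.1 (Sg_subset P d n l h)
  refine ⟨h1.1, h1.2, fun e => ?_⟩
  exact (adm_ne (mem_Sg.1 h).1) (congrArg Fin.val e)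

lemma card_Fs_cons {x y : Fin (n * d)} (h : (x, y) ∈ Sg P d n l) :
    (Fs n d (((x : ℕ), (y : ℕ)) :: l)).card + 2 = (Fs n d l).card := by
  obtain ⟨hx, hy, hne⟩ := mem_of_Sg h
  rw [Fs_cons, Finset.card_erase_of_mem (Finset.mem_erase.2 ⟨hne.symm, hy⟩),
    Finset.card_erase_of_mem hx]
  have h2 : 1 < (Fs n d l).card := Finset.one_lt_card.2 ⟨x, hx, y, hy, hne⟩
  omega

lemma card_Fs_cons' {x y : Fin (n * d)} (h : (x, y) ∈ Sg P d n l) :
    ((Fs n d (((x : ℕ), (y : ℕ)) :: l)).card : ℝ) = (Fs n d l).card - 2 := by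
  have h1 := card_Fs_cons h
  have h2 : (((Fs n d (((x : ℕ), (y : ℕ)) :: l)).card + 2 : ℕ) : ℝ) = ((Fs n d l).card : ℝ) := by
    rw [h1]
  push_cast at h2
  linarith


/-- the list facts from the invariant of the process -/
lemma lst_of_St {F : List (Pot P d)} (hd : 3 ≤ d) (hn : 0 < n) (hev : Even n)
    (h : St P d F n l) (γ0 : 0 < P.gam.v n) (γ1 : P.gam.v n ^ 2 ≤ 1 / 2)
    (hb : 0 < 2 * Real.sqrt ((d : ℝ) - 1) - P.gam.v n * d)
    (hμ : P.mu.v n = Glue.muOf d (P.gam.v n)) (hlen : 2 * l.length < n * d) : Lst P d n l :=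
  ⟨hd, hn, hev, h.valid, h.del, γ0, γ1, hb, hμ, hlen⟩

/-- the stage 1 potential of the real state -/
noncomputable def Phi1R (P : Par) (d n m : ℕ) (l : List (ℕ × ℕ)) : ℝ :=
  Phi1 d n m (Fs n d l) (fun b => KR P d n b l)

/-- the stage 2 potential of the real state -/
noncomputable def Phi2R (P : Par) (d n m : ℕ) (l : List (ℕ × ℕ)) : ℝ :=
  Phi2 d n m (Fs n d l) (fun b => KR P d n b l)

lemma Phi1R_cons (m : ℕ) (x y : Fin (n * d)) :
    Phi1R P d n m (((x : ℕ), (y : ℕ)) :: l) =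
      Phi1 d n m (((Fs n d l).erase x).erase y) (fun b => nx b (fun b => KR P d n b l) x y) := by
  unfold Phi1R
  rw [Fs_cons]
  simp only [KR_cons]

lemma Phi2R_cons (m : ℕ) (x y : Fin (n * d)) :
    Phi2R P d n m (((x : ℕ), (y : ℕ)) :: l) =
      Phi2 d n m (((Fs n d l).erase x).erase y) (fun b => nx b (fun b => KR P d n b l) x y) := by
  unfold Phi2R
  rw [Fs_cons]
  simp only [KR_cons]

/-- one real step of stage 1 -/
theorem step1_real {m : ℕ} (Pc : Pieces1 (Fin (n * d))) (hP : Prm d n m) (h : Lst P d n l)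
    (hΦ : Phi1R P d n m l ≤ 1) (hρ : (m : ℝ) ^ 800 + 2 ≤ (Fs n d l).card) :
    ∃ x y : Fin (n * d), Gp P d n l x y ∧
      Phi1R P d n m (((x : ℕ), (y : ℕ)) :: l) ≤
        Phi1R P d n m l + 38 / ((m : ℝ) ^ 2 * (Fs n d l).card) := by
  have hρ2 : ((Fs n d l).card : ℝ) ≤ n * d := by
    have h1 := h.card
    have h2 : (Fs n d l).card ≤ n * d := by omega
    exact_mod_cast h2
  have hB : Box1 d n m (Fs n d l) (fun b => KR P d n b l) :=
    Box.box1_of_Phi1 hP (fun b => KR_symm b) hΦ hρ hρ2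
  obtain ⟨p, hp, h1⟩ := step1 Pc hP (ctx_box1 hP h hB) hB
  refine ⟨p.1, p.2, (mem_Sp.1 hp).1, ?_⟩
  rw [Phi1R_cons]
  exact h1

/-- one real step of stage 2 -/
theorem step2_real {m : ℕ} {x0 : ℝ} (Pc : Pieces2 (Fin (n * d))) (hP : Prm d n m)
    (h : Lst P d n l) (hΦ : Phi2R P d n m l ≤ 1) (hx0 : 0 < x0) (hx1 : x0 ≤ 1)
    (hx2 : 10 ^ 10 ≤ m * x0 ^ 4) (hρ1 : x0 * r1 d n m + 2 ≤ (Fs n d l).card)
    (hρ2 : ((Fs n d l).card : ℝ) ≤ (m : ℝ) ^ 800 + 1) :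
    ∃ x y : Fin (n * d), Gp P d n l x y ∧
      Phi2R P d n m (((x : ℕ), (y : ℕ)) :: l) ≤
        Phi2R P d n m l + 38 / ((m : ℝ) ^ 2 * (Fs n d l).card) := by
  have hB : Box2 d n m x0 (Fs n d l) (fun b => KR P d n b l) :=
    Box.box2_of_Phi2 hP (fun b => KR_symm b) hΦ hx0 hx1 hx2 hρ1 hρ2
  obtain ⟨p, hp, h1⟩ := step2 Pc hP (ctx_box2 hP h hB) hB
  refine ⟨p.1, p.2, (mem_Sp.1 hp).1, ?_⟩
  rw [Phi2R_cons]
  exact h1

end Crest.Agent.R62.CtxReal
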