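import Crest.Agent.R62.AvV
import Crest.Agent.R62.TiltK
import Crest.Agent.R62.AvX1

/-!
R62 (helper644): bounds for `∑ K_xy⁴`, `∑_x (∑_z K_zx⁴)²`, `sup K_xy²` and the operator norm of the
entrywise square of `K`, from the `2 × 2` minors of `K + γ + (1-γ) J/ρ ≥ 0`.
-/

set_option autoImplicit false
set_option linter.unusedSectionVars false
set_option linter.unusedVariables false

open Matrix Finset

namespace Crest.Agent.R62.KapB

open Crest.Agent.R62.AvBase (OpB)
open Crest.Agent.R62.AvX1 (ind)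
open Crest.Agent.R62.DiagAv
open Crest.Agent.R62.AvV

variable {ι : Type*} [Fintype ι] [DecidableEq ι]
variable {K : Matrix ι ι ℝ} {F : Finset ι} {s γ : ℝ}

lemma dot_ind (f : ι → ℝ) (F : Finset ι) : f ⬝ᵥ ind F = ∑ i ∈ F, f i := by
  simp only [dotProduct, ind, mul_ite, mul_one, mul_zero]
  rw [Finset.sum_ite_mem, Finset.univ_inter]

lemma ind_dot_ind (F : Finset ι) : ind F ⬝ᵥ ind F = (F.card : ℝ) := by
  rw [dot_ind]
  have h : ∀ i ∈ F, ind F i = 1 := fun i hi => by simp [ind, hi]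
  rw [Finset.sum_congr rfl h]
  simp

/-- `K + γ + (1-γ) J / ρ ≥ 0` -/
lemma psd (hK : K.IsSymm) (hs : s ^ 2 = 1) (hγ1 : γ ≤ 1)
    (hrow : K *ᵥ ind F = s • ind F)
    (hlow : ∀ f : ι → ℝ, ∑ i ∈ F, f i = 0 → -γ * ∑ i ∈ F, f i ^ 2 ≤ f ⬝ᵥ (K *ᵥ f))
    (f : ι → ℝ) (hne : F.Nonempty) :
    0 ≤ f ⬝ᵥ (K *ᵥ f) + γ * ∑ i ∈ F, f i ^ 2 + (1 - γ) / F.card * (∑ i ∈ F, f i) ^ 2 := by
  have hρ : (0 : ℝ) < F.card := by exact_mod_cast Finset.card_pos.mpr hne
  set ρ : ℝ := (F.card : ℝ) with hρdef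
  set a : ℝ := ∑ i ∈ F, f i with ha
  set g : ι → ℝ := f - (a / ρ) • ind F with hg
  have hu : ∀ i ∈ F, ind F i = 1 := fun i hi => by simp [ind, hi]
  have hgi : ∀ i ∈ F, g i = f i - a / ρ := fun i hi => by
    simp [hg, hu i hi]
  have hsum : ∑ i ∈ F, g i = 0 := by
    rw [Finset.sum_congr rfl hgi, Finset.sum_sub_distrib, Finset.sum_const, nsmul_eq_mul, ← ha,
      ← hρdef]
    field_simp
    ring
  have hg2 : ∑ i ∈ F, g i ^ 2 = ∑ i ∈ F, f i ^ 2 - a ^ 2 / ρ := by
    have e : ∀ i ∈ F, g i ^ 2 = f i ^ 2 - 2 * (a / ρ) * f i + (a / ρ) ^ 2 := fun i hi => by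
      rw [hgi i hi]; ring
    rw [Finset.sum_congr rfl e, Finset.sum_add_distrib, Finset.sum_sub_distrib, ← Finset.mul_sum,
      ← ha, Finset.sum_const, nsmul_eq_mul, ← hρdef]
    field_simp
    ring
  have hfu : f ⬝ᵥ (K *ᵥ ind F) = s * a := by
    rw [hrow, dotProduct_smul, dot_ind, smul_eq_mul]
  have huf : ind F ⬝ᵥ (K *ᵥ f) = s * a := by
    rw [Matrix.dotProduct_mulVec, ← Matrix.mulVec_transpose, hK.eq, hrow, smul_dotProduct,
      dotProduct_comm, dot_ind, smul_eq_mul]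
  have huu : ind F ⬝ᵥ (K *ᵥ ind F) = s * ρ := by
    rw [hrow, dotProduct_smul, ind_dot_ind, smul_eq_mul]
  have e1 : g ⬝ᵥ (K *ᵥ g) = f ⬝ᵥ (K *ᵥ f) - s * (a ^ 2 / ρ) := by
    rw [hg, Matrix.mulVec_sub, Matrix.mulVec_smul, sub_dotProduct, dotProduct_sub, dotProduct_sub,
      dotProduct_smul, smul_dotProduct, smul_dotProduct, dotProduct_smul, hfu, huf, huu]
    simp only [smul_eq_mul]
    field_simp
    ring
  have h1 := hlow g hsum
  rw [hg2, e1] at h1
  have hs1 : -1 ≤ s := by nlinarith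
  have h2 : 0 ≤ a ^ 2 / ρ := by positivity
  have h3 : (1 - γ) / ρ * a ^ 2 = (1 - γ) * (a ^ 2 / ρ) := by ring
  rw [h3]
  nlinarith

/-- quadratic form of `K` at a vector with two entries -/
lemma two_form (hK : K.IsSymm) (z x : ι) (α β : ℝ) :
    (Pi.single z α + Pi.single x β : ι → ℝ) ⬝ᵥ (K *ᵥ (Pi.single z α + Pi.single x β))
      = α ^ 2 * K z z + 2 * α * β * K z x + β ^ 2 * K x x := by
  rw [Matrix.mulVec_add, add_dotProduct, dotProduct_add, dotProduct_add]
  simp only [single_dotProduct, Matrix.mulVec_single, Pi.smul_apply, MulOpposite.smul_eq_mul_unop,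
    MulOpposite.unop_op, Matrix.col_apply]
  rw [hK.apply z x]
  ring

/-- diagonal entries of `K + γ + (1-γ)J/ρ` -/
lemma diag_nonneg (hK : K.IsSymm) (hs : s ^ 2 = 1) (hγ1 : γ ≤ 1)
    (hrow : K *ᵥ ind F = s • ind F)
    (hlow : ∀ f : ι → ℝ, ∑ i ∈ F, f i = 0 → -γ * ∑ i ∈ F, f i ^ 2 ≤ f ⬝ᵥ (K *ᵥ f))
    {z : ι} (hz : z ∈ F) : 0 ≤ K z z + γ + (1 - γ) / F.card := by
  have h := psd hK hs hγ1 hrow hlow (Pi.single z 1 + Pi.single z 0) ⟨z, hz⟩
  rw [two_form hK] at h
  have e1 : ∑ i ∈ F, (Pi.single z (1 : ℝ) + Pi.single z 0 : ι → ℝ) i ^ 2 = 1 := by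
    rw [Finset.sum_eq_single z]
    · simp
    · intro i _ hi; simp [Pi.single_eq_of_ne hi]
    · intro h; exact absurd hz h
  have e2 : ∑ i ∈ F, (Pi.single z (1 : ℝ) + Pi.single z 0 : ι → ℝ) i = 1 := by
    rw [Finset.sum_eq_single z]
    · simp
    · intro i _ hi; simp [Pi.single_eq_of_ne hi]
    · intro h; exact absurd hz h
  rw [e1, e2] at h
  linarith

/-- the `2 × 2` minor -/
lemma minor (hK : K.IsSymm) (hs : s ^ 2 = 1) (hγ1 : γ ≤ 1)
    (hrow : K *ᵥ ind F = s • ind F)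
    (hlow : ∀ f : ι → ℝ, ∑ i ∈ F, f i = 0 → -γ * ∑ i ∈ F, f i ^ 2 ≤ f ⬝ᵥ (K *ᵥ f))
    {z x : ι} (hz : z ∈ F) (hx : x ∈ F) (hzx : z ≠ x) :
    (K z x + (1 - γ) / F.card) ^ 2
      ≤ (K z z + γ + (1 - γ) / F.card) * (K x x + γ + (1 - γ) / F.card) := by
  set c : ℝ := (1 - γ) / F.card with hc
  have h : ∀ t : ℝ, 0 ≤ (K z z + γ + c) * (t * t) + (2 * (K z x + c)) * t + (K x x + γ + c) := by
    intro t
    have h := psd hK hs hγ1 hrow hlow (Pi.single z t + Pi.single x 1) ⟨z, hz⟩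
    rw [two_form hK, ← hc] at h
    have e1 : ∑ i ∈ F, (Pi.single z t + Pi.single x 1 : ι → ℝ) i ^ 2 = t ^ 2 + 1 := by
      have : ∀ i ∈ F, (Pi.single z t + Pi.single x 1 : ι → ℝ) i ^ 2
          = (if z = i then t ^ 2 else 0) + (if x = i then 1 else 0) := by
        intro i _
        rcases eq_or_ne z i with rfl | h1
        · simp [hzx.symm]
        · rcases eq_or_ne x i with rfl | h2
          · simp [hzx]
          · simp [h1, h2]
      rw [Finset.sum_congr rfl this, Finset.sum_add_distrib, Finset.sum_ite_eq, Finset.sum_ite_eq,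
        if_pos hz, if_pos hx]
    have e2 : ∑ i ∈ F, (Pi.single z t + Pi.single x 1 : ι → ℝ) i = t + 1 := by
      simp only [Pi.add_apply, Finset.sum_add_distrib, Pi.single_apply, Finset.sum_ite_eq', if_pos hz,
        if_pos hx]
    rw [e1, e2] at h
    nlinarith
  have hd := discrim_le_zero h
  unfold discrim at hd
  nlinarith

/-- **entry bound** -/
theorem entry_sq_le (hK : K.IsSymm) (hF : ∀ i j, i ∉ F → K i j = 0) (hs : s ^ 2 = 1)
    (hγ0 : 0 ≤ γ) (hγ1 : γ ≤ 1) (hrow : K *ᵥ ind F = s • ind F)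
    (hlow : ∀ f : ι → ℝ, ∑ i ∈ F, f i = 0 → -γ * ∑ i ∈ F, f i ^ 2 ≤ f ⬝ᵥ (K *ᵥ f)) (z x : ι) :
    K z x ^ 2 ≤ (γ + 2 / F.card + |K z z|) * (γ + 2 / F.card + |K x x|) := by
  have hc0 : (0 : ℝ) ≤ 2 / F.card := by positivity
  have hpos : ∀ y, 0 ≤ γ + 2 / F.card + |K y y| := fun y => by positivity
  by_cases hz : z ∈ F
  · by_cases hx : x ∈ F
    · rcases eq_or_ne z x with rfl | hzx
      · calc K z z ^ 2 = |K z z| * |K z z| := by rw [← sq_abs, pow_two]
          _ ≤ _ := mul_le_mul (by linarith) (by linarith) (abs_nonneg _) (hpos _)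
      · have hm := minor hK hs hγ1 hrow hlow hz hx hzx
        have d1 := diag_nonneg hK hs hγ1 hrow hlow hz
        have d2 := diag_nonneg hK hs hγ1 hrow hlow hx
        have hρ : (0 : ℝ) < F.card := by exact_mod_cast Finset.card_pos.mpr ⟨z, hz⟩
        set c : ℝ := (1 - γ) / F.card with hc
        have hc1 : 0 ≤ c := div_nonneg (by linarith) hρ.le
        have hc2 : 2 * c ≤ 2 / F.card := by
          have : 2 * c = 2 * (1 - γ) / F.card := by rw [hc]; ring
          rw [this]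
          exact div_le_div_of_nonneg_right (by linarith) hρ.le
        set A := K z z + γ + c with hA
        set B := K x x + γ + c with hB
        -- `|K| ≤ √(AB) + c`, hence `K² ≤ AB + 2c√(AB) + c² ≤ (A + c)(B + c)`
        have h1 : K z x ^ 2 ≤ (A + c) * (B + c) := by
          set r := Real.sqrt (A * B) with hr
          have hr0 : 0 ≤ r := Real.sqrt_nonneg _
          have hrs : r ^ 2 = A * B := Real.sq_sqrt (mul_nonneg d1 d2)
          have h2 : |K z x + c| ≤ r := Real.abs_le_sqrt hm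
          have h3 : |K z x| ≤ r + c := by
            calc |K z x| = |(K z x + c) - c| := by congr 1; ring
              _ ≤ |K z x + c| + |c| := abs_sub _ _
              _ ≤ r + c := by rw [abs_of_nonneg hc1]; linarith
          have h4 : 2 * r ≤ A + B := by
            have : (2 * r) ^ 2 ≤ (A + B) ^ 2 := by nlinarith [sq_nonneg (A - B)]
            exact (abs_le_of_sq_le_sq' this (by linarith)).2
          calc K z x ^ 2 = |K z x| ^ 2 := (sq_abs _).symm
            _ ≤ (r + c) ^ 2 := pow_le_pow_left₀ (abs_nonneg _) h3 2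
            _ ≤ _ := by nlinarith
        refine h1.trans (mul_le_mul ?_ ?_ (by linarith) (hpos _))
        · have := le_abs_self (K z z); linarith
        · have := le_abs_self (K x x); linarith
    · have : K z x = 0 := by rw [← hK.apply]; exact hF x z hx
      rw [this]
      simpa using mul_nonneg (hpos z) (hpos x)
  · rw [hF z x hz]
    simpa using mul_nonneg (hpos z) (hpos x)

/-! ### consequences; from here on only the entry bound is used -/

section cons
variable {g : ℝ}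

/-- `|K_zz| ≤ √V` -/
lemma abs_diag_le (K : Matrix ι ι ℝ) (z : ι) : |K z z| ≤ Real.sqrt (Vf K) := by
  refine Real.abs_le_sqrt ?_
  exact Finset.single_le_sum (f := fun z => K z z ^ 2) (fun _ _ => sq_nonneg _) (Finset.mem_univ z)


/-- sup bound -/
lemma sup_le (hg : g ≤ 1) (hg0 : 0 ≤ g)
    (he : ∀ z x, K z x ^ 2 ≤ (g + |K z z|) * (g + |K x x|)) (z x : ι) :
    K z x ^ 2 ≤ 2 * (1 + Vf K) := by
  have h1 := abs_diag_le K z
  have h2 := abs_diag_le K x
  have hV := Real.sq_sqrt (Vf_nonneg K)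
  have h0 := Real.sqrt_nonneg (Vf K)
  refine (he z x).trans ?_
  calc (g + |K z z|) * (g + |K x x|)
      ≤ (1 + Real.sqrt (Vf K)) * (1 + Real.sqrt (Vf K)) :=
        mul_le_mul (by linarith) (by linarith) (by positivity) (by linarith)
    _ ≤ _ := by nlinarith [sq_nonneg (1 - Real.sqrt (Vf K))]


lemma sum_row_sq (hK : K.IsSymm) (x : ι) : ∑ z, K z x ^ 2 = (K ^ 2) x x := by
  rw [sq_diag_eq hK]
  exact Finset.sum_congr rfl fun z _ => by rw [hK.apply z x]

lemma sum_diag_row (hK : K.IsSymm) :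
    ∑ x, ∑ z, K z x ^ 2 * |K z z| = ∑ z, |K z z| * (K ^ 2) z z := by
  rw [Finset.sum_comm]
  refine Finset.sum_congr rfl fun z _ => ?_
  rw [← Finset.sum_mul, sq_diag_eq hK]
  ring

/-- **`∑ K_xy⁴`** -/
theorem kappa_le (hK : K.IsSymm) (hg0 : 0 ≤ g)
    (he : ∀ z x, K z x ^ 2 ≤ (g + |K z z|) * (g + |K x x|)) :
    ∑ x, kk K x ≤ g ^ 2 * (K ^ 2).trace
      + 2 * g * (Real.sqrt (Vf K) * Real.sqrt (∑ z, (K ^ 2) z z ^ 2))
      + Vf K * Real.sqrt (∑ z, (K ^ 2) z z ^ 2) := by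
  have h1 : ∑ x, kk K x ≤ ∑ x, ∑ z, (g ^ 2 * K z x ^ 2 + g * (K z x ^ 2 * |K z z|)
      + g * (K z x ^ 2 * |K x x|) + (1 / 2 * (K z x ^ 2 * K z z ^ 2)
        + 1 / 2 * (K z x ^ 2 * K x x ^ 2))) := by
    unfold kk
    refine Finset.sum_le_sum fun x _ => Finset.sum_le_sum fun z _ => ?_
    have h0 := sq_nonneg (K z x)
    calc K z x ^ 4 = K z x ^ 2 * K z x ^ 2 := by ring
      _ ≤ K z x ^ 2 * ((g + |K z z|) * (g + |K x x|)) := mul_le_mul_of_nonneg_left (he z x) h0
      _ = g ^ 2 * K z x ^ 2 + g * (K z x ^ 2 * |K z z|) + g * (K z x ^ 2 * |K x x|)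
          + K z x ^ 2 * (|K z z| * |K x x|) := by ring
      _ ≤ _ := by
        have h2 : |K z z| * |K x x| ≤ 1 / 2 * K z z ^ 2 + 1 / 2 * K x x ^ 2 := by
          have := sq_nonneg (|K z z| - |K x x|)
          rw [← sq_abs (K z z), ← sq_abs (K x x)]
          nlinarith
        have h3 := mul_le_mul_of_nonneg_left h2 h0
        nlinarith
  refine h1.trans ?_
  simp only [Finset.sum_add_distrib, ← Finset.mul_sum]
  have e1 : ∑ x, ∑ z, K z x ^ 2 = (K ^ 2).trace := by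
    simp only [Matrix.trace, Matrix.diag_apply]
    exact Finset.sum_congr rfl fun x _ => sum_row_sq hK x
  have e2 : ∑ x, ∑ z, K z x ^ 2 * |K z z| = ∑ z, |K z z| * (K ^ 2) z z := sum_diag_row hK
  have e3 : ∑ x, ∑ z, K z x ^ 2 * |K x x| = ∑ z, |K z z| * (K ^ 2) z z := by
    refine Finset.sum_congr rfl fun x _ => ?_
    rw [← Finset.sum_mul, sum_row_sq hK]; ring
  have e4 : ∑ x, ∑ z, K z x ^ 2 * K z z ^ 2 = ∑ z, K z z ^ 2 * (K ^ 2) z z := by
    rw [Finset.sum_comm]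
    refine Finset.sum_congr rfl fun z _ => ?_
    rw [← Finset.sum_mul, sq_diag_eq hK]; ring
  have e5 : ∑ x, ∑ z, K z x ^ 2 * K x x ^ 2 = ∑ z, K z z ^ 2 * (K ^ 2) z z := by
    refine Finset.sum_congr rfl fun x _ => ?_
    rw [← Finset.sum_mul, sum_row_sq hK]; ring
  rw [e1, e2, e3, e4, e5]
  have h2 : ∑ z, |K z z| * (K ^ 2) z z
      ≤ Real.sqrt (Vf K) * Real.sqrt (∑ z, (K ^ 2) z z ^ 2) := by
    have h := cs (dg K) (fun z => (K ^ 2) z z)
    refine le_trans (le_of_eq (Finset.sum_congr rfl fun z _ => ?_)) h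
    rw [abs_of_nonneg (p_nonneg hK z)]; rfl
  have h3 : ∑ z, K z z ^ 2 * (K ^ 2) z z ≤ Vf K * Real.sqrt (∑ z, (K ^ 2) z z ^ 2) := by
    unfold Vf
    rw [Finset.sum_mul]
    refine Finset.sum_le_sum fun z _ => mul_le_mul_of_nonneg_left ?_ (sq_nonneg _)
    refine Real.le_sqrt_of_sq_le ?_
    exact Finset.single_le_sum (f := fun z => (K ^ 2) z z ^ 2) (fun _ _ => sq_nonneg _)
      (Finset.mem_univ z)
  have h4 := mul_le_mul_of_nonneg_left h2 hg0
  linarith

lemma n2_add_le (f h : ι → ℝ) : n2 (fun z => f z + h z) ≤ n2 f + n2 h := by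
  refine n2_le_of (add_nonneg (n2_nonneg _) (n2_nonneg _)) ?_
  have h1 := (abs_le.1 (abs_sum_mul_le f h)).2
  have h2 : ∑ z, (f z + h z) ^ 2 = ∑ z, f z ^ 2 + ∑ z, h z ^ 2 + 2 * ∑ z, f z * h z := by
    rw [Finset.mul_sum, ← Finset.sum_add_distrib, ← Finset.sum_add_distrib]
    exact Finset.sum_congr rfl fun z _ => by ring
  rw [h2, ← n2_sq, ← n2_sq]
  nlinarith

/-- **`n2 (kk K)`** -/
theorem n2_kk_le (hK : K.IsSymm) (hg : g ≤ 1) (hg0 : 0 ≤ g)
    (he : ∀ z x, K z x ^ 2 ≤ (g + |K z z|) * (g + |K x x|)) :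
    n2 (kk K) ≤ 2 * (1 + Real.sqrt (Vf K)) * Real.sqrt (∑ z, (K ^ 2) z z ^ 2)
      + Real.sqrt (8 * (1 + Vf K) ^ 3 * Vf K
        * (Real.sqrt (Vf K) * Real.sqrt (∑ z, (K ^ 2) z z ^ 2))) := by
  set v := Real.sqrt (Vf K) with hv
  have hv0 : 0 ≤ v := Real.sqrt_nonneg _
  have hV0 := Vf_nonneg K
  set R := Real.sqrt (∑ z, (K ^ 2) z z ^ 2) with hR
  have hR0 : 0 ≤ R := Real.sqrt_nonneg _
  set gS : ι → ℝ := fun x => ∑ z, if 1 < |K z z| then 0 else K z x ^ 4 with hgS
  set gB : ι → ℝ := fun x => ∑ z, if 1 < |K z z| then K z x ^ 4 else 0 with hgB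
  have hsup := sup_le (K := K) hg hg0 he
  have e0 : kk K = fun x => gS x + gB x := by
    funext x
    simp only [kk, hgS, hgB, ← Finset.sum_add_distrib]
    refine Finset.sum_congr rfl fun z _ => ?_
    split_ifs <;> ring
  have hS : n2 gS ≤ 2 * (1 + v) * R := by
    have h1 : ∀ x, |gS x| ≤ |(2 * (1 + v)) * (K ^ 2) x x| := by
      intro x
      have hp := p_nonneg hK x
      have h0 : 0 ≤ gS x := Finset.sum_nonneg fun z _ => by split_ifs <;> positivity
      rw [abs_of_nonneg h0, abs_of_nonneg (by positivity), ← sum_row_sq hK x, Finset.mul_sum]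
      refine Finset.sum_le_sum fun z _ => ?_
      split_ifs with hz
      · positivity
      · push Not at hz
        have h3 := abs_diag_le K x
        calc K z x ^ 4 = K z x ^ 2 * K z x ^ 2 := by ring
          _ ≤ ((g + |K z z|) * (g + |K x x|)) * K z x ^ 2 :=
              mul_le_mul_of_nonneg_right (he z x) (sq_nonneg _)
          _ ≤ (2 * (1 + v)) * K z x ^ 2 := by
              refine mul_le_mul_of_nonneg_right ?_ (sq_nonneg _)
              exact mul_le_mul (by linarith) (by linarith) (by positivity) (by norm_num)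
    refine (n2_mono h1).trans ?_
    rw [n2_smul, abs_of_nonneg (by positivity)]
    exact le_of_eq rfl
  have hB : n2 gB ≤ Real.sqrt (8 * (1 + Vf K) ^ 3 * Vf K * (v * R)) := by
    refine Real.sqrt_le_sqrt ?_
    have hB0 : ∀ x, 0 ≤ gB x := fun x => Finset.sum_nonneg fun z _ => by
      split_ifs <;> positivity
    -- sup of `gB`
    have h1 : ∀ x, gB x ≤ (2 * (1 + Vf K)) ^ 2 * Vf K := by
      intro x
      have : (2 * (1 + Vf K)) ^ 2 * Vf K = ∑ z, (2 * (1 + Vf K)) ^ 2 * K z z ^ 2 := by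
        rw [← Finset.mul_sum]; rfl
      rw [this]
      refine Finset.sum_le_sum fun z _ => ?_
      split_ifs with hz
      · have h2 := hsup z x
        have h3 : 1 ≤ K z z ^ 2 := by rw [← sq_abs]; nlinarith
        calc K z x ^ 4 = K z x ^ 2 * K z x ^ 2 := by ring
          _ ≤ (2 * (1 + Vf K)) * (2 * (1 + Vf K)) :=
              mul_le_mul h2 h2 (sq_nonneg _) (by positivity)
          _ = (2 * (1 + Vf K)) ^ 2 * 1 := by ring
          _ ≤ _ := mul_le_mul_of_nonneg_left h3 (by positivity)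
      · positivity
    -- sum of `gB`
    have h2 : ∑ x, gB x ≤ 2 * (1 + Vf K) * (v * R) := by
      calc ∑ x, gB x ≤ ∑ x, ∑ z, 2 * (1 + Vf K) * (K z x ^ 2 * |K z z|) := by
            refine Finset.sum_le_sum fun x _ => Finset.sum_le_sum fun z _ => ?_
            split_ifs with hz
            · have h3 := hsup z x
              calc K z x ^ 4 = K z x ^ 2 * (K z x ^ 2 * 1) := by ring
                _ ≤ (2 * (1 + Vf K)) * (K z x ^ 2 * |K z z|) :=
                    mul_le_mul h3 (mul_le_mul_of_nonneg_left hz.le (sq_nonneg _))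
                      (by positivity) (by positivity)
            · positivity
        _ = 2 * (1 + Vf K) * ∑ z, |K z z| * (K ^ 2) z z := by
            simp only [← Finset.mul_sum]
            rw [sum_diag_row hK]
        _ ≤ _ := by
            refine mul_le_mul_of_nonneg_left ?_ (by positivity)
            have h := cs (dg K) (fun z => (K ^ 2) z z)
            refine le_trans (le_of_eq (Finset.sum_congr rfl fun z _ => ?_)) h
            rw [abs_of_nonneg (p_nonneg hK z)]; rfl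
    calc ∑ x, gB x ^ 2 ≤ ∑ x, ((2 * (1 + Vf K)) ^ 2 * Vf K) * gB x :=
          Finset.sum_le_sum fun x _ => by
            rw [pow_two]; exact mul_le_mul_of_nonneg_right (h1 x) (hB0 x)
      _ = ((2 * (1 + Vf K)) ^ 2 * Vf K) * ∑ x, gB x := by rw [Finset.mul_sum]
      _ ≤ ((2 * (1 + Vf K)) ^ 2 * Vf K) * (2 * (1 + Vf K) * (v * R)) :=
          mul_le_mul_of_nonneg_left h2 (by positivity)
      _ = _ := by ring
  rw [e0]
  exact (n2_add_le _ _).trans (add_le_add hS hB)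

/-- Frobenius norm bounds the operator norm -/
lemma opB_of_fro {A : Matrix ι ι ℝ} {c : ℝ} (hc : 0 ≤ c) (h : ∑ x, ∑ y, A x y ^ 2 ≤ c ^ 2) :
    OpB A c := by
  refine ⟨hc, fun w => ?_⟩
  have h1 : ∀ x, (A *ᵥ w) x ^ 2 ≤ (∑ y, A x y ^ 2) * (w ⬝ᵥ w) := by
    intro x
    have := Finset.sum_mul_sq_le_sq_mul_sq Finset.univ (fun y => A x y) w
    simpa only [Matrix.mulVec, dotProduct, ← pow_two] using this
  calc (A *ᵥ w) ⬝ᵥ (A *ᵥ w) = ∑ x, (A *ᵥ w) x ^ 2 := by simp only [dotProduct, ← pow_two]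
    _ ≤ ∑ x, (∑ y, A x y ^ 2) * (w ⬝ᵥ w) := Finset.sum_le_sum fun x _ => h1 x
    _ = (∑ x, ∑ y, A x y ^ 2) * (w ⬝ᵥ w) := by rw [Finset.sum_mul]
    _ ≤ _ := mul_le_mul_of_nonneg_right h (AvBase.dot_self_nonneg _)

/-- **operator norm of the entrywise square** -/
theorem opB_Ksq (hK : K.IsSymm) {S2 B : ℝ} (hS2 : ∀ z x, K z x ^ 2 ≤ S2) (hS0 : 0 ≤ S2)
    (hB : 0 < B) :
    OpB (Ksq K) (B + Real.sqrt (2 * S2 * (∑ z, (K ^ 2) z z ^ 2) / B)) := by
  set A : Matrix ι ι ℝ := fun x y =>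
    if (K ^ 2) x x ≤ B ∧ (K ^ 2) y y ≤ B then K x y ^ 2 else 0 with hA
  set C : Matrix ι ι ℝ := fun x y =>
    if (K ^ 2) x x ≤ B ∧ (K ^ 2) y y ≤ B then 0 else K x y ^ 2 with hC
  have e0 : Ksq K = A + C := by
    funext x y
    rw [Matrix.add_apply]
    simp only [Ksq, hA, hC]
    split_ifs <;> ring
  have hR0 : 0 ≤ ∑ z, (K ^ 2) z z ^ 2 := Finset.sum_nonneg fun z _ => sq_nonneg _
  rw [e0]
  refine TiltK.OpB_add (TiltK.opB_of_rows hB.le ?_ ?_) (opB_of_fro (Real.sqrt_nonneg _) ?_)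
  · intro x y
    simp only [hA]
    rw [hK.apply y x]
    simp only [and_comm]
  · intro x
    by_cases hx : (K ^ 2) x x ≤ B
    · refine le_trans ?_ hx
      rw [sq_diag_eq hK]
      refine Finset.sum_le_sum fun y _ => ?_
      simp only [hA]
      split_ifs
      · rw [abs_of_nonneg (sq_nonneg _)]
      · simp; positivity
    · have : ∀ y, A x y = 0 := fun y => by simp only [hA]; rw [if_neg (fun h => hx h.1)]
      simp only [this, abs_zero, Finset.sum_const_zero]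
      exact hB.le
  · rw [Real.sq_sqrt (by positivity)]
    have hbig : ∀ x, (if (K ^ 2) x x ≤ B then 0 else kk K x) ≤ S2 / B * (K ^ 2) x x ^ 2 := by
      intro x
      split_ifs with hx
      · positivity
      · push Not at hx
        have hp := p_nonneg hK x
        have h1 : kk K x ≤ S2 * (K ^ 2) x x := by
          rw [← sum_row_sq hK x, Finset.mul_sum]
          unfold kk
          refine Finset.sum_le_sum fun z _ => ?_
          calc K z x ^ 4 = K z x ^ 2 * K z x ^ 2 := by ring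
            _ ≤ _ := mul_le_mul_of_nonneg_right (hS2 z x) (sq_nonneg _)
        refine h1.trans ?_
        rw [div_mul_eq_mul_div, le_div_iff₀ hB]
        have := mul_le_mul_of_nonneg_left hx.le (mul_nonneg hS0 hp)
        nlinarith
    have h1 : ∑ x, ∑ y, C x y ^ 2 ≤ ∑ x, ∑ y, ((if (K ^ 2) x x ≤ B then 0 else K y x ^ 4)
        + (if (K ^ 2) y y ≤ B then 0 else K x y ^ 4)) := by
      refine Finset.sum_le_sum fun x _ => Finset.sum_le_sum fun y _ => ?_
      have h4 : (K x y ^ 2) ^ 2 = K x y ^ 4 := by ring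
      have h5 : K y x ^ 4 = K x y ^ 4 := by rw [hK.apply x y]
      have h6 : 0 ≤ K x y ^ 4 := by positivity
      simp only [hC, h5]
      by_cases hx : (K ^ 2) x x ≤ B <;> by_cases hy : (K ^ 2) y y ≤ B <;>
        simp only [hx, hy, and_self, and_true, and_false, if_true, if_false,
          h4] <;> nlinarith
    have h2 : ∑ x, ∑ y, ((if (K ^ 2) x x ≤ B then 0 else K y x ^ 4)
        + (if (K ^ 2) y y ≤ B then 0 else K x y ^ 4))
        = 2 * ∑ x, (if (K ^ 2) x x ≤ B then 0 else kk K x) := by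
      simp only [Finset.sum_add_distrib]
      have e1 : ∑ x, ∑ y, (if (K ^ 2) x x ≤ B then 0 else K y x ^ 4)
          = ∑ x, (if (K ^ 2) x x ≤ B then 0 else kk K x) := by
        refine Finset.sum_congr rfl fun x _ => ?_
        by_cases hx : (K ^ 2) x x ≤ B
        · simp [hx]
        · simp only [hx, if_false]; rfl
      have e2 : ∑ x, ∑ y, (if (K ^ 2) y y ≤ B then 0 else K x y ^ 4)
          = ∑ x, (if (K ^ 2) x x ≤ B then 0 else kk K x) := by
        rw [Finset.sum_comm]; exact e1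
      rw [e1, e2]; ring
    have h3 : ∑ x, (if (K ^ 2) x x ≤ B then 0 else kk K x)
        ≤ S2 / B * ∑ z, (K ^ 2) z z ^ 2 := by
      rw [Finset.mul_sum]
      exact Finset.sum_le_sum fun x _ => hbig x
    calc _ ≤ _ := h1
      _ = _ := h2
      _ ≤ 2 * (S2 / B * ∑ z, (K ^ 2) z z ^ 2) := by linarith
      _ = _ := by ring

/-- crude operator bound for the entrywise square -/
theorem opB_Ksq' (hK : K.IsSymm) {B : ℝ} (hB : 0 ≤ B) (h : ∀ z, (K ^ 2) z z ≤ B) :
    OpB (Ksq K) B := by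
  refine TiltK.opB_of_rows hB (fun x y => by simp only [Ksq]; rw [hK.apply y x]) fun x => ?_
  refine le_trans ?_ (h x)
  rw [sq_diag_eq hK]
  exact Finset.sum_le_sum fun y _ => by simp only [Ksq]; rw [abs_of_nonneg (sq_nonneg _)]

end cons

end Crest.Agent.R62.KapB
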