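import Crest.Agent.R62.Expo
import Crest.Agent.R62.StepDefs

/-!
R62: numerical context for the pieces (helper704): `ρ = m^x`, `n`, `d`, `r1`, `x0` as powers of `m`.
-/

set_option autoImplicit false
set_option linter.unusedVariables false
set_option linter.unusedSectionVars false

open Matrix Finset

namespace Crest.Agent.R62.Nums

open Crest.Agent.R62.Expo Crest.Agent.R62.Step

/-- everything numerical that `expo` needs about the parameters -/
structure Par (d n m : ℕ) : Prop where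
  m1 : (1 : ℝ) ≤ m
  m0 : (0 : ℝ) < m
  mbig : (5 : ℝ) * 10 ^ 14 ≤ m
  /-- `d ≤ m^(1/10)`, more precisely `10 d ≤ m^(1/10)` -/
  d10 : 10 * (d : ℝ) ≤ E m (1 / 10)
  dO : O m 1 (1 / 10) (d : ℝ)
  d1O : O m 1 (1 / 10) ((d : ℝ) - 1)
  dp1O : O m 1 (1 / 10) ((d : ℝ) + 1)
  d3 : (3 : ℝ) ≤ d
  nO : O m 1 (1000 + 1 / 10) (n : ℝ)
  n_ge : E m 1000 ≤ (n : ℝ)
  ndO : O m 1 (1000 + 1 / 10) ((n : ℝ) * d)
  nd_ge : E m 1000 ≤ (n : ℝ) * d
  r1O : O m 1 (680 + 1 / 10) (r1 d n m)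
  r1_ge : E m 680 ≤ r1 d n m
  r1_pos : 0 < r1 d n m

theorem par {d n m : ℕ} (h : Prm d n m) : Par d n m := by
  have hd3 : (3 : ℝ) ≤ d := by exact_mod_cast h.hd
  have hd0 : (0 : ℝ) < d := by linarith
  have hm := h.hm
  have h10 : (3 : ℝ) ^ 10 ≤ (d : ℝ) ^ 10 := pow_le_pow_left₀ (by norm_num) hd3 10
  have hbig : (5 : ℝ) * 10 ^ 14 ≤ m := by
    refine le_trans ?_ hm
    calc (5 : ℝ) * 10 ^ 14 ≤ 10 ^ 10 * 3 ^ 10 := by norm_num
      _ ≤ _ := by gcongr
  have m1 : (1 : ℝ) ≤ m := by linarith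
  have m0 : (0 : ℝ) < m := by linarith
  have d10 : 10 * (d : ℝ) ≤ E m (1 / 10) := by
    have e1 : (10 * (d : ℝ)) ^ 10 ≤ m := by
      rw [mul_pow]; exact hm
    have e2 : ((10 * (d : ℝ)) ^ 10) ^ ((1 : ℝ) / 10) ≤ (m : ℝ) ^ ((1 : ℝ) / 10) :=
      Real.rpow_le_rpow (by positivity) e1 (by norm_num)
    rwa [← Real.rpow_natCast, ← Real.rpow_mul (by positivity), show ((10 : ℕ) : ℝ) * (1 / 10) = 1
      by norm_num, Real.rpow_one] at e2
  have eE : E (m : ℝ) 1000 = (m : ℝ) ^ 1000 := by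
    have := E_natCast (m : ℝ) 1000
    simpa using this
  have n_ge : E m 1000 ≤ (n : ℝ) := by rw [eE]; exact h.hn1
  have n_le : (n : ℝ) ≤ 2 * E m 1000 := by rw [eE]; exact h.hn2
  have n0 : (0 : ℝ) ≤ n := Nat.cast_nonneg n
  have hE0 := (E_pos m0 1000).le
  have nd_le : (n : ℝ) * d ≤ E m (1000 + 1 / 10) := by
    rw [E_add m0]
    calc (n : ℝ) * d ≤ (2 * E m 1000) * d := mul_le_mul_of_nonneg_right n_le hd0.le
      _ = E m 1000 * (2 * d) := by ring
      _ ≤ E m 1000 * E m (1 / 10) := mul_le_mul_of_nonneg_left (by linarith) hE0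
  have nd_ge : E m 1000 ≤ (n : ℝ) * d := by nlinarith
  have e320 : (m : ℝ) ^ 320 = E m 320 := by
    have := (E_natCast (m : ℝ) 320).symm
    simpa using this
  have hr : r1 d n m = (n : ℝ) * d / E m 320 := by rw [r1, e320]
  have r1_ge : E m 680 ≤ r1 d n m := by
    rw [hr, le_div_iff₀ (E_pos m0 320), E_mul m0, show (680 : ℝ) + 320 = 1000 by norm_num]
    exact nd_ge
  have r1_le : r1 d n m ≤ E m (680 + 1 / 10) := by
    rw [hr, div_le_iff₀ (E_pos m0 320), E_mul m0,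
      show (680 : ℝ) + 1 / 10 + 320 = 1000 + 1 / 10 by norm_num]
    exact nd_le
  have r1_pos : 0 < r1 d n m := lt_of_lt_of_le (E_pos m0 680) r1_ge
  exact
    { m1 := m1, m0 := m0, mbig := hbig, d10 := d10
      dO := O.of_le hd0.le (by linarith)
      d1O := O.of_le (by linarith) (by linarith)
      dp1O := O.of_le (by linarith) (by linarith)
      d3 := hd3
      nO := O.of_le n0 (le_trans (by nlinarith) nd_le)
      n_ge := n_ge
      ndO := O.of_le (by positivity) nd_le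
      nd_ge := nd_ge
      r1O := O.of_le r1_pos.le r1_le
      r1_ge := r1_ge
      r1_pos := r1_pos }

lemma pow_eq (m k : ℕ) : (m : ℝ) ^ k = E (m : ℝ) (k : ℝ) := natPow_eq _ _

/-- the exponent of `ρ` -/
structure Rho (m : ℕ) (lo hi ρ x : ℝ) : Prop where
  eq : ρ = E m x
  pos : 0 < ρ
  lo : lo ≤ x
  hi : x ≤ hi
  O : O m 1 x ρ

section
variable {ι : Type} [Fintype ι] [DecidableEq ι]

theorem rho_of {d n m : ℕ} (P : Par d n m) {lo hi ρ : ℝ} (h1 : E m lo ≤ ρ) (h2 : ρ ≤ E m hi) :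
    Rho m lo hi ρ (ex m ρ) := by
  have hm1 : (1 : ℝ) < m := by have := P.mbig; linarith
  have hρ : 0 < ρ := lt_of_lt_of_le (E_pos P.m0 _) h1
  have e := E_ex hm1 hρ
  exact ⟨e.symm, hρ, le_ex hm1 hρ h1, ex_le hm1 hρ h2, O.of_le hρ.le e.symm.le⟩

theorem rho1 {d n m : ℕ} {F : Finset ι} {K : Bool → Matrix ι ι ℝ} (h : Prm d n m)
    (b : Box1 d n m F K) : Rho m 800 (1000 + 1 / 10) F.card (ex m F.card) := by
  have P := par h
  refine rho_of P ?_ (le_trans b.rho_le ?_)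
  · have := b.rho_ge
    have e : (m : ℝ) ^ 800 = E m 800 := by
      have := (E_natCast (m : ℝ) 800).symm
      simpa using this
    rw [← e]; linarith
  · have := P.ndO.le; linarith

/-- `1 / x0` is at most `m^(1/4)`. -/
theorem x0_ge {d n m : ℕ} {x0 : ℝ} {F : Finset ι} {K : Bool → Matrix ι ι ℝ} (P : Par d n m)
    (b : Box2 d n m x0 F K) : E m (-(1 / 4)) ≤ x0 := by
  have h := b.x0_m
  have hx := b.x0_pos
  have h1 : (1 : ℝ) ≤ m * x0 ^ 4 := le_trans (by norm_num) h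
  by_contra hc
  push Not at hc
  have h4 : x0 ^ 4 < (E m (-(1 / 4))) ^ 4 := pow_lt_pow_left₀ hc hx.le (by norm_num)
  rw [E_pow P.m0] at h4
  have : E (m : ℝ) (-(1 / 4) * ((4 : ℕ) : ℝ)) = (m : ℝ)⁻¹ := by
    rw [show -(1 / 4 : ℝ) * ((4 : ℕ) : ℝ) = -1 by norm_num, E_neg P.m0, E_one]
  rw [this] at h4
  have h5 : (m : ℝ) * x0 ^ 4 < m * (m : ℝ)⁻¹ := mul_lt_mul_of_pos_left h4 P.m0
  rw [mul_inv_cancel₀ P.m0.ne'] at h5
  linarith

theorem rho2 {d n m : ℕ} {x0 : ℝ} {F : Finset ι} {K : Bool → Matrix ι ι ℝ} (h : Prm d n m)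
    (b : Box2 d n m x0 F K) : Rho m (680 - 1 / 4) (800 + 1 / 10) F.card (ex m F.card) := by
  have P := par h
  refine rho_of P ?_ (le_trans b.rho_le ?_)
  · have h1 := b.rho_ge
    have h2 := x0_ge P b
    have h3 : E m (-(1 / 4)) * E m 680 ≤ x0 * r1 d n m :=
      mul_le_mul h2 P.r1_ge (E_pos P.m0 _).le b.x0_pos.le
    rw [E_mul P.m0] at h3
    have : E m (680 - 1 / 4) = E m (-(1 / 4) + 680) := by congr 1; ring
    rw [this]; linarith
  · have e : (m : ℝ) ^ 800 = E m 800 := by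
      have := (E_natCast (m : ℝ) 800).symm
      simpa using this
    rw [e]
    have h1 : (1 : ℝ) ≤ E m 800 := one_le_E P.m1 (by norm_num)
    have h2 : E m (800 + 1 / 10) = E m 800 * E m (1 / 10) := E_add P.m0 _ _
    have h3 : (2 : ℝ) ≤ E m (1 / 10) := by have := P.d10; have := P.d3; linarith
    rw [h2]; nlinarith [(E_pos P.m0 800).le]


/-- `∑ Q_xx²` -/
def Rf (K : Matrix ι ι ℝ) : ℝ := ∑ x, ((K ^ 2) x x) ^ 2

/-- `∑ Q_xx² = W + 2 X₂ - ρ`. -/
theorem Rf_eq {K : Matrix ι ι ℝ} {F : Finset ι} (hK : K.IsSymm) (hd : ∀ i j, i ∉ F → K i j = 0) :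
    Rf K = AvX1.Wf F K + 2 * (K ^ 2).trace - F.card := by
  have h0 : ∀ i, i ∉ F → (K ^ 2) i i = 0 := fun i hi => by
    rw [pow_two, Matrix.mul_apply]
    exact Finset.sum_eq_zero fun j _ => by rw [hd i j hi, zero_mul]
  have e1 : Rf K = ∑ i ∈ F, ((K ^ 2) i i) ^ 2 := by
    unfold Rf
    symm
    apply Finset.sum_subset (Finset.subset_univ F)
    intro i _ hi
    rw [h0 i hi]; norm_num
  have e2 : (K ^ 2).trace = ∑ i ∈ F, (K ^ 2) i i := by
    unfold Matrix.trace Matrix.diag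
    symm
    apply Finset.sum_subset (Finset.subset_univ F)
    intro i _ hi
    exact h0 i hi
  have e3 : (F.card : ℝ) = ∑ i ∈ F, (1 : ℝ) := by simp
  rw [e1, e2, e3, AvX1.Wf, Finset.mul_sum, ← Finset.sum_add_distrib, ← Finset.sum_sub_distrib]
  exact Finset.sum_congr rfl fun i _ => by ring


theorem X2_le1 {d n m : ℕ} {F : Finset ι} {K : Bool → Matrix ι ι ℝ} (P : Par d n m)
    (b : Box1 d n m F K) (s : Bool) : (K s ^ 2).trace ≤ F.card := by
  have := b.X2u s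
  have := P.r1_pos
  linarith

theorem Rf_le1 {d n m : ℕ} {γ : ℝ} {F : Finset ι} {K : Bool → Matrix ι ι ℝ}
    {S : Finset (ι × ι)} (h : Prm d n m) (c : Ctx d m γ F K S) (b : Box1 d n m F K) (s : Bool) :
    Rf (K s) ≤ 2 * F.card := by
  have P := par h
  rw [Rf_eq (c.symm s) (c.dead s)]
  have h1 := X2_le1 P b s
  have h2 := b.Wu s
  have h3 := b.rho_ge
  have h4 : (m : ℝ) ^ 610 ≤ (m : ℝ) ^ 800 := pow_le_pow_right₀ P.m1 (by norm_num)
  linarith

/-- number of bad pairs -/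
theorem bad_le {d n m : ℕ} {γ : ℝ} {F : Finset ι} {K : Bool → Matrix ι ι ℝ}
    {S : Finset (ι × ι)} (P : Par d n m) (c : Ctx d m γ F K S) {x : ℝ}
    (hx : (F.card : ℝ) = E m x) :
    (((F ×ˢ F) \ S).card : ℝ) ≤ E m (x + 1 / 5) := by
  have hb := c.bad
  have hd3 := P.d3
  have hE : E (m : ℝ) (1 / 5) = E m (1 / 10) ^ 2 := by
    rw [E_pow P.m0]; congr 1; norm_num
  have h6 : (10 * (d : ℝ)) ^ 2 ≤ E m (1 / 10) ^ 2 := pow_le_pow_left₀ (by linarith) P.d10 2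
  rw [E_add P.m0, ← hx, hE]
  calc (((F ×ˢ F) \ S).card : ℝ) ≤ (10 * (d : ℝ)) ^ 2 * F.card := by linarith
    _ ≤ E m (1 / 10) ^ 2 * F.card := mul_le_mul_of_nonneg_right h6 (Nat.cast_nonneg _)
    _ = _ := by ring

/-- number of bad pairs in stage 1 -/
theorem bad1 {d n m : ℕ} {γ : ℝ} {F : Finset ι} {K : Bool → Matrix ι ι ℝ}
    {S : Finset (ι × ι)} (h : Prm d n m) (c : Ctx d m γ F K S) (b : Box1 d n m F K) :
    (((F ×ˢ F) \ S).card : ℝ) ≤ E m (ex m F.card + 1 / 5) :=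
  bad_le (par h) c (rho1 h b).eq

theorem X2_le2 {d n m : ℕ} {x0 : ℝ} {F : Finset ι} {K : Bool → Matrix ι ι ℝ} (h : Prm d n m)
    (b : Box2 d n m x0 F K) (s : Bool) : (K s ^ 2).trace ≤ 2 * F.card := by
  have P := par h
  have R := rho2 h b
  have h1 := b.X2u s
  have h2 : phi2 (r1 d n m) F.card ≤ F.card := by
    unfold phi2
    rw [div_le_iff₀ (by have := P.r1_pos; have := R.pos; linarith)]
    nlinarith [R.pos, P.r1_pos]
  have h3 : (m : ℝ) ^ 670 ≤ F.card := by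
    have e : (m : ℝ) ^ 670 = E m 670 := by
      have := (E_natCast (m : ℝ) 670).symm
      simpa using this
    rw [e, R.eq]
    exact E_mono P.m1 (by have := R.lo; linarith)
  linarith

/-- number of bad pairs in stage 2 -/
theorem bad2 {d n m : ℕ} {γ x0 : ℝ} {F : Finset ι} {K : Bool → Matrix ι ι ℝ}
    {S : Finset (ι × ι)} (h : Prm d n m) (c : Ctx d m γ F K S) (b : Box2 d n m x0 F K) :
    (((F ×ˢ F) \ S).card : ℝ) ≤ E m (ex m F.card + 1 / 5) :=
  bad_le (par h) c (rho2 h b).eq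

/-- operator norm from the `X₄` barrier, stage 1 -/
theorem opB1 {d n m : ℕ} {γ : ℝ} {F : Finset ι} {K : Bool → Matrix ι ι ℝ}
    {S : Finset (ι × ι)} (h : Prm d n m) (c : Ctx d m γ F K S) (b : Box1 d n m F K) (s : Bool) :
    (K s ^ 4).trace ≤ E m (2003 - ex m F.card)
      ∧ AvBase.OpB (K s) (E m ((2003 - ex m F.card) / 4)) := by
  have P := par h
  have R := rho1 h b
  have e1 : (m : ℝ) ^ 2003 = E m 2003 := by
    have := (E_natCast (m : ℝ) 2003).symm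
    simpa using this
  have h4 : (K s ^ 4).trace ≤ E m (2003 - ex m F.card) := by
    rw [E_sub P.m0, ← R.eq, le_div_iff₀ R.pos, ← e1]; exact b.X4u s
  refine ⟨h4, AvBase.opB_of_trace_four (c.symm s) (E_pos P.m0 _).le ?_⟩
  rw [E_pow P.m0]
  convert h4 using 2
  push_cast; ring

/-- operator norm from the `X₄` barrier, stage 2 -/
theorem opB2 {d n m : ℕ} {γ x0 : ℝ} {F : Finset ι} {K : Bool → Matrix ι ι ℝ}
    {S : Finset (ι × ι)} (h : Prm d n m) (c : Ctx d m γ F K S) (b : Box2 d n m x0 F K) (s : Bool) :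
    (K s ^ 4).trace ≤ E m (2004 - ex m F.card)
      ∧ AvBase.OpB (K s) (E m ((2004 - ex m F.card) / 4)) := by
  have P := par h
  have R := rho2 h b
  have e1 : (m : ℝ) ^ 2004 = E m 2004 := by
    have := (E_natCast (m : ℝ) 2004).symm
    simpa using this
  have h4 : (K s ^ 4).trace ≤ E m (2004 - ex m F.card) := by
    rw [E_sub P.m0, ← R.eq, le_div_iff₀ R.pos, ← e1]; exact b.X4u s
  refine ⟨h4, AvBase.opB_of_trace_four (c.symm s) (E_pos P.m0 _).le ?_⟩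
  rw [E_pow P.m0]
  convert h4 using 2
  push_cast; ring

end

end Crest.Agent.R62.Nums
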