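import Crest.Agent.R62.AvBase
import Crest.Agent.R62.TiltK

-- ▼ part R62/Tilt
section

/-!
R62 (helper110): the truncated tilt matrix `f(K) = K^2 (1 + K^2/ν^2)^{-1}`.

`K` symmetric real matrix on a finite index type; `f(K)` is defined through an orthonormal
eigensystem.  Facts: `0 ≤ f(K) ≤ K^2`, `f(K) ≤ ν^2`, entry bounds, gain and cross bounds for the
restriction to a set `G` of stubs.
-/

set_option autoImplicit false
set_option linter.unusedSectionVars false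
set_option linter.unusedVariables false

open scoped Matrix BigOperators

namespace Crest.Agent.R62.Tilt

open Crest.Agent.R62.AvBase

variable {ι : Type*} [Fintype ι] [DecidableEq ι]

/-- orthonormal eigensystem of a real symmetric matrix -/
structure Eig (K : Matrix ι ι ℝ) where
  /-- eigenvalues -/
  lam : ι → ℝ
  /-- eigenvectors `e i` -/
  e : ι → ι → ℝ
  orth : ∀ i j, ∑ x, e i x * e j x = if i = j then 1 else 0
  compl : ∀ x y, ∑ i, e i x * e i y = if x = y then 1 else 0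
  dec : ∀ x y, K x y = ∑ i, lam i * (e i x * e i y)

theorem exists_eig {K : Matrix ι ι ℝ} (hs : Kᵀ = K) : Nonempty (Eig K) := by
  have hK : K.IsHermitian := by
    rw [Matrix.IsHermitian, Matrix.conjTranspose_eq_transpose_of_trivial]; exact hs
  let U : Matrix ι ι ℝ := (hK.eigenvectorUnitary : Matrix ι ι ℝ)
  have hU1 : U * star U = 1 := Unitary.coe_mul_star_self hK.eigenvectorUnitary
  have hU2 : star U * U = 1 := Unitary.coe_star_mul_self hK.eigenvectorUnitary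
  have hst : ∀ i j, (star U) i j = U j i := fun i j => by
    rw [Matrix.star_apply]; simp
  refine ⟨⟨hK.eigenvalues, fun i x => U x i, ?_, ?_, ?_⟩⟩
  · intro i j
    have := congrFun (congrFun hU2 i) j
    rw [Matrix.mul_apply, Matrix.one_apply] at this
    rw [← this]
    exact Finset.sum_congr rfl fun x _ => by rw [hst]
  · intro x y
    have := congrFun (congrFun hU1 x) y
    rw [Matrix.mul_apply, Matrix.one_apply] at this
    rw [← this]
    exact Finset.sum_congr rfl fun i _ => by rw [hst]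
  · intro x y
    have h := hK.spectral_theorem
    have h2 : K = U * Matrix.diagonal hK.eigenvalues * star U := by
      conv_lhs => rw [h]
      simp [Unitary.conjStarAlgAut_apply, U]
    conv_lhs => rw [h2]
    rw [Matrix.mul_apply]
    refine Finset.sum_congr rfl fun i _ => ?_
    rw [Matrix.mul_diagonal, hst]
    ring


/-- an eigensystem of a symmetric matrix -/
noncomputable def eigOf {K : Matrix ι ι ℝ} (hs : Kᵀ = K) : Eig K := (exists_eig hs).some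

namespace Eig

variable {K : Matrix ι ι ℝ} (E : Eig K)

/-- functional calculus -/
def fc (g : ℝ → ℝ) : Matrix ι ι ℝ := fun x y => ∑ i, g (E.lam i) * (E.e i x * E.e i y)

/-- coefficient of a vector -/
def co (v : ι → ℝ) (i : ι) : ℝ := ∑ x, E.e i x * v x

lemma fc_apply (g : ℝ → ℝ) (x y : ι) :
    E.fc g x y = ∑ i, g (E.lam i) * (E.e i x * E.e i y) := rfl

lemma fc_comm (g : ℝ → ℝ) (x y : ι) : E.fc g x y = E.fc g y x := by
  simp only [fc_apply]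
  exact Finset.sum_congr rfl fun i _ => by ring


lemma fc_mul (g h : ℝ → ℝ) : E.fc g * E.fc h = E.fc (fun t => g t * h t) := by
  ext x y
  rw [Matrix.mul_apply]
  simp only [fc_apply, Finset.sum_mul_sum]
  rw [Finset.sum_comm]
  have h1 : ∀ i j, ∑ z, g (E.lam i) * (E.e i x * E.e i z) * (h (E.lam j) * (E.e j z * E.e j y))
      = if i = j then g (E.lam i) * h (E.lam i) * (E.e i x * E.e i y) else 0 := by
    intro i j
    have : ∀ z, g (E.lam i) * (E.e i x * E.e i z) * (h (E.lam j) * (E.e j z * E.e j y))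
        = (g (E.lam i) * h (E.lam j) * (E.e i x * E.e j y)) * (E.e i z * E.e j z) := by
      intro z; ring
    simp_rw [this]
    rw [← Finset.mul_sum, E.orth i j]
    by_cases hij : i = j
    · subst hij; simp
    · simp [hij]
  calc _ = ∑ i, ∑ z, ∑ j, g (E.lam i) * (E.e i x * E.e i z)
        * (h (E.lam j) * (E.e j z * E.e j y)) := by
          refine Finset.sum_congr rfl fun i _ => Finset.sum_congr rfl fun z _ => ?_
          rfl
    _ = ∑ i, ∑ j, ∑ z, g (E.lam i) * (E.e i x * E.e i z)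
        * (h (E.lam j) * (E.e j z * E.e j y)) := by
          refine Finset.sum_congr rfl fun i _ => ?_
          rw [Finset.sum_comm]
    _ = _ := by
          simp_rw [h1]
          simp

lemma fc_one : E.fc (fun _ => 1) = 1 := by
  ext x y
  rw [fc_apply, Matrix.one_apply, ← E.compl x y]
  simp

lemma fc_id : E.fc (fun t => t) = K := by
  ext x y
  rw [fc_apply, E.dec x y]

lemma fc_pow (j : ℕ) : K ^ j = E.fc (fun t => t ^ j) := by
  induction j with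
  | zero => simp [E.fc_one]
  | succ j ih =>
      rw [pow_succ, ih]
      have := E.fc_mul (fun t => t ^ j) (fun t => t)
      rw [E.fc_id] at this
      rw [this]
      rfl

lemma fc_mul_pow (g : ℝ → ℝ) (j : ℕ) : E.fc g * K ^ j = E.fc (fun t => g t * t ^ j) := by
  rw [E.fc_pow j, E.fc_mul]

lemma trace_fc (g : ℝ → ℝ) : (E.fc g).trace = ∑ i, g (E.lam i) := by
  simp only [Matrix.trace, Matrix.diag_apply, fc_apply]
  rw [Finset.sum_comm]
  refine Finset.sum_congr rfl fun i _ => ?_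
  rw [← Finset.mul_sum, E.orth i i]
  simp

lemma trace_pow_eq (j : ℕ) : (K ^ j).trace = ∑ i, E.lam i ^ j := by
  rw [E.fc_pow j, E.trace_fc]

lemma form_fc (g : ℝ → ℝ) (v w : ι → ℝ) :
    v ⬝ᵥ (E.fc g *ᵥ w) = ∑ i, g (E.lam i) * (E.co v i * E.co w i) := by
  simp only [dotProduct, Matrix.mulVec, fc_apply, co]
  have h1 : ∀ x, v x * ∑ y, (∑ i, g (E.lam i) * (E.e i x * E.e i y)) * w y
      = ∑ i, ∑ y, g (E.lam i) * ((E.e i x * v x) * (E.e i y * w y)) := by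
    intro x
    rw [Finset.sum_comm, Finset.mul_sum]
    refine Finset.sum_congr rfl fun y _ => ?_
    rw [Finset.sum_mul, Finset.mul_sum]
    exact Finset.sum_congr rfl fun i _ => by ring
  simp_rw [h1]
  rw [Finset.sum_comm]
  refine Finset.sum_congr rfl fun i _ => ?_
  rw [Finset.sum_mul_sum, Finset.mul_sum]
  refine Finset.sum_congr rfl fun x _ => ?_
  rw [Finset.mul_sum]

lemma form_fc_self (g : ℝ → ℝ) (v : ι → ℝ) :
    v ⬝ᵥ (E.fc g *ᵥ v) = ∑ i, g (E.lam i) * (E.co v i) ^ 2 := by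
  rw [E.form_fc]
  exact Finset.sum_congr rfl fun i _ => by ring

lemma dot_self (v : ι → ℝ) : v ⬝ᵥ v = ∑ i, (E.co v i) ^ 2 := by
  have h := E.form_fc_self (fun _ => 1) v
  rw [E.fc_one, Matrix.one_mulVec] at h
  rw [h]
  simp


lemma form_fc_nonneg {g : ℝ → ℝ} (hg : ∀ i, 0 ≤ g (E.lam i)) (v : ι → ℝ) :
    0 ≤ v ⬝ᵥ (E.fc g *ᵥ v) := by
  rw [E.form_fc_self]
  exact Finset.sum_nonneg fun i _ => mul_nonneg (hg i) (sq_nonneg _)

lemma trace_fc_mono {g h : ℝ → ℝ} (hgh : ∀ i, g (E.lam i) ≤ h (E.lam i)) :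
    (E.fc g).trace ≤ (E.fc h).trace := by
  rw [E.trace_fc, E.trace_fc]
  exact Finset.sum_le_sum fun i _ => hgh i

/-- `⟨A, g(K)⟩ = ∑ g(λ_i) e_i·A e_i` -/
lemma ip_fc (A : Matrix ι ι ℝ) (g : ℝ → ℝ) :
    ∑ x, ∑ y, A x y * E.fc g x y = ∑ i, g (E.lam i) * (E.e i ⬝ᵥ (A *ᵥ E.e i)) := by
  simp only [fc_apply, dotProduct, Matrix.mulVec, Finset.mul_sum]
  rw [show (∑ x, ∑ y, ∑ i, A x y * (g (E.lam i) * (E.e i x * E.e i y)))
      = ∑ x, ∑ i, ∑ y, A x y * (g (E.lam i) * (E.e i x * E.e i y)) from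
    Finset.sum_congr rfl fun x _ => Finset.sum_comm]
  rw [Finset.sum_comm]
  refine Finset.sum_congr rfl fun i _ => Finset.sum_congr rfl fun x _ =>
    Finset.sum_congr rfl fun y _ => by ring

/-- product of two positive semidefinite matrices has nonnegative trace -/
lemma ip_fc_nonneg {A : Matrix ι ι ℝ} (hA : ∀ v, 0 ≤ v ⬝ᵥ (A *ᵥ v)) {g : ℝ → ℝ}
    (hg : ∀ i, 0 ≤ g (E.lam i)) : 0 ≤ ∑ x, ∑ y, A x y * E.fc g x y := by
  rw [E.ip_fc]
  exact Finset.sum_nonneg fun i _ => mul_nonneg (hg i) (hA _)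

lemma ip_fc_mono {A : Matrix ι ι ℝ} (hA : ∀ v, 0 ≤ v ⬝ᵥ (A *ᵥ v)) {g h : ℝ → ℝ}
    (hgh : ∀ i, g (E.lam i) ≤ h (E.lam i)) :
    ∑ x, ∑ y, A x y * E.fc g x y ≤ ∑ x, ∑ y, A x y * E.fc h x y := by
  rw [E.ip_fc, E.ip_fc]
  exact Finset.sum_le_sum fun i _ => mul_le_mul_of_nonneg_right (hgh i) (hA _)

/-- Cauchy–Schwarz for a nonnegative function of `K` -/
lemma form_fc_sq_le {g : ℝ → ℝ} (hg : ∀ i, 0 ≤ g (E.lam i)) (v w : ι → ℝ) :
    (v ⬝ᵥ (E.fc g *ᵥ w)) ^ 2 ≤ (v ⬝ᵥ (E.fc g *ᵥ v)) * (w ⬝ᵥ (E.fc g *ᵥ w)) := by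
  rw [E.form_fc, E.form_fc_self, E.form_fc_self]
  have h := Finset.sum_mul_sq_le_sq_mul_sq Finset.univ
    (fun i => Real.sqrt (g (E.lam i)) * E.co v i) (fun i => Real.sqrt (g (E.lam i)) * E.co w i)
  have h1 : ∀ i, Real.sqrt (g (E.lam i)) * E.co v i * (Real.sqrt (g (E.lam i)) * E.co w i)
      = g (E.lam i) * (E.co v i * E.co w i) := by
    intro i
    have := Real.mul_self_sqrt (hg i)
    calc _ = (Real.sqrt (g (E.lam i)) * Real.sqrt (g (E.lam i))) * (E.co v i * E.co w i) := by ring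
      _ = _ := by rw [this]
  have h2 : ∀ (v : ι → ℝ) i, (Real.sqrt (g (E.lam i)) * E.co v i) ^ 2
      = g (E.lam i) * (E.co v i) ^ 2 := by
    intro v i
    rw [mul_pow, Real.sq_sqrt (hg i)]
  simp_rw [h1, h2] at h
  exact h

lemma fc_sq_le {g : ℝ → ℝ} (hg : ∀ i, 0 ≤ g (E.lam i)) (x y : ι) :
    (E.fc g x y) ^ 2 ≤ E.fc g x x * E.fc g y y := by
  simp only [fc_apply]
  have h := Finset.sum_mul_sq_le_sq_mul_sq Finset.univ
    (fun i => Real.sqrt (g (E.lam i)) * E.e i x) (fun i => Real.sqrt (g (E.lam i)) * E.e i y)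
  have h1 : ∀ i, Real.sqrt (g (E.lam i)) * E.e i x * (Real.sqrt (g (E.lam i)) * E.e i y)
      = g (E.lam i) * (E.e i x * E.e i y) := by
    intro i
    have := Real.mul_self_sqrt (hg i)
    calc _ = (Real.sqrt (g (E.lam i)) * Real.sqrt (g (E.lam i))) * (E.e i x * E.e i y) := by ring
      _ = _ := by rw [this]
  have h2 : ∀ (x : ι) i, (Real.sqrt (g (E.lam i)) * E.e i x) ^ 2
      = g (E.lam i) * (E.e i x * E.e i x) := by
    intro x i
    rw [mul_pow, Real.sq_sqrt (hg i)]; ring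
  simp_rw [h1, h2] at h
  exact h

lemma fc_diag_mono {g h : ℝ → ℝ} (hgh : ∀ i, g (E.lam i) ≤ h (E.lam i)) (x : ι) :
    E.fc g x x ≤ E.fc h x x := by
  simp only [fc_apply]
  exact Finset.sum_le_sum fun i _ => mul_le_mul_of_nonneg_right (hgh i) (mul_self_nonneg _)

lemma fc_diag_nonneg {g : ℝ → ℝ} (hg : ∀ i, 0 ≤ g (E.lam i)) (x : ι) : 0 ≤ E.fc g x x := by
  simp only [fc_apply]
  exact Finset.sum_nonneg fun i _ => mul_nonneg (hg i) (mul_self_nonneg _)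

end Eig

/-! ### the cutoff function -/

/-- `λ² / (1 + λ²/ν²)` written as `ν² λ² / (ν² + λ²)` -/
noncomputable def cut (ν : ℝ) (t : ℝ) : ℝ := ν ^ 2 * t ^ 2 / (ν ^ 2 + t ^ 2)

lemma cut_nonneg (ν t : ℝ) : 0 ≤ cut ν t := by unfold cut; positivity

lemma cut_le_sq {ν : ℝ} (hν : 0 < ν) (t : ℝ) : cut ν t ≤ t ^ 2 := by
  unfold cut
  have h : 0 < ν ^ 2 + t ^ 2 := by positivity
  rw [div_le_iff₀ h]
  nlinarith [sq_nonneg t, sq_nonneg (t ^ 2), sq_nonneg (t * t)]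

lemma cut_le {ν : ℝ} (hν : 0 < ν) (t : ℝ) : cut ν t ≤ ν ^ 2 := by
  unfold cut
  have h : 0 < ν ^ 2 + t ^ 2 := by positivity
  rw [div_le_iff₀ h]
  nlinarith [sq_nonneg (ν ^ 2), sq_nonneg ν]

/-- `t³ - f(t) t ≤ t⁴/(2ν)` -/
lemma cut_mul_ge {ν : ℝ} (hν : 0 < ν) (t : ℝ) : t ^ 3 - t ^ 4 / (2 * ν) ≤ cut ν t * t ^ 1 := by
  have h : 0 < ν ^ 2 + t ^ 2 := by positivity
  have h1 : t ^ 3 - cut ν t * t ^ 1 = t ^ 5 / (ν ^ 2 + t ^ 2) := by
    unfold cut; field_simp; ring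
  have h2 : t ^ 5 / (ν ^ 2 + t ^ 2) ≤ t ^ 4 / (2 * ν) := by
    rw [div_le_div_iff₀ h (by positivity)]
    have h3 : t ^ 5 * (2 * ν) = t ^ 4 * (2 * ν * t) := by ring
    rw [h3]
    exact mul_le_mul_of_nonneg_left (by nlinarith [sq_nonneg (ν - t)]) (by positivity)
  linarith

section Main

variable {K : Matrix ι ι ℝ}

/-- the truncated square `f(K) = K² (1 + K²/ν²)⁻¹` -/
noncomputable def f (E : Eig K) (ν : ℝ) : Matrix ι ι ℝ := E.fc (cut ν)

variable (E : Eig K) {ν : ℝ}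

lemma f_symm (x y : ι) : f E ν x y = f E ν y x := E.fc_comm _ x y

lemma sq_eq_fc : K ^ 2 = E.fc (fun t => t ^ 2) := E.fc_pow 2

lemma f_diag_nonneg (x : ι) : 0 ≤ f E ν x x := E.fc_diag_nonneg (fun _ => cut_nonneg _ _) x

lemma f_diag_le (hν : 0 < ν) (x : ι) : f E ν x x ≤ (K ^ 2) x x := by
  rw [sq_eq_fc E]
  exact E.fc_diag_mono (fun i => cut_le_sq hν _) x

/-- `f_xy² ≤ (K²)_xx (K²)_yy` -/
lemma f_sq_le (hν : 0 < ν) (x y : ι) : (f E ν x y) ^ 2 ≤ (K ^ 2) x x * (K ^ 2) y y :=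
  (E.fc_sq_le (fun _ => cut_nonneg _ _) x y).trans
    (mul_le_mul (f_diag_le E hν x) (f_diag_le E hν y) (f_diag_nonneg E y)
      ((f_diag_nonneg E x).trans (f_diag_le E hν x)))

lemma abs_f_le (hν : 0 < ν) {B : ℝ} {x y : ι} (hx : (K ^ 2) x x ≤ B) (hy : (K ^ 2) y y ≤ B) :
    |f E ν x y| ≤ B := by
  have h1 := f_sq_le E hν x y
  have h0 : 0 ≤ (K ^ 2) x x := (f_diag_nonneg E x).trans (f_diag_le E hν x)
  have h0' : 0 ≤ (K ^ 2) y y := (f_diag_nonneg E y).trans (f_diag_le E hν y)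
  have hB : 0 ≤ B := h0.trans hx
  refine abs_le_of_sq_le_sq (h1.trans ?_) hB
  calc (K ^ 2) x x * (K ^ 2) y y ≤ B * B := mul_le_mul hx hy h0' hB
    _ = B ^ 2 := by ring

/-- Frobenius norm of `f(K)` is at most that of `K²` -/
lemma f_frob_le (hs : Kᵀ = K) (hν : 0 < ν) : ∑ x, ∑ y, (f E ν x y) ^ 2 ≤ (K ^ 4).trace := by
  have h1 : ∑ x, ∑ y, (f E ν x y) ^ 2 = (E.fc (fun t => cut ν t * cut ν t)).trace := by
    rw [← E.fc_mul]
    simp only [Matrix.trace, Matrix.diag_apply, Matrix.mul_apply]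
    refine Finset.sum_congr rfl fun x _ => Finset.sum_congr rfl fun y _ => ?_
    rw [E.fc_comm _ y x]; simp only [f]; ring
  rw [h1, E.fc_pow 4]
  refine E.trace_fc_mono fun i => ?_
  have h2 := cut_le_sq hν (E.lam i)
  have h3 := cut_nonneg ν (E.lam i)
  nlinarith [sq_nonneg (E.lam i)]

/-- `Tr f(K) K ≥ X_3 - X_4/(2ν)` -/
lemma ip_f_K_ge (hν : 0 < ν) :
    (K ^ 3).trace - (K ^ 4).trace / (2 * ν) ≤ ∑ x, ∑ y, f E ν x y * K x y := by
  have h1 : ∑ x, ∑ y, f E ν x y * K x y = (E.fc (fun t => cut ν t * t ^ 1)).trace := by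
    rw [← E.fc_mul_pow, pow_one]
    simp only [Matrix.trace, Matrix.diag_apply, Matrix.mul_apply]
    refine Finset.sum_congr rfl fun x _ => Finset.sum_congr rfl fun y _ => ?_
    have : K x y = K y x := by
      rw [E.dec x y, E.dec y x]; exact Finset.sum_congr rfl fun i _ => by ring
    rw [this]; rfl
  rw [h1, E.trace_pow_eq, E.trace_pow_eq, E.trace_fc, Finset.sum_div, ← Finset.sum_sub_distrib]
  exact Finset.sum_le_sum fun i _ => cut_mul_ge hν _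

end Main

/-! ### restriction to a set of stubs -/

/-- restriction of a matrix to rows and columns in `G` -/
def res (G : Finset ι) (A : Matrix ι ι ℝ) : Matrix ι ι ℝ := fun x y =>
  if x ∈ G ∧ y ∈ G then A x y else 0

/-- restriction of a vector to `G` -/
def rv (G : Finset ι) (v : ι → ℝ) : ι → ℝ := fun x => if x ∈ G then v x else 0

lemma rv_dot_le (G : Finset ι) (v : ι → ℝ) : rv G v ⬝ᵥ rv G v ≤ v ⬝ᵥ v := by
  simp only [dotProduct, rv]
  refine Finset.sum_le_sum fun x _ => ?_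
  split_ifs
  · exact le_refl _
  · simpa using mul_self_nonneg (v x)

lemma form_res (G : Finset ι) (A : Matrix ι ι ℝ) (v w : ι → ℝ) :
    v ⬝ᵥ (res G A *ᵥ w) = rv G v ⬝ᵥ (A *ᵥ rv G w) := by
  simp only [dotProduct, Matrix.mulVec, res, rv, Finset.mul_sum]
  refine Finset.sum_congr rfl fun x _ => Finset.sum_congr rfl fun y _ => ?_
  by_cases hx : x ∈ G <;> by_cases hy : y ∈ G <;> simp [hx, hy]

lemma res_symm {G : Finset ι} {A : Matrix ι ι ℝ} (hA : ∀ x y, A x y = A y x) (x y : ι) :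
    res G A x y = res G A y x := by
  simp only [res, hA x y, and_comm]

lemma res_sq_le (G : Finset ι) (A : Matrix ι ι ℝ) (x y : ι) : (res G A x y) ^ 2 ≤ (A x y) ^ 2 := by
  simp only [res]
  split_ifs
  · exact le_refl _
  · simpa using sq_nonneg (A x y)

lemma res_frob_le (G : Finset ι) (A : Matrix ι ι ℝ) :
    ∑ x, ∑ y, (res G A x y) ^ 2 ≤ ∑ x, ∑ y, (A x y) ^ 2 :=
  Finset.sum_le_sum fun x _ => Finset.sum_le_sum fun y _ => res_sq_le G A x y

/-- the truncated tilt matrix `Π f(K) Π` -/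
noncomputable def P {K : Matrix ι ι ℝ} (E : Eig K) (ν : ℝ) (G : Finset ι) : Matrix ι ι ℝ :=
  res G (f E ν)

section PP

variable {K : Matrix ι ι ℝ} (E : Eig K) {ν : ℝ} {G : Finset ι}

lemma P_symm (x y : ι) : P E ν G x y = P E ν G y x := res_symm (fun x y => f_symm E x y) x y

lemma P_psd (v : ι → ℝ) : 0 ≤ v ⬝ᵥ (P E ν G *ᵥ v) := by
  rw [P, form_res]
  exact E.form_fc_nonneg (fun _ => cut_nonneg _ _) _

lemma P_form_le (hν : 0 < ν) (v : ι → ℝ) : v ⬝ᵥ (P E ν G *ᵥ v) ≤ ν ^ 2 * (v ⬝ᵥ v) := by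
  rw [P, form_res]
  have h1 : rv G v ⬝ᵥ (f E ν *ᵥ rv G v) ≤ ν ^ 2 * (rv G v ⬝ᵥ rv G v) := by
    rw [f, E.form_fc_self, E.dot_self, Finset.mul_sum]
    exact Finset.sum_le_sum fun i _ => mul_le_mul_of_nonneg_right (cut_le hν _) (sq_nonneg _)
  exact h1.trans (mul_le_mul_of_nonneg_left (rv_dot_le G v) (sq_nonneg _))

lemma P_form_sq_le (v w : ι → ℝ) :
    (v ⬝ᵥ (P E ν G *ᵥ w)) ^ 2 ≤ (v ⬝ᵥ (P E ν G *ᵥ v)) * (w ⬝ᵥ (P E ν G *ᵥ w)) := by
  rw [P, form_res, form_res, form_res]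
  exact E.form_fc_sq_le (fun _ => cut_nonneg _ _) _ _

/-- operator norm of the truncated tilt matrix -/
lemma P_opB (hν : 0 < ν) : OpB (P E ν G) (ν ^ 2) := by
  refine ⟨sq_nonneg _, fun v => ?_⟩
  set w := P E ν G *ᵥ v with hw
  have h1 := P_form_sq_le E (ν := ν) (G := G) w v
  rw [← hw] at h1
  have h2 := P_form_le E (G := G) hν w
  have h3 := P_form_le E (G := G) hν v
  have h4 := P_psd E (ν := ν) (G := G) v
  rw [← hw] at h3 h4
  have hww := dot_self_nonneg w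
  have hvv := dot_self_nonneg v
  have h5 : (w ⬝ᵥ w) * (w ⬝ᵥ w) ≤ (ν ^ 2 * (w ⬝ᵥ w)) * (ν ^ 2 * (v ⬝ᵥ v)) := by
    calc (w ⬝ᵥ w) * (w ⬝ᵥ w) = (w ⬝ᵥ w) ^ 2 := by ring
      _ ≤ _ := h1
      _ ≤ (ν ^ 2 * (w ⬝ᵥ w)) * (ν ^ 2 * (v ⬝ᵥ v)) :=
        mul_le_mul h2 h3 h4 (mul_nonneg (sq_nonneg _) hww)
  rcases hww.eq_or_lt with h0 | h0
  · rw [← h0]; exact mul_nonneg (sq_nonneg _) hvv
  · have h6 : (w ⬝ᵥ w) * (w ⬝ᵥ w) ≤ (w ⬝ᵥ w) * ((ν ^ 2) ^ 2 * (v ⬝ᵥ v)) := by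
      calc _ ≤ _ := h5
        _ = _ := by ring
    exact le_of_mul_le_mul_left h6 h0

lemma abs_P_le (hν : 0 < ν) {B : ℝ} (hB : 0 ≤ B) (hG : ∀ x ∈ G, (K ^ 2) x x ≤ B) (x y : ι) :
    |P E ν G x y| ≤ B := by
  simp only [P, res]
  split_ifs with h
  · exact abs_f_le E hν (hG x h.1) (hG y h.2)
  · simpa using hB

lemma P_frob_le (hs : Kᵀ = K) (hν : 0 < ν) :
    ∑ x, ∑ y, (P E ν G x y) ^ 2 ≤ (K ^ 4).trace :=
  (res_frob_le G _).trans (f_frob_le E hs hν)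

/-- gain: `⟨Π f Π, K²⟩ ≥ ‖Π f Π‖²` -/
lemma ip_P_sq_ge (hν : 0 < ν) :
    ∑ x, ∑ y, (P E ν G x y) ^ 2 ≤ ∑ x, ∑ y, P E ν G x y * (K ^ 2) x y := by
  have h1 : ∑ x, ∑ y, (P E ν G x y) ^ 2 = ∑ x, ∑ y, P E ν G x y * f E ν x y := by
    refine Finset.sum_congr rfl fun x _ => Finset.sum_congr rfl fun y _ => ?_
    simp only [P, res]
    split_ifs
    · ring
    · simp
  rw [h1, sq_eq_fc E]
  exact E.ip_fc_mono (P_psd E) fun i => cut_le_sq hν _

/-- the part of a sum outside `G × G` -/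
lemma outside_le {A M : Matrix ι ι ℝ} (hA : ∀ x y, A x y = A y x) (hM : ∀ x y, M x y = M y x) :
    |∑ x, ∑ y, A x y * M x y - ∑ x, ∑ y, res G A x y * M x y|
      ≤ 2 * (Real.sqrt (∑ x ∈ Gᶜ, ∑ y, (M x y) ^ 2) * Real.sqrt (∑ x, ∑ y, (A x y) ^ 2)) := by
  -- bound by the sum of absolute values over `x ∉ G` or `y ∉ G`
  have hS : ∀ (a b : ι → ι → ℝ), ∑ x ∈ Gᶜ, ∑ y, |a x y| * |b x y|
      ≤ Real.sqrt (∑ x ∈ Gᶜ, ∑ y, (a x y) ^ 2) * Real.sqrt (∑ x, ∑ y, (b x y) ^ 2) := by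
    intro a b
    have ha0 : 0 ≤ ∑ x ∈ Gᶜ, ∑ y, (a x y) ^ 2 :=
      Finset.sum_nonneg fun x _ => Finset.sum_nonneg fun y _ => sq_nonneg _
    have hb0 : 0 ≤ ∑ x, ∑ y, (b x y) ^ 2 :=
      Finset.sum_nonneg fun x _ => Finset.sum_nonneg fun y _ => sq_nonneg _
    have h := Finset.sum_mul_sq_le_sq_mul_sq (Gᶜ ×ˢ (Finset.univ : Finset ι))
      (fun p => |a p.1 p.2|) (fun p => |b p.1 p.2|)
    simp only [Finset.sum_product, sq_abs] at h
    have hb1 : ∑ x ∈ Gᶜ, ∑ y, (b x y) ^ 2 ≤ ∑ x, ∑ y, (b x y) ^ 2 :=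
      Finset.sum_le_sum_of_subset_of_nonneg (Finset.subset_univ _)
        fun x _ _ => Finset.sum_nonneg fun y _ => sq_nonneg _
    rw [← Real.sqrt_mul ha0]
    refine Real.le_sqrt_of_sq_le (h.trans (mul_le_mul_of_nonneg_left hb1 ha0))
  have h1 : ∑ x, ∑ y, A x y * M x y - ∑ x, ∑ y, res G A x y * M x y
      = ∑ x, ∑ y, (if x ∈ G ∧ y ∈ G then 0 else A x y * M x y) := by
    rw [← Finset.sum_sub_distrib]
    refine Finset.sum_congr rfl fun x _ => ?_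
    rw [← Finset.sum_sub_distrib]
    refine Finset.sum_congr rfl fun y _ => ?_
    simp only [res]
    split_ifs <;> simp
  rw [h1]
  have h2 : |∑ x, ∑ y, (if x ∈ G ∧ y ∈ G then 0 else A x y * M x y)|
      ≤ ∑ x, ∑ y, ((if x ∈ Gᶜ then |M x y| * |A x y| else 0)
        + (if y ∈ Gᶜ then |M x y| * |A x y| else 0)) := by
    refine (Finset.abs_sum_le_sum_abs _ _).trans (Finset.sum_le_sum fun x _ => ?_)
    refine (Finset.abs_sum_le_sum_abs _ _).trans (Finset.sum_le_sum fun y _ => ?_)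
    have h0 : 0 ≤ |M x y| * |A x y| := mul_nonneg (abs_nonneg _) (abs_nonneg _)
    by_cases hx : x ∈ G <;> by_cases hy : y ∈ G <;>
      simp only [hx, hy, Finset.mem_compl, not_true_eq_false, not_false_eq_true, and_self,
        and_true, and_false, if_true, if_false, abs_zero, abs_mul] <;>
      nlinarith
  refine h2.trans ?_
  have h3 : ∑ x, ∑ y, (if x ∈ Gᶜ then |M x y| * |A x y| else 0)
      = ∑ x ∈ Gᶜ, ∑ y, |M x y| * |A x y| := by
    rw [← Finset.sum_filter_add_sum_filter_not Finset.univ (fun x => x ∈ Gᶜ)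
      (fun x => ∑ y, (if x ∈ Gᶜ then |M x y| * |A x y| else 0))]
    have e1 : (Finset.univ.filter fun x => x ∈ Gᶜ) = Gᶜ := by ext x; simp
    rw [e1]
    have e2 : ∑ x ∈ Finset.univ.filter (fun x => ¬ x ∈ Gᶜ),
        ∑ y, (if x ∈ Gᶜ then |M x y| * |A x y| else 0) = 0 := by
      refine Finset.sum_eq_zero fun x hx => ?_
      rw [Finset.mem_filter] at hx
      simp [hx.2]
    rw [e2, add_zero]
    refine Finset.sum_congr rfl fun x hx => Finset.sum_congr rfl fun y _ => ?_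
    simp only [hx, if_true]
  have h4 : ∑ x, ∑ y, (if y ∈ Gᶜ then |M x y| * |A x y| else 0)
      = ∑ x, ∑ y, (if x ∈ Gᶜ then |M x y| * |A x y| else 0) := by
    rw [Finset.sum_comm]
    refine Finset.sum_congr rfl fun x _ => Finset.sum_congr rfl fun y _ => ?_
    rw [hA y x, hM y x]
  simp only [Finset.sum_add_distrib]
  rw [h4, h3]
  have h5 := hS M A
  linarith

/-- `⟨Π f Π, M⟩` against a symmetric matrix -/
lemma ip_P_K_ge (hs : Kᵀ = K) (hν : 0 < ν) :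
    (K ^ 3).trace - (K ^ 4).trace / (2 * ν)
      - 2 * (Real.sqrt (∑ x ∈ Gᶜ, (K ^ 2) x x) * Real.sqrt ((K ^ 4).trace))
      ≤ ∑ x, ∑ y, P E ν G x y * K x y := by
  have hKs : ∀ x y, K x y = K y x := fun x y => by
    conv_lhs => rw [← hs]
    rfl
  have h1 := ip_f_K_ge E hν
  have h2 := outside_le (G := G) (A := f E ν) (M := K) (fun x y => f_symm E x y) hKs
  have h3 : ∑ x ∈ Gᶜ, ∑ y, (K x y) ^ 2 = ∑ x ∈ Gᶜ, (K ^ 2) x x := by
    refine Finset.sum_congr rfl fun x _ => ?_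
    rw [pow_two, Matrix.mul_apply]
    exact Finset.sum_congr rfl fun y _ => by rw [hKs y x]; ring
  rw [h3] at h2
  have h4 : Real.sqrt (∑ x, ∑ y, (f E ν x y) ^ 2) ≤ Real.sqrt ((K ^ 4).trace) :=
    Real.sqrt_le_sqrt (f_frob_le E hs hν)
  have h5 := mul_le_mul_of_nonneg_left h4 (Real.sqrt_nonneg (∑ x ∈ Gᶜ, (K ^ 2) x x))
  have h6 := (abs_le.mp h2).2
  unfold P
  linarith

end PP

end Crest.Agent.R62.Tilt
end

-- ▼ part R62/TiltF
section

/-!
R62 (helper110): the tilt matrix of the step design (#4644).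

`tphi E ν G Bad` = `Π f(K) Π` with the bad pairs removed, `f(K) = K²(1+K²/ν²)⁻¹`.

* `tphi_symm`, `abs_tphi_le : |φ| ≤ B`, `tphi_eq_zero_of_bad`, `tphi_dead`
* `tphi_opB : OpB φ (ν² + D B)`
* `tphi_frob_le : ∑ φ² ≤ Tr K⁴`
* `tphi_gain : ‖·‖` lower bound of `∑ φ K²`
* `tphi_cross_nonneg`, `tphi_cross_le` : bounds of `∑ φ(K) L²`
-/

set_option autoImplicit false
set_option linter.unusedSectionVars false
set_option linter.unusedVariables false

open scoped Matrix BigOperators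

namespace Crest.Agent.R62.TiltF

open Crest.Agent.R62.AvBase
open Crest.Agent.R62.Tilt (Eig cut cut_nonneg cut_le cut_le_sq f P rv)

variable {ι : Type*} [Fintype ι] [DecidableEq ι]

section

variable {K L : Matrix ι ι ℝ} (E : Eig K) (ν : ℝ) (G : Finset ι) (Bad : Finset (ι × ι))

/-- `Π f(K) Π` without the bad pairs -/
noncomputable def tphi : Matrix ι ι ℝ := fun x y => if (x, y) ∈ Bad then 0 else P E ν G x y

/-- the part on the bad pairs -/
noncomputable def tbad : Matrix ι ι ℝ := fun x y => if (x, y) ∈ Bad then P E ν G x y else 0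

variable {ν G Bad}

lemma tphi_eq : tphi E ν G Bad = P E ν G - tbad E ν G Bad := by
  ext x y
  simp only [tphi, tbad, Matrix.sub_apply]
  split_ifs <;> ring

lemma tphi_symm (hB : ∀ x y, (x, y) ∈ Bad → (y, x) ∈ Bad) (x y : ι) :
    tphi E ν G Bad x y = tphi E ν G Bad y x := by
  have hb : (x, y) ∈ Bad ↔ (y, x) ∈ Bad := ⟨hB x y, hB y x⟩
  simp only [tphi, hb, Tilt.P_symm E x y]

lemma tbad_symm (hB : ∀ x y, (x, y) ∈ Bad → (y, x) ∈ Bad) (x y : ι) :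
    tbad E ν G Bad x y = tbad E ν G Bad y x := by
  have hb : (x, y) ∈ Bad ↔ (y, x) ∈ Bad := ⟨hB x y, hB y x⟩
  simp only [tbad, hb, Tilt.P_symm E x y]

lemma abs_tphi_le (hν : 0 < ν) {B : ℝ} (hB : 0 ≤ B) (hG : ∀ x ∈ G, (K ^ 2) x x ≤ B) (x y : ι) :
    |tphi E ν G Bad x y| ≤ B := by
  simp only [tphi]
  split_ifs
  · simpa using hB
  · exact Tilt.abs_P_le E hν hB hG x y

lemma tphi_eq_zero_of_bad {x y : ι} (h : (x, y) ∈ Bad) : tphi E ν G Bad x y = 0 := by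
  simp [tphi, h]

lemma P_eq_zero_left {x y : ι} (h : x ∉ G) : P E ν G x y = 0 := by
  simp [P, Tilt.res, h]


lemma P_dead (hν : 0 < ν) {x : ι} (h : (K ^ 2) x x = 0) (y : ι) : P E ν G x y = 0 := by
  have h1 := Tilt.f_sq_le E hν x y
  rw [h, zero_mul] at h1
  have h2 : f E ν x y = 0 := by
    have := le_antisymm h1 (sq_nonneg _)
    exact pow_eq_zero_iff (two_ne_zero) |>.mp this
  simp only [P, Tilt.res, h2, ite_self]

/-- the tilt vanishes on dead stubs -/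
lemma tphi_dead (hν : 0 < ν) {x : ι} (h : (K ^ 2) x x = 0) (y : ι) :
    tphi E ν G Bad x y = 0 := by
  simp [tphi, P_dead E hν h y]

lemma tphi_sq_le (x y : ι) : (tphi E ν G Bad x y) ^ 2 ≤ (P E ν G x y) ^ 2 := by
  simp only [tphi]
  split_ifs
  · simpa using sq_nonneg _
  · exact le_refl _

lemma tphi_frob_le (hs : Kᵀ = K) (hν : 0 < ν) :
    ∑ x, ∑ y, (tphi E ν G Bad x y) ^ 2 ≤ (K ^ 4).trace :=
  (Finset.sum_le_sum fun x _ => Finset.sum_le_sum fun y _ => tphi_sq_le E x y).trans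
    (Tilt.P_frob_le E hs hν)

lemma row_tbad_le (hν : 0 < ν) {B D : ℝ} (hB : 0 ≤ B) (hD : 0 ≤ D)
    (hG : ∀ x ∈ G, (K ^ 2) x x ≤ B)
    (hbad : ∀ x ∈ G, ((Finset.univ.filter (fun y => (x, y) ∈ Bad)).card : ℝ) ≤ D) (x : ι) :
    ∑ y, |tbad E ν G Bad x y| ≤ D * B := by
  by_cases hx : x ∈ G
  · have h1 : ∑ y, |tbad E ν G Bad x y| ≤ ∑ y, (if (x, y) ∈ Bad then B else 0) := by
      refine Finset.sum_le_sum fun y _ => ?_
      simp only [tbad]
      split_ifs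
      · exact Tilt.abs_P_le E hν hB hG x y
      · simp
    refine h1.trans ?_
    rw [← Finset.sum_filter, Finset.sum_const, nsmul_eq_mul]
    exact mul_le_mul_of_nonneg_right (hbad x hx) hB
  · have h1 : ∑ y, |tbad E ν G Bad x y| = 0 := by
      refine Finset.sum_eq_zero fun y _ => ?_
      simp [tbad, P_eq_zero_left E hx]
    rw [h1]
    positivity

/-- operator norm of the tilt -/
theorem tphi_opB (hν : 0 < ν) {B D : ℝ} (hB : 0 ≤ B) (hD : 0 ≤ D)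
    (hG : ∀ x ∈ G, (K ^ 2) x x ≤ B) (hBs : ∀ x y, (x, y) ∈ Bad → (y, x) ∈ Bad)
    (hbad : ∀ x ∈ G, ((Finset.univ.filter (fun y => (x, y) ∈ Bad)).card : ℝ) ≤ D) :
    OpB (tphi E ν G Bad) (ν ^ 2 + D * B) := by
  rw [tphi_eq]
  exact TiltK.OpB_sub (Tilt.P_opB E hν) (TiltK.opB_of_rows (by positivity)
    (fun x y => by rw [tbad_symm E hBs]) (row_tbad_le E hν hB hD hG hbad))

/-- contribution of the bad pairs -/
lemma bad_ip_le (hν : 0 < ν) {M : Matrix ι ι ℝ} (hM : Mᵀ = M) {B Nb : ℝ} (hB : 0 ≤ B)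
    (hG : ∀ x ∈ G, (K ^ 2) x x ≤ B) (hGM : ∀ x ∈ G, (M ^ 2) x x ≤ B)
    (hbad : (Bad.card : ℝ) ≤ Nb) :
    |∑ x, ∑ y, tphi E ν G Bad x y * (M ^ 2) x y - ∑ x, ∑ y, P E ν G x y * (M ^ 2) x y|
      ≤ Nb * B ^ 2 := by
  have h1 : ∑ x, ∑ y, tphi E ν G Bad x y * (M ^ 2) x y
      - ∑ x, ∑ y, P E ν G x y * (M ^ 2) x y
      = - ∑ x, ∑ y, (if (x, y) ∈ Bad then P E ν G x y * (M ^ 2) x y else 0) := by
    rw [← Finset.sum_sub_distrib, ← Finset.sum_neg_distrib]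
    refine Finset.sum_congr rfl fun x _ => ?_
    rw [← Finset.sum_sub_distrib, ← Finset.sum_neg_distrib]
    refine Finset.sum_congr rfl fun y _ => ?_
    simp only [tphi]
    split_ifs <;> ring
  rw [h1, abs_neg]
  have h2 : |∑ x, ∑ y, (if (x, y) ∈ Bad then P E ν G x y * (M ^ 2) x y else 0)|
      ≤ ∑ x, ∑ y, (if (x, y) ∈ Bad then B ^ 2 else 0) := by
    refine (Finset.abs_sum_le_sum_abs _ _).trans (Finset.sum_le_sum fun x _ => ?_)
    refine (Finset.abs_sum_le_sum_abs _ _).trans (Finset.sum_le_sum fun y _ => ?_)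
    split_ifs with hb
    · by_cases hx : x ∈ G
      · by_cases hy : y ∈ G
        · rw [abs_mul]
          have e1 := Tilt.abs_P_le E hν hB hG x y
          have e2 := TiltK.abs_sq_entry_le hM hB (hGM x hx) (hGM y hy)
          calc |P E ν G x y| * |(M ^ 2) x y| ≤ B * B :=
                mul_le_mul e1 e2 (abs_nonneg _) hB
            _ = B ^ 2 := by ring
        · have : P E ν G x y = 0 := by
            rw [Tilt.P_symm E x y]; exact P_eq_zero_left E hy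
          rw [this, zero_mul, abs_zero]; positivity
      · rw [P_eq_zero_left E hx, zero_mul, abs_zero]; positivity
    · simp
  refine h2.trans ?_
  have h3 : ∑ x, ∑ y, (if (x, y) ∈ Bad then B ^ 2 else 0) = (Bad.card : ℝ) * B ^ 2 := by
    have : ∑ p : ι × ι, (if p ∈ Bad then B ^ 2 else 0) = (Bad.card : ℝ) * B ^ 2 := by
      rw [Finset.sum_ite_mem, Finset.univ_inter, Finset.sum_const, nsmul_eq_mul]
    rw [← this, ← Finset.univ_product_univ, Finset.sum_product]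
  rw [h3]
  exact mul_le_mul_of_nonneg_right hbad (sq_nonneg _)

/-- lower bound of the own gain: if `g ≥ 0` is a lower bound of `⟨Π f Π, K⟩` -/
theorem tphi_gain (hs : Kᵀ = K) (hν : 0 < ν) {B Nb g X2 : ℝ} (hB : 0 ≤ B)
    (hG : ∀ x ∈ G, (K ^ 2) x x ≤ B) (hbad : (Bad.card : ℝ) ≤ Nb)
    (hg : 0 ≤ g) (hX2 : 0 < X2) (hX2' : (K ^ 2).trace ≤ X2)
    (hg' : g ≤ (K ^ 3).trace - (K ^ 4).trace / (2 * ν)
      - 2 * (Real.sqrt (∑ x ∈ Gᶜ, (K ^ 2) x x) * Real.sqrt ((K ^ 4).trace))) :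
    g ^ 2 / X2 - Nb * B ^ 2 ≤ ∑ x, ∑ y, tphi E ν G Bad x y * (K ^ 2) x y := by
  have h1 := Tilt.ip_P_K_ge E (G := G) hs hν
  have h2 := Tilt.ip_P_sq_ge E (G := G) hν
  have h3 := (abs_le.mp (bad_ip_le E (G := G) (Bad := Bad) hν hs hB hG hG hbad)).1
  have hgP : g ≤ ∑ x, ∑ y, P E ν G x y * K x y := hg'.trans h1
  -- Cauchy–Schwarz
  have h4 : (∑ x, ∑ y, P E ν G x y * K x y) ^ 2
      ≤ (∑ x, ∑ y, (P E ν G x y) ^ 2) * (K ^ 2).trace := by
    rw [← TiltK.frob_sq hs]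
    have h := Finset.sum_mul_sq_le_sq_mul_sq (Finset.univ : Finset (ι × ι))
      (fun p => P E ν G p.1 p.2) (fun p => K p.1 p.2)
    simpa only [← Finset.univ_product_univ, Finset.sum_product] using h
  have h5 : g ^ 2 ≤ (∑ x, ∑ y, (P E ν G x y) ^ 2) * X2 := by
    have hP0 : 0 ≤ ∑ x, ∑ y, (P E ν G x y) ^ 2 :=
      Finset.sum_nonneg fun x _ => Finset.sum_nonneg fun y _ => sq_nonneg _
    calc g ^ 2 ≤ (∑ x, ∑ y, P E ν G x y * K x y) ^ 2 := pow_le_pow_left₀ hg hgP 2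
      _ ≤ _ := h4
      _ ≤ _ := mul_le_mul_of_nonneg_left hX2' hP0
  have h6 : g ^ 2 / X2 ≤ ∑ x, ∑ y, (P E ν G x y) ^ 2 := by
    rw [div_le_iff₀ hX2]; exact h5
  linarith

/-! ### cross terms -/

lemma sq_eq_fc' (EL : Eig L) : L ^ 2 = EL.fc (fun t => t ^ 2) := EL.fc_pow 2

/-- the cross term of the untruncated matrix is nonnegative -/
lemma ip_P_cross_nonneg (hL : Lᵀ = L) : 0 ≤ ∑ x, ∑ y, P E ν G x y * (L ^ 2) x y := by
  have EL := Tilt.eigOf hL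
  rw [sq_eq_fc' EL]
  exact EL.ip_fc_nonneg (Tilt.P_psd E) (fun i => sq_nonneg _)

lemma res_form_nonneg (EL : Eig L) (v : ι → ℝ) :
    0 ≤ v ⬝ᵥ (Tilt.res G (L ^ 2) *ᵥ v) := by
  rw [Tilt.form_res, sq_eq_fc' EL]
  exact EL.form_fc_nonneg (fun _ => sq_nonneg _) _

/-- `⟨Π f(K) Π, L²⟩ ≤ ∑_{z,w ∈ G} (K²)_zw (L²)_zw` -/
lemma ip_P_cross_le_mid (hL : Lᵀ = L) (hν : 0 < ν) :
    ∑ x, ∑ y, P E ν G x y * (L ^ 2) x y ≤ ∑ z ∈ G, ∑ w ∈ G, (L ^ 2) z w * (K ^ 2) z w := by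
  have EL := Tilt.eigOf hL
  have h1 : ∑ x, ∑ y, P E ν G x y * (L ^ 2) x y
      = ∑ x, ∑ y, Tilt.res G (L ^ 2) x y * E.fc (cut ν) x y := by
    refine Finset.sum_congr rfl fun x _ => Finset.sum_congr rfl fun y _ => ?_
    simp only [P, f, Tilt.res]
    split_ifs <;> ring
  have h2 : ∑ x, ∑ y, Tilt.res G (L ^ 2) x y * E.fc (cut ν) x y
      ≤ ∑ x, ∑ y, Tilt.res G (L ^ 2) x y * E.fc (fun t => t ^ 2) x y :=
    E.ip_fc_mono (res_form_nonneg EL) fun i => cut_le_sq hν _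
  rw [h1]
  refine h2.trans (le_of_eq ?_)
  rw [← sq_eq_fc' E]
  have h3 : ∀ x y, Tilt.res G (L ^ 2) x y * (K ^ 2) x y
      = if x ∈ G then (if y ∈ G then (L ^ 2) x y * (K ^ 2) x y else 0) else 0 := by
    intro x y
    simp only [Tilt.res]
    by_cases hx : x ∈ G <;> by_cases hy : y ∈ G <;> simp [hx, hy]
  simp_rw [h3]
  have h4 : ∀ x, ∑ y, (if x ∈ G then (if y ∈ G then (L ^ 2) x y * (K ^ 2) x y else 0) else 0)
      = if x ∈ G then ∑ y ∈ G, (L ^ 2) x y * (K ^ 2) x y else 0 := by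
    intro x
    by_cases hx : x ∈ G
    · simp only [hx, if_true]
      rw [Finset.sum_ite_mem, Finset.univ_inter]
    · simp [hx]
  simp_rw [h4]
  rw [Finset.sum_ite_mem, Finset.univ_inter]

/-- `∑_{z,w ∈ G} (L²)_zw (K²)_zw ≤ 2 ‖LK‖_F² + 2 (∑_{∉G} (K²)_zz)(∑_{∉G} (L²)_zz)` -/
lemma mid_le (hK : Kᵀ = K) (hL : Lᵀ = L) (G : Finset ι) :
    ∑ z ∈ G, ∑ w ∈ G, (L ^ 2) z w * (K ^ 2) z w
      ≤ 2 * ∑ x, ∑ y, (L ^ 2) x y * (K ^ 2) x y
        + 2 * ((∑ z ∈ Gᶜ, (L ^ 2) z z) * ∑ z ∈ Gᶜ, (K ^ 2) z z) := by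
  have e1 := TiltK.frob_mid (K := K) (L := L) hK hL G
  have e2 := TiltK.frob_mid (K := K) (L := L) hK hL Finset.univ
  have e3 := TiltK.frob_mid (K := K) (L := L) hK hL Gᶜ
  have h1 : ∀ x y, (∑ z ∈ G, L x z * K z y) ^ 2
      ≤ 2 * (∑ z, L x z * K z y) ^ 2 + 2 * (∑ z ∈ Gᶜ, L x z * K z y) ^ 2 := by
    intro x y
    have h := Finset.sum_add_sum_compl G (fun z => L x z * K z y)
    have h' : ∑ z ∈ G, L x z * K z y = ∑ z, L x z * K z y - ∑ z ∈ Gᶜ, L x z * K z y := by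
      linarith
    rw [h']
    nlinarith [sq_nonneg (∑ z, L x z * K z y + ∑ z ∈ Gᶜ, L x z * K z y)]
  have h2 : ∑ x, ∑ y, (∑ z ∈ G, L x z * K z y) ^ 2
      ≤ 2 * ∑ x, ∑ y, (∑ z, L x z * K z y) ^ 2
        + 2 * ∑ x, ∑ y, (∑ z ∈ Gᶜ, L x z * K z y) ^ 2 := by
    rw [Finset.mul_sum, Finset.mul_sum, ← Finset.sum_add_distrib]
    refine Finset.sum_le_sum fun x _ => ?_
    rw [Finset.mul_sum, Finset.mul_sum, ← Finset.sum_add_distrib]
    exact Finset.sum_le_sum fun y _ => h1 x y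
  rw [← e1]
  refine h2.trans ?_
  rw [e2, e3]
  have h3 : ∑ z ∈ Gᶜ, ∑ w ∈ Gᶜ, (L ^ 2) z w * (K ^ 2) z w
      ≤ (∑ z ∈ Gᶜ, (L ^ 2) z z) * ∑ z ∈ Gᶜ, (K ^ 2) z z := by
    have h4 : ∀ z w, (L ^ 2) z w * (K ^ 2) z w
        ≤ (Real.sqrt ((L ^ 2) z z) * Real.sqrt ((K ^ 2) z z))
          * (Real.sqrt ((L ^ 2) w w) * Real.sqrt ((K ^ 2) w w)) := by
      intro z w
      have a1 := abs_entry_le hL (L := Real.sqrt ((L ^ 2).trace) + 1) ?_ 0 z w
      have a2 := abs_entry_le hK (L := Real.sqrt ((K ^ 2).trace) + 1) ?_ 0 z w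
      · simp only [pow_zero, one_mul, zero_add] at a1 a2
        calc (L ^ 2) z w * (K ^ 2) z w ≤ |(L ^ 2) z w * (K ^ 2) z w| := le_abs_self _
          _ = |(L ^ 2) z w| * |(K ^ 2) z w| := abs_mul _ _
          _ ≤ (Real.sqrt ((L ^ 2) z z) * Real.sqrt ((L ^ 2) w w))
            * (Real.sqrt ((K ^ 2) z z) * Real.sqrt ((K ^ 2) w w)) :=
              mul_le_mul a1 a2 (abs_nonneg _) (mul_nonneg (Real.sqrt_nonneg _)
                (Real.sqrt_nonneg _))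
          _ = _ := by ring
      · exact opB_frob hK
      · exact opB_frob hL
    have h5 : ∑ z ∈ Gᶜ, ∑ w ∈ Gᶜ, (L ^ 2) z w * (K ^ 2) z w
        ≤ (∑ z ∈ Gᶜ, Real.sqrt ((L ^ 2) z z) * Real.sqrt ((K ^ 2) z z)) ^ 2 := by
      rw [pow_two (∑ z ∈ Gᶜ, Real.sqrt ((L ^ 2) z z) * Real.sqrt ((K ^ 2) z z)),
        Finset.sum_mul_sum]
      exact Finset.sum_le_sum fun z _ => Finset.sum_le_sum fun w _ => h4 z w
    refine h5.trans ?_
    have h6 := Finset.sum_mul_sq_le_sq_mul_sq Gᶜ (fun z => Real.sqrt ((L ^ 2) z z))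
      (fun z => Real.sqrt ((K ^ 2) z z))
    simp only [Real.sq_sqrt (diag_sq_nonneg hL _), Real.sq_sqrt (diag_sq_nonneg hK _)] at h6
    exact h6
  linarith
where
  opB_frob {K : Matrix ι ι ℝ} (hK : Kᵀ = K) : OpB K (Real.sqrt ((K ^ 2).trace) + 1) := by
    have h0 : 0 ≤ Real.sqrt ((K ^ 2).trace) := Real.sqrt_nonneg _
    refine ⟨by linarith, fun v => ?_⟩
    have h1 : (K *ᵥ v) ⬝ᵥ (K *ᵥ v) ≤ (K ^ 2).trace * (v ⬝ᵥ v) := by
      rw [← TiltK.frob_sq hK]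
      simp only [Matrix.mulVec, dotProduct, Finset.sum_mul]
      refine Finset.sum_le_sum fun x _ => ?_
      have := Finset.sum_mul_sq_le_sq_mul_sq Finset.univ (fun y => K x y) v
      calc _ = (∑ y, K x y * v y) ^ 2 := by rw [← Finset.sum_mul]; ring
        _ ≤ _ := this
        _ = _ := by rw [Finset.sum_mul]; simp only [pow_two (v _)]
    have h2 : (K ^ 2).trace ≤ (Real.sqrt ((K ^ 2).trace) + 1) ^ 2 := by
      have h3 : 0 ≤ (K ^ 2).trace := by simpa using trace_even_nonneg hK 1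
      nlinarith [Real.sq_sqrt h3]
    exact h1.trans (mul_le_mul_of_nonneg_right h2 (dot_self_nonneg v))

/-- lower bound of the cross term -/
theorem tphi_cross_ge (hL : Lᵀ = L) (hν : 0 < ν) {B Nb : ℝ} (hB : 0 ≤ B)
    (hG : ∀ x ∈ G, (K ^ 2) x x ≤ B) (hGL : ∀ x ∈ G, (L ^ 2) x x ≤ B)
    (hbad : (Bad.card : ℝ) ≤ Nb) :
    - (Nb * B ^ 2) ≤ ∑ x, ∑ y, tphi E ν G Bad x y * (L ^ 2) x y := by
  have h1 := ip_P_cross_nonneg E (ν := ν) (G := G) hL
  have h3 := (abs_le.mp (bad_ip_le E (G := G) (Bad := Bad) hν hL hB hG hGL hbad)).1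
  linarith

/-- upper bound of the cross term -/
theorem tphi_cross_le (hK : Kᵀ = K) (hL : Lᵀ = L) (hν : 0 < ν) {B Nb : ℝ} (hB : 0 ≤ B)
    (hG : ∀ x ∈ G, (K ^ 2) x x ≤ B) (hGL : ∀ x ∈ G, (L ^ 2) x x ≤ B)
    (hbad : (Bad.card : ℝ) ≤ Nb) :
    ∑ x, ∑ y, tphi E ν G Bad x y * (L ^ 2) x y
      ≤ 2 * ∑ x, ∑ y, (L ^ 2) x y * (K ^ 2) x y
        + 2 * ((∑ z ∈ Gᶜ, (L ^ 2) z z) * ∑ z ∈ Gᶜ, (K ^ 2) z z) + Nb * B ^ 2 := by
  have h1 := ip_P_cross_le_mid E (G := G) hL hν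
  have h2 := mid_le hK hL G
  have h3 := (abs_le.mp (bad_ip_le E (G := G) (Bad := Bad) hν hL hB hG hGL hbad)).2
  linarith

end

end Crest.Agent.R62.TiltF
end

-- ▼ part R62/TiltSt

/-!
R62 (helper110): numbers for the tilt of the step design (#4644).

`Kb : Bool → Matrix ι ι ℝ` (`Kb true = K⁺`, `Kb false = K⁻`), live set `F`, good pairs `S ⊆ F × F`.
`Theta = m^{-38} (e₊ φ₊ - e₋ φ₋)`, `φ_b = Π f(K_b) Π` off the bad pairs, `ν = m^204`, `B = m^36`.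
-/

set_option autoImplicit false
set_option linter.unusedSectionVars false
set_option linter.unusedVariables false

open scoped Matrix BigOperators

namespace Crest.Agent.R62.TiltSt

open Crest.Agent.R62.AvBase
open Crest.Agent.R62.TiltF (tphi)

variable {ι : Type*} [Fintype ι] [DecidableEq ι]

/-- sign of a boolean -/
def sb (b : Bool) : ℝ := if b then 1 else -1

/-- the numeric hypotheses on the state inside the tilt window -/
structure TB (Kb : Bool → Matrix ι ι ℝ) (F : Finset ι) (S : Finset (ι × ι)) (m ρ : ℝ) : Prop where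
  m_large : 10000 ≤ m
  rho_lo : m ^ 800 ≤ ρ
  rho_hi : ρ ≤ 2 * m ^ 800
  symm : ∀ b, (Kb b)ᵀ = Kb b
  dead : ∀ b, ∀ i, i ∉ F → (Kb b ^ 2) i i = 0
  S_symm : ∀ x y, (x, y) ∈ S → (y, x) ∈ S
  X2 : ∀ b, (Kb b ^ 2).trace ≤ ρ
  X3 : ∀ b, m ^ 1000 / 2 ≤ (Kb b ^ 3).trace
  X4 : ∀ b, (Kb b ^ 4).trace ≤ m ^ 2003 / ρ
  W : ∀ b, ∑ x ∈ F, ((Kb b ^ 2) x x - 1) ^ 2 ≤ m ^ 610
  M22 : ∑ x, ∑ y, (Kb true ^ 2) x y * (Kb false ^ 2) x y ≤ m ^ 1010
  nbad : (((F ×ˢ F) \ S).card : ℝ) ≤ m * ρ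
  row : ∀ x, (∀ b, (Kb b ^ 2) x x ≤ m ^ 36) →
    ((Finset.univ.filter (fun y => (x, y) ∈ (F ×ˢ F) \ S)).card : ℝ) ≤ m ^ 300

section Def

variable (Kb : Bool → Matrix ι ι ℝ) (F : Finset ι) (S : Finset (ι × ι)) (m : ℝ) (e : Bool → ℝ)

/-- the stubs where both diagonals are at most `m^36` -/
noncomputable def GG : Finset ι := TiltK.Gset (Kb true) (Kb false) (m ^ 36)

open Classical in
/-- the tilt matrix `φ_b` -/
noncomputable def ph (b : Bool) : Matrix ι ι ℝ :=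
  if h : (Kb b)ᵀ = Kb b then tphi (Tilt.eigOf h) (m ^ 204) (GG Kb m) ((F ×ˢ F) \ S) else 0

/-- the tilt: the weights are `1 - Theta` -/
noncomputable def Theta : Matrix ι ι ℝ := fun x y =>
  1 / m ^ 38 * (e true * ph Kb F S m true x y - e false * ph Kb F S m false x y)

end Def

/-- absorbing a constant into a power -/
lemma cpow {m c : ℝ} {a b : ℕ} (hm : 1 ≤ m) (hc : c ≤ m) (hab : a + 1 ≤ b) :
    c * m ^ a ≤ m ^ b := by
  have h0 : 0 ≤ m := by linarith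
  calc c * m ^ a ≤ m * m ^ a := mul_le_mul_of_nonneg_right hc (pow_nonneg h0 a)
    _ = m ^ (a + 1) := by ring
    _ ≤ m ^ b := pow_le_pow_right₀ hm hab

section Facts

variable {Kb : Bool → Matrix ι ι ℝ} {F : Finset ι} {S : Finset (ι × ι)} {m ρ : ℝ}
  {e : Bool → ℝ}

lemma TB.m1 (h : TB Kb F S m ρ) : 1 ≤ m := by linarith [h.m_large]
lemma TB.m0 (h : TB Kb F S m ρ) : 0 < m := by linarith [h.m_large]
lemma TB.rho_pos (h : TB Kb F S m ρ) : 0 < ρ := lt_of_lt_of_le (pow_pos h.m0 800) h.rho_lo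

lemma TB.X4' (h : TB Kb F S m ρ) (b : Bool) : (Kb b ^ 4).trace ≤ m ^ 1203 := by
  refine (h.X4 b).trans ?_
  rw [div_le_iff₀ h.rho_pos]
  calc m ^ 2003 = m ^ 1203 * m ^ 800 := by rw [← pow_add]
    _ ≤ m ^ 1203 * ρ := mul_le_mul_of_nonneg_left h.rho_lo (pow_nonneg h.m0.le _)

lemma TB.X2' (h : TB Kb F S m ρ) (b : Bool) : (Kb b ^ 2).trace ≤ 2 * m ^ 800 :=
  (h.X2 b).trans h.rho_hi

lemma TB.bad_symm (h : TB Kb F S m ρ) (x y : ι) (hxy : (x, y) ∈ (F ×ˢ F) \ S) :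
    (y, x) ∈ (F ×ˢ F) \ S := by
  rw [Finset.mem_sdiff, Finset.mem_product] at hxy ⊢
  exact ⟨⟨hxy.1.2, hxy.1.1⟩, fun hc => hxy.2 (h.S_symm _ _ hc)⟩

lemma TB.nbad' (h : TB Kb F S m ρ) : (((F ×ˢ F) \ S).card : ℝ) ≤ 2 * m ^ 801 := by
  refine h.nbad.trans ?_
  calc m * ρ ≤ m * (2 * m ^ 800) := mul_le_mul_of_nonneg_left h.rho_hi h.m0.le
    _ = 2 * m ^ 801 := by ring

lemma ph_eq (h : TB Kb F S m ρ) (b : Bool) :
    ph Kb F S m b = tphi (Tilt.eigOf (h.symm b)) (m ^ 204) (GG Kb m) ((F ×ˢ F) \ S) := by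
  simp only [ph, h.symm b, dif_pos]

lemma GG_le (h : TB Kb F S m ρ) (b : Bool) : ∀ x ∈ GG Kb m, (Kb b ^ 2) x x ≤ m ^ 36 := by
  intro x hx
  rw [GG, TiltK.mem_Gset] at hx
  cases b
  · exact hx.2
  · exact hx.1

lemma ph_symm (h : TB Kb F S m ρ) (b : Bool) (x y : ι) :
    ph Kb F S m b x y = ph Kb F S m b y x := by
  rw [ph_eq h]
  exact TiltF.tphi_symm _ h.bad_symm x y

lemma abs_ph_le (h : TB Kb F S m ρ) (b : Bool) (x y : ι) : |ph Kb F S m b x y| ≤ m ^ 36 := by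
  rw [ph_eq h]
  exact TiltF.abs_tphi_le _ (pow_pos h.m0 _) (pow_nonneg h.m0.le _) (GG_le h b) x y

lemma ph_eq_zero (h : TB Kb F S m ρ) (b : Bool) {x y : ι} (hxy : (x, y) ∉ S) :
    ph Kb F S m b x y = 0 := by
  by_cases hb : (x, y) ∈ (F ×ˢ F) \ S
  · rw [ph_eq h]; exact TiltF.tphi_eq_zero_of_bad _ hb
  · have hF : (x, y) ∉ F ×ˢ F := fun hc => hb (Finset.mem_sdiff.mpr ⟨hc, hxy⟩)
    rw [Finset.mem_product, not_and_or] at hF
    rcases hF with hx | hy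
    · rw [ph_eq h]
      exact TiltF.tphi_dead _ (pow_pos h.m0 _) (h.dead b x hx) y
    · rw [ph_symm h, ph_eq h]
      exact TiltF.tphi_dead _ (pow_pos h.m0 _) (h.dead b y hy) x

lemma ph_opB (h : TB Kb F S m ρ) (b : Bool) :
    OpB (ph Kb F S m b) ((m ^ 204) ^ 2 + m ^ 300 * m ^ 36) := by
  rw [ph_eq h]
  refine TiltF.tphi_opB _ (pow_pos h.m0 _) (pow_nonneg h.m0.le _) (pow_nonneg h.m0.le _)
    (GG_le h b) h.bad_symm ?_
  intro x hx
  exact h.row x fun b => GG_le h b x hx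

/-! ### the tilt -/

lemma Theta_symm (h : TB Kb F S m ρ) (x y : ι) :
    Theta Kb F S m e x y = Theta Kb F S m e y x := by
  simp only [Theta]
  rw [ph_symm h true x y, ph_symm h false x y]

lemma Theta_eq_zero (h : TB Kb F S m ρ) {x y : ι} (hxy : (x, y) ∉ S) :
    Theta Kb F S m e x y = 0 := by
  simp only [Theta]
  rw [ph_eq_zero h true hxy, ph_eq_zero h false hxy]
  ring

/-- the coefficients are 0 or 1 -/
def E01 (e : Bool → ℝ) : Prop := ∀ b, e b = 0 ∨ e b = 1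

lemma E01.abs_le (he : E01 e) (b : Bool) : |e b| ≤ 1 := by
  rcases he b with h | h <;> rw [h] <;> simp

lemma abs_Theta_le (h : TB Kb F S m ρ) (he : E01 e) (x y : ι) :
    |Theta Kb F S m e x y| ≤ 2 / m ^ 2 := by
  have hm := h.m0
  have h1 := TiltK.abs_comb_le (he.abs_le true) (he.abs_le false) (ph Kb F S m true x y)
    (ph Kb F S m false x y)
  have h2 := abs_ph_le h true x y
  have h3 := abs_ph_le h false x y
  have h4 : (0 : ℝ) ≤ 1 / m ^ 38 := by positivity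
  simp only [Theta]
  rw [abs_mul, abs_of_nonneg h4]
  calc 1 / m ^ 38 * |e true * ph Kb F S m true x y - e false * ph Kb F S m false x y|
      ≤ 1 / m ^ 38 * (2 * m ^ 36) :=
        mul_le_mul_of_nonneg_left (by linarith) h4
    _ = 2 / m ^ 2 := by
        have : m ^ 38 = m ^ 36 * m ^ 2 := by rw [← pow_add]
        rw [this]
        field_simp

lemma Theta_opB (h : TB Kb F S m ρ) (he : E01 e) : OpB (Theta Kb F S m e) (m ^ 371) := by
  have hm := h.m0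
  have h1 : Theta Kb F S m e
      = (1 / m ^ 38) • (e true • ph Kb F S m true - e false • ph Kb F S m false) := by
    ext x y
    simp only [Theta, Matrix.smul_apply, Matrix.sub_apply, smul_eq_mul]
  have h2 := TiltK.OpB_sub (TiltK.OpB_smul (ph_opB h true) (e true))
    (TiltK.OpB_smul (ph_opB h false) (e false))
  have h3 := TiltK.OpB_smul h2 (1 / m ^ 38)
  rw [h1]
  refine h3.mono ?_
  have h4 : (0 : ℝ) ≤ 1 / m ^ 38 := by positivity
  rw [abs_of_nonneg h4]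
  have hA : 0 ≤ (m ^ 204) ^ 2 + m ^ 300 * m ^ 36 := by positivity
  have h5 : |e true| * ((m ^ 204) ^ 2 + m ^ 300 * m ^ 36)
      + |e false| * ((m ^ 204) ^ 2 + m ^ 300 * m ^ 36)
      ≤ 2 * ((m ^ 204) ^ 2 + m ^ 300 * m ^ 36) := by
    have := he.abs_le true
    have := he.abs_le false
    nlinarith
  refine (mul_le_mul_of_nonneg_left h5 h4).trans ?_
  have h6 : (m ^ 204) ^ 2 + m ^ 300 * m ^ 36 = m ^ 408 + m ^ 336 := by ring
  rw [h6]
  have h7 : m ^ 336 ≤ m ^ 408 := pow_le_pow_right₀ h.m1 (by norm_num)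
  have h8 : 2 * (m ^ 408 + m ^ 336) ≤ 4 * m ^ 408 := by linarith
  have h9 : 4 * m ^ 408 ≤ m ^ 409 := cpow h.m1 (by linarith [h.m_large]) (by norm_num)
  rw [div_mul_eq_mul_div, one_mul, div_le_iff₀ (by positivity)]
  calc 2 * (m ^ 408 + m ^ 336) ≤ m ^ 409 := h8.trans h9
    _ = m ^ 371 * m ^ 38 := by rw [← pow_add]

lemma ph_frob_le (h : TB Kb F S m ρ) (b : Bool) :
    ∑ x, ∑ y, (ph Kb F S m b x y) ^ 2 ≤ (Kb b ^ 4).trace := by
  rw [ph_eq h]
  exact TiltF.tphi_frob_le _ (h.symm b) (pow_pos h.m0 _)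

lemma Theta_frob (h : TB Kb F S m ρ) (he : E01 e) :
    ∑ x, ∑ y, (Theta Kb F S m e x y) ^ 2 ≤ 4 * m ^ 1927 / ρ := by
  have hm := h.m0
  have h1 : ∀ x y, (Theta Kb F S m e x y) ^ 2
      ≤ (1 / m ^ 38) ^ 2 * (2 * ((ph Kb F S m true x y) ^ 2 + (ph Kb F S m false x y) ^ 2)) := by
    intro x y
    simp only [Theta]
    rw [mul_pow]
    exact mul_le_mul_of_nonneg_left
      (TiltK.comb_sq_le (he.abs_le true) (he.abs_le false) _ _) (sq_nonneg _)
  have h2 : ∑ x, ∑ y, (Theta Kb F S m e x y) ^ 2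
      ≤ (1 / m ^ 38) ^ 2 * (2 * (∑ x, ∑ y, (ph Kb F S m true x y) ^ 2
        + ∑ x, ∑ y, (ph Kb F S m false x y) ^ 2)) := by
    refine (Finset.sum_le_sum fun x _ => Finset.sum_le_sum fun y _ => h1 x y).trans ?_
    rw [← Finset.sum_add_distrib]
    simp only [← Finset.sum_add_distrib, ← Finset.mul_sum]
    exact le_refl _
  refine h2.trans ?_
  have h3 := (ph_frob_le h true).trans (h.X4 true)
  have h4 := (ph_frob_le h false).trans (h.X4 false)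
  have h5 : (1 / m ^ 38) ^ 2 * (2 * (∑ x, ∑ y, (ph Kb F S m true x y) ^ 2
        + ∑ x, ∑ y, (ph Kb F S m false x y) ^ 2))
      ≤ (1 / m ^ 38) ^ 2 * (2 * (m ^ 2003 / ρ + m ^ 2003 / ρ)) :=
    mul_le_mul_of_nonneg_left (by linarith) (sq_nonneg _)
  refine h5.trans (le_of_eq ?_)
  have hρ := h.rho_pos
  have h6 : m ^ 2003 = m ^ 1927 * (m ^ 38) ^ 2 := by rw [← pow_mul, ← pow_add]
  rw [h6]
  field_simp
  ring

lemma outside (h : TB Kb F S m ρ) :
    ∑ x ∈ (GG Kb m)ᶜ, ((Kb true ^ 2) x x + (Kb false ^ 2) x x) ≤ 16 * m ^ 574 := by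
  have hm := h.m0
  have hB : (2 : ℝ) ≤ m ^ 36 := by
    calc (2 : ℝ) ≤ m := by linarith [h.m_large]
      _ = m ^ 1 := (pow_one m).symm
      _ ≤ m ^ 36 := pow_le_pow_right₀ h.m1 (by norm_num)
  have h1 := TiltK.outside_mass_le_centred (K := Kb true) (L := Kb false) (h.symm true)
    (h.symm false) hB (fun x => if x ∈ F then 1 else 0)
    (fun x => by positivity) (fun x => by
      by_cases hx : x ∈ F
      · left; simp [hx]
      · right; exact ⟨h.dead true x hx, h.dead false x hx⟩)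
  have h2 : ∀ b, ∑ x, (if x ∈ F then (1 : ℝ) else 0) * ((Kb b ^ 2) x x - 1) ^ 2
      = ∑ x ∈ F, ((Kb b ^ 2) x x - 1) ^ 2 := by
    intro b
    simp only [ite_mul, one_mul, zero_mul]
    rw [Finset.sum_ite_mem, Finset.univ_inter]
  rw [h2 true, h2 false] at h1
  refine h1.trans ?_
  have h3 := h.W true
  have h4 := h.W false
  calc 8 / m ^ 36 * (∑ x ∈ F, ((Kb true ^ 2) x x - 1) ^ 2
        + ∑ x ∈ F, ((Kb false ^ 2) x x - 1) ^ 2)
      ≤ 8 / m ^ 36 * (m ^ 610 + m ^ 610) :=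
        mul_le_mul_of_nonneg_left (by linarith) (by positivity)
    _ = 16 * m ^ 574 := by
        have : m ^ 610 = m ^ 574 * m ^ 36 := by rw [← pow_add]
        rw [this]
        field_simp
        ring

lemma outside_b (h : TB Kb F S m ρ) (b : Bool) :
    ∑ x ∈ (GG Kb m)ᶜ, (Kb b ^ 2) x x ≤ 16 * m ^ 574 := by
  refine le_trans ?_ (outside h)
  refine Finset.sum_le_sum fun x _ => ?_
  have h1 := diag_sq_nonneg (h.symm true) x
  have h2 := diag_sq_nonneg (h.symm false) x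
  cases b <;> linarith

/-- own gain of one sign -/
lemma own_ge (h : TB Kb F S m ρ) (b : Bool) :
    m ^ 1200 / 40 ≤ ∑ x, ∑ y, ph Kb F S m b x y * (Kb b ^ 2) x y := by
  have hm := h.m0
  have hm1 := h.m1
  have hX4 := h.X4' b
  have hX4n : 0 ≤ (Kb b ^ 4).trace := by simpa using trace_even_nonneg (h.symm b) 2
  have hout := outside_b h b
  have hsq : Real.sqrt (∑ x ∈ (GG Kb m)ᶜ, (Kb b ^ 2) x x) * Real.sqrt ((Kb b ^ 4).trace)
      ≤ 4 * m ^ 889 := by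
    rw [← Real.sqrt_mul (Finset.sum_nonneg fun x _ => diag_sq_nonneg (h.symm b) x)]
    rw [Real.sqrt_le_iff]
    refine ⟨by positivity, ?_⟩
    calc (∑ x ∈ (GG Kb m)ᶜ, (Kb b ^ 2) x x) * (Kb b ^ 4).trace
        ≤ (16 * m ^ 574) * m ^ 1203 := mul_le_mul hout hX4 hX4n (by positivity)
      _ = 16 * m ^ 1777 := by ring
      _ ≤ 16 * m ^ 1778 := mul_le_mul_of_nonneg_left
        (pow_le_pow_right₀ hm1 (by norm_num)) (by norm_num)
      _ = (4 * m ^ 889) ^ 2 := by ring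
  have hg : m ^ 1000 / 4 ≤ (Kb b ^ 3).trace - (Kb b ^ 4).trace / (2 * m ^ 204)
      - 2 * (Real.sqrt (∑ x ∈ (GG Kb m)ᶜ, (Kb b ^ 2) x x) * Real.sqrt ((Kb b ^ 4).trace)) := by
    have h3 := h.X3 b
    have h4 : (Kb b ^ 4).trace / (2 * m ^ 204) ≤ m ^ 999 / 2 := by
      rw [div_le_div_iff₀ (by positivity) (by positivity)]
      calc (Kb b ^ 4).trace * 2 ≤ m ^ 1203 * 2 := by linarith
        _ = m ^ 999 * (2 * m ^ 204) := by ring
    have h5 : 16 * m ^ 999 ≤ m ^ 1000 := cpow hm1 (by linarith [h.m_large]) (by norm_num)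
    have h6 : 80 * m ^ 889 ≤ m ^ 1000 := cpow hm1 (by linarith [h.m_large]) (by norm_num)
    have h7 : 0 ≤ m ^ 1000 := by positivity
    linarith
  have h1 := TiltF.tphi_gain (Tilt.eigOf (h.symm b)) (G := GG Kb m) (Bad := (F ×ˢ F) \ S)
    (h.symm b) (pow_pos hm 204) (B := m ^ 36) (Nb := 2 * m ^ 801) (g := m ^ 1000 / 4)
    (X2 := 2 * m ^ 800) (by positivity) (GG_le h b) h.nbad' (by positivity) (by positivity)
    (h.X2' b) hg
  rw [← ph_eq h b] at h1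
  refine le_trans ?_ h1
  have h7 : (m ^ 1000 / 4) ^ 2 / (2 * m ^ 800) = m ^ 1200 / 32 := by
    have : (m ^ 1000) ^ 2 = m ^ 1200 * m ^ 800 := by rw [← pow_mul, ← pow_add]
    rw [div_pow, this]
    field_simp
    norm_num
  have h8 : 2 * m ^ 801 * (m ^ 36) ^ 2 = 2 * m ^ 873 := by ring
  rw [h7, h8]
  have h9 : 1000 * m ^ 873 ≤ m ^ 1200 := cpow hm1 (by linarith [h.m_large]) (by norm_num)
  have h10 : 0 ≤ m ^ 1200 := by positivity
  linarith

/-- cross term, upper bound -/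
lemma cross_le (h : TB Kb F S m ρ) (b : Bool) :
    ∑ x, ∑ y, ph Kb F S m (!b) x y * (Kb b ^ 2) x y ≤ m ^ 1149 := by
  have hm := h.m0
  have hm1 := h.m1
  have h1 := TiltF.tphi_cross_le (Tilt.eigOf (h.symm (!b))) (ν := m ^ 204) (G := GG Kb m)
    (Bad := (F ×ˢ F) \ S) (h.symm (!b)) (h.symm b) (pow_pos hm 204) (B := m ^ 36)
    (Nb := 2 * m ^ 801) (by positivity) (GG_le h (!b)) (GG_le h b) h.nbad'
  rw [← ph_eq h (!b)] at h1
  refine h1.trans ?_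
  have hM : ∑ x, ∑ y, (Kb b ^ 2) x y * (Kb (!b) ^ 2) x y ≤ m ^ 1010 := by
    cases b
    · refine le_trans (le_of_eq ?_) h.M22
      exact Finset.sum_congr rfl fun x _ => Finset.sum_congr rfl fun y _ => mul_comm _ _
    · exact h.M22
  have hp : (∑ z ∈ (GG Kb m)ᶜ, (Kb b ^ 2) z z) * ∑ z ∈ (GG Kb m)ᶜ, (Kb (!b) ^ 2) z z
      ≤ (16 * m ^ 574) * (16 * m ^ 574) :=
    mul_le_mul (outside_b h b) (outside_b h (!b))
      (Finset.sum_nonneg fun x _ => diag_sq_nonneg (h.symm (!b)) x) (by positivity)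
  have e1 : (16 * m ^ 574) * (16 * m ^ 574) = 256 * m ^ 1148 := by ring
  have e2 : 2 * m ^ 801 * (m ^ 36) ^ 2 = 2 * m ^ 873 := by ring
  rw [e1] at hp
  rw [e2]
  have h2 : 1000 * m ^ 1148 ≤ m ^ 1149 := cpow hm1 (by linarith [h.m_large]) (by norm_num)
  have h3 : 100 * m ^ 1010 ≤ m ^ 1149 := cpow hm1 (by linarith [h.m_large]) (by norm_num)
  have h4 : 100 * m ^ 873 ≤ m ^ 1149 := cpow hm1 (by linarith [h.m_large]) (by norm_num)
  have h5 : 0 ≤ m ^ 1149 := by positivity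
  linarith

/-- cross term, lower bound -/
lemma cross_ge (h : TB Kb F S m ρ) (b : Bool) :
    - (2 * m ^ 873) ≤ ∑ x, ∑ y, ph Kb F S m (!b) x y * (Kb b ^ 2) x y := by
  have hm := h.m0
  have h1 := TiltF.tphi_cross_ge (Tilt.eigOf (h.symm (!b))) (ν := m ^ 204) (G := GG Kb m)
    (Bad := (F ×ˢ F) \ S) (h.symm b) (pow_pos hm 204) (B := m ^ 36)
    (Nb := 2 * m ^ 801) (by positivity) (GG_le h (!b)) (GG_le h b) h.nbad'
  rw [← ph_eq h (!b)] at h1
  have e2 : 2 * m ^ 801 * (m ^ 36) ^ 2 = 2 * m ^ 873 := by ring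
  rw [e2] at h1
  exact h1

lemma sum_Theta (b : Bool) :
    sb b * ∑ x, ∑ y, Theta Kb F S m e x y * (Kb b ^ 2) x y
      = 1 / m ^ 38 * (e b * ∑ x, ∑ y, ph Kb F S m b x y * (Kb b ^ 2) x y
        - e (!b) * ∑ x, ∑ y, ph Kb F S m (!b) x y * (Kb b ^ 2) x y) := by
  have h1 : ∑ x, ∑ y, Theta Kb F S m e x y * (Kb b ^ 2) x y
      = 1 / m ^ 38 * (e true * ∑ x, ∑ y, ph Kb F S m true x y * (Kb b ^ 2) x y
        - e false * ∑ x, ∑ y, ph Kb F S m false x y * (Kb b ^ 2) x y) := by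
    simp only [Theta, Finset.mul_sum, mul_sub, ← Finset.sum_sub_distrib]
    exact Finset.sum_congr rfl fun x _ => Finset.sum_congr rfl fun y _ => by ring
  rw [h1]
  cases b
  · simp only [sb, Bool.not_false]
    norm_num
    ring
  · simp only [sb, Bool.not_true]
    norm_num

/-- GAIN: if the tilt of sign `b` is on -/
theorem gain (h : TB Kb F S m ρ) (he : E01 e) (b : Bool) (hb : e b = 1) :
    m ^ 1162 / 32 ≤ 2 * (sb b * ∑ x, ∑ y, Theta Kb F S m e x y * (Kb b ^ 2) x y) := by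
  have hm := h.m0
  rw [sum_Theta, hb]
  have h1 := own_ge h b
  have h2 := cross_le h b
  have h3 : e (!b) * ∑ x, ∑ y, ph Kb F S m (!b) x y * (Kb b ^ 2) x y ≤ m ^ 1149 := by
    rcases he (!b) with h0 | h0 <;> rw [h0]
    · rw [zero_mul]; positivity
    · rw [one_mul]; exact h2
  have h4 : 1000 * m ^ 1149 ≤ m ^ 1200 := cpow h.m1 (by linarith [h.m_large]) (by norm_num)
  have h5 : m ^ 1200 / 64 ≤ 1 * ∑ x, ∑ y, ph Kb F S m b x y * (Kb b ^ 2) x y
      - e (!b) * ∑ x, ∑ y, ph Kb F S m (!b) x y * (Kb b ^ 2) x y := by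
    have : (0 : ℝ) ≤ m ^ 1200 := by positivity
    linarith
  have h6 : 2 * (1 / m ^ 38 * (m ^ 1200 / 64)) = m ^ 1162 / 32 := by
    have : m ^ 1200 = m ^ 1162 * m ^ 38 := by rw [← pow_add]
    rw [this]
    field_simp
    norm_num
  rw [← h6]
  have h7 : (0 : ℝ) ≤ 1 / m ^ 38 := by positivity
  have := mul_le_mul_of_nonneg_left h5 h7
  linarith

/-- CROSS, upper: if the tilt of sign `b` is off -/
theorem off_le (h : TB Kb F S m ρ) (he : E01 e) (b : Bool) (hb : e b = 0) :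
    2 * (sb b * ∑ x, ∑ y, Theta Kb F S m e x y * (Kb b ^ 2) x y) ≤ m ^ 836 := by
  have hm := h.m0
  rw [sum_Theta, hb]
  have h2 := cross_ge h b
  have h3 : 0 * ∑ x, ∑ y, ph Kb F S m b x y * (Kb b ^ 2) x y
      - e (!b) * ∑ x, ∑ y, ph Kb F S m (!b) x y * (Kb b ^ 2) x y ≤ 2 * m ^ 873 := by
    rcases he (!b) with h0 | h0 <;> rw [h0]
    · have : (0 : ℝ) ≤ 2 * m ^ 873 := by positivity
      linarith
    · linarith
  have h7 : (0 : ℝ) ≤ 1 / m ^ 38 := by positivity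
  have h8 := mul_le_mul_of_nonneg_left h3 h7
  have h6 : 2 * (1 / m ^ 38 * (2 * m ^ 873)) = 4 * m ^ 835 := by
    have : m ^ 873 = m ^ 835 * m ^ 38 := by rw [← pow_add]
    rw [this]
    field_simp
    norm_num
  have h9 : 4 * m ^ 835 ≤ m ^ 836 := cpow h.m1 (by linarith [h.m_large]) (by norm_num)
  linarith


end Facts

end Crest.Agent.R62.TiltSt
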