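import Crest.Agent.R62.StepDefs
import Crest.Agent.R62.TiltSt
import Crest.Agent.R62.KapB
import Crest.Agent.R62.Nums
import Crest.Agent.R62.WtOf
import Crest.Agent.R62.X3Upd
import Crest.Agent.R62.AvBase
import Crest.Agent.R62.AvX2
import Crest.Agent.R62.TiltK
import Crest.Agent.R62.Barrier
import Crest.Agent.R62.Expo
import Crest.Agent.R62.X3Low

-- ▼ part R62/ExTilt
section

/-!
R62 (helper110): existence of the tilt of stage 1, `Step.ExTilt`.
-/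

set_option autoImplicit false
set_option linter.unusedSectionVars false
set_option linter.unusedVariables false

open scoped Matrix BigOperators

namespace Crest.Agent.R62.ExTilt

open Crest.Agent.R62 Crest.Agent.R62.Step Crest.Agent.R62.AvBase Crest.Agent.R62.AvX1
open Crest.Agent.R062

variable {ι : Type} [Fintype ι] [DecidableEq ι]

lemma prm_m {d n m : ℕ} (h : Prm d n m) : (10 : ℝ) ^ 10 ≤ m ∧ 100 * (d : ℝ) ^ 2 ≤ m
    ∧ ((d : ℝ) + 1) * d ≤ m := by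
  have hd : (3 : ℝ) ≤ d := by exact_mod_cast h.hd
  have h1 : (1 : ℝ) ≤ d := by linarith
  have hm := h.hm
  have h2 : (d : ℝ) ^ 2 ≤ (d : ℝ) ^ 10 := pow_le_pow_right₀ h1 (by norm_num)
  have h3 : (1 : ℝ) ≤ (d : ℝ) ^ 10 := one_le_pow₀ h1
  have h4 : (d : ℝ) ≤ (d : ℝ) ^ 2 := by nlinarith
  refine ⟨by nlinarith, by nlinarith, by nlinarith⟩

lemma sg_eq (b : Bool) : (Mach.sg b : ℝ) = TiltSt.sb b := rfl

lemma diag_sq_le {K : Matrix ι ι ℝ} (hK : Kᵀ = K) (x : ι) : K x x ^ 2 ≤ (K ^ 2) x x := by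
  rw [← TiltK.row_sq hK]
  exact Finset.single_le_sum (f := fun y => K x y ^ 2) (fun y _ => sq_nonneg _)
    (Finset.mem_univ x)

lemma dead_sq {K : Matrix ι ι ℝ} {i : ι} (h : ∀ j, K i j = 0) : (K ^ 2) i i = 0 := by
  rw [pow_two, Matrix.mul_apply]
  exact Finset.sum_eq_zero fun j _ => by rw [h j, zero_mul]

lemma sum_S {S : Finset (ι × ι)} {Θ : ι → ι → ℝ} (h : ∀ x y, (x, y) ∉ S → Θ x y = 0)
    (M : Matrix ι ι ℝ) :
    ∑ p ∈ S, Θ p.1 p.2 * M p.1 p.2 = ∑ x, ∑ y, Θ x y * M x y := by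
  rw [← Finset.sum_product', Finset.univ_product_univ]
  refine Finset.sum_subset (Finset.subset_univ _) fun p _ hp => ?_
  rw [h p.1 p.2 hp, zero_mul]

/-- the numeric hypotheses hold inside the window -/
theorem tb {d n m : ℕ} {γ : ℝ} {F : Finset ι} {K : Bool → Matrix ι ι ℝ} {S : Finset (ι × ι)}
    (hP : Prm d n m) (hC : Ctx d m γ F K S) (hB : Box1 d n m F K)
    (hρ : (F.card : ℝ) ≤ 2 * (m : ℝ) ^ 800) : TiltSt.TB K F S m F.card := by
  obtain ⟨hm1, hm2, hm3⟩ := prm_m hP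
  have hm : (1 : ℝ) ≤ m := by linarith
  have hm0 : (0 : ℝ) < m := by linarith
  have hρ0 : (0 : ℝ) < F.card := lt_of_lt_of_le (by positivity) hB.rho_ge
  have hsym : ∀ b, (K b)ᵀ = K b := fun b => hC.symm b
  have hX4 : ∀ b, (K b ^ 4).trace ≤ (m : ℝ) ^ 2003 / F.card := fun b => by
    rw [le_div_iff₀ hρ0]; exact hB.X4u b
  have hX4' : ∀ b, (K b ^ 4).trace ≤ (m : ℝ) ^ 1203 := fun b => by
    refine (hX4 b).trans ?_
    rw [div_le_iff₀ hρ0]
    calc (m : ℝ) ^ 2003 = (m : ℝ) ^ 1203 * (m : ℝ) ^ 800 := by rw [← pow_add]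
      _ ≤ (m : ℝ) ^ 1203 * F.card :=
        mul_le_mul_of_nonneg_left (by linarith [hB.rho_ge]) (by positivity)
  refine ⟨by linarith, by linarith [hB.rho_ge], hρ, hsym, ?_, hC.symS, ?_, ?_, hX4, hB.Wu,
    ?_, ?_, ?_⟩
  · intro b i hi
    exact dead_sq fun j => hC.dead b i j hi
  · intro b
    have h1 := hB.X2u b
    have h2 : 0 ≤ r1 d n m := by unfold r1; positivity
    linarith
  · intro b
    have h1 := hB.X3l b
    have h2 := hP.hn1
    have h3 : (0 : ℝ) ≤ (m : ℝ) ^ 1000 := by positivity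
    linarith
  · refine le_trans (le_of_eq ?_) hB.Mu
    simp only [Mf, Matrix.trace, Matrix.diag_apply, Matrix.mul_apply]
    refine Finset.sum_congr rfl fun x _ => Finset.sum_congr rfl fun y _ => ?_
    rw [pow_apply_comm (hsym false) 2 x y]
  · refine hC.bad.trans ?_
    exact mul_le_mul_of_nonneg_right hm2 hρ0.le
  · intro x hx
    by_cases hxF : x ∈ F
    · have h1 : (Finset.univ.filter (fun y => (x, y) ∈ (F ×ˢ F) \ S))
          = F.filter fun y => (x, y) ∉ S := by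
        ext y
        simp [hxF]
      rw [h1]
      refine (hC.badrow x hxF).trans ?_
      have hb : ∀ b : Bool, (25 * (K b ^ 2) x x + 100 * (K b x x ^ 2 * Vf (K b))
          + (K b ^ 4) x x / (m : ℝ) ^ 500 + K b x x ^ 2 * Wf F (K b) / (m : ℝ) ^ 400
          + ((K b ^ 2) x x - 1) ^ 2 * Vf (K b) / (m : ℝ) ^ 400)
          ≤ (m : ℝ) ^ 299 := by
        intro b
        have q0 := diag_sq_nonneg (hsym b) x
        have q1 := hx b
        have k1 := (diag_sq_le (hsym b) x).trans q1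
        have v0 := Vf_nonneg (K b)
        have v1 : Vf (K b) ≤ (m : ℝ) ^ 10 :=
          (hB.Vu b).trans (pow_le_pow_right₀ hm (by norm_num))
        have w0 := Wf_nonneg F (K b)
        have w1 := hB.Wu b
        have hop : OpB (K b) ((m : ℝ) ^ 301) := by
          refine opB_of_trace_four (hsym b) (by positivity) ((hX4' b).trans ?_)
          rw [← pow_mul]
          exact pow_le_pow_right₀ hm (by norm_num)
        have h4 := diag_even_le (hsym b) hop 1 1 x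
        simp only [mul_one, Nat.reduceAdd, Nat.reduceMul] at h4
        have h4' : (K b ^ 4) x x ≤ (m : ℝ) ^ 638 := by
          calc (K b ^ 4) x x ≤ ((m : ℝ) ^ 301) ^ 2 * (K b ^ 2) x x := h4
            _ ≤ ((m : ℝ) ^ 301) ^ 2 * (m : ℝ) ^ 36 :=
              mul_le_mul_of_nonneg_left q1 (by positivity)
            _ = (m : ℝ) ^ 638 := by rw [← pow_mul, ← pow_add]
        have t1 : 25 * (K b ^ 2) x x ≤ 25 * (m : ℝ) ^ 36 := by linarith
        have t2 : 100 * (K b x x ^ 2 * Vf (K b)) ≤ 100 * (m : ℝ) ^ 46 := by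
          have : K b x x ^ 2 * Vf (K b) ≤ (m : ℝ) ^ 36 * (m : ℝ) ^ 10 :=
            mul_le_mul k1 v1 v0 (by positivity)
          have e46 : (m : ℝ) ^ 36 * (m : ℝ) ^ 10 = (m : ℝ) ^ 46 := by rw [← pow_add]
          rw [e46] at this
          linarith
        have t3 : (K b ^ 4) x x / (m : ℝ) ^ 500 ≤ (m : ℝ) ^ 138 := by
          rw [div_le_iff₀ (by positivity), ← pow_add]
          exact h4'
        have t4 : K b x x ^ 2 * Wf F (K b) / (m : ℝ) ^ 400 ≤ (m : ℝ) ^ 246 := by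
          rw [div_le_iff₀ (by positivity), ← pow_add]
          calc K b x x ^ 2 * Wf F (K b) ≤ (m : ℝ) ^ 36 * (m : ℝ) ^ 610 :=
                mul_le_mul k1 w1 w0 (by positivity)
            _ = (m : ℝ) ^ 646 := by rw [← pow_add]
        have t5 : ((K b ^ 2) x x - 1) ^ 2 * Vf (K b) / (m : ℝ) ^ 400 ≤ 1 := by
          rw [div_le_iff₀ (by positivity), one_mul]
          have hq : ((K b ^ 2) x x - 1) ^ 2 ≤ ((m : ℝ) ^ 36) ^ 2 := by
            have h36 : (1 : ℝ) ≤ (m : ℝ) ^ 36 := one_le_pow₀ hm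
            apply sq_le_sq'
            · linarith
            · linarith
          calc ((K b ^ 2) x x - 1) ^ 2 * Vf (K b) ≤ ((m : ℝ) ^ 36) ^ 2 * (m : ℝ) ^ 10 :=
                mul_le_mul hq v1 v0 (by positivity)
            _ = (m : ℝ) ^ 82 := by rw [← pow_mul, ← pow_add]
            _ ≤ (m : ℝ) ^ 400 := pow_le_pow_right₀ hm (by norm_num)
        have c1 : 100 * (m : ℝ) ^ 36 ≤ (m : ℝ) ^ 298 :=
          TiltSt.cpow hm (by linarith) (by norm_num)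
        have c2 : 100 * (m : ℝ) ^ 46 ≤ (m : ℝ) ^ 298 :=
          TiltSt.cpow hm (by linarith) (by norm_num)
        have c3 : (m : ℝ) ^ 138 ≤ (m : ℝ) ^ 298 := pow_le_pow_right₀ hm (by norm_num)
        have c4 : (m : ℝ) ^ 246 ≤ (m : ℝ) ^ 298 := pow_le_pow_right₀ hm (by norm_num)
        have c5 : (1 : ℝ) ≤ (m : ℝ) ^ 298 := one_le_pow₀ hm
        have c6 : 100 * (m : ℝ) ^ 298 ≤ (m : ℝ) ^ 299 :=
          TiltSt.cpow hm (by linarith) (by norm_num)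
        have c7 : (0 : ℝ) ≤ (m : ℝ) ^ 36 := by positivity
        linarith
      have h2 := Finset.sum_le_sum (fun b (_ : b ∈ (Finset.univ : Finset Bool)) => hb b)
      have h3 : ∑ b : Bool, (m : ℝ) ^ 299 = 2 * (m : ℝ) ^ 299 := by
        rw [Finset.sum_const, Finset.card_univ, Fintype.card_bool, nsmul_eq_mul]
        norm_num
      rw [h3] at h2
      have h4 : (m : ℝ) ≤ (m : ℝ) ^ 299 := by
        calc (m : ℝ) = (m : ℝ) ^ 1 := (pow_one _).symm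
          _ ≤ (m : ℝ) ^ 299 := pow_le_pow_right₀ hm (by norm_num)
      have h5 : 10 * (m : ℝ) ^ 299 ≤ (m : ℝ) ^ 300 :=
        TiltSt.cpow hm (by linarith) (by norm_num)
      have h6 : (0 : ℝ) ≤ (m : ℝ) ^ 299 := by positivity
      linarith
    · have h1 : (Finset.univ.filter (fun y => (x, y) ∈ (F ×ˢ F) \ S)) = ∅ := by
        ext y
        simp [hxF]
      rw [h1, Finset.card_empty, Nat.cast_zero]
      positivity

open Classical in
/-- which signs are tilted -/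
noncomputable def onoff (m : ℕ) (F : Finset ι) (K : Bool → Matrix ι ι ℝ) (b : Bool) : ℝ :=
  if U m F.card < (K b).trace then 1 else 0

theorem exTilt : ExTilt ι := by
  intro d n m γ F K S hP hC hB
  obtain ⟨hm1, hm2, hm3⟩ := prm_m hP
  have hm : (1 : ℝ) ≤ m := by linarith
  have hm0 : (0 : ℝ) < m := by linarith
  by_cases hρ : (F.card : ℝ) ≤ 2 * (m : ℝ) ^ 800
  · have hT := tb hP hC hB hρ
    have he : TiltSt.E01 (onoff m F K) := by
      intro b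
      unfold onoff
      split_ifs
      · right; rfl
      · left; rfl
    refine ⟨TiltSt.Theta K F S m (onoff m F K), ?_, ?_, ?_, ?_, ?_, ?_, ?_, ?_⟩
    · exact TiltSt.Theta_symm hT
    · intro x y hxy
      exact TiltSt.Theta_eq_zero hT hxy
    · intro x y
      refine (TiltSt.abs_Theta_le hT he x y).trans ?_
      rw [div_le_div_iff₀ (by positivity) hm0]
      nlinarith
    · exact TiltSt.Theta_opB hT he
    · have h1 := TiltSt.Theta_frob hT he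
      have hρ0 := hT.rho_pos
      have h2 : (∑ x, ∑ y, TiltSt.Theta K F S m (onoff m F K) x y ^ 2) * F.card
          ≤ 4 * (m : ℝ) ^ 1927 := by
        rw [le_div_iff₀ hρ0] at h1
        exact h1
      exact h2.trans (TiltSt.cpow hm (by linarith) (by norm_num))
    · intro h; exact absurd hρ (not_le.mpr h)
    · intro b _ hb
      have hon : onoff m F K b = 1 := by unfold onoff; rw [if_pos hb]
      have h1 := TiltSt.gain hT he b hon
      rw [sum_S (fun x y hxy => TiltSt.Theta_eq_zero hT hxy), sg_eq, mul_assoc]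
      refine le_trans ?_ h1
      have h2 : (512 : ℝ) * (m : ℝ) ^ 1161 ≤ (m : ℝ) ^ 1162 :=
        TiltSt.cpow hm (by linarith) (by norm_num)
      linarith
    · intro b hb
      have hoff : onoff m F K b = 0 := by unfold onoff; rw [if_neg (not_lt.mpr hb)]
      have h1 := TiltSt.off_le hT he b hoff
      rw [sum_S (fun x y hxy => TiltSt.Theta_eq_zero hT hxy), sg_eq, mul_assoc]
      exact h1.trans (pow_le_pow_right₀ hm (by norm_num))
  · refine ⟨fun _ _ => 0, ?_, ?_, ?_, ?_, ?_, ?_, ?_, ?_⟩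
    · intro x y; rfl
    · intro x y _; rfl
    · intro x y; rw [abs_zero]; positivity
    · refine ⟨by positivity, fun v => ?_⟩
      have h0 : (Matrix.of fun (_ _ : ι) => (0 : ℝ)) = 0 := by ext; rfl
      rw [h0, Matrix.zero_mulVec, zero_dotProduct]
      exact mul_nonneg (by positivity) (dot_self_nonneg v)
    · simp
    · intro _ x y; rfl
    · intro b h; exact absurd h hρ
    · intro b _
      simp

end Crest.Agent.R62.ExTilt
end

-- ▼ part R62/VNum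
section

/-!
R62 (helper644): the drift of `V = ∑ K_zz²` in both stages, numerical part.
-/

set_option autoImplicit false
set_option linter.unusedSectionVars false
set_option linter.unusedVariables false

open Matrix Finset

namespace Crest.Agent.R62.VNum

open Crest.Agent.R62.AvBase (OpB)
open Crest.Agent.R62.AvX1 (ind)
open Crest.Agent.R62.DiagAv
open Crest.Agent.R62.AvV
open Crest.Agent.R62.Expo

section generic
variable {ι : Type*} [Fintype ι] [DecidableEq ι]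
variable {K E : Matrix ι ι ℝ} {F : Finset ι} {w : ι → ι → ℝ} {s γ Λ L2 η ξ ω : ℝ}

lemma row_of_mulVec (hK : K.IsSymm) (hF : ∀ i j, i ∉ F → K i j = 0)
    (hrow : K *ᵥ ind F = s • ind F) : ∀ i ∈ F, ∑ j, K i j = s := by
  intro i hi
  have h := congrFun hrow i
  have h1 : (K *ᵥ ind F) i = ∑ j, K i j := by
    simp only [Matrix.mulVec, dotProduct, ind, mul_ite, mul_one, mul_zero]
    refine Finset.sum_congr rfl fun j _ => ?_
    split_ifs with hj
    · rfl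
    · rw [← hK.apply]; exact (hF j i hj).symm
  rw [h1] at h
  simpa [ind, hi] using h

/-- `∑ K⁴ ≤ 3ρ/5` in the box. -/
lemma kappa_box (hK : K.IsSymm) (hF : ∀ i j, i ∉ F → K i j = 0) (hs : s ^ 2 = 1)
    (hγ0 : 0 ≤ γ) (hγ : γ ^ 2 ≤ 1 / 2) (hrow : K *ᵥ ind F = s • ind F)
    (hlow : ∀ f : ι → ℝ, ∑ i ∈ F, f i = 0 → -γ * ∑ i ∈ F, f i ^ 2 ≤ f ⬝ᵥ (K *ᵥ f))
    (hρ : (1000 : ℝ) ≤ F.card) (hX2 : (K ^ 2).trace ≤ 101 / 100 * F.card)
    (h1 : Real.sqrt (Vf K) * Real.sqrt (∑ z, (K ^ 2) z z ^ 2) ≤ F.card / 100)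
    (h2 : Vf K * Real.sqrt (∑ z, (K ^ 2) z z ^ 2) ≤ F.card / 100) :
    ∑ x, kk K x ≤ 3 / 5 * F.card := by
  have hγ1 : γ ≤ 1 := by nlinarith
  have hγ2 : γ ≤ 71 / 100 := by nlinarith
  have he := KapB.entry_sq_le hK hF hs hγ0 hγ1 hrow hlow
  have hρ0 : (0 : ℝ) < F.card := by linarith
  have hq : (2 : ℝ) / F.card ≤ 2 / 1000 := div_le_div_of_nonneg_left (by norm_num) (by norm_num) hρ
  have hq0 : (0 : ℝ) ≤ 2 / F.card := by positivity
  have hg0 : 0 ≤ γ + 2 / (F.card : ℝ) := by linarith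
  have hk := KapB.kappa_le hK hg0 he
  have hg2 : (γ + 2 / (F.card : ℝ)) ^ 2 ≤ 51 / 100 := by nlinarith
  have hX20 : 0 ≤ (K ^ 2).trace := by
    simp only [Matrix.trace, Matrix.diag_apply]
    exact Finset.sum_nonneg fun z _ => p_nonneg hK z
  have h3 : (γ + 2 / (F.card : ℝ)) ^ 2 * (K ^ 2).trace ≤ 51 / 100 * (101 / 100 * F.card) :=
    mul_le_mul hg2 hX2 hX20 (by norm_num)
  have h4 : 2 * (γ + 2 / (F.card : ℝ))
      * (Real.sqrt (Vf K) * Real.sqrt (∑ z, (K ^ 2) z z ^ 2)) ≤ 2 * 1 * (F.card / 100) :=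
    mul_le_mul (by linarith) h1 (by positivity) (by norm_num)
  linarith

/-- the drift of `V`, generic form (the linear part has a negative rate and is dropped) -/
theorem drift {T R ρ fr v Sqv k : ℝ} (hK : K.IsSymm) (hF : ∀ i j, i ∉ F → K i j = 0)
    (hs : s ^ 2 = 1)
    (hrow : K *ᵥ ind F = s • ind F) (hΛ : OpB K Λ) (hL2 : OpB (Ksq K) L2)
    (hw : Wt K F w E η ξ ω) (hρ : (F.card : ℝ) = ρ) (hω : ω ≤ 1 / 10) (hξ : ξ ≤ ρ / 10)
    (hκ : ∑ x, kk K x ≤ 3 / 5 * ρ) (hT : |K.trace| ≤ T) (hR : ∑ z, (K ^ 2) z z ^ 2 ≤ R)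
    (hfr : frK K ≤ fr) (hv : Vf K ≤ v) (hSq : Sq K (dg K) ≤ Sqv) (hk : n2 (kk K) ≤ k) :
    SW w (fun x y => Vf (Upd.upd s K x y) - Vf K) ≤
      4 * (T + η * Sqv + (T + 8 * (fr + v)) * Sqv)
      + (4 * η * L2 + 28 * (Real.sqrt ρ * v) + 72 * (Real.sqrt ρ * Λ)
          + 64 * ((fr + v) * L2) + 156 * ((Λ + v) * k)) * v
      + 1200 * R := by
  have h1 := V_avg (h1 := η * Sqv) hK (fun i hi j => hF i j hi) hs (row_of_mulVec hK hF hrow)
    hΛ hL2 hw ((E_Nf hK hw.opb (dg K)).trans (mul_le_mul_of_nonneg_left hSq hw.opb.1))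
  rw [hρ] at h1
  have hV0 := Vf_nonneg K
  have hΛ0 := hΛ.1
  have hL0 := hL2.1
  have hη0 := hw.opb.1
  have hω0 := hw.om0
  have hfr0 := frK_nonneg K
  have hSq0 := Sq_nonneg K (dg K)
  have hT0 := abs_nonneg K.trace
  have hk0 := n2_nonneg (kk K)
  have hρ0 : 0 ≤ ρ := by rw [← hρ]; positivity
  have hκ0 : 0 ≤ ∑ x, kk K x := Finset.sum_nonneg fun x _ => kk_nonneg K x
  have hv0 : 0 ≤ v := hV0.trans hv
  have hfr0' : 0 ≤ fr := hfr0.trans hfr
  have e1 : -(2 * (ρ - ξ) * Vf K) + 9 / 4 * (1 + ω) * ((∑ x, kk K x) * Vf K) ≤ 0 := by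
    have a1 : 9 / 4 * (1 + ω) * (∑ x, kk K x) ≤ 9 / 4 * (11 / 10) * (3 / 5 * ρ) :=
      mul_le_mul (by linarith) hκ hκ0 (by norm_num)
    have a2 : -(2 * (ρ - ξ)) + 9 / 4 * (1 + ω) * (∑ x, kk K x) ≤ 0 := by linarith
    have := mul_le_mul_of_nonneg_right a2 hV0
    linarith
  have e2 : (|K.trace| + 8 * (frK K + Vf K)) * Sq K (dg K) ≤ (T + 8 * (fr + v)) * Sqv :=
    mul_le_mul (by linarith) hSq hSq0 (by linarith)
  have e3 : (4 * η * L2 + 28 * (Real.sqrt ρ * Vf K) + 72 * (Real.sqrt ρ * Λ)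
          + 64 * ((frK K + Vf K) * L2) + 156 * ((Λ + Vf K) * n2 (kk K))) * Vf K
      ≤ (4 * η * L2 + 28 * (Real.sqrt ρ * v) + 72 * (Real.sqrt ρ * Λ)
          + 64 * ((fr + v) * L2) + 156 * ((Λ + v) * k)) * v := by
    refine mul_le_mul ?_ hv hV0 (by have := hk0.trans hk; positivity)
    gcongr
  linarith

end generic

/-! ### numerical closure -/


lemma big_quarter {d n m : ℕ} (P : Nums.Par d n m) : (4700 : ℝ) ≤ E m (1 / 4) := by
  by_contra h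
  push Not at h
  have h0 := (E_pos P.m0 (1 / 4)).le
  have h4 : (E (m : ℝ) (1 / 4)) ^ 4 < (4700 : ℝ) ^ 4 := pow_lt_pow_left₀ h h0 (by norm_num)
  rw [E_pow P.m0] at h4
  have e : E (m : ℝ) (1 / 4 * ((4 : ℕ) : ℝ)) = m := by
    rw [show (1 : ℝ) / 4 * ((4 : ℕ) : ℝ) = 1 by norm_num, E_one]
  rw [e] at h4
  have := P.mbig
  have e2 : (4700 : ℝ) ^ 4 = 487968100000000 := by norm_num
  rw [e2] at h4
  linarith

/-- conclusion with a fractional spare exponent and a division by a constant -/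
lemma final_div' {m C a b e K z : ℝ} (hm : 1 ≤ m) (hK : 0 < K) (h : O m C a z)
    (hC : C * K ≤ E m e) (hab : a + e ≤ b) : z ≤ E m b / K := by
  rw [le_div_iff₀ hK]
  have h0 : 0 < m := lt_of_lt_of_le one_pos hm
  calc z * K ≤ (C * E m a) * K := mul_le_mul_of_nonneg_right h.2 hK.le
    _ = (C * K) * E m a := by ring
    _ ≤ E m e * E m a := mul_le_mul_of_nonneg_right hC (E_pos h0 a).le
    _ = E m (a + e) := by rw [E_add h0, mul_comm]
    _ ≤ E m b := E_mono hm hab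

/-- stage 2 -/
lemma num2 {m x T η L2 fr v Sqv k Λ R ρ : ℝ} (hm : 1 ≤ m) (hb : (5 : ℝ) * 10 ^ 14 ≤ m)
    (hq : 4700 ≤ E m (1 / 4)) (hx : 680 - 1 / 4 ≤ x) (hx' : x ≤ 800 + 1 / 10)
    (hT : O m 1 336 T) (hη : O m 1 (x / 2 + 1 / 10) η) (hL2 : O m 5 300 L2)
    (hfr : O m 2 (x / 2) fr) (hv : O m 1 8 v) (hSq : O m 2 (x / 2 + 4 + 13 / 8) Sqv)
    (hk : O m 100 (x / 2 + 4 + 13 / 8) k) (hΛ : O m 1 ((2004 - x) / 4) Λ)
    (hR : O m 2 (x + 13 / 4) R) (hρ : O m 1 x ρ) :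
    4 * (T + η * Sqv + (T + 8 * (fr + v)) * Sqv)
      + (4 * η * L2 + 28 * (√ρ * v) + 72 * (√ρ * Λ)
          + 64 * ((fr + v) * L2) + 156 * ((Λ + v) * k)) * v
      + 1200 * R ≤ E m (x + 6) := by
  have h1 : 4 * (T + η * Sqv + (T + 8 * (fr + v)) * Sqv) ≤ E m (x + 6) / 3 := by
    refine final_div' hm (e := 1 / 4) (by norm_num) (by expoO) ?_ ?_
    · norm_num
      try linarith
    · expoMax
  have h2 : (4 * η * L2 + 28 * (√ρ * v) + 72 * (√ρ * Λ)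
          + 64 * ((fr + v) * L2) + 156 * ((Λ + v) * k)) * v ≤ E m (x + 6) / 3 := by
    expo_div
  have h3 : 1200 * R ≤ E m (x + 6) / 3 := by
    expo_div
  linarith

/-- stage 1 -/
lemma num1 {m x T η L2 fr v Sqv k Λ R ρ : ℝ} (hm : 1 ≤ m) (hb : (5 : ℝ) * 10 ^ 14 ≤ m)
    (hq : 4700 ≤ E m (1 / 4)) (hx : 800 ≤ x) (hx' : x ≤ 1000 + 1 / 10)
    (hT : O m 2 361 T) (hη : O m 2 (x / 2 + 1 / 10) η) (hL2 : O m 2 305 L2)
    (hfr : O m 2 (x / 2) fr) (hv : O m 1 6 v) (hSq : O m 2 (x / 2 + 3) Sqv)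
    (hk : O m 100 (x / 2 + 3) k) (hΛ : O m 1 ((2003 - x) / 4) Λ)
    (hR : O m 2 x R) (hρ : O m 1 x ρ) :
    4 * (T + η * Sqv + (T + 8 * (fr + v)) * Sqv)
      + (4 * η * L2 + 28 * (√ρ * v) + 72 * (√ρ * Λ)
          + 64 * ((fr + v) * L2) + 156 * ((Λ + v) * k)) * v
      + 1200 * R ≤ E m (x + 4) := by
  have h1 : 4 * (T + η * Sqv + (T + 8 * (fr + v)) * Sqv) ≤ E m (x + 4) / 3 := by
    refine final_div' hm (e := 1 / 4) (by norm_num) (by expoO) ?_ ?_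
    · norm_num
      try linarith
    · expoMax
  have h2 : (4 * η * L2 + 28 * (√ρ * v) + 72 * (√ρ * Λ)
          + 64 * ((fr + v) * L2) + 156 * ((Λ + v) * k)) * v ≤ E m (x + 4) / 3 := by
    expo_div
  have h3 : 1200 * R ≤ E m (x + 4) / 3 := by
    expo_div
  linarith

end Crest.Agent.R62.VNum
end

-- ▼ part R62/MainV
section

/-!
R62 (helper644): the target inequalities for `V = ∑ K_zz²` in both stages.
-/

set_option autoImplicit false
set_option linter.unusedSectionVars false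
set_option linter.unusedVariables false

open Matrix Finset

namespace Crest.Agent.R62.MainV

open Crest.Agent.R62.Step Crest.Agent.R62.DiagAv Crest.Agent.R62.Expo Crest.Agent.R62.Nums
open Crest.Agent.R62.VNum Crest.Agent.R62.AvV Crest.Agent.R62.WtOf
open Crest.Agent.R062
open Crest.Agent.R62.AvBase (OpB)

variable {ι : Type} [Fintype ι] [DecidableEq ι]

lemma sg_sq (b : Bool) : (Mach.sg b : ℝ) ^ 2 = 1 := by cases b <;> simp [Mach.sg]

lemma γ_le_one {γ : ℝ} (h0 : 0 < γ) (h : γ ^ 2 ≤ 1 / 2) : γ ≤ 1 := by nlinarith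

lemma inc_V {m k : ℕ} {S : Finset (ι × ι)} {Θ : ι → ι → ℝ} {K : Bool → Matrix ι ι ℝ} (b : Bool)
    (hm : (0 : ℝ) < m) {D : ℝ}
    (h : SW (wt S Θ) (fun x y => Vf (Upd.upd (Mach.sg b : ℝ) (K b) x y) - Vf (K b)) ≤ D) :
    inc S Θ (fun x y => AvX1.Vf (nx b K x y) / (m : ℝ) ^ k) (AvX1.Vf (K b) / (m : ℝ) ^ k)
      ≤ D / (m : ℝ) ^ k := by
  rw [inc_eq_SW]
  have e : SW (wt S Θ) (fun x y => AvX1.Vf (nx b K x y) / (m : ℝ) ^ k
      - AvX1.Vf (K b) / (m : ℝ) ^ k)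
      = (1 / (m : ℝ) ^ k) * SW (wt S Θ) (fun x y => Vf (Upd.upd (Mach.sg b : ℝ) (K b) x y)
        - Vf (K b)) := by
    rw [← SW_smul]
    congr 1
    funext x y
    have : AvX1.Vf (nx b K x y) = Vf (Upd.upd (Mach.sg b : ℝ) (K b) x y) := rfl
    rw [this]
    have : AvX1.Vf (K b) = Vf (K b) := rfl
    rw [this]
    ring
  rw [e, one_div_mul_eq_div]
  exact div_le_div_of_nonneg_right h (by positivity)

/-- common bounds -/
lemma Sq_bd {K : Matrix ι ι ℝ} (hK : K.IsSymm) {m a b : ℝ} (hm : 1 ≤ m) (hV : O m 1 a (Vf K))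
    (hR : O m 2 b (∑ z, (K ^ 2) z z ^ 2)) : O m 2 (a / 2 + b / 2) (Sq K (dg K)) := by
  have h0 : 0 < m := lt_of_lt_of_le one_pos hm
  refine ⟨Sq_nonneg _ _, (Sq_le hK _).trans ?_⟩
  have h1 : n2 (dg K) ≤ E m (a / 2) := by
    rw [show n2 (dg K) = √(Vf K) from rfl, ← E_sqrt h0]
    exact Real.sqrt_le_sqrt (by simpa using hV.le)
  have h2 : n2 (fun z => (K ^ 2) z z) ≤ 2 * E m (b / 2) := by
    rw [show n2 (fun z => (K ^ 2) z z) = √(∑ z, (K ^ 2) z z ^ 2) from rfl]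
    refine Real.sqrt_le_iff.2 ⟨by have := E_pos h0 (b / 2); positivity, ?_⟩
    rw [mul_pow, E_sq h0, show 2 * (b / 2) = b by ring]
    have := hR.le
    have := E_pos h0 b
    linarith
  calc _ ≤ E m (a / 2) * (2 * E m (b / 2)) :=
        mul_le_mul h1 h2 (n2_nonneg _) (E_pos h0 _).le
    _ = 2 * E m (a / 2 + b / 2) := by rw [E_add h0]; ring


lemma sqrt_O {m C a z : ℝ} (hm : 1 ≤ m) (h : O m C a z) (hC : 1 ≤ C) : O m C (a / 2) √z := by
  have h0 : 0 < m := lt_of_lt_of_le one_pos hm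
  refine ⟨Real.sqrt_nonneg _, Real.sqrt_le_iff.2
    ⟨mul_nonneg (by linarith) (E_pos h0 _).le, ?_⟩⟩
  rw [mul_pow, E_sq h0, show 2 * (a / 2) = a by ring]
  have h1 := h.le
  have h2 := E_pos h0 a
  nlinarith [mul_nonneg (mul_nonneg (by linarith : (0:ℝ) ≤ C) (by linarith : (0:ℝ) ≤ C - 1)) h2.le]

/-- `n2 (kk K)` -/
lemma kk_bd {K : Matrix ι ι ℝ} {g : ℝ} (hK : K.IsSymm) (hg : g ≤ 1) (hg0 : 0 ≤ g)
    (he : ∀ z x, K z x ^ 2 ≤ (g + |K z z|) * (g + |K x x|)) {m a b : ℝ} (hm : 1 ≤ m)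
    (ha : 0 ≤ a) (hab : 9 * a ≤ b)
    (hV : O m 1 a (Vf K)) (hR : O m 2 b (∑ z, (K ^ 2) z z ^ 2)) :
    O m 100 (a / 2 + b / 2) (n2 (kk K)) := by
  have h0 : 0 < m := lt_of_lt_of_le one_pos hm
  refine O.mono_z ?_ (n2_nonneg _) (KapB.n2_kk_le hK hg hg0 he)
  have hv := sqrt_O hm hV le_rfl
  have hr := sqrt_O hm hR (by norm_num)
  have h1 : O m (2 * (1 + 1) * 2) (0 + max 0 (a / 2) + b / 2)
      (2 * (1 + √(Vf K)) * √(∑ z, (K ^ 2) z z ^ 2)) :=
    ((O.ofNat 2).mul hm ((O.one).add hm hv)).mul hm hr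
  have h2 : O m 16 ((max 0 a + max 0 a + max 0 a + a + (a / 2 + b / 2)) / 2)
      √(8 * (1 + Vf K) ^ 3 * Vf K * (√(Vf K) * √(∑ z, (K ^ 2) z z ^ 2))) := by
    have h3 : O m (8 * (1 + 1) ^ 3 * 1 * (1 * 2)) (0 + (max 0 a + max 0 a + max 0 a) + a
        + (a / 2 + b / 2)) (8 * (1 + Vf K) ^ 3 * Vf K * (√(Vf K) * √(∑ z, (K ^ 2) z z ^ 2))) :=
      (((O.ofNat 8).mul hm (((O.one).add hm hV).cube hm)).mul hm hV).mul hm (hv.mul hm hr)
    refine ⟨Real.sqrt_nonneg _, Real.sqrt_le_iff.2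
      ⟨mul_nonneg (by norm_num) (E_pos h0 _).le, ?_⟩⟩
    rw [mul_pow, E_sq h0]
    have h4 := h3.le
    have h5 : E m (0 + (max 0 a + max 0 a + max 0 a) + a + (a / 2 + b / 2))
        = E m (2 * ((max 0 a + max 0 a + max 0 a + a + (a / 2 + b / 2)) / 2)) := by
      congr 1; ring
    rw [h5] at h4
    have h6 := E_pos h0 (2 * ((max 0 a + max 0 a + max 0 a + a + (a / 2 + b / 2)) / 2))
    linarith
  have hm1 : max 0 a = a := max_eq_right ha
  have hm2 : max 0 (a / 2) = a / 2 := max_eq_right (by linarith)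
  rw [hm1] at h2
  rw [hm2] at h1
  refine (h1.add hm h2).mono hm (by norm_num) (max_le (by linarith) (by linarith))

lemma fr_bd {K : Matrix ι ι ℝ} (hK : K.IsSymm) {m a : ℝ} (hm : 1 ≤ m)
    (h : (K ^ 2).trace ≤ 2 * E m a) : O m 2 (a / 2) (frK K) := by
  have h0 : 0 < m := lt_of_lt_of_le one_pos hm
  refine ⟨frK_nonneg _, ?_⟩
  refine (abs_le_of_sq_le_sq' ?_ (mul_nonneg (by norm_num) (E_pos h0 _).le)).2
  rw [frK_sq hK, mul_pow, E_sq h0, show 2 * (a / 2) = a by ring]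
  have := E_pos h0 a
  linarith

lemma pE (m : ℕ) (k : ℕ) [k.AtLeastTwo] : (m : ℝ) ^ (OfNat.ofNat k : ℕ) = E m (OfNat.ofNat k) :=
  (E_ofNat _ _).symm

lemma small_num {m x a b v r V : ℝ} (hm : 1 ≤ m) (hb : (5 : ℝ) * 10 ^ 14 ≤ m)
    (h2 : a + b + 1 ≤ x) (h3 : a / 2 + b + 1 ≤ x) (ha : 0 ≤ a)
    (hv : O m 1 (a / 2) v) (hV : O m 1 a V) (hr : O m 2 b r) :
    v * r ≤ E m x / 100 ∧ V * r ≤ E m x / 100 := by
  constructor <;> expo_div

theorem s1v : S1V ι := by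
  intro d n m γ F K S Θ h c B t b
  have P := par h
  have R := rho1 h B
  have hm1 := P.m1
  have hm0 := P.m0
  have hmb := P.mbig
  have hq := big_quarter P
  have hw := wt1 h c B t b
  have hx := R.lo
  have hx' := R.hi
  have hρ := R.eq
  set x := ex (m : ℝ) F.card with hxdef
  have hs := sg_sq b
  have hK := c.symm b
  have hF := c.dead b
  have hρO := R.O
  have hρ0 := R.pos
  have hE0 := E_pos hm0 x
  have hbig : ∀ a : ℝ, 1 ≤ a → (5 : ℝ) * 10 ^ 14 ≤ E m a := fun a ha => by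
    refine hmb.trans ?_
    calc (m : ℝ) = E m 1 := (E_one _).symm
      _ ≤ E m a := E_mono hm1 ha
  -- atoms
  have hV : O (m : ℝ) 1 6 (Vf (K b)) := by
    refine O.of_le (Vf_nonneg _) ?_
    have := B.Vu b
    rwa [pE] at this
  have hRR : O (m : ℝ) 2 x (∑ z, (K b ^ 2) z z ^ 2) :=
    ⟨Finset.sum_nonneg fun _ _ => sq_nonneg _, by rw [← hρ]; exact Rf_le1 h c B b⟩
  have hX2 := X2_le1 P B b
  have hfr := fr_bd (K := K b) hK (m := m) (a := x) hm1 (by rw [← hρ]; linarith)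
  have hSq := Sq_bd hK hm1 hV hRR
  have hγ1 := γ_le_one c.γ0 c.γ1
  have hρ3 : (1000 : ℝ) ≤ F.card := by
    rw [hρ]; exact le_trans (by norm_num) (hbig x (by linarith))
  have he := KapB.entry_sq_le hK hF hs c.γ0.le hγ1 (c.row b) (c.low b)
  have hg0 : (0 : ℝ) ≤ γ + 2 / F.card :=
    add_nonneg c.γ0.le (div_nonneg (by norm_num) (by linarith))
  have hg1 : (γ : ℝ) + 2 / F.card ≤ 1 := by
    have h1 : (2 : ℝ) / F.card ≤ 2 / 1000 :=
      div_le_div_of_nonneg_left (by norm_num) (by norm_num) hρ3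
    have h2 : γ ≤ 71 / 100 := by nlinarith [c.γ0, c.γ1]
    linarith
  have hk := kk_bd hK hg1 hg0 he hm1 (by norm_num) (by linarith) hV hRR
  have hv2 := sqrt_O hm1 hV le_rfl
  have hr2 := sqrt_O hm1 hRR (by norm_num)
  have hκ : ∑ y, kk (K b) y ≤ 3 / 5 * E m x := by
    have hn := small_num (x := x) hm1 hmb (by linarith) (by linarith) (by norm_num) hv2 hV hr2
    have hh := kappa_box hK hF hs c.γ0.le c.γ1 (c.row b) (c.low b) hρ3 (by linarith)
      (by rw [hρ]; exact hn.1) (by rw [hρ]; exact hn.2)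
    rwa [hρ] at hh
  have hT : O (m : ℝ) 2 361 |(K b).trace| := by
    refine ⟨abs_nonneg _, ?_⟩
    have h1 := B.X1u b
    have h2 := B.X1l b
    have h3 : U m F.card ≤ (m : ℝ) ^ 361 := by
      unfold U
      have : max 0 (min 1 (((F.card : ℝ) - (m : ℝ) ^ 800) / (m : ℝ) ^ 800)) ≤ 1 :=
        max_le zero_le_one (min_le_left _ _)
      have h4 : (0 : ℝ) ≤ (m : ℝ) ^ 361 := by positivity
      nlinarith
    have h4 : (m : ℝ) ^ 335 ≤ (m : ℝ) ^ 361 := pow_le_pow_right₀ hm1 (by norm_num)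
    have h5 : (m : ℝ) ^ 361 = E m 361 := pE m 361
    rw [← h5, abs_le]
    constructor <;> linarith
  have hη : O (m : ℝ) 2 (x / 2 + 1 / 10) (E m ((x + 1 / 5) / 2) + E m 371) := by
    refine ((O.E hm0 _).add hm1 (O.E hm0 _)).mono hm1 (by norm_num) (max_le (by linarith) (by linarith))
  have hWp : ∀ z, (K b ^ 2) z z ≤ 2 * E m 305 := by
    intro z
    by_cases hz : z ∈ F
    · have h1 := diag_W_le (F := F) (K b) hz
      have h2 := B.Wu b
      rw [pE] at h2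
      have h3 : (E (m : ℝ) 305) ^ 2 = E m 610 := by
        rw [E_sq hm0]; congr 1; norm_num
      have h4 : ((K b ^ 2) z z - 1) ^ 2 ≤ (E (m : ℝ) 305) ^ 2 := by rw [h3]; linarith
      have h5 := (abs_le_of_sq_le_sq' h4 (E_pos hm0 _).le).2
      have h6 := hbig 305 (by norm_num)
      linarith
    · have h1 : (K b ^ 2) z z = 0 := by
        rw [pow_two, Matrix.mul_apply]
        exact Finset.sum_eq_zero fun j _ => by rw [hF z j hz, zero_mul]
      rw [h1]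
      have := E_pos hm0 305
      linarith
  have hL2 : OpB (Ksq (K b)) (2 * E m 305) := KapB.opB_Ksq' hK (by have := E_pos hm0 305; linarith) hWp
  have hL2O : O (m : ℝ) 2 305 (2 * E m 305) := ⟨by have := E_pos hm0 305; linarith, le_rfl⟩
  have hΛ := (opB1 h c B b).2
  have hm' : (1 : ℝ) / m ≤ 1 / 10 := by
    refine div_le_div_of_nonneg_left (by norm_num) (by norm_num) (by linarith)
  have hξ : E (m : ℝ) (x - 1) + 1 / (m : ℝ) * F.card ≤ E m x / 10 := by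
    rw [hρ]
    have e1 : E (m : ℝ) (x - 1) = E m x / m := by rw [E_sub hm0, E_one]
    rw [e1, div_add' _ _ _ hm0.ne', div_le_div_iff₀ hm0 (by norm_num)]
    have : 1 / (m : ℝ) * E m x * m = E m x := by field_simp
    rw [this]
    nlinarith
  have hd := drift hK hF hs (c.row b) hΛ hL2 hw hρ hm' hξ hκ (T := |(K b).trace|) le_rfl
    (R := ∑ z, (K b ^ 2) z z ^ 2) le_rfl (fr := frK (K b)) le_rfl (v := Vf (K b)) le_rfl
    (Sqv := Sq (K b) (dg (K b))) le_rfl (k := n2 (kk (K b))) le_rfl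
  have hn := num1 (ρ := E m x) hm1 hmb hq hx hx' hT hη hL2O hfr hV
    (hSq.mono hm1 le_rfl (by linarith)) (hk.mono hm1 le_rfl (by linarith))
    (O.E hm0 ((2003 - x) / 4)) hRR (O.E hm0 x)
  have hfin := inc_V (k := 6) b hm0 (hd.trans hn)
  refine hfin.trans (le_of_eq ?_)
  rw [E_add hm0, ← hρ]
  have e4 : E (m : ℝ) 4 = (m : ℝ) ^ 4 := (pE m 4).symm
  rw [e4, div_eq_div_iff (pow_ne_zero _ hm0.ne') (pow_ne_zero _ hm0.ne')]
  ring

theorem s2v : S2V ι := by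
  intro d n m γ x0 F K S h c B b
  have P := par h
  have R := rho2 h B
  have hm1 := P.m1
  have hm0 := P.m0
  have hmb := P.mbig
  have hq := big_quarter P
  have hw := wt2 h c B b
  have hx := R.lo
  have hx' := R.hi
  have hρ := R.eq
  set x := ex (m : ℝ) F.card with hxdef
  have hs := sg_sq b
  have hK := c.symm b
  have hF := c.dead b
  have hρO := R.O
  have hρ0 := R.pos
  have hE0 := E_pos hm0 x
  have hbig : ∀ a : ℝ, 1 ≤ a → (5 : ℝ) * 10 ^ 14 ≤ E m a := fun a ha => by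
    refine hmb.trans ?_
    calc (m : ℝ) = E m 1 := (E_one _).symm
      _ ≤ E m a := E_mono hm1 ha
  -- atoms
  have hV : O (m : ℝ) 1 8 (Vf (K b)) := by
    refine O.of_le (Vf_nonneg _) ?_
    have := B.Vu b
    rwa [pE] at this
  have hX2 : (K b ^ 2).trace ≤ 101 / 100 * E m x := by
    have h1 := B.X2u b
    have h2 : phi2 (r1 d n m) F.card ≤ F.card := by
      unfold phi2
      rw [div_le_iff₀ (by have := P.r1_pos; linarith)]
      nlinarith [P.r1_pos]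
    have h3 : (m : ℝ) ^ 670 ≤ E m x / 100 := by
      rw [pE, le_div_iff₀ (by norm_num)]
      calc E (m : ℝ) 670 * 100 ≤ E m 670 * E m 1 :=
            mul_le_mul_of_nonneg_left (by rw [E_one]; linarith) (E_pos hm0 _).le
        _ = E m 671 := by rw [E_mul hm0]; norm_num
        _ ≤ E m x := E_mono hm1 (by linarith)
    rw [hρ] at h2
    rw [hρ] at h1
    linarith
  have hRR : O (m : ℝ) 2 (x + 13 / 4) (∑ z, (K b ^ 2) z z ^ 2) := by
    refine ⟨Finset.sum_nonneg fun _ _ => sq_nonneg _, ?_⟩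
    have h1 := Rf_eq (K := K b) (F := F) hK hF
    have h2 := B.Wu b
    rw [pE] at h2
    have h3 : (∑ z, (K b ^ 2) z z ^ 2) = Rf (K b) := rfl
    rw [h3, h1, hρ]
    have h4 : E (m : ℝ) 683 ≤ E m (x + 13 / 4) := E_mono hm1 (by linarith)
    have h5 : E (m : ℝ) (x + 13 / 4) = E m x * E m (13 / 4) := E_add hm0 _ _
    have h6 := hbig (13 / 4) (by norm_num)
    have h7 : 3 * E (m : ℝ) x ≤ E m (x + 13 / 4) := by rw [h5]; nlinarith
    linarith
  have hfr := fr_bd (K := K b) hK (m := m) (a := x) hm1 (by linarith)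
  have hSq := Sq_bd hK hm1 hV hRR
  have hγ1 := γ_le_one c.γ0 c.γ1
  have hρ3 : (1000 : ℝ) ≤ F.card := by
    rw [hρ]; exact le_trans (by norm_num) (hbig x (by linarith))
  have he := KapB.entry_sq_le hK hF hs c.γ0.le hγ1 (c.row b) (c.low b)
  have hg0 : (0 : ℝ) ≤ γ + 2 / F.card :=
    add_nonneg c.γ0.le (div_nonneg (by norm_num) (by linarith))
  have hg1 : (γ : ℝ) + 2 / F.card ≤ 1 := by
    have h1 : (2 : ℝ) / F.card ≤ 2 / 1000 :=
      div_le_div_of_nonneg_left (by norm_num) (by norm_num) hρ3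
    have h2 : γ ≤ 71 / 100 := by nlinarith [c.γ0, c.γ1]
    linarith
  have hk := kk_bd hK hg1 hg0 he hm1 (by norm_num) (by linarith) hV hRR
  have hv2 := sqrt_O hm1 hV le_rfl
  have hr2 := sqrt_O hm1 hRR (by norm_num)
  have hκ : ∑ y, kk (K b) y ≤ 3 / 5 * E m x := by
    have hn := small_num (x := x) hm1 hmb (by linarith) (by linarith) (by norm_num) hv2 hV hr2
    have hh := kappa_box hK hF hs c.γ0.le c.γ1 (c.row b) (c.low b) hρ3 (by rw [hρ]; exact hX2)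
      (by rw [hρ]; exact hn.1) (by rw [hρ]; exact hn.2)
    rwa [hρ] at hh
  have hT : O (m : ℝ) 1 336 |(K b).trace| := by
    refine O.of_le (abs_nonneg _) ?_
    have := B.X1 b
    rwa [pE] at this
  have hη : O (m : ℝ) 1 (x / 2 + 1 / 10) (E m ((x + 1 / 5) / 2) + 0) := by
    rw [add_zero]
    exact (O.E hm0 _).mono hm1 (by norm_num) (by linarith)
  have hsup := KapB.sup_le hg1 hg0 he
  have hVle := hV.le
  have hL2 : OpB (Ksq (K b)) (5 * E m 300) := by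
    refine (KapB.opB_Ksq hK hsup (by have := Vf_nonneg (K b); linarith) (E_pos hm0 300)).mono ?_
    have h1 : 2 * (2 * (1 + Vf (K b))) * (∑ z, (K b ^ 2) z z ^ 2) / E m 300
        ≤ (4 * E m 300) ^ 2 := by
      rw [div_le_iff₀ (E_pos hm0 300)]
      have h2 : O (m : ℝ) 16 (max 0 8 + (x + 13 / 4))
          (2 * (2 * (1 + Vf (K b))) * (∑ z, (K b ^ 2) z z ^ 2)) := by
        have h3 := (((O.ofNat 2).mul hm1 ((O.ofNat 2).mul hm1 ((O.one).add hm1 hV))).mul hm1 hRR)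
        exact h3.mono hm1 (by norm_num) (by rw [max_eq_right (by norm_num : (0:ℝ) ≤ 8)]; linarith)
      have h4 := h2.le
      rw [max_eq_right (by norm_num : (0:ℝ) ≤ 8)] at h4
      have h5 : E (m : ℝ) (8 + (x + 13 / 4)) ≤ E m 900 := E_mono hm1 (by linarith)
      have h6 : (4 * E (m : ℝ) 300) ^ 2 * E m 300 = 16 * E m 900 := by
        rw [mul_pow, E_sq hm0, mul_assoc, E_mul hm0]; norm_num
      rw [h6]; linarith
    have h2 := Real.sqrt_le_sqrt h1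
    rw [Real.sqrt_sq (by have := E_pos hm0 300; linarith)] at h2
    linarith
  have hL2O : O (m : ℝ) 5 300 (5 * E m 300) := ⟨by have := E_pos hm0 300; linarith, le_rfl⟩
  have hΛ := (opB2 h c B b).2
  have hξ : E (m : ℝ) (x - 1) + 0 * F.card ≤ E m x / 10 := by
    have e1 : E (m : ℝ) (x - 1) = E m x / m := by rw [E_sub hm0, E_one]
    rw [e1, zero_mul, add_zero, div_le_div_iff₀ hm0 (by norm_num)]
    nlinarith
  have hd := drift hK hF hs (c.row b) hΛ hL2 hw hρ (by norm_num) hξ hκ (T := |(K b).trace|) le_rfl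
    (R := ∑ z, (K b ^ 2) z z ^ 2) le_rfl (fr := frK (K b)) le_rfl (v := Vf (K b)) le_rfl
    (Sqv := Sq (K b) (dg (K b))) le_rfl (k := n2 (kk (K b))) le_rfl
  have hn := num2 (ρ := E m x) hm1 hmb hq hx hx' hT hη hL2O hfr hV
    (hSq.mono hm1 le_rfl (by linarith)) (hk.mono hm1 le_rfl (by linarith))
    (O.E hm0 ((2004 - x) / 4)) hRR (O.E hm0 x)
  have hfin := inc_V (k := 8) b hm0 (hd.trans hn)
  refine hfin.trans (le_of_eq ?_)
  rw [E_add hm0, ← hρ]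
  have e4 : E (m : ℝ) 6 = (m : ℝ) ^ 6 := (pE m 6).symm
  rw [e4, div_eq_div_iff (pow_ne_zero _ hm0.ne') (pow_ne_zero _ hm0.ne')]
  ring

end Crest.Agent.R62.MainV
end

-- ▼ part R62/AvX3
section

/-!
R62: averaged one-step inequalities for `X₃ = Tr K³` (helper298).

* `dX3 s K x y` : exact one-step change, `L3 s K x y` : its leading polynomial;
* `dX3_sub_L3` : pointwise remainder on a good pair;
* `sum_L3` : exact sum of the leading part over all ordered pairs of live stubs;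
* `mean_X3`, `tilt_X3`, `sq_X3` : the sums over a set of good pairs.
-/

set_option autoImplicit false
set_option linter.unusedSectionVars false
set_option linter.unusedVariables false

open Matrix Finset

namespace Crest.Agent.R62.AvX3
open Crest.Agent.R62.Upd Crest.Agent.R62.X3Upd

section scalar
variable {s a b c : ℝ}

/-- facts on the coefficients for a good pair -/
lemma coef (hs : s ^ 2 = 1) (hc : |c| ≤ 1 / 4) (hab : |a * b| ≤ 1 / 4) :
    5 / 16 ≤ (1 - s * c) ^ 2 - a * b ∧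
    |b / ((1 - s * c) ^ 2 - a * b)| ≤ 4 * |b| ∧
    |a / ((1 - s * c) ^ 2 - a * b)| ≤ 4 * |a| ∧
    |s * (1 - s * c) / ((1 - s * c) ^ 2 - a * b)| ≤ 4 ∧
    |s * (1 - s * c) / ((1 - s * c) ^ 2 - a * b) - s| ≤ 4 * (|c| + |a| * |b|) ∧
    |s * (1 - s * c) / ((1 - s * c) ^ 2 - a * b) - s - c| ≤ 4 * (|c| + |a| * |b|) ∧
    |b / ((1 - s * c) ^ 2 - a * b) - b| ≤ 8 * |b| * (|c| + |a| * |b|) ∧
    |a / ((1 - s * c) ^ 2 - a * b) - a| ≤ 8 * |a| * (|c| + |a| * |b|) := by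
  have hs1 : |s| = 1 := by
    have : |s| ^ 2 = 1 := by rw [sq_abs]; exact hs
    nlinarith [abs_nonneg s]
  have hsc : |s * c| ≤ 1 / 4 := by rw [abs_mul, hs1, one_mul]; exact hc
  obtain ⟨h1, h2⟩ := abs_le.1 hsc
  obtain ⟨h3, h4⟩ := abs_le.1 hab
  obtain ⟨h5, h6⟩ := abs_le.1 hc
  set D := (1 - s * c) ^ 2 - a * b with hD
  have hD1 : 5 / 16 ≤ D := by rw [hD]; nlinarith
  have hDp : 0 < D := by linarith
  have hD0 : D ≠ 0 := ne_of_gt hDp
  have hc0 := abs_nonneg c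
  have ha0 := abs_nonneg a
  have hb0 := abs_nonneg b
  have hab' : |a| * |b| ≤ 1 / 4 := by rw [← abs_mul]; exact hab
  have key : ∀ u U : ℝ, |u| ≤ U → |u / D| ≤ 16 / 5 * U := by
    intro u U hu
    rw [abs_div, abs_of_pos hDp, div_le_iff₀ hDp]
    have : 0 ≤ U := (abs_nonneg u).trans hu
    nlinarith
  have hp : |1 - s * c| ≤ 5 / 4 := abs_le.2 ⟨by linarith, by linarith⟩
  have hcc : |c| * |c| ≤ |c| / 4 := by nlinarith
  have hcc' : c * c ≤ |c| / 4 := by rw [← abs_mul_abs_self]; exact hcc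
  refine ⟨hD1, ?_, ?_, ?_, ?_, ?_, ?_, ?_⟩
  · exact (key b |b| le_rfl).trans (by nlinarith)
  · exact (key a |a| le_rfl).trans (by nlinarith)
  · refine (key _ (5 / 4) ?_).trans (by norm_num)
    rw [abs_mul, hs1, one_mul]; exact hp
  · have e : s * (1 - s * c) / D - s = ((1 - s * c) * c + s * (a * b)) / D := by
      field_simp
      rw [hD]
      linear_combination (c - s * c ^ 2) * hs
    rw [e]
    refine (key _ (5 / 4 * |c| + |a| * |b|) ?_).trans ?_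
    · refine (abs_add_le _ _).trans (add_le_add ?_ ?_)
      · rw [abs_mul]; exact mul_le_mul_of_nonneg_right hp hc0
      · rw [abs_mul, hs1, one_mul, abs_mul]
    · nlinarith [mul_nonneg ha0 hb0]
  · have e : s * (1 - s * c) / D - s - c = (s * (1 - s * c) * (c * c) + (s + c) * (a * b)) / D := by
      field_simp
      rw [hD]
      linear_combination (c - s * c ^ 2) * hs
    rw [e]
    refine (key _ (5 / 4 * (|c| / 4) + 5 / 4 * (|a| * |b|)) ?_).trans ?_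
    · refine (abs_add_le _ _).trans (add_le_add ?_ ?_)
      · rw [abs_mul, abs_mul, hs1, one_mul, abs_mul]
        exact mul_le_mul hp hcc (by positivity) (by norm_num)
      · rw [abs_mul, abs_mul]
        refine mul_le_mul_of_nonneg_right ?_ (by positivity)
        refine (abs_add_le _ _).trans ?_
        rw [hs1]; linarith
    · nlinarith [mul_nonneg ha0 hb0]
  · have e : b / D - b = b * (2 * (s * c) - s ^ 2 * (c * c) + a * b) / D := by
      field_simp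
      rw [hD]; ring
    rw [e]
    refine (key _ (|b| * (9 / 4 * |c| + |a| * |b|)) ?_).trans ?_
    · rw [abs_mul]
      refine mul_le_mul_of_nonneg_left ?_ hb0
      refine (abs_add_le _ _).trans (add_le_add ?_ (by rw [abs_mul]))
      refine (abs_sub _ _).trans ?_
      rw [abs_mul, abs_mul, hs1, abs_mul, hs, abs_one, abs_mul]
      norm_num
      nlinarith
    · have := mul_nonneg hb0 (mul_nonneg ha0 hb0)
      have := mul_nonneg hb0 hc0
      nlinarith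
  · have e : a / D - a = a * (2 * (s * c) - s ^ 2 * (c * c) + a * b) / D := by
      field_simp
      rw [hD]; ring
    rw [e]
    refine (key _ (|a| * (9 / 4 * |c| + |a| * |b|)) ?_).trans ?_
    · rw [abs_mul]
      refine mul_le_mul_of_nonneg_left ?_ ha0
      refine (abs_add_le _ _).trans (add_le_add ?_ (by rw [abs_mul]))
      refine (abs_sub _ _).trans ?_
      rw [abs_mul, abs_mul, hs1, abs_mul, hs, abs_one, abs_mul]
      norm_num
      nlinarith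
    · have := mul_nonneg ha0 (mul_nonneg ha0 hb0)
      have := mul_nonneg ha0 hc0
      nlinarith


/-- remainder of the `t1` part -/
lemma rem1 {B1 B2 B3 s a b c h1 h2 h3 : ℝ}
    (e1 : |B1 - b| ≤ 8 * |b| * (|c| + |a| * |b|)) (e2 : |B2 - s - c| ≤ 4 * (|c| + |a| * |b|))
    (e3 : |B3 - a| ≤ 8 * |a| * (|c| + |a| * |b|)) :
    |t1 B1 B2 B3 h1 h2 h3 - (2 * s * h2 + b * h1 + 2 * c * h2 + a * h3)|
      ≤ 8 * ((|c| + |a| * |b|) * (|b| * |h1|)) + 8 * ((|c| + |a| * |b|) * (|a| * |h3|))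
        + 8 * ((|c| + |a| * |b|) * |h2|) := by
  have e : t1 B1 B2 B3 h1 h2 h3 - (2 * s * h2 + b * h1 + 2 * c * h2 + a * h3)
      = (B1 - b) * h1 + (B3 - a) * h3 + 2 * (B2 - s - c) * h2 := by unfold t1; ring
  rw [e]
  refine (abs_add_le _ _).trans (add_le_add ((abs_add_le _ _).trans (add_le_add ?_ ?_)) ?_)
  · rw [abs_mul]
    calc _ ≤ 8 * |b| * (|c| + |a| * |b|) * |h1| := mul_le_mul_of_nonneg_right e1 (abs_nonneg _)
      _ = _ := by ring
  · rw [abs_mul]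
    calc _ ≤ 8 * |a| * (|c| + |a| * |b|) * |h3| := mul_le_mul_of_nonneg_right e3 (abs_nonneg _)
      _ = _ := by ring
  · rw [abs_mul, abs_mul, abs_two]
    calc _ ≤ 2 * (4 * (|c| + |a| * |b|)) * |h2| :=
          mul_le_mul_of_nonneg_right (mul_le_mul_of_nonneg_left e2 (by norm_num)) (abs_nonneg _)
      _ = _ := by ring

/-- remainder of the `t2` part -/
lemma rem2 {B1 B2 B3 s a b c w m v g1 g2 g3 : ℝ} (hs : s ^ 2 = 1)
    (hc : |c| ≤ 1 / 4) (hab : |a| * |b| ≤ 1 / 4)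
    (e1 : |B1| ≤ 4 * |b|) (e2 : |B2 - s| ≤ 4 * (|c| + |a| * |b|))
    (e3 : |B3| ≤ 4 * |a|) :
    |t2 B1 B2 B3 w m v g1 g2 g3 - (v * g1 + 2 * (m * g2) + w * g3)|
      ≤ 24 * (|b| * (|w| * |g2| + |m| * |g1|)) + 24 * (|a| * (|v| * |g2| + |m| * |g3|))
        + 24 * (|m| * |g2|) + 16 * ((|c| + |a| * |b|) * (|v| * |g1| + |w| * |g3|))
        + 16 * (|b| ^ 2 * (|w| * |g1|)) + 16 * (|a| ^ 2 * (|v| * |g3|)) := by
  have hs1 : |s| = 1 := by
    have : |s| ^ 2 = 1 := by rw [sq_abs]; exact hs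
    nlinarith [abs_nonneg s]
  obtain ⟨e, he⟩ : ∃ e, e = B2 - s := ⟨_, rfl⟩
  have hB2 : B2 = s + e := by rw [he]; ring
  rw [← he] at e2
  have hb0 := abs_nonneg b
  have ha0 := abs_nonneg a
  have hc0 := abs_nonneg c
  have hE2 : |e| ≤ 2 := e2.trans (by linarith)
  have hE0 := abs_nonneg e
  have id : t2 B1 B2 B3 w m v g1 g2 g3 - (v * g1 + 2 * (m * g2) + w * g3)
      = B1 * (2 * (s + e)) * (w * g2 + m * g1) + B3 * (2 * (s + e)) * (v * g2 + m * g3)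
        + (e * (4 * s + 2 * e) + 2 * (B1 * B3)) * (m * g2)
        + e * (2 * s + e) * (v * g1 + w * g3) + B1 ^ 2 * (w * g1) + B3 ^ 2 * (v * g3) := by
    rw [hB2]; unfold t2
    linear_combination (2 * m * g2 + v * g1 + w * g3) * hs
  rw [id]
  have hse : |2 * (s + e)| ≤ 6 := by
    rw [abs_mul, abs_two]
    have := abs_add_le s e
    rw [hs1] at this; linarith
  have hB1 : |B1 * (2 * (s + e))| ≤ 24 * |b| := by
    rw [abs_mul]
    calc _ ≤ 4 * |b| * 6 := mul_le_mul e1 hse (abs_nonneg _) (by positivity)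
      _ = _ := by ring
  have hB3 : |B3 * (2 * (s + e))| ≤ 24 * |a| := by
    rw [abs_mul]
    calc _ ≤ 4 * |a| * 6 := mul_le_mul e3 hse (abs_nonneg _) (by positivity)
      _ = _ := by ring
  have hM : |e * (4 * s + 2 * e) + 2 * (B1 * B3)| ≤ 24 := by
    have h1 : |4 * s + 2 * e| ≤ 8 := by
      refine (abs_add_le _ _).trans ?_
      rw [abs_mul, abs_mul, hs1, abs_two, abs_of_pos (by norm_num : (0:ℝ) < 4)]; linarith
    have h2 : |B1 * B3| ≤ 4 := by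
      rw [abs_mul]
      calc _ ≤ 4 * |b| * (4 * |a|) := mul_le_mul e1 e3 (abs_nonneg _) (by positivity)
        _ = 16 * (|a| * |b|) := by ring
        _ ≤ _ := by linarith
    refine (abs_add_le _ _).trans ?_
    rw [abs_mul, abs_mul, abs_two]
    have : |e| * |4 * s + 2 * e| ≤ 2 * 8 := mul_le_mul hE2 h1 (abs_nonneg _) (by norm_num)
    linarith
  have hE : |e * (2 * s + e)| ≤ 16 * (|c| + |a| * |b|) := by
    have h1 : |2 * s + e| ≤ 4 := by
      refine (abs_add_le _ _).trans ?_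
      rw [abs_mul, hs1, abs_two]; linarith
    rw [abs_mul]
    calc _ ≤ 4 * (|c| + |a| * |b|) * 4 := mul_le_mul e2 h1 (abs_nonneg _) (by positivity)
      _ = _ := by ring
  have hB1s : |B1 ^ 2| ≤ 16 * |b| ^ 2 := by
    rw [abs_pow]
    calc _ ≤ (4 * |b|) ^ 2 := pow_le_pow_left₀ (abs_nonneg _) e1 2
      _ = _ := by ring
  have hB3s : |B3 ^ 2| ≤ 16 * |a| ^ 2 := by
    rw [abs_pow]
    calc _ ≤ (4 * |a|) ^ 2 := pow_le_pow_left₀ (abs_nonneg _) e3 2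
      _ = _ := by ring
  have pr : ∀ p q P Q : ℝ, |p| ≤ P → |q| ≤ Q → |p * q| ≤ P * Q := by
    intro p q P Q hp hq
    rw [abs_mul]; exact mul_le_mul hp hq (abs_nonneg _) ((abs_nonneg _).trans hp)
  have sm : ∀ p q r t : ℝ, |p * q + r * t| ≤ |p| * |q| + |r| * |t| := by
    intro p q r t
    refine (abs_add_le _ _).trans ?_
    rw [abs_mul, abs_mul]
  refine (abs_add_le _ _).trans (add_le_add ((abs_add_le _ _).trans (add_le_add
    ((abs_add_le _ _).trans (add_le_add ((abs_add_le _ _).trans (add_le_add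
    ((abs_add_le _ _).trans (add_le_add ?_ ?_)) ?_)) ?_)) ?_)) ?_)
  · refine (pr _ _ _ _ hB1 (sm _ _ _ _)).trans (le_of_eq (by ring))
  · refine (pr _ _ _ _ hB3 (sm _ _ _ _)).trans (le_of_eq (by ring))
  · refine (pr _ _ _ _ hM (le_of_eq (abs_mul _ _))).trans (le_of_eq (by ring))
  · refine (pr _ _ _ _ hE (sm _ _ _ _)).trans (le_of_eq (by ring))
  · refine (pr _ _ _ _ hB1s (le_of_eq (abs_mul _ _))).trans (le_of_eq (by ring))
  · refine (pr _ _ _ _ hB3s (le_of_eq (abs_mul _ _))).trans (le_of_eq (by ring))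

/-- bound of the cubic part -/
lemma rem3 {B1 B2 B3 a b w m v : ℝ} (hab : |a| * |b| ≤ 1 / 4)
    (e1 : |B1| ≤ 4 * |b|) (e2 : |B2| ≤ 4) (e3 : |B3| ≤ 4 * |a|) :
    |t3 B1 B2 B3 w m v|
      ≤ 1500 * ((|b| * |w|) ^ 3 + (|a| * |v|) ^ 3 + |m| ^ 3) + 200 * (|b| * |w| ^ 2 * |v|)
        + 200 * (|a| * |v| ^ 2 * |w|) + 400 * (|m| * (|w| * |v|)) := by
  have hb0 := abs_nonneg b
  have ha0 := abs_nonneg a
  have hm0 := abs_nonneg m
  have hw0 := abs_nonneg w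
  have hv0 := abs_nonneg v
  have pr : ∀ p q P Q : ℝ, |p| ≤ P → |q| ≤ Q → |p * q| ≤ P * Q := by
    intro p q P Q hp hq
    rw [abs_mul]; exact mul_le_mul hp hq (abs_nonneg _) ((abs_nonneg _).trans hp)
  have m11 : |B1 * w + B2 * m| ≤ 4 * (|b| * |w| + |m|) := by
    refine (abs_add_le _ _).trans ?_
    have h1 := pr _ _ _ _ e1 (le_refl |w|)
    have h2 := pr _ _ _ _ e2 (le_refl |m|)
    linarith
  have m12 : |B1 * m + B2 * v| ≤ 4 * (|b| * |m| + |v|) := by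
    refine (abs_add_le _ _).trans ?_
    have h1 := pr _ _ _ _ e1 (le_refl |m|)
    have h2 := pr _ _ _ _ e2 (le_refl |v|)
    linarith
  have m21 : |B2 * w + B3 * m| ≤ 4 * (|w| + |a| * |m|) := by
    refine (abs_add_le _ _).trans ?_
    have h1 := pr _ _ _ _ e2 (le_refl |w|)
    have h2 := pr _ _ _ _ e3 (le_refl |m|)
    linarith
  have m22 : |B2 * m + B3 * v| ≤ 4 * (|m| + |a| * |v|) := by
    refine (abs_add_le _ _).trans ?_
    have h1 := pr _ _ _ _ e2 (le_refl |m|)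
    have h2 := pr _ _ _ _ e3 (le_refl |v|)
    linarith
  have hoff : |(B1 * m + B2 * v) * (B2 * w + B3 * m)| ≤
      16 * ((|b| * |w|) * |m| + |m| ^ 2 / 4 + |w| * |v| + (|a| * |v|) * |m|) := by
    refine (pr _ _ _ _ m12 m21).trans ?_
    have : |a| * |b| * |m| ^ 2 ≤ 1 / 4 * |m| ^ 2 := mul_le_mul_of_nonneg_right hab (sq_nonneg _)
    nlinarith
  have id : t3 B1 B2 B3 w m v = (B1 * w + B2 * m) ^ 3 + (B2 * m + B3 * v) ^ 3
      + 3 * ((B1 * w + B2 * m) + (B2 * m + B3 * v))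
        * ((B1 * m + B2 * v) * (B2 * w + B3 * m)) := by unfold t3; ring
  rw [id]
  obtain ⟨u, hu⟩ : ∃ u, u = |b| * |w| := ⟨_, rfl⟩
  obtain ⟨z, hz⟩ : ∃ z, z = |a| * |v| := ⟨_, rfl⟩
  obtain ⟨n, hn⟩ : ∃ n, n = |m| := ⟨_, rfl⟩
  obtain ⟨r, hr⟩ : ∃ r, r = |w| * |v| := ⟨_, rfl⟩
  have hu0 : 0 ≤ u := by rw [hu]; positivity
  have hz0 : 0 ≤ z := by rw [hz]; positivity
  have hn0 : 0 ≤ n := by rw [hn]; positivity
  have hr0 : 0 ≤ r := by rw [hr]; positivity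
  have h1 : |(B1 * w + B2 * m) ^ 3| ≤ 64 * (u + n) ^ 3 := by
    rw [abs_pow, hu, hn]
    calc _ ≤ (4 * (|b| * |w| + |m|)) ^ 3 := pow_le_pow_left₀ (abs_nonneg _) m11 3
      _ = _ := by ring
  have h2 : |(B2 * m + B3 * v) ^ 3| ≤ 64 * (n + z) ^ 3 := by
    rw [abs_pow, hz, hn]
    calc _ ≤ (4 * (|m| + |a| * |v|)) ^ 3 := pow_le_pow_left₀ (abs_nonneg _) m22 3
      _ = _ := by ring
  have h3 : |3 * ((B1 * w + B2 * m) + (B2 * m + B3 * v))
        * ((B1 * m + B2 * v) * (B2 * w + B3 * m))|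
      ≤ (12 * (u + 2 * n + z)) * (16 * (u * n + n ^ 2 / 4 + r + z * n)) := by
    refine pr _ _ _ _ ?_ ?_
    · rw [abs_mul, abs_of_pos (by norm_num : (0:ℝ) < 3)]
      have := abs_add_le (B1 * w + B2 * m) (B2 * m + B3 * v)
      rw [hu, hz, hn]; linarith
    · rw [hu, hz, hn, hr]; exact hoff
  have hfin : 64 * (u + n) ^ 3 + 64 * (n + z) ^ 3
      + (12 * (u + 2 * n + z)) * (16 * (u * n + n ^ 2 / 4 + r + z * n))
      ≤ 1500 * (u ^ 3 + z ^ 3 + n ^ 3) + 200 * (u * r) + 200 * (z * r) + 400 * (n * r) := by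
    have am1 : ∀ p q : ℝ, 0 ≤ p → 0 ≤ q → p ^ 2 * q ≤ (2 * p ^ 3 + q ^ 3) / 3 := by
      intro p q hp hq
      nlinarith [mul_nonneg (by linarith : 0 ≤ 2 * p + q) (sq_nonneg (p - q))]
    have k1 := am1 u n hu0 hn0
    have k2 := am1 n u hn0 hu0
    have k3 := am1 z n hz0 hn0
    have k4 := am1 n z hn0 hz0
    have k5 : u * z * n ≤ (u ^ 3 + z ^ 3 + n ^ 3) / 3 := by
      nlinarith [mul_nonneg (by linarith : 0 ≤ u + z + n) (add_nonneg (add_nonneg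
        (sq_nonneg (u - z)) (sq_nonneg (z - n))) (sq_nonneg (u - n)))]
    have p1 := pow_nonneg hu0 3
    have p2 := pow_nonneg hz0 3
    have p3 := pow_nonneg hn0 3
    have q1 := mul_nonneg hu0 hr0
    have q2 := mul_nonneg hz0 hr0
    have q3 := mul_nonneg hn0 hr0
    linarith
  have hge : |b| * |w| ^ 2 * |v| = u * r := by rw [hu, hr]; ring
  have hge' : |a| * |v| ^ 2 * |w| = z * r := by rw [hz, hr]; ring
  rw [hge, hge', ← hu, ← hz, ← hn, ← hr]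
  refine le_trans ((abs_add_le _ _).trans (add_le_add ((abs_add_le _ _).trans
    (add_le_add h1 h2)) h3)) hfin

end scalar
/-! ### sums over pairs -/

variable {ι : Type*} [Fintype ι] [DecidableEq ι]

lemma cs (S : Finset (ι × ι)) (f g : ι → ι → ℝ) {α β : ℝ} (hα : 0 ≤ α) (hβ : 0 ≤ β)
    (hf : ∑ x, ∑ y, f x y ^ 2 ≤ α ^ 2) (hg : ∑ x, ∑ y, g x y ^ 2 ≤ β ^ 2) :
    ∑ p ∈ S, |f p.1 p.2| * |g p.1 p.2| ≤ α * β := by
  have h := AvBase.sum_pairs_sq_le S (fun x y => |f x y|) (fun x y => |g x y|)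
  simp only [sq_abs] at h
  have h0 : 0 ≤ ∑ x, ∑ y, f x y ^ 2 :=
    Finset.sum_nonneg fun x _ => Finset.sum_nonneg fun y _ => sq_nonneg _
  have h1 : (∑ p ∈ S, |f p.1 p.2| * |g p.1 p.2|) ^ 2 ≤ (α * β) ^ 2 := by
    rw [mul_pow]
    exact h.trans (mul_le_mul hf hg
      (Finset.sum_nonneg fun x _ => Finset.sum_nonneg fun y _ => sq_nonneg _) (sq_nonneg _))
  exact (abs_le_of_sq_le_sq' h1 (mul_nonneg hα hβ)).2

lemma n2 (f g : ι → ℝ) {α β : ℝ} (hf : ∑ x, f x ^ 2 ≤ α ^ 2)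
    (hg : ∑ x, g x ^ 2 ≤ β ^ 2) : ∑ x, ∑ y, (f x * g y) ^ 2 ≤ (α * β) ^ 2 := by
  have e : ∑ x, ∑ y, (f x * g y) ^ 2 = (∑ x, f x ^ 2) * ∑ y, g y ^ 2 := by
    rw [Finset.sum_mul_sum]
    exact Finset.sum_congr rfl fun x _ => Finset.sum_congr rfl fun y _ => by ring
  rw [e, mul_pow]
  exact mul_le_mul hf hg (Finset.sum_nonneg fun x _ => sq_nonneg _) (sq_nonneg _)

lemma entry_le (f : ι → ι → ℝ) {α : ℝ} (hα : 0 ≤ α) (hf : ∑ x, ∑ y, f x y ^ 2 ≤ α ^ 2)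
    (x y : ι) : |f x y| ≤ α := by
  refine abs_le_of_sq_le_sq ?_ hα
  refine le_trans ?_ hf
  refine le_trans ?_ (Finset.single_le_sum (f := fun x => ∑ y, f x y ^ 2)
    (fun x _ => Finset.sum_nonneg fun y _ => sq_nonneg _) (Finset.mem_univ x))
  exact Finset.single_le_sum (f := fun y => f x y ^ 2) (fun y _ => sq_nonneg _)
    (Finset.mem_univ y)

lemma sum_sq_le (S : Finset (ι × ι)) (f : ι → ι → ℝ) {α : ℝ}
    (hf : ∑ x, ∑ y, f x y ^ 2 ≤ α) : ∑ p ∈ S, f p.1 p.2 ^ 2 ≤ α := by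
  refine le_trans ?_ hf
  rw [← Finset.sum_product']
  exact Finset.sum_le_sum_of_subset_of_nonneg (by intro p _; simp) fun p _ _ => sq_nonneg _

lemma cube (S : Finset (ι × ι)) (f : ι → ι → ℝ) {α : ℝ} (hα : 0 ≤ α)
    (hf : ∑ x, ∑ y, f x y ^ 2 ≤ α ^ 2) : ∑ p ∈ S, |f p.1 p.2| ^ 3 ≤ α ^ 3 := by
  calc ∑ p ∈ S, |f p.1 p.2| ^ 3 ≤ ∑ p ∈ S, α * f p.1 p.2 ^ 2 := by
        refine Finset.sum_le_sum fun p _ => ?_
        have h := entry_le f hα hf p.1 p.2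
        calc |f p.1 p.2| ^ 3 = |f p.1 p.2| * |f p.1 p.2| ^ 2 := by ring
          _ ≤ α * |f p.1 p.2| ^ 2 := mul_le_mul_of_nonneg_right h (by positivity)
          _ = _ := by rw [sq_abs]
    _ = α * ∑ p ∈ S, f p.1 p.2 ^ 2 := by rw [Finset.mul_sum]
    _ ≤ α * α ^ 2 := mul_le_mul_of_nonneg_left (sum_sq_le S f hf) hα
    _ = _ := by ring

/-! ### the objects -/

/-- one-step change of `X₃` -/
noncomputable def dX3 (s : ℝ) (K : Matrix ι ι ℝ) (x y : ι) : ℝ :=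
  ip (upd s K x y) ((upd s K x y) ^ 2) - ip K (K ^ 2)

/-- `(K³ - K)_xy` -/
def G3 (K : Matrix ι ι ℝ) (x y : ι) : ℝ := (K ^ 3) x y - K x y
/-- `(K⁴ - K²)_xy` -/
def G4 (K : Matrix ι ι ℝ) (x y : ι) : ℝ := (K ^ 4) x y - (K ^ 2) x y
/-- `(K²)_xx - 1` on live stubs -/
def wF (K : Matrix ι ι ℝ) (F : Finset ι) (x : ι) : ℝ := if x ∈ F then (K ^ 2) x x - 1 else 0

/-- leading part of `X₃' - X₃` -/
def L3 (s : ℝ) (K : Matrix ι ι ℝ) (F : Finset ι) (x y : ι) : ℝ :=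
  6 * s * G4 K x y + 6 * (K x y * G4 K x y + (K ^ 2) x y * G3 K x y)
    + 3 * (G4 K x x * K y y + K x x * G4 K y y + G3 K x x * wF K F y + wF K F x * G3 K y y)

/-- good ordered pairs of live stubs -/
def GoodS (K : Matrix ι ι ℝ) (F : Finset ι) (S : Finset (ι × ι)) : Prop :=
  ∀ p ∈ S, p.1 ∈ F ∧ p.2 ∈ F ∧ p.1 ≠ p.2 ∧ |K p.1 p.2| ≤ 1 / 4 ∧ |K p.1 p.1 * K p.2 p.2| ≤ 1 / 4

/-- pointwise remainder -/
def Rem (K : Matrix ι ι ℝ) (F : Finset ι) (x y : ι) : ℝ :=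
  24 * (|K x y| * |G4 K x x * K y y|) + 24 * (|K x x * K y y| * |G4 K x x * K y y|)
  + 24 * (|K x y| * |K x x * G4 K y y|) + 24 * (|K x x * K y y| * |K x x * G4 K y y|)
  + 24 * (|K x y| * |G4 K x y|) + 24 * (|K x x * K y y| * |G4 K x y|)
  + 72 * (|wF K F x * K y y| * |G3 K x y|) + 72 * (|G3 K x x * K y y| * |(K ^ 2) x y|)
  + 72 * (|K x x * wF K F y| * |G3 K x y|) + 72 * (|K x x * G3 K y y| * |(K ^ 2) x y|)
  + 72 * (|(K ^ 2) x y| * |G3 K x y|)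
  + 48 * (|K x y| * |G3 K x x * wF K F y|) + 48 * (|K x x * K y y| * |G3 K x x * wF K F y|)
  + 48 * (|K x y| * |wF K F x * G3 K y y|) + 48 * (|K x x * K y y| * |wF K F x * G3 K y y|)
  + 48 * (|wF K F x * K y y| * |G3 K x x * K y y|)
  + 48 * (|K x x * wF K F y| * |K x x * G3 K y y|)
  + 1500 * |wF K F x * K y y| ^ 3 + 1500 * |K x x * wF K F y| ^ 3
  + 1500 * (|(K ^ 2) x y| * |(K ^ 2) x x * (K ^ 2) y y|)
  + 200 * (|wF K F x * K y y| * |wF K F x * wF K F y|)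
  + 200 * (|K x x * wF K F y| * |wF K F x * wF K F y|)
  + 400 * (|(K ^ 2) x y| * |wF K F x * wF K F y|)

lemma m_cube_le {K : Matrix ι ι ℝ} (hK : K.IsSymm) (x y : ι) :
    |(K ^ 2) x y| ^ 3 ≤ |(K ^ 2) x y| * |(K ^ 2) x x * (K ^ 2) y y| := by
  have h := AvBase.entry_sq_le (K := K) hK 1 1 x y
  simp only [Nat.reduceAdd, mul_one] at h
  have h0 : 0 ≤ (K ^ 2) x x * (K ^ 2) y y :=
    mul_nonneg (AvBase.diag_sq_nonneg hK x) (AvBase.diag_sq_nonneg hK y)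
  rw [abs_of_nonneg h0]
  calc |(K ^ 2) x y| ^ 3 = |(K ^ 2) x y| * |(K ^ 2) x y| ^ 2 := by ring
    _ = |(K ^ 2) x y| * (K ^ 2) x y ^ 2 := by rw [sq_abs]
    _ ≤ _ := mul_le_mul_of_nonneg_left h (abs_nonneg _)

lemma abs3 {u v w U V W : ℝ} (h1 : |u| ≤ U) (h2 : |v| ≤ V) (h3 : |w| ≤ W) :
    |3 * u + 3 * v + w| ≤ 3 * U + 3 * V + W := by
  rw [abs_le] at *
  constructor <;> linarith [h1.1, h1.2, h2.1, h2.2, h3.1, h3.2]

/-- **pointwise remainder** -/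
theorem dX3_sub_L3 {s : ℝ} (hs : s ^ 2 = 1) {K : Matrix ι ι ℝ} (hK : K.IsSymm) {F : Finset ι}
    {x y : ι} (hx : x ∈ F) (hy : y ∈ F) (hxy : x ≠ y) (hc : |K x y| ≤ 1 / 4)
    (hab : |K x x * K y y| ≤ 1 / 4) :
    |dX3 s K x y - L3 s K F x y| ≤ Rem K F x y := by
  obtain ⟨c0, c1, c2, c3, c4, c5, c6, c7⟩ := coef hs hc hab
  have hD : Dl s K x y ≠ 0 := by
    have : 0 < Dl s K x y := by unfold Dl; linarith
    exact ne_of_gt this
  have hm := m_cube_le hK x y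
  have hab' : |K x x| * |K y y| ≤ 1 / 4 := by rw [← abs_mul]; exact hab
  unfold dX3
  rw [X3_upd hs hK hxy hD]
  have hwx : wF K F x = (K ^ 2) x x - 1 := by simp [wF, hx]
  have hwy : wF K F y = (K ^ 2) y y - 1 := by simp [wF, hy]
  have k1 := rem1 (h1 := G4 K x x) (h2 := G4 K x y) (h3 := G4 K y y) c6 c5 c7
  have k2 := rem2 (w := wF K F x) (m := (K ^ 2) x y) (v := wF K F y) (g1 := G3 K x x)
    (g2 := G3 K x y) (g3 := G3 K y y) hs hc hab' c1 c4 c2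
  have k3 := rem3 (w := wF K F x) (m := (K ^ 2) x y) (v := wF K F y) hab' c1 c3 c2
  have e : ip K (K ^ 2)
      + 3 * t1 (Bxx s K x y) (Bxy s K x y) (Byy s K x y) ((K ^ 4) x x - (K ^ 2) x x)
          ((K ^ 4) x y - (K ^ 2) x y) ((K ^ 4) y y - (K ^ 2) y y)
      + 3 * t2 (Bxx s K x y) (Bxy s K x y) (Byy s K x y) ((K ^ 2) x x - 1)
          ((K ^ 2) x y) ((K ^ 2) y y - 1) ((K ^ 3) x x - K x x)
          ((K ^ 3) x y - K x y) ((K ^ 3) y y - K y y)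
      + t3 (Bxx s K x y) (Bxy s K x y) (Byy s K x y) ((K ^ 2) x x - 1)
          ((K ^ 2) x y) ((K ^ 2) y y - 1) - ip K (K ^ 2) - L3 s K F x y
      = 3 * (t1 (K y y / ((1 - s * K x y) ^ 2 - K x x * K y y))
            (s * (1 - s * K x y) / ((1 - s * K x y) ^ 2 - K x x * K y y))
            (K x x / ((1 - s * K x y) ^ 2 - K x x * K y y))
            (G4 K x x) (G4 K x y) (G4 K y y)
            - (2 * s * G4 K x y + K y y * G4 K x x + 2 * K x y * G4 K x y + K x x * G4 K y y))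
        + 3 * (t2 (K y y / ((1 - s * K x y) ^ 2 - K x x * K y y))
            (s * (1 - s * K x y) / ((1 - s * K x y) ^ 2 - K x x * K y y))
            (K x x / ((1 - s * K x y) ^ 2 - K x x * K y y))
            (wF K F x) ((K ^ 2) x y) (wF K F y) (G3 K x x) (G3 K x y) (G3 K y y)
            - (wF K F y * G3 K x x + 2 * ((K ^ 2) x y * G3 K x y) + wF K F x * G3 K y y))
        + t3 (K y y / ((1 - s * K x y) ^ 2 - K x x * K y y))
            (s * (1 - s * K x y) / ((1 - s * K x y) ^ 2 - K x x * K y y))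
            (K x x / ((1 - s * K x y) ^ 2 - K x x * K y y))
            (wF K F x) ((K ^ 2) x y) (wF K F y) := by
    rw [hwx, hwy]
    simp only [L3, hwx, hwy, Bxx, Bxy, Byy, Dl, G3, G4]
    ring
  rw [e]
  refine (abs3 k1 k2 k3).trans ?_
  clear e k1 k2 k3 c0 c1 c2 c3 c4 c5 c6 c7 hD hwx hwy
  unfold Rem
  simp only [abs_mul] at hm ⊢
  generalize |G4 K x x| = H1
  generalize |G4 K x y| = H2
  generalize |G4 K y y| = H3
  generalize |G3 K x x| = E1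
  generalize |G3 K x y| = E2
  generalize |G3 K y y| = E3
  generalize |wF K F x| = W1
  generalize |wF K F y| = W3
  generalize |K x x| = A at *
  generalize |K y y| = B at *
  generalize |K x y| = C at *
  generalize |(K ^ 2) x y| = M at *
  generalize |(K ^ 2) x x| = Q1 at *
  generalize |(K ^ 2) y y| = Q2 at *
  linarith [hm]

/-! ### sums of the remainder -/

/-- bounds used everywhere -/
structure Bds (K : Matrix ι ι ℝ) (F : Finset ι) (v w r x1 x2 t3 t4 d3 d4 : ℝ) : Prop where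
  sym : K.IsSymm
  v0 : 0 ≤ v
  w0 : 0 ≤ w
  r0 : 0 ≤ r
  x10 : 0 ≤ x1
  x20 : 0 ≤ x2
  t30 : 0 ≤ t3
  t40 : 0 ≤ t4
  d30 : 0 ≤ d3
  d40 : 0 ≤ d4
  hV : ∑ x, K x x ^ 2 ≤ v ^ 2
  hW : ∑ x, wF K F x ^ 2 ≤ w ^ 2
  hR : ∑ x, (K ^ 2) x x ^ 2 ≤ r ^ 2
  hX1 : ∑ x, ∑ y, K x y ^ 2 ≤ x1 ^ 2
  hX2 : ∑ x, ∑ y, (K ^ 2) x y ^ 2 ≤ x2 ^ 2
  hT3 : ∑ x, ∑ y, G3 K x y ^ 2 ≤ t3 ^ 2
  hT4 : ∑ x, ∑ y, G4 K x y ^ 2 ≤ t4 ^ 2
  hD3 : ∑ x, G3 K x x ^ 2 ≤ d3 ^ 2
  hD4 : ∑ x, G4 K x x ^ 2 ≤ d4 ^ 2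

/-- total remainder -/
def Err (v w r x1 x2 t3 t4 d3 d4 : ℝ) : ℝ :=
  24 * ((x1 + v ^ 2) * (2 * (v * d4) + t4)) + 144 * (v * (w * t3 + d3 * x2)) + 72 * (x2 * t3)
    + 96 * ((x1 + 2 * v ^ 2) * (w * d3)) + 3000 * (v * w) ^ 3 + 1500 * (x2 * r ^ 2)
    + 400 * (v * w ^ 3) + 400 * (x2 * w ^ 2)

section
variable {K : Matrix ι ι ℝ} {F : Finset ι} {v w r x1 x2 t3 t4 d3 d4 : ℝ}

lemma Err_nonneg (h : Bds K F v w r x1 x2 t3 t4 d3 d4) : 0 ≤ Err v w r x1 x2 t3 t4 d3 d4 := by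
  have := h.v0; have := h.w0; have := h.r0; have := h.x10; have := h.x20
  have := h.t30; have := h.t40; have := h.d30; have := h.d40
  unfold Err; positivity

theorem sum_Rem (h : Bds K F v w r x1 x2 t3 t4 d3 d4) (S : Finset (ι × ι)) :
    ∑ p ∈ S, Rem K F p.1 p.2 ≤ Err v w r x1 x2 t3 t4 d3 d4 := by
  obtain ⟨sym, v0, w0, r0, x10, x20, t30, t40, d30, d40, hV, hW, hR, hX1, hX2, hT3, hT4,
    hD3, hD4⟩ := h
  have n_d4v := n2 (fun x => G4 K x x) (fun y => K y y) hD4 hV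
  have n_vd4 := n2 (fun x => K x x) (fun y => G4 K y y) hV hD4
  have n_vv := n2 (fun x => K x x) (fun y => K y y) hV hV
  have n_wv := n2 (wF K F) (fun y => K y y) hW hV
  have n_vw := n2 (fun x => K x x) (wF K F) hV hW
  have n_d3v := n2 (fun x => G3 K x x) (fun y => K y y) hD3 hV
  have n_vd3 := n2 (fun x => K x x) (fun y => G3 K y y) hV hD3
  have n_d3w := n2 (fun x => G3 K x x) (wF K F) hD3 hW
  have n_wd3 := n2 (wF K F) (fun y => G3 K y y) hW hD3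
  have n_rr := n2 (fun x => (K ^ 2) x x) (fun y => (K ^ 2) y y) hR hR
  have n_ww := n2 (wF K F) (wF K F) hW hW
  have v40 := mul_nonneg d40 v0
  have v41 := mul_nonneg v0 d40
  have vv0 := mul_nonneg v0 v0
  have wv0 := mul_nonneg w0 v0
  have vw0 := mul_nonneg v0 w0
  have v30 := mul_nonneg d30 v0
  have v31 := mul_nonneg v0 d30
  have w30 := mul_nonneg d30 w0
  have w31 := mul_nonneg w0 d30
  have rr0 := mul_nonneg r0 r0
  have ww0 := mul_nonneg w0 w0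
  have a1 := cs S (fun x y => K x y) (fun x y => G4 K x x * K y y) x10 v40 hX1 n_d4v
  have a2 := cs S (fun x y => K x x * K y y) (fun x y => G4 K x x * K y y) vv0 v40 n_vv n_d4v
  have a3 := cs S (fun x y => K x y) (fun x y => K x x * G4 K y y) x10 v41 hX1 n_vd4
  have a4 := cs S (fun x y => K x x * K y y) (fun x y => K x x * G4 K y y) vv0 v41 n_vv n_vd4
  have a5 := cs S (fun x y => K x y) (fun x y => G4 K x y) x10 t40 hX1 hT4
  have a6 := cs S (fun x y => K x x * K y y) (fun x y => G4 K x y) vv0 t40 n_vv hT4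
  have a7 := cs S (fun x y => wF K F x * K y y) (fun x y => G3 K x y) wv0 t30 n_wv hT3
  have a8 := cs S (fun x y => G3 K x x * K y y) (fun x y => (K ^ 2) x y) v30 x20 n_d3v hX2
  have a9 := cs S (fun x y => K x x * wF K F y) (fun x y => G3 K x y) vw0 t30 n_vw hT3
  have a10 := cs S (fun x y => K x x * G3 K y y) (fun x y => (K ^ 2) x y) v31 x20 n_vd3 hX2
  have a11 := cs S (fun x y => (K ^ 2) x y) (fun x y => G3 K x y) x20 t30 hX2 hT3
  have a12 := cs S (fun x y => K x y) (fun x y => G3 K x x * wF K F y) x10 w30 hX1 n_d3w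
  have a13 := cs S (fun x y => K x x * K y y) (fun x y => G3 K x x * wF K F y) vv0 w30 n_vv n_d3w
  have a14 := cs S (fun x y => K x y) (fun x y => wF K F x * G3 K y y) x10 w31 hX1 n_wd3
  have a15 := cs S (fun x y => K x x * K y y) (fun x y => wF K F x * G3 K y y) vv0 w31 n_vv n_wd3
  have a16 := cs S (fun x y => wF K F x * K y y) (fun x y => G3 K x x * K y y) wv0 v30 n_wv n_d3v
  have a17 := cs S (fun x y => K x x * wF K F y) (fun x y => K x x * G3 K y y) vw0 v31 n_vw n_vd3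
  have a18 := cube S (fun x y => wF K F x * K y y) wv0 n_wv
  have a19 := cube S (fun x y => K x x * wF K F y) vw0 n_vw
  have a20 := cs S (fun x y => (K ^ 2) x y) (fun x y => (K ^ 2) x x * (K ^ 2) y y) x20 rr0 hX2 n_rr
  have a21 := cs S (fun x y => wF K F x * K y y) (fun x y => wF K F x * wF K F y) wv0 ww0 n_wv n_ww
  have a22 := cs S (fun x y => K x x * wF K F y) (fun x y => wF K F x * wF K F y) vw0 ww0 n_vw n_ww
  have a23 := cs S (fun x y => (K ^ 2) x y) (fun x y => wF K F x * wF K F y) x20 ww0 hX2 n_ww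
  simp only [Rem, Finset.sum_add_distrib, ← Finset.mul_sum]
  unfold Err
  linarith

end

end Crest.Agent.R62.AvX3
end

-- ▼ part R62/AvX3Sum
section

/-!
R62: averaged one-step inequalities for `X₃ = Tr K³` (helper298), part 2:
exact mean of the leading part, bias of bad pairs, weights (tilt).
-/

set_option autoImplicit false
set_option linter.unusedSectionVars false
set_option linter.unusedVariables false

open Matrix Finset

namespace Crest.Agent.R62.AvX3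

open Crest.Agent.R62.AvX2 (sumF_eq sumF_one sumF_pow sumF_row sumF_diag dead_pow)

variable {ι : Type*} [Fintype ι] [DecidableEq ι]

section mean
variable {s : ℝ} {K : Matrix ι ι ℝ} {F : Finset ι}

/-- EXACT SUM of the leading part over all ordered pairs of live stubs (including `x = y`). -/
theorem sum_L3 (hs : Kᵀ = K) (hd : ∀ x, x ∉ F → ∀ y, K x y = 0)
    (hr : ∀ x ∈ F, ∑ y, K x y = s) (hs1 : s ^ 2 = 1) :
    ∑ p ∈ F ×ˢ F, L3 s K F p.1 p.2
      = 12 * ((K ^ 5).trace - (K ^ 3).trace)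
        + 6 * (K.trace * ((K ^ 4).trace - (K ^ 2).trace)
            + ((K ^ 2).trace - F.card) * ((K ^ 3).trace - K.trace)) := by
  rw [Finset.sum_product]
  have h4 := sumF_row hs hd hr 3
  have h2 := sumF_row hs hd hr 1
  have h14 := sumF_pow hs hd 0 3
  have h12 := sumF_pow hs hd 0 1
  have h23 := sumF_pow hs hd 1 2
  have h21 := sumF_pow hs hd 1 0
  have d1 := sumF_diag hd 0
  have d2 := sumF_diag hd 1
  have d3 := sumF_diag hd 2
  have d4 := sumF_diag hd 3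
  simp only [zero_add, pow_one, Nat.reduceAdd] at h4 h2 h14 h12 h23 h21 d1 d2 d3 d4
  have e1 : ∑ x ∈ F, ∑ y ∈ F, G4 K x y = 0 := by
    simp only [G4, Finset.sum_sub_distrib]
    rw [h4, h2]
    have : s ^ 4 = 1 := by rw [show s ^ 4 = (s ^ 2) ^ 2 by ring, hs1, one_pow]
    rw [this, hs1]; ring
  have e2 : ∑ x ∈ F, ∑ y ∈ F, K x y * G4 K x y = (K ^ 5).trace - (K ^ 3).trace := by
    simp only [G4, mul_sub, Finset.sum_sub_distrib]
    rw [h14, h12]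
  have e3 : ∑ x ∈ F, ∑ y ∈ F, (K ^ 2) x y * G3 K x y = (K ^ 5).trace - (K ^ 3).trace := by
    simp only [G3, mul_sub, Finset.sum_sub_distrib]
    rw [h23, h21]
  have g4 : ∑ x ∈ F, G4 K x x = (K ^ 4).trace - (K ^ 2).trace := by
    simp only [G4, Finset.sum_sub_distrib]; rw [d4, d2]
  have g3 : ∑ x ∈ F, G3 K x x = (K ^ 3).trace - K.trace := by
    simp only [G3, Finset.sum_sub_distrib]; rw [d3, d1]
  have gw : ∑ x ∈ F, wF K F x = (K ^ 2).trace - F.card := by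
    have : ∀ x ∈ F, wF K F x = (K ^ 2) x x - 1 := fun x hx => by simp [wF, hx]
    rw [Finset.sum_congr rfl this, Finset.sum_sub_distrib, d2, Finset.sum_const, nsmul_eq_mul,
      mul_one]
  have e4 : ∑ x ∈ F, ∑ y ∈ F, G4 K x x * K y y = ((K ^ 4).trace - (K ^ 2).trace) * K.trace := by
    rw [← Finset.sum_mul_sum, g4, d1]
  have e5 : ∑ x ∈ F, ∑ y ∈ F, K x x * G4 K y y = K.trace * ((K ^ 4).trace - (K ^ 2).trace) := by
    rw [← Finset.sum_mul_sum, g4, d1]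
  have e6 : ∑ x ∈ F, ∑ y ∈ F, G3 K x x * wF K F y
      = ((K ^ 3).trace - K.trace) * ((K ^ 2).trace - F.card) := by
    rw [← Finset.sum_mul_sum, g3, gw]
  have e7 : ∑ x ∈ F, ∑ y ∈ F, wF K F x * G3 K y y
      = ((K ^ 2).trace - F.card) * ((K ^ 3).trace - K.trace) := by
    rw [← Finset.sum_mul_sum, g3, gw]
  have : ∑ x ∈ F, ∑ y ∈ F, L3 s K F x y
      = 6 * s * ∑ x ∈ F, ∑ y ∈ F, G4 K x y + 6 * ∑ x ∈ F, ∑ y ∈ F, K x y * G4 K x y
        + 6 * ∑ x ∈ F, ∑ y ∈ F, (K ^ 2) x y * G3 K x y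
        + 3 * ∑ x ∈ F, ∑ y ∈ F, G4 K x x * K y y + 3 * ∑ x ∈ F, ∑ y ∈ F, K x x * G4 K y y
        + 3 * ∑ x ∈ F, ∑ y ∈ F, G3 K x x * wF K F y
        + 3 * ∑ x ∈ F, ∑ y ∈ F, wF K F x * G3 K y y := by
    simp only [L3, Finset.mul_sum, ← Finset.sum_add_distrib]
    exact Finset.sum_congr rfl fun x _ => Finset.sum_congr rfl fun y _ => by ring
  rw [this, e1, e2, e3, e4, e5, e6, e7]; ring

end mean

section weights
variable {s : ℝ} {K : Matrix ι ι ℝ} {F : Finset ι} {v w r x1 x2 t3 t4 d3 d4 : ℝ}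

/-- Cauchy–Schwarz for a weight against a matrix. -/
lemma cs_w (S : Finset (ι × ι)) (Θ g : ι → ι → ℝ) {θ β : ℝ} (hθ : 0 ≤ θ) (hβ : 0 ≤ β)
    (hΘ : ∑ p ∈ S, Θ p.1 p.2 ^ 2 ≤ θ ^ 2) (hg : ∑ x, ∑ y, g x y ^ 2 ≤ β ^ 2) :
    |∑ p ∈ S, Θ p.1 p.2 * g p.1 p.2| ≤ θ * β := by
  have h := Finset.sum_mul_sq_le_sq_mul_sq S (fun p => Θ p.1 p.2) (fun p => g p.1 p.2)
  have hg' := sum_sq_le S g hg
  have h1 : (∑ p ∈ S, Θ p.1 p.2 * g p.1 p.2) ^ 2 ≤ (θ * β) ^ 2 := by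
    rw [mul_pow]
    exact h.trans (mul_le_mul hΘ hg' (Finset.sum_nonneg fun p _ => sq_nonneg _) (sq_nonneg _))
  exact abs_le_of_sq_le_sq h1 (mul_nonneg hθ hβ)

/-- bounded weight, product of two matrices -/
lemma cs_b (S : Finset (ι × ι)) (Θ f g : ι → ι → ℝ) {η α β : ℝ} (hη : 0 ≤ η) (hα : 0 ≤ α)
    (hβ : 0 ≤ β) (hΘ : ∀ p ∈ S, |Θ p.1 p.2| ≤ η)
    (hf : ∑ x, ∑ y, f x y ^ 2 ≤ α ^ 2) (hg : ∑ x, ∑ y, g x y ^ 2 ≤ β ^ 2) :
    |∑ p ∈ S, Θ p.1 p.2 * (f p.1 p.2 * g p.1 p.2)| ≤ η * (α * β) := by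
  refine (Finset.abs_sum_le_sum_abs _ _).trans ?_
  calc ∑ p ∈ S, |Θ p.1 p.2 * (f p.1 p.2 * g p.1 p.2)|
      ≤ ∑ p ∈ S, η * (|f p.1 p.2| * |g p.1 p.2|) := by
        refine Finset.sum_le_sum fun p hp => ?_
        rw [abs_mul, abs_mul]
        exact mul_le_mul_of_nonneg_right (hΘ p hp) (by positivity)
    _ = η * ∑ p ∈ S, |f p.1 p.2| * |g p.1 p.2| := by rw [Finset.mul_sum]
    _ ≤ _ := mul_le_mul_of_nonneg_left (cs S f g hα hβ hf hg) hη

lemma abs6 {a b c d e f A B C D E F : ℝ} (ha : |a| ≤ A) (hb : |b| ≤ B) (hc : |c| ≤ C)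
    (hd : |d| ≤ D) (he : |e| ≤ E) (hf : |f| ≤ F) :
    |6 * a + 6 * b + 3 * c + 3 * d + 3 * e + 3 * f|
      ≤ 6 * A + 6 * B + 3 * C + 3 * D + 3 * E + 3 * F := by
  rw [abs_le] at *
  constructor <;> linarith [ha.1, ha.2, hb.1, hb.2, hc.1, hc.2, hd.1, hd.2, he.1, he.2,
    hf.1, hf.2]

/-- the weighted sum of the leading part, minus the first order term -/
theorem weight_L3 (h : Bds K F v w r x1 x2 t3 t4 d3 d4) (S : Finset (ι × ι))
    (Θ : ι → ι → ℝ) {η θ : ℝ} (hη : 0 ≤ η) (hθ : 0 ≤ θ) (hΘ : ∀ p ∈ S, |Θ p.1 p.2| ≤ η)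
    (hΘ2 : ∑ p ∈ S, Θ p.1 p.2 ^ 2 ≤ θ ^ 2) :
    |∑ p ∈ S, Θ p.1 p.2 * L3 s K F p.1 p.2 - 6 * s * ∑ p ∈ S, Θ p.1 p.2 * G4 K p.1 p.2|
      ≤ 6 * (θ * (v * d4 + w * d3)) + 6 * (η * (x1 * t4 + x2 * t3)) := by
  obtain ⟨sym, v0, w0, r0, x10, x20, t30, t40, d30, d40, hV, hW, hR, hX1, hX2, hT3, hT4,
    hD3, hD4⟩ := h
  have n_d4v := n2 (fun x => G4 K x x) (fun y => K y y) hD4 hV
  have n_vd4 := n2 (fun x => K x x) (fun y => G4 K y y) hV hD4
  have n_d3w := n2 (fun x => G3 K x x) (wF K F) hD3 hW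
  have n_wd3 := n2 (wF K F) (fun y => G3 K y y) hW hD3
  have b1 := cs_b S Θ (fun x y => K x y) (fun x y => G4 K x y) hη x10 t40 hΘ hX1 hT4
  have b2 := cs_b S Θ (fun x y => (K ^ 2) x y) (fun x y => G3 K x y) hη x20 t30 hΘ hX2 hT3
  have c1 := cs_w S Θ (fun x y => G4 K x x * K y y) hθ (mul_nonneg d40 v0) hΘ2 n_d4v
  have c2 := cs_w S Θ (fun x y => K x x * G4 K y y) hθ (mul_nonneg v0 d40) hΘ2 n_vd4
  have c3 := cs_w S Θ (fun x y => G3 K x x * wF K F y) hθ (mul_nonneg d30 w0) hΘ2 n_d3w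
  have c4 := cs_w S Θ (fun x y => wF K F x * G3 K y y) hθ (mul_nonneg w0 d30) hΘ2 n_wd3
  have e : ∑ p ∈ S, Θ p.1 p.2 * L3 s K F p.1 p.2 - 6 * s * ∑ p ∈ S, Θ p.1 p.2 * G4 K p.1 p.2
      = 6 * ∑ p ∈ S, Θ p.1 p.2 * (K p.1 p.2 * G4 K p.1 p.2)
        + 6 * ∑ p ∈ S, Θ p.1 p.2 * ((K ^ 2) p.1 p.2 * G3 K p.1 p.2)
        + 3 * ∑ p ∈ S, Θ p.1 p.2 * (G4 K p.1 p.1 * K p.2 p.2)
        + 3 * ∑ p ∈ S, Θ p.1 p.2 * (K p.1 p.1 * G4 K p.2 p.2)
        + 3 * ∑ p ∈ S, Θ p.1 p.2 * (G3 K p.1 p.1 * wF K F p.2)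
        + 3 * ∑ p ∈ S, Θ p.1 p.2 * (wF K F p.1 * G3 K p.2 p.2) := by
    simp only [Finset.mul_sum, ← Finset.sum_add_distrib, ← Finset.sum_sub_distrib]
    exact Finset.sum_congr rfl fun p _ => by unfold L3; ring
  rw [e]
  refine (abs6 b1 b2 c1 c2 c3 c4).trans (le_of_eq ?_)
  ring

/-- weighted sum of `dX3` over good pairs (tilt) -/
theorem tilt_X3 (hs1 : s ^ 2 = 1) (h : Bds K F v w r x1 x2 t3 t4 d3 d4) {S : Finset (ι × ι)}
    (hS : GoodS K F S) (Θ : ι → ι → ℝ) {η θ : ℝ} (hη : 0 ≤ η) (hθ : 0 ≤ θ)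
    (hΘ : ∀ p ∈ S, |Θ p.1 p.2| ≤ η) (hΘ2 : ∑ p ∈ S, Θ p.1 p.2 ^ 2 ≤ θ ^ 2) :
    |∑ p ∈ S, Θ p.1 p.2 * dX3 s K p.1 p.2 - 6 * s * ∑ p ∈ S, Θ p.1 p.2 * G4 K p.1 p.2|
      ≤ 6 * (θ * (v * d4 + w * d3))
        + η * (6 * (x1 * t4 + x2 * t3) + Err v w r x1 x2 t3 t4 d3 d4) := by
  have h1 := weight_L3 (s := s) h S Θ hη hθ hΘ hΘ2
  have h2 : |∑ p ∈ S, Θ p.1 p.2 * (dX3 s K p.1 p.2 - L3 s K F p.1 p.2)|
      ≤ η * Err v w r x1 x2 t3 t4 d3 d4 := by
    refine (Finset.abs_sum_le_sum_abs _ _).trans ?_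
    calc ∑ p ∈ S, |Θ p.1 p.2 * (dX3 s K p.1 p.2 - L3 s K F p.1 p.2)|
        ≤ ∑ p ∈ S, η * Rem K F p.1 p.2 := by
          refine Finset.sum_le_sum fun p hp => ?_
          obtain ⟨q1, q2, q3, q4, q5⟩ := hS p hp
          rw [abs_mul]
          exact mul_le_mul (hΘ p hp) (dX3_sub_L3 hs1 h.sym q1 q2 q3 q4 q5) (abs_nonneg _) hη
      _ = η * ∑ p ∈ S, Rem K F p.1 p.2 := by rw [Finset.mul_sum]
      _ ≤ _ := mul_le_mul_of_nonneg_left (sum_Rem h S) hη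
  have e : ∑ p ∈ S, Θ p.1 p.2 * dX3 s K p.1 p.2 - 6 * s * ∑ p ∈ S, Θ p.1 p.2 * G4 K p.1 p.2
      = (∑ p ∈ S, Θ p.1 p.2 * L3 s K F p.1 p.2 - 6 * s * ∑ p ∈ S, Θ p.1 p.2 * G4 K p.1 p.2)
        + ∑ p ∈ S, Θ p.1 p.2 * (dX3 s K p.1 p.2 - L3 s K F p.1 p.2) := by
    simp only [mul_sub, Finset.sum_sub_distrib]; ring
  rw [e]
  refine (abs_add_le _ _).trans ((add_le_add h1 h2).trans (le_of_eq ?_))
  ring

/-- error of the mean -/
def ErrM (v w r x1 x2 t3 t4 d3 d4 β : ℝ) : ℝ :=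
  6 * (β * (t4 + v * d4 + w * d3)) + 6 * (x1 * t4 + x2 * t3) + Err v w r x1 x2 t3 t4 d3 d4

/-- **mean of `X₃' - X₃` over a set of good pairs** -/
theorem mean_X3 (hs1 : s ^ 2 = 1) (h : Bds K F v w r x1 x2 t3 t4 d3 d4)
    (hd : ∀ x, x ∉ F → ∀ y, K x y = 0) (hr : ∀ x ∈ F, ∑ y, K x y = s) {S : Finset (ι × ι)}
    (hS : GoodS K F S) {β : ℝ} (hβ : 0 ≤ β) (hcard : (((F ×ˢ F) \ S).card : ℝ) ≤ β ^ 2) :
    |∑ p ∈ S, dX3 s K p.1 p.2 - (12 * ((K ^ 5).trace - (K ^ 3).trace)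
        + 6 * (K.trace * ((K ^ 4).trace - (K ^ 2).trace)
            + ((K ^ 2).trace - F.card) * ((K ^ 3).trace - K.trace)))|
      ≤ ErrM v w r x1 x2 t3 t4 d3 d4 β := by
  have hsub : S ⊆ F ×ˢ F := fun p hp => by
    obtain ⟨q1, q2, -⟩ := hS p hp
    exact Finset.mem_product.2 ⟨q1, q2⟩
  rw [← sum_L3 h.sym hd hr hs1, ← Finset.sum_sdiff hsub]
  have hs2 : |s| = 1 := by
    have : |s| ^ 2 = 1 := by rw [sq_abs]; exact hs1
    nlinarith [abs_nonneg s]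
  -- bad pairs
  have hb := weight_L3 (s := s) h ((F ×ˢ F) \ S) (fun _ _ => 1) zero_le_one hβ
    (fun p _ => by simp) (by simpa using hcard)
  have hb2 := cs_w ((F ×ˢ F) \ S) (fun _ _ => 1) (fun x y => G4 K x y) hβ h.t40
    (by simpa using hcard) h.hT4
  simp only [one_mul] at hb hb2
  have hb3 : |6 * s * ∑ p ∈ (F ×ˢ F) \ S, G4 K p.1 p.2| ≤ 6 * (β * t4) := by
    rw [abs_mul, abs_mul, hs2, abs_of_pos (by norm_num : (0:ℝ) < 6), mul_one]
    exact mul_le_mul_of_nonneg_left hb2 (by norm_num)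
  -- remainder
  have h2 : |∑ p ∈ S, (dX3 s K p.1 p.2 - L3 s K F p.1 p.2)| ≤ Err v w r x1 x2 t3 t4 d3 d4 := by
    refine (Finset.abs_sum_le_sum_abs _ _).trans (le_trans ?_ (sum_Rem h S))
    refine Finset.sum_le_sum fun p hp => ?_
    obtain ⟨q1, q2, q3, q4, q5⟩ := hS p hp
    exact dX3_sub_L3 hs1 h.sym q1 q2 q3 q4 q5
  rw [Finset.sum_sub_distrib] at h2
  unfold ErrM
  rw [abs_le] at *
  constructor <;> linarith [hb.1, hb.2, hb3.1, hb3.2, h2.1, h2.2]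

end weights

end Crest.Agent.R62.AvX3
end

-- ▼ part R62/AvX3Sq
section

/-!
R62: second moment of `X₃' - X₃` over good pairs (helper298).
-/

set_option autoImplicit false
set_option linter.unusedSectionVars false
set_option linter.unusedVariables false

open Matrix Finset

namespace Crest.Agent.R62.AvX3

variable {ι : Type*} [Fintype ι] [DecidableEq ι]

lemma sq18 (u1 u2 u3 u4 u5 u6 u7 u8 u9 u10 u11 u12 u13 u14 u15 u16 u17 u18 : ℝ) :
    (u1 + u2 + u3 + u4 + u5 + u6 + u7 + u8 + u9 + u10 + u11 + u12 + u13 + u14 + u15 + u16 + u17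
      + u18) ^ 2 ≤ 18 * (u1 ^ 2 + u2 ^ 2 + u3 ^ 2 + u4 ^ 2 + u5 ^ 2 + u6 ^ 2 + u7 ^ 2 + u8 ^ 2
      + u9 ^ 2 + u10 ^ 2 + u11 ^ 2 + u12 ^ 2 + u13 ^ 2 + u14 ^ 2 + u15 ^ 2 + u16 ^ 2 + u17 ^ 2
      + u18 ^ 2) := by
  have h := sq_sum_le_card_mul_sum_sq (s := (Finset.univ : Finset (Fin 18)))
    (f := ![u1, u2, u3, u4, u5, u6, u7, u8, u9, u10, u11, u12, u13, u14, u15, u16, u17, u18])
  simp only [Fin.sum_univ_succ, Finset.card_univ, Fintype.card_fin] at h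
  simp at h
  refine le_trans (le_of_eq ?_) (h.trans (le_of_eq ?_))
  · ring
  · ring

section
variable {s : ℝ} {K : Matrix ι ι ℝ} {F : Finset ι} {v w r x1 x2 t3 t4 d3 d4 : ℝ}

lemma sq_mul_le {a b t : ℝ} (ha : |a| ≤ t) : (|a| * |b|) ^ 2 ≤ t ^ 2 * b ^ 2 := by
  rw [mul_pow, sq_abs b]
  exact mul_le_mul_of_nonneg_right (pow_le_pow_left₀ (abs_nonneg _) ha 2) (sq_nonneg _)

lemma cube_sq_le {a t : ℝ} (ha : |a| ≤ t) : (|a| ^ 3) ^ 2 ≤ t ^ 4 * a ^ 2 := by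
  have : (|a| ^ 3) ^ 2 = |a| ^ 4 * a ^ 2 := by rw [← sq_abs a]; ring
  rw [this]
  exact mul_le_mul_of_nonneg_right (pow_le_pow_left₀ (abs_nonneg _) ha 4) (sq_nonneg _)

/-- pointwise square bound -/
theorem dX3_sq (hs : s ^ 2 = 1) (hK : K.IsSymm) {x y : ι} (hx : x ∈ F) (hy : y ∈ F)
    (hxy : x ≠ y) (hc : |K x y| ≤ 1 / 4) (hab : |K x x * K y y| ≤ 1 / 4) {τ σ : ℝ}
    (hτ : |(K ^ 2) x y| ≤ τ) (hσ : |wF K F x * K y y| ≤ σ) (hσ' : |K x x * wF K F y| ≤ σ) :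
    dX3 s K x y ^ 2 ≤ 18 * (400 * G4 K x y ^ 2 + 225 * (G4 K x x * K y y) ^ 2
      + 225 * (K x x * G4 K y y) ^ 2 + 729 * (G3 K x x * wF K F y) ^ 2
      + 729 * (wF K F x * G3 K y y) ^ 2 + 6084 * ((K ^ 2) x y ^ 2 * G3 K x y ^ 2)
      + 5184 * ((wF K F x * K y y) ^ 2 * G3 K x y ^ 2)
      + 5184 * ((K x x * wF K F y) ^ 2 * G3 K x y ^ 2)
      + 5184 * (τ ^ 2 * (G3 K x x * K y y) ^ 2) + 5184 * (τ ^ 2 * (K x x * G3 K y y) ^ 2)
      + 2304 * (σ ^ 2 * (G3 K x x * K y y) ^ 2) + 2304 * (σ ^ 2 * (K x x * G3 K y y) ^ 2)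
      + 2250000 * (σ ^ 4 * (wF K F x * K y y) ^ 2) + 2250000 * (σ ^ 4 * (K x x * wF K F y) ^ 2)
      + 2250000 * (τ ^ 2 * ((K ^ 2) x x * (K ^ 2) y y) ^ 2)
      + 40000 * (σ ^ 2 * (wF K F x * wF K F y) ^ 2)
      + 40000 * (σ ^ 2 * (wF K F x * wF K F y) ^ 2)
      + 160000 * (τ ^ 2 * (wF K F x * wF K F y) ^ 2)) := by
  have h0 := dX3_sub_L3 hs hK hx hy hxy hc hab
  have hs1 : |s| = 1 := by
    have : |s| ^ 2 = 1 := by rw [sq_abs]; exact hs
    nlinarith [abs_nonneg s]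
  have hL : |L3 s K F x y| ≤ 6 * |G4 K x y| + 6 * (|K x y| * |G4 K x y|)
      + 6 * (|(K ^ 2) x y| * |G3 K x y|) + 3 * |G4 K x x * K y y| + 3 * |K x x * G4 K y y|
      + 3 * |G3 K x x * wF K F y| + 3 * |wF K F x * G3 K y y| := by
    unfold L3
    have e : 6 * s * G4 K x y + 6 * (K x y * G4 K x y + (K ^ 2) x y * G3 K x y)
        + 3 * (G4 K x x * K y y + K x x * G4 K y y + G3 K x x * wF K F y + wF K F x * G3 K y y)
        = 6 * (s * G4 K x y) + 6 * (K x y * G4 K x y) + 6 * ((K ^ 2) x y * G3 K x y)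
          + 3 * (G4 K x x * K y y) + 3 * (K x x * G4 K y y) + 3 * (G3 K x x * wF K F y)
          + 3 * (wF K F x * G3 K y y) := by ring
    rw [e]
    have k3 : |(3 : ℝ)| = 3 := abs_of_pos (by norm_num)
    have k6 : |(6 : ℝ)| = 6 := abs_of_pos (by norm_num)
    have p1 : |s * G4 K x y| = |G4 K x y| := by rw [abs_mul, hs1, one_mul]
    refine (abs_add_le _ _).trans (add_le_add ((abs_add_le _ _).trans (add_le_add
      ((abs_add_le _ _).trans (add_le_add ((abs_add_le _ _).trans (add_le_add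
      ((abs_add_le _ _).trans (add_le_add ((abs_add_le _ _).trans (add_le_add ?_ ?_)) ?_)) ?_))
      ?_)) ?_)) ?_)
    · rw [abs_mul, k6, p1]
    · rw [abs_mul, k6, abs_mul]
    · rw [abs_mul, k6, abs_mul]
    all_goals rw [abs_mul, k3]
  have hb : |dX3 s K x y| ≤ 20 * |G4 K x y| + 15 * |G4 K x x * K y y| + 15 * |K x x * G4 K y y|
      + 27 * |G3 K x x * wF K F y| + 27 * |wF K F x * G3 K y y|
      + 78 * (|(K ^ 2) x y| * |G3 K x y|)
      + 72 * (|wF K F x * K y y| * |G3 K x y|) + 72 * (|K x x * wF K F y| * |G3 K x y|)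
      + 72 * (|(K ^ 2) x y| * |G3 K x x * K y y|) + 72 * (|(K ^ 2) x y| * |K x x * G3 K y y|)
      + 48 * (|wF K F x * K y y| * |G3 K x x * K y y|)
      + 48 * (|K x x * wF K F y| * |K x x * G3 K y y|)
      + 1500 * |wF K F x * K y y| ^ 3 + 1500 * |K x x * wF K F y| ^ 3
      + 1500 * (|(K ^ 2) x y| * |(K ^ 2) x x * (K ^ 2) y y|)
      + 200 * (|wF K F x * K y y| * |wF K F x * wF K F y|)
      + 200 * (|K x x * wF K F y| * |wF K F x * wF K F y|)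
      + 400 * (|(K ^ 2) x y| * |wF K F x * wF K F y|) := by
    have q : ∀ a b : ℝ, |a| ≤ 1 / 4 → |a| * |b| ≤ 1 / 4 * |b| := fun a b h =>
      mul_le_mul_of_nonneg_right h (abs_nonneg _)
    have g1 := q _ (G4 K x x * K y y) hc
    have g2 := q _ (G4 K x x * K y y) hab
    have g3 := q _ (K x x * G4 K y y) hc
    have g4 := q _ (K x x * G4 K y y) hab
    have g5 := q _ (G4 K x y) hc
    have g6 := q _ (G4 K x y) hab
    have g7 := q _ (G3 K x x * wF K F y) hc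
    have g8 := q _ (G3 K x x * wF K F y) hab
    have g9 := q _ (wF K F x * G3 K y y) hc
    have g10 := q _ (wF K F x * G3 K y y) hab
    have z1 := abs_nonneg (G4 K x y)
    have z2 := abs_nonneg (G4 K x x * K y y)
    have z3 := abs_nonneg (K x x * G4 K y y)
    have hA : |dX3 s K x y| ≤ |dX3 s K x y - L3 s K F x y| + |L3 s K F x y| := by
      have := abs_add_le (dX3 s K x y - L3 s K F x y) (L3 s K F x y)
      rwa [sub_add_cancel] at this
    unfold Rem at h0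
    linarith
  have h1 : dX3 s K x y ^ 2 = |dX3 s K x y| ^ 2 := (sq_abs _).symm
  rw [h1]
  refine (pow_le_pow_left₀ (abs_nonneg _) hb 2).trans ((sq18 _ _ _ _ _ _ _ _ _ _ _ _ _ _ _ _ _ _
    ).trans (mul_le_mul_of_nonneg_left ?_ (by norm_num)))
  have e1 : ∀ a c : ℝ, (c * |a|) ^ 2 = c ^ 2 * a ^ 2 := fun a c => by rw [mul_pow, sq_abs]
  have e2 : ∀ a b c t : ℝ, |a| ≤ t → (c * (|a| * |b|)) ^ 2 ≤ c ^ 2 * (t ^ 2 * b ^ 2) := by
    intro a b c t h
    rw [mul_pow]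
    exact mul_le_mul_of_nonneg_left (sq_mul_le h) (sq_nonneg _)
  have e3 : ∀ a c t : ℝ, |a| ≤ t → (c * |a| ^ 3) ^ 2 ≤ c ^ 2 * (t ^ 4 * a ^ 2) := by
    intro a c t h
    rw [mul_pow]
    exact mul_le_mul_of_nonneg_left (cube_sq_le h) (sq_nonneg _)
  have f1 := e1 (G4 K x y) 20
  have f2 := e1 (G4 K x x * K y y) 15
  have f3 := e1 (K x x * G4 K y y) 15
  have f4 := e1 (G3 K x x * wF K F y) 27
  have f5 := e1 (wF K F x * G3 K y y) 27
  have e4 : ∀ a b c : ℝ, (c * (|a| * |b|)) ^ 2 = c ^ 2 * (a ^ 2 * b ^ 2) := by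
    intro a b c; rw [mul_pow, mul_pow, sq_abs, sq_abs]
  have f6 := e4 ((K ^ 2) x y) (G3 K x y) 78
  have f7 := e4 (wF K F x * K y y) (G3 K x y) 72
  have f8 := e4 (K x x * wF K F y) (G3 K x y) 72
  have f9 := e2 _ (G3 K x x * K y y) 72 _ hτ
  have f10 := e2 _ (K x x * G3 K y y) 72 _ hτ
  have f11 := e2 _ (G3 K x x * K y y) 48 _ hσ
  have f12 := e2 _ (K x x * G3 K y y) 48 _ hσ'
  have f13 := e3 _ 1500 _ hσ
  have f14 := e3 _ 1500 _ hσ'
  have f15 := e2 _ ((K ^ 2) x x * (K ^ 2) y y) 1500 _ hτ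
  have f16 := e2 _ (wF K F x * wF K F y) 200 _ hσ
  have f17 := e2 _ (wF K F x * wF K F y) 200 _ hσ'
  have f18 := e2 _ (wF K F x * wF K F y) 400 _ hτ
  rw [f1, f2, f3, f4, f5, f6, f7, f8]
  norm_num at f9 f10 f11 f12 f13 f14 f15 f16 f17 f18 ⊢
  gcongr

/-- `(K³ - K)_xy² ≤ 2 L² Q_xx Q_yy + 1/8` on a good pair -/
lemma G3_sq_le {L : ℝ} (hK : K.IsSymm) (hL : AvBase.OpB K L) {x y : ι} (hc : |K x y| ≤ 1 / 4) :
    G3 K x y ^ 2 ≤ 2 * (L ^ 2 * ((K ^ 2) x x * (K ^ 2) y y)) + 1 / 8 := by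
  have h := AvBase.entry_sq_le' (K := K) hK hL 1 x y
  simp only [Nat.reduceAdd, mul_one] at h
  have h2 : K x y ^ 2 ≤ (1 / 4) ^ 2 := by
    rw [← sq_abs]; exact pow_le_pow_left₀ (abs_nonneg _) hc 2
  unfold G3
  nlinarith [sq_nonneg ((K ^ 3) x y + K x y)]

/-- `max_x Q_xx ≤ r` -/
lemma Q_le (hr : 0 ≤ r) (hR : ∑ x, (K ^ 2) x x ^ 2 ≤ r ^ 2) (x : ι) : (K ^ 2) x x ≤ r := by
  have h : (K ^ 2) x x ^ 2 ≤ r ^ 2 := le_trans (Finset.single_le_sum
    (f := fun x => (K ^ 2) x x ^ 2) (fun x _ => sq_nonneg _) (Finset.mem_univ x)) hR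
  exact (abs_le_of_sq_le_sq' h hr).2

/-- bound of the second moment -/
noncomputable def SqB (L τ σ v w r x2 d3 d4 t4 : ℝ) : ℝ :=
  18 * (400 * t4 ^ 2 + 450 * (v * d4) ^ 2 + 1458 * (w * d3) ^ 2
    + 6084 * (2 * (L ^ 2 * (r * r) ^ 2) + 1 / 8 * x2 ^ 2)
    + 10368 * (2 * (L ^ 2 * ((r * w ^ 2) * (r * v ^ 2))) + 1 / 8 * (v * w) ^ 2)
    + 10368 * (τ ^ 2 * (v * d3) ^ 2) + 4608 * (σ ^ 2 * (v * d3) ^ 2)
    + 4500000 * (σ ^ 4 * (v * w) ^ 2) + 2250000 * (τ ^ 2 * (r * r) ^ 2)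
    + 80000 * (σ ^ 2 * (w * w) ^ 2) + 160000 * (τ ^ 2 * (w * w) ^ 2))

/-- tensor sums of nonnegative functions -/
lemma tens (S : Finset (ι × ι)) (f g : ι → ℝ) {α β : ℝ} (hf : ∀ x, 0 ≤ f x) (hg : ∀ x, 0 ≤ g x)
    (h1 : ∑ x, f x ≤ α) (h2 : ∑ x, g x ≤ β) : ∑ p ∈ S, f p.1 * g p.2 ≤ α * β := by
  calc ∑ p ∈ S, f p.1 * g p.2 ≤ ∑ p : ι × ι, f p.1 * g p.2 :=
        Finset.sum_le_sum_of_subset_of_nonneg (Finset.subset_univ S)
          fun p _ _ => mul_nonneg (hf _) (hg _)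
    _ = (∑ x, f x) * ∑ y, g y := by
        rw [Fintype.sum_prod_type, Finset.sum_mul_sum]
    _ ≤ α * β := mul_le_mul h1 h2 (Finset.sum_nonneg fun x _ => hg x)
        (le_trans (Finset.sum_nonneg fun x _ => hf x) h1)

lemma fQ_le (f : ι → ℝ) {α : ℝ} (hr : 0 ≤ r) (hR : ∑ x, (K ^ 2) x x ^ 2 ≤ r ^ 2)
    (hf : ∑ x, f x ^ 2 ≤ α) : ∑ x, f x ^ 2 * (K ^ 2) x x ≤ r * α := by
  calc ∑ x, f x ^ 2 * (K ^ 2) x x ≤ ∑ x, f x ^ 2 * r :=
        Finset.sum_le_sum fun x _ => mul_le_mul_of_nonneg_left (Q_le hr hR x) (sq_nonneg _)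
    _ = r * ∑ x, f x ^ 2 := by rw [← Finset.sum_mul, mul_comm]
    _ ≤ _ := mul_le_mul_of_nonneg_left hf hr

/-- **second moment over good pairs** -/
theorem sq_X3 (hs1 : s ^ 2 = 1) (h : Bds K F v w r x1 x2 t3 t4 d3 d4) {L : ℝ}
    (hL : AvBase.OpB K L) {S : Finset (ι × ι)}
    (hS : GoodS K F S) {τ σ : ℝ} (hτ : ∀ p ∈ S, |(K ^ 2) p.1 p.2| ≤ τ)
    (hσ : ∀ p ∈ S, |wF K F p.1 * K p.2 p.2| ≤ σ) (hσ' : ∀ p ∈ S, |K p.1 p.1 * wF K F p.2| ≤ σ) :
    ∑ p ∈ S, dX3 s K p.1 p.2 ^ 2 ≤ SqB L τ σ v w r x2 d3 d4 t4 := by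
  obtain ⟨sym, v0, w0, r0, x10, x20, t30, t40, d30, d40, hV, hW, hR, hX1, hX2, hT3, hT4,
    hD3, hD4⟩ := h
  have step : ∑ p ∈ S, dX3 s K p.1 p.2 ^ 2 ≤ ∑ p ∈ S, _ := Finset.sum_le_sum fun p hp => by
    obtain ⟨q1, q2, q3, q4, q5⟩ := hS p hp
    exact dX3_sq hs1 sym q1 q2 q3 q4 q5 (hτ p hp) (hσ p hp) (hσ' p hp)
  refine step.trans ?_
  have a1 := sum_sq_le S (fun x y => G4 K x y) hT4
  have a2 := sum_sq_le S (fun x y => G4 K x x * K y y)
    (n2 (fun x => G4 K x x) (fun y => K y y) hD4 hV)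
  have a3 := sum_sq_le S (fun x y => K x x * G4 K y y)
    (n2 (fun x => K x x) (fun y => G4 K y y) hV hD4)
  have a4 := sum_sq_le S (fun x y => G3 K x x * wF K F y)
    (n2 (fun x => G3 K x x) (wF K F) hD3 hW)
  have a5 := sum_sq_le S (fun x y => wF K F x * G3 K y y)
    (n2 (wF K F) (fun y => G3 K y y) hW hD3)
  have a7 := sum_sq_le S (fun x y => G3 K x x * K y y)
    (n2 (fun x => G3 K x x) (fun y => K y y) hD3 hV)
  have a8 := sum_sq_le S (fun x y => K x x * G3 K y y)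
    (n2 (fun x => K x x) (fun y => G3 K y y) hV hD3)
  have a9 := sum_sq_le S (fun x y => wF K F x * K y y) (n2 (wF K F) (fun y => K y y) hW hV)
  have a10 := sum_sq_le S (fun x y => K x x * wF K F y) (n2 (fun x => K x x) (wF K F) hV hW)
  have a11 := sum_sq_le S (fun x y => (K ^ 2) x x * (K ^ 2) y y)
    (n2 (fun x => (K ^ 2) x x) (fun y => (K ^ 2) y y) hR hR)
  have a12 := sum_sq_le S (fun x y => wF K F x * wF K F y) (n2 (wF K F) (wF K F) hW hW)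
  have a13 := sum_sq_le S (fun x y => (K ^ 2) x y) hX2
  have Q0 : ∀ x, 0 ≤ (K ^ 2) x x := fun x => AvBase.diag_sq_nonneg sym x
  -- products with `G3²`
  have b6 : ∑ p ∈ S, (K ^ 2) p.1 p.2 ^ 2 * G3 K p.1 p.2 ^ 2
      ≤ 2 * (L ^ 2 * (r * r) ^ 2) + 1 / 8 * x2 ^ 2 := by
    calc ∑ p ∈ S, (K ^ 2) p.1 p.2 ^ 2 * G3 K p.1 p.2 ^ 2
        ≤ ∑ p ∈ S, (2 * (L ^ 2 * ((K ^ 2) p.1 p.1 * (K ^ 2) p.2 p.2) ^ 2)
            + 1 / 8 * (K ^ 2) p.1 p.2 ^ 2) := by
          refine Finset.sum_le_sum fun p hp => ?_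
          obtain ⟨q1, q2, q3, q4, q5⟩ := hS p hp
          have h1 := G3_sq_le sym hL q4
          have h2 := AvBase.entry_sq_le (K := K) sym 1 1 p.1 p.2
          simp only [Nat.reduceAdd, mul_one] at h2
          have h3 : 0 ≤ (K ^ 2) p.1 p.1 * (K ^ 2) p.2 p.2 := mul_nonneg (Q0 _) (Q0 _)
          calc (K ^ 2) p.1 p.2 ^ 2 * G3 K p.1 p.2 ^ 2
              ≤ (K ^ 2) p.1 p.2 ^ 2
                * (2 * (L ^ 2 * ((K ^ 2) p.1 p.1 * (K ^ 2) p.2 p.2)) + 1 / 8) :=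
                mul_le_mul_of_nonneg_left h1 (sq_nonneg _)
            _ = 2 * (L ^ 2 * ((K ^ 2) p.1 p.2 ^ 2 * ((K ^ 2) p.1 p.1 * (K ^ 2) p.2 p.2)))
                + 1 / 8 * (K ^ 2) p.1 p.2 ^ 2 := by ring
            _ ≤ 2 * (L ^ 2 * (((K ^ 2) p.1 p.1 * (K ^ 2) p.2 p.2)
                  * ((K ^ 2) p.1 p.1 * (K ^ 2) p.2 p.2)))
                + 1 / 8 * (K ^ 2) p.1 p.2 ^ 2 := by gcongr
            _ = _ := by ring
      _ = 2 * (L ^ 2 * ∑ p ∈ S, ((K ^ 2) p.1 p.1 * (K ^ 2) p.2 p.2) ^ 2)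
            + 1 / 8 * ∑ p ∈ S, (K ^ 2) p.1 p.2 ^ 2 := by
          rw [Finset.sum_add_distrib, Finset.mul_sum, Finset.mul_sum, Finset.mul_sum]
      _ ≤ _ := by gcongr
  have bw : ∀ f g : ι → ℝ, ∑ x, f x ^ 2 ≤ w ^ 2 → ∑ x, g x ^ 2 ≤ v ^ 2 →
      ∑ p ∈ S, (f p.1 * g p.2) ^ 2 * G3 K p.1 p.2 ^ 2
        ≤ 2 * (L ^ 2 * ((r * w ^ 2) * (r * v ^ 2))) + 1 / 8 * (v * w) ^ 2 := by
    intro f g hf hg
    have c1 := tens S (fun x => f x ^ 2 * (K ^ 2) x x) (fun x => g x ^ 2 * (K ^ 2) x x)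
      (fun x => mul_nonneg (sq_nonneg _) (Q0 x)) (fun x => mul_nonneg (sq_nonneg _) (Q0 x))
      (fQ_le f r0 hR hf) (fQ_le g r0 hR hg)
    have c2 := sum_sq_le S (fun x y => f x * g y) (n2 f g hf hg)
    calc ∑ p ∈ S, (f p.1 * g p.2) ^ 2 * G3 K p.1 p.2 ^ 2
        ≤ ∑ p ∈ S, (2 * (L ^ 2 * ((f p.1 ^ 2 * (K ^ 2) p.1 p.1) * (g p.2 ^ 2 * (K ^ 2) p.2 p.2)))
            + 1 / 8 * (f p.1 * g p.2) ^ 2) := by
          refine Finset.sum_le_sum fun p hp => ?_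
          obtain ⟨q1, q2, q3, q4, q5⟩ := hS p hp
          have h1 := G3_sq_le sym hL q4
          calc (f p.1 * g p.2) ^ 2 * G3 K p.1 p.2 ^ 2
              ≤ (f p.1 * g p.2) ^ 2
                * (2 * (L ^ 2 * ((K ^ 2) p.1 p.1 * (K ^ 2) p.2 p.2)) + 1 / 8) :=
                mul_le_mul_of_nonneg_left h1 (sq_nonneg _)
            _ = _ := by ring
      _ = 2 * (L ^ 2 * ∑ p ∈ S, (f p.1 ^ 2 * (K ^ 2) p.1 p.1) * (g p.2 ^ 2 * (K ^ 2) p.2 p.2))
            + 1 / 8 * ∑ p ∈ S, (f p.1 * g p.2) ^ 2 := by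
          rw [Finset.sum_add_distrib, Finset.mul_sum, Finset.mul_sum, Finset.mul_sum]
      _ ≤ 2 * (L ^ 2 * ((r * w ^ 2) * (r * v ^ 2))) + 1 / 8 * (w * v) ^ 2 := by gcongr
      _ = _ := by ring
  have b7 := bw (wF K F) (fun y => K y y) hW hV
  have b8 : ∑ p ∈ S, (K p.1 p.1 * wF K F p.2) ^ 2 * G3 K p.1 p.2 ^ 2
      ≤ 2 * (L ^ 2 * ((r * w ^ 2) * (r * v ^ 2))) + 1 / 8 * (v * w) ^ 2 := by
    have c1 := tens S (fun x => K x x ^ 2 * (K ^ 2) x x) (fun x => wF K F x ^ 2 * (K ^ 2) x x)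
      (fun x => mul_nonneg (sq_nonneg _) (Q0 x)) (fun x => mul_nonneg (sq_nonneg _) (Q0 x))
      (fQ_le (fun x => K x x) r0 hR hV) (fQ_le (wF K F) r0 hR hW)
    calc ∑ p ∈ S, (K p.1 p.1 * wF K F p.2) ^ 2 * G3 K p.1 p.2 ^ 2
        ≤ ∑ p ∈ S, (2 * (L ^ 2 * ((K p.1 p.1 ^ 2 * (K ^ 2) p.1 p.1)
              * (wF K F p.2 ^ 2 * (K ^ 2) p.2 p.2)))
            + 1 / 8 * (K p.1 p.1 * wF K F p.2) ^ 2) := by
          refine Finset.sum_le_sum fun p hp => ?_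
          obtain ⟨q1, q2, q3, q4, q5⟩ := hS p hp
          have h1 := G3_sq_le sym hL q4
          calc (K p.1 p.1 * wF K F p.2) ^ 2 * G3 K p.1 p.2 ^ 2
              ≤ (K p.1 p.1 * wF K F p.2) ^ 2
                * (2 * (L ^ 2 * ((K ^ 2) p.1 p.1 * (K ^ 2) p.2 p.2)) + 1 / 8) :=
                mul_le_mul_of_nonneg_left h1 (sq_nonneg _)
            _ = _ := by ring
      _ = 2 * (L ^ 2 * ∑ p ∈ S, (K p.1 p.1 ^ 2 * (K ^ 2) p.1 p.1)
              * (wF K F p.2 ^ 2 * (K ^ 2) p.2 p.2))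
            + 1 / 8 * ∑ p ∈ S, (K p.1 p.1 * wF K F p.2) ^ 2 := by
          rw [Finset.sum_add_distrib, Finset.mul_sum, Finset.mul_sum, Finset.mul_sum]
      _ ≤ 2 * (L ^ 2 * ((r * v ^ 2) * (r * w ^ 2))) + 1 / 8 * (v * w) ^ 2 := by gcongr
      _ = _ := by ring
  simp only [← Finset.mul_sum, Finset.sum_add_distrib]
  have m7 := mul_le_mul_of_nonneg_left a7 (sq_nonneg τ)
  have m7' := mul_le_mul_of_nonneg_left a7 (sq_nonneg σ)
  have m8 := mul_le_mul_of_nonneg_left a8 (sq_nonneg τ)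
  have m8' := mul_le_mul_of_nonneg_left a8 (sq_nonneg σ)
  have p4 : (0:ℝ) ≤ σ ^ 4 := by positivity
  have m9 := mul_le_mul_of_nonneg_left a9 p4
  have m10 := mul_le_mul_of_nonneg_left a10 p4
  have m11 := mul_le_mul_of_nonneg_left a11 (sq_nonneg τ)
  have m12 := mul_le_mul_of_nonneg_left a12 (sq_nonneg τ)
  have m12' := mul_le_mul_of_nonneg_left a12 (sq_nonneg σ)
  unfold SqB
  rw [mul_comm d4 v] at a2
  rw [mul_comm d3 w] at a4
  rw [mul_comm d3 v] at m7 m7'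
  rw [mul_comm w v] at m9
  refine mul_le_mul_of_nonneg_left ?_ (by norm_num)
  linarith

/-- automatic values of `τ` and `σ` -/
theorem sq_X3' (hs1 : s ^ 2 = 1) (h : Bds K F v w r x1 x2 t3 t4 d3 d4) {L : ℝ}
    (hL : AvBase.OpB K L) {S : Finset (ι × ι)} (hS : GoodS K F S) :
    ∑ p ∈ S, dX3 s K p.1 p.2 ^ 2 ≤ SqB L (1 + w) (v * w) v w r x2 d3 d4 t4 := by
  have Q0 : ∀ x, 0 ≤ (K ^ 2) x x := fun x => AvBase.diag_sq_nonneg h.sym x
  have Q1 : ∀ x ∈ F, (K ^ 2) x x ≤ 1 + w := by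
    intro x hx
    have h1 : wF K F x ^ 2 ≤ w ^ 2 := le_trans (Finset.single_le_sum
      (f := fun x => wF K F x ^ 2) (fun x _ => sq_nonneg _) (Finset.mem_univ x)) h.hW
    have h2 := (abs_le_of_sq_le_sq' h1 h.w0).2
    have h3 : wF K F x = (K ^ 2) x x - 1 := by simp [wF, hx]
    linarith
  refine sq_X3 hs1 h hL hS ?_ ?_ ?_
  · intro p hp
    obtain ⟨q1, q2, -⟩ := hS p hp
    have h2 := AvBase.entry_sq_le (K := K) h.sym 1 1 p.1 p.2
    simp only [Nat.reduceAdd, mul_one] at h2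
    have h0 : 0 ≤ 1 + w := by linarith [h.w0]
    refine abs_le_of_sq_le_sq (h2.trans ?_) h0
    rw [pow_two (1 + w)]
    exact mul_le_mul (Q1 _ q1) (Q1 _ q2) (Q0 _) h0
  · intro p _
    have := entry_le (fun x y => wF K F x * K y y) (mul_nonneg h.w0 h.v0)
      (n2 (wF K F) (fun y => K y y) h.hW h.hV) p.1 p.2
    rwa [mul_comm w v] at this
  · intro p _
    exact entry_le (fun x y => K x x * wF K F y) (mul_nonneg h.v0 h.w0)
      (n2 (fun x => K x x) (wF K F) h.hV h.hW) p.1 p.2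

end

end Crest.Agent.R62.AvX3
end

-- ▼ part R62/X3Drift
section

/-!
R62: one-step inequalities for the potentials of `X₃` (helper298).
-/

set_option autoImplicit false
set_option linter.unusedSectionVars false
set_option linter.unusedVariables false

open Matrix Finset

namespace Crest.Agent.R62.X3Drift

open Crest.Agent.R62.Upd Crest.Agent.R62.AvX3 Crest.Agent.R62.AvBase

variable {ι : Type*} [Fintype ι] [DecidableEq ι]

lemma mink {κ : Type*} (S : Finset κ) (f g : κ → ℝ) {a b : ℝ} (ha : 0 ≤ a) (hb : 0 ≤ b)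
    (hf : ∑ x ∈ S, f x ^ 2 ≤ a ^ 2) (hg : ∑ x ∈ S, g x ^ 2 ≤ b ^ 2) :
    ∑ x ∈ S, (f x - g x) ^ 2 ≤ (a + b) ^ 2 := by
  have h := Finset.sum_mul_sq_le_sq_mul_sq S f g
  have h1 : (∑ x ∈ S, f x * g x) ^ 2 ≤ (a * b) ^ 2 := by
    rw [mul_pow]
    exact h.trans (mul_le_mul hf hg (Finset.sum_nonneg fun _ _ => sq_nonneg _) (sq_nonneg _))
  have h2 := (abs_le_of_sq_le_sq' h1 (mul_nonneg ha hb)).1
  have e : ∑ x ∈ S, (f x - g x) ^ 2
      = ∑ x ∈ S, f x ^ 2 - 2 * ∑ x ∈ S, f x * g x + ∑ x ∈ S, g x ^ 2 := by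
    rw [Finset.mul_sum, ← Finset.sum_sub_distrib, ← Finset.sum_add_distrib]
    exact Finset.sum_congr rfl fun x _ => by ring
  rw [e]; nlinarith

lemma mink2 (f g : ι → ι → ℝ) {a b : ℝ} (ha : 0 ≤ a) (hb : 0 ≤ b)
    (hf : ∑ x, ∑ y, f x y ^ 2 ≤ a ^ 2) (hg : ∑ x, ∑ y, g x y ^ 2 ≤ b ^ 2) :
    ∑ x, ∑ y, (f x y - g x y) ^ 2 ≤ (a + b) ^ 2 := by
  have := mink (Finset.univ : Finset (ι × ι)) (fun p => f p.1 p.2) (fun p => g p.1 p.2) ha hb
    (by rw [Fintype.sum_prod_type]; exact hf) (by rw [Fintype.sum_prod_type]; exact hg)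
  rwa [Fintype.sum_prod_type] at this

/-- the hypotheses of the averaged inequalities from `X₂, X₄, V, W, R₂` and an operator norm
bound -/
theorem Bds.of {K : Matrix ι ι ℝ} {F : Finset ι} {v w r x1 x2 L : ℝ} (hK : K.IsSymm)
    (hd : ∀ x, x ∉ F → ∀ y, K x y = 0) (hL : OpB K L) (v0 : 0 ≤ v) (w0 : 0 ≤ w) (r0 : 0 ≤ r)
    (x10 : 0 ≤ x1) (x20 : 0 ≤ x2) (hV : ∑ x, K x x ^ 2 ≤ v ^ 2)
    (hW : ∑ x ∈ F, ((K ^ 2) x x - 1) ^ 2 ≤ w ^ 2) (hR : ∑ x, (K ^ 2) x x ^ 2 ≤ r ^ 2)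
    (hX2 : (K ^ 2).trace ≤ x1 ^ 2) (hX4 : (K ^ 4).trace ≤ x2 ^ 2) :
    Bds K F v w r x1 x2 (L * x2 + x1) ((L ^ 2 + 1) * x2) (L * r + v) ((L ^ 2 + 1) * r) := by
  have L0 := hL.1
  have q2 := frob_pow (K := K) hK 1
  have q4 := frob_pow (K := K) hK 2
  have q6 := frob_pow (K := K) hK 3
  have q8 := frob_pow (K := K) hK 4
  simp only [pow_one, Nat.reduceMul, mul_one] at q2 q4 q6 q8
  have h6 : (K ^ 6).trace ≤ (L * x2) ^ 2 := by
    have := trace_six_le (K := K) hK hL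
    calc _ ≤ _ := this
      _ ≤ L ^ 2 * x2 ^ 2 := mul_le_mul_of_nonneg_left hX4 (sq_nonneg _)
      _ = _ := by ring
  have h8 : (K ^ 8).trace ≤ (L ^ 2 * x2) ^ 2 := by
    have := trace_eight_le (K := K) hK hL
    calc _ ≤ _ := this
      _ ≤ L ^ 4 * x2 ^ 2 := mul_le_mul_of_nonneg_left hX4 (by positivity)
      _ = _ := by ring
  refine ⟨hK, v0, w0, r0, x10, x20, by positivity, by positivity, by positivity, by positivity,
    hV, ?_, hR, by rw [q2]; exact hX2, by rw [q4]; exact hX4, ?_, ?_, ?_, ?_⟩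
  · have e : ∑ x, wF K F x ^ 2 = ∑ x ∈ F, ((K ^ 2) x x - 1) ^ 2 := by
      rw [← Finset.sum_subset (Finset.subset_univ F)]
      · exact Finset.sum_congr rfl fun x hx => by simp [wF, hx]
      · intro x _ hx; simp [wF, hx]
    rw [e]; exact hW
  · exact mink2 (fun x y => (K ^ 3) x y) (fun x y => K x y) (by positivity) x10
      (by rw [q6]; exact h6) (by rw [q2]; exact hX2)
  · have := mink2 (fun x y => (K ^ 4) x y) (fun x y => (K ^ 2) x y) (a := L ^ 2 * x2) (b := x2)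
      (by positivity) x20 (by rw [q8]; exact h8) (by rw [q4]; exact hX4)
    have e : (L ^ 2 + 1) * x2 = L ^ 2 * x2 + x2 := by ring
    rw [e]; exact this
  · refine mink Finset.univ (fun x => (K ^ 3) x x) (fun x => K x x) (by positivity) v0 ?_ hV
    calc ∑ x, ((K ^ 3) x x) ^ 2 ≤ ∑ x, L ^ 2 * (K ^ 2) x x ^ 2 := by
          refine Finset.sum_le_sum fun x _ => ?_
          have h3 := abs_diag_le (K := K) hK hL 1 x
          simp only [Nat.reduceAdd, pow_one] at h3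
          rw [← sq_abs, ← mul_pow]
          exact pow_le_pow_left₀ (abs_nonneg _) h3 2
      _ = L ^ 2 * ∑ x, (K ^ 2) x x ^ 2 := by rw [Finset.mul_sum]
      _ ≤ L ^ 2 * r ^ 2 := mul_le_mul_of_nonneg_left hR (sq_nonneg _)
      _ = _ := by ring
  · have h4 : ∑ x, ((K ^ 4) x x) ^ 2 ≤ (L ^ 2 * r) ^ 2 := by
      calc ∑ x, ((K ^ 4) x x) ^ 2 ≤ ∑ x, L ^ 4 * (K ^ 2) x x ^ 2 := by
            refine Finset.sum_le_sum fun x _ => ?_
            have h3 := abs_diag_le (K := K) hK hL 2 x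
            simp only [Nat.reduceAdd] at h3
            have : L ^ 4 * (K ^ 2) x x ^ 2 = (L ^ 2 * (K ^ 2) x x) ^ 2 := by ring
            rw [← sq_abs, this]
            exact pow_le_pow_left₀ (abs_nonneg _) h3 2
        _ = L ^ 4 * ∑ x, (K ^ 2) x x ^ 2 := by rw [Finset.mul_sum]
        _ ≤ L ^ 4 * r ^ 2 := mul_le_mul_of_nonneg_left hR (by positivity)
        _ = _ := by ring
    have := mink Finset.univ (fun x => (K ^ 4) x x) (fun x => (K ^ 2) x x) (a := L ^ 2 * r)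
      (b := r) (by positivity) r0 h4 hR
    have e : (L ^ 2 + 1) * r = L ^ 2 * r + r := by ring
    rw [e]; exact this

/-- `X₃` as a trace -/
lemma trace_step {s : ℝ} (hs : s ^ 2 = 1) {K : Matrix ι ι ℝ} (hK : K.IsSymm) (x y : ι) :
    ((upd s K x y) ^ 3).trace = (K ^ 3).trace + dX3 s K x y := by
  have e : ∀ M : Matrix ι ι ℝ, M.IsSymm → ip M (M ^ 2) = (M ^ 3).trace := by
    intro M hM
    rw [ip_eq_trace, (pow_symm hM 2).eq, ← pow_succ']
  have h1 := e K hK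
  have h2 := e (upd s K x y) (upd_symm s hK x y)
  unfold dX3
  rw [h1, h2]; ring

/-- first order effect of an operator norm bounded weight -/
lemma tilt_first {K : Matrix ι ι ℝ} {F : Finset ι} {v w r x1 x2 t3 t4 d3 d4 : ℝ}
    (h : Bds K F v w r x1 x2 t3 t4 d3 d4) {S : Finset (ι × ι)} {Θ : ι → ι → ℝ} {N : ℝ}
    (hsupp : ∀ x y, (x, y) ∉ S → Θ x y = 0) (hN : OpB (Matrix.of Θ) N) :
    |∑ p ∈ S, Θ p.1 p.2 * G4 K p.1 p.2| ≤ N * (x1 * t3) := by
  have e1 : ∑ p ∈ S, Θ p.1 p.2 * G4 K p.1 p.2 = ∑ x, ∑ y, Θ x y * G4 K x y := by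
    rw [← Fintype.sum_prod_type' (f := fun x y => Θ x y * G4 K x y)]
    exact Finset.sum_subset (Finset.subset_univ S) fun p _ hp => by
      rw [hsupp p.1 p.2 hp, zero_mul]
  have e2 : ∀ x y, G4 K x y = (K * (K ^ 3 - K)) x y := by
    intro x y
    rw [mul_sub, ← pow_succ', ← pow_two, Matrix.sub_apply]; rfl
  have h1 := TiltK.ip_mul_le hN K (K ^ 3 - K)
  simp only [Matrix.of_apply] at h1
  rw [e1]
  simp only [e2]
  refine h1.trans (mul_le_mul_of_nonneg_left ?_ hN.1)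
  have s1 : √(∑ x, ∑ y, K x y ^ 2) ≤ x1 := by
    rw [← Real.sqrt_sq h.x10]; exact Real.sqrt_le_sqrt h.hX1
  have s2 : √(∑ x, ∑ y, (K ^ 3 - K) x y ^ 2) ≤ t3 := by
    rw [← Real.sqrt_sq h.t30]; exact Real.sqrt_le_sqrt h.hT3
  exact mul_le_mul s1 s2 (Real.sqrt_nonneg _) h.x10

/-- total error of the weighted sum -/
noncomputable def ErrW (v w r x1 x2 t3 t4 d3 d4 β θ η N : ℝ) : ℝ :=
  ErrM v w r x1 x2 t3 t4 d3 d4 β + 6 * (N * (x1 * t3)) + 6 * (θ * (v * d4 + w * d3))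
    + η * (6 * (x1 * t4 + x2 * t3) + Err v w r x1 x2 t3 t4 d3 d4)

/-- the main part of the drift -/
noncomputable def mainX3 (K : Matrix ι ι ℝ) (ρ : ℝ) : ℝ :=
  12 * ((K ^ 5).trace - (K ^ 3).trace)
    + 6 * (K.trace * ((K ^ 4).trace - (K ^ 2).trace)
        + ((K ^ 2).trace - ρ) * ((K ^ 3).trace - K.trace))

theorem sum_w {s : ℝ} (hs1 : s ^ 2 = 1) {K : Matrix ι ι ℝ} {F : Finset ι}
    {v w r x1 x2 t3 t4 d3 d4 : ℝ} (h : Bds K F v w r x1 x2 t3 t4 d3 d4)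
    (hd : ∀ x, x ∉ F → ∀ y, K x y = 0) (hr : ∀ x ∈ F, ∑ y, K x y = s) {S : Finset (ι × ι)}
    (hS : GoodS K F S) {β : ℝ} (hβ : 0 ≤ β) (hcard : (((F ×ˢ F) \ S).card : ℝ) ≤ β ^ 2)
    {Θ : ι → ι → ℝ} {η θ N : ℝ} (hη : 0 ≤ η) (hθ : 0 ≤ θ)
    (hΘ : ∀ p ∈ S, |Θ p.1 p.2| ≤ η) (hΘ2 : ∑ p ∈ S, Θ p.1 p.2 ^ 2 ≤ θ ^ 2)
    (hsupp : ∀ x y, (x, y) ∉ S → Θ x y = 0) (hN : OpB (Matrix.of Θ) N) :
    |∑ p ∈ S, (1 - Θ p.1 p.2) * dX3 s K p.1 p.2 - mainX3 K F.card|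
      ≤ ErrW v w r x1 x2 t3 t4 d3 d4 β θ η N := by
  have h1 := mean_X3 hs1 h hd hr hS hβ hcard
  have h2 := tilt_X3 hs1 h hS Θ hη hθ hΘ hΘ2
  have h3 := tilt_first h hsupp hN
  have hs2 : |s| = 1 := by
    have : |s| ^ 2 = 1 := by rw [sq_abs]; exact hs1
    nlinarith [abs_nonneg s]
  have h4 : |6 * s * ∑ p ∈ S, Θ p.1 p.2 * G4 K p.1 p.2| ≤ 6 * (N * (x1 * t3)) := by
    rw [abs_mul, abs_mul, hs2, abs_of_pos (by norm_num : (0:ℝ) < 6), mul_one]
    exact mul_le_mul_of_nonneg_left h3 (by norm_num)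
  have e : ∑ p ∈ S, (1 - Θ p.1 p.2) * dX3 s K p.1 p.2
      = ∑ p ∈ S, dX3 s K p.1 p.2 - ∑ p ∈ S, Θ p.1 p.2 * dX3 s K p.1 p.2 := by
    rw [← Finset.sum_sub_distrib]
    exact Finset.sum_congr rfl fun p _ => by ring
  rw [e]
  unfold ErrW mainX3
  rw [abs_le] at *
  constructor <;> linarith [h1.1, h1.2, h2.1, h2.2, h4.1, h4.2]

/-- one step of a quadratic potential with a constant barrier -/
theorem pot_step {κ : Type*} (S : Finset κ) (ω δ : κ → ℝ) (hω : ∀ p ∈ S, 0 ≤ ω p)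
    {X b c D N2 : ℝ} (hc : 0 < c) (ha : max (X - b) 0 ≤ c) (hD0 : 0 ≤ D)
    (hD : b < X → ∑ p ∈ S, ω p * δ p ≤ D) (hN : ∑ p ∈ S, ω p * δ p ^ 2 ≤ N2) :
    ∑ p ∈ S, ω p * ((max (X + δ p - b) 0) ^ 2 / c ^ 2 - (max (X - b) 0) ^ 2 / c ^ 2)
      ≤ 2 * D / c + N2 / c ^ 2 := by
  have h1 : ∀ p ∈ S, ω p * ((max (X + δ p - b) 0) ^ 2 / c ^ 2 - (max (X - b) 0) ^ 2 / c ^ 2)
      ≤ (2 * max (X - b) 0 * (ω p * δ p) + ω p * δ p ^ 2) / c ^ 2 := by
    intro p hp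
    have h2 := Barrier.posSq_add_le (X - b) (δ p)
    rw [show X - b + δ p = X + δ p - b by ring] at h2
    rw [← sub_div, ← mul_div_assoc]
    refine div_le_div_of_nonneg_right ?_ (by positivity)
    calc ω p * ((max (X + δ p - b) 0) ^ 2 - (max (X - b) 0) ^ 2)
        ≤ ω p * (2 * max (X - b) 0 * δ p + δ p ^ 2) :=
          mul_le_mul_of_nonneg_left (by linarith) (hω p hp)
      _ = _ := by ring
  refine (Finset.sum_le_sum h1).trans ?_
  rw [← Finset.sum_div, Finset.sum_add_distrib, ← Finset.mul_sum]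
  have hc2 : 0 < c ^ 2 := by positivity
  have h3 : 2 * max (X - b) 0 * ∑ p ∈ S, ω p * δ p ≤ 2 * c * D := by
    rcases le_or_gt X b with hX | hX
    · rw [max_eq_right (by linarith : X - b ≤ 0)]
      have : 0 ≤ 2 * c * D := by positivity
      linarith
    · have h4 := hD hX
      have h5 : 0 ≤ max (X - b) 0 := le_max_right _ _
      calc 2 * max (X - b) 0 * ∑ p ∈ S, ω p * δ p ≤ 2 * max (X - b) 0 * D :=
            mul_le_mul_of_nonneg_left h4 (by positivity)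
        _ ≤ 2 * c * D := by
            apply mul_le_mul_of_nonneg_right _ hD0
            linarith
  calc (2 * max (X - b) 0 * ∑ p ∈ S, ω p * δ p + ∑ p ∈ S, ω p * δ p ^ 2) / c ^ 2
      ≤ (2 * c * D + N2) / c ^ 2 := div_le_div_of_nonneg_right (by linarith) hc2.le
    _ = 2 * D / c + N2 / c ^ 2 := by field_simp

end Crest.Agent.R62.X3Drift
end

-- ▼ part R62/X3Num
section

/-!
R62: numerical closures for the pieces of `X₃` (helper298).
-/

set_option autoImplicit false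
set_option linter.unusedSectionVars false
set_option linter.unusedVariables false

open Matrix Finset

namespace Crest.Agent.R62.X3Num

open Crest.Agent.R62.AvX3 Crest.Agent.R62.X3Drift Crest.Agent.R62.Expo

/-- a faster version of `expoO` (monomials and sums of atoms which are hypotheses) -/
macro "xO" : tactic => `(tactic| repeat' (first
    | assumption
    | with_reducible apply O.mul (by assumption)
    | with_reducible apply O.add (by assumption)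
    | with_reducible apply O.sq (by assumption)
    | with_reducible apply O.cube (by assumption)
    | with_reducible apply O.fourth (by assumption)
    | with_reducible exact O.ofNat _
    | exact O.const (by norm_num)
    | exact O.E (by linarith) _))

/-- `z ≤ E m b / K` -/
macro "xdiv" : tactic => `(tactic| (
    apply O.final_div (by assumption) (by norm_num)
    · xO
    · norm_num
      try linarith
    · expoMax))

/-! ### stage 1 -/

/-- O-bounds of all atoms, stage 1 (`κ = 2003`) and stage 2 (`κ = 2004`) -/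
structure At (m x κ e V W : ℝ) (v w r x1 x2 t3 t4 d3 d4 L : ℝ) : Prop where
  hm : 1 ≤ m
  hb : (5 : ℝ) * 10 ^ 14 ≤ m
  v : O m 1 V v
  w : O m 1 W w
  r : O m 2 (x / 2 + e) r
  x1 : O m 1 (x / 2) x1
  x2 : O m 1 ((κ - x) / 2) x2
  L : O m 1 ((κ - x) / 4) L
  t3 : O m 2 (3 * (κ - x) / 4) t3
  t4 : O m 2 (κ - x) t4
  d3 : O m 3 (κ / 4 + x / 4 + e) d3
  d4 : O m 4 (κ / 2 + e) d4

lemma err1 {m x v w r x1 x2 t3 t4 d3 d4 L : ℝ} (h : At m x 2003 0 3 305 v w r x1 x2 t3 t4 d3 d4 L)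
    (h1 : 800 ≤ x) (h2 : x ≤ 1000 + 1 / 10) :
    Err v w r x1 x2 t3 t4 d3 d4 ≤ E m (x + 997) / 1000 := by
  obtain ⟨hm, hb, hv, hw, hr, hx1, hx2, hL, ht3, ht4, hd3, hd4⟩ := h
  unfold Err
  xdiv

lemma errm1 {m x v w r x1 x2 t3 t4 d3 d4 L β : ℝ}
    (h : At m x 2003 0 3 305 v w r x1 x2 t3 t4 d3 d4 L) (hβ : O m 1 ((x + 1 / 5) / 2) β)
    (h1 : 800 ≤ x) (h2 : x ≤ 1000 + 1 / 10) :
    6 * (β * (t4 + v * d4 + w * d3)) + 6 * (x1 * t4 + x2 * t3) ≤ E m (x + 997) / 1000 := by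
  obtain ⟨hm, hb, hv, hw, hr, hx1, hx2, hL, ht3, ht4, hd3, hd4⟩ := h
  xdiv

lemma errt1 {m x v w r x1 x2 t3 t4 d3 d4 L θ N : ℝ}
    (h : At m x 2003 0 3 305 v w r x1 x2 t3 t4 d3 d4 L) (hθ : O m 1 ((1928 - x) / 2) θ)
    (hN : O m 1 371 N)
    (h1 : 800 ≤ x) (h2 : x ≤ 1000 + 1 / 10) :
    6 * (N * (x1 * t3)) + 6 * (θ * (v * d4 + w * d3)) ≤ E m (x + 997) / 1000 := by
  obtain ⟨hm, hb, hv, hw, hr, hx1, hx2, hL, ht3, ht4, hd3, hd4⟩ := h
  xdiv

set_option maxHeartbeats 2000000 in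
lemma sq1 {m x v w r x1 x2 t3 t4 d3 d4 L : ℝ}
    (h : At m x 2003 0 3 305 v w r x1 x2 t3 t4 d3 d4 L)
    (h1 : 800 ≤ x) (h2 : x ≤ 1000 + 1 / 10) :
    SqB L (1 + w) (v * w) v w r x2 d3 d4 t4 ≤ E m (x + 1997) / 1000 := by
  obtain ⟨hm, hb, hv, hw, hr, hx1, hx2, hL, ht3, ht4, hd3, hd4⟩ := h
  have hu : O m 2 305 (1 + w) := by
    have := (O.one (m := m)).add hm hw
    refine this.mono hm (by norm_num) (by rw [max_le_iff]; constructor <;> norm_num)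
  generalize 1 + w = u at hu ⊢
  have z0 : 18 * (400 * t4 ^ 2) ≤ E m (x + 1997) / 20000 := by xdiv
  have z1 : 18 * (450 * (v * d4) ^ 2) ≤ E m (x + 1997) / 20000 := by xdiv
  have z2 : 18 * (1458 * (w * d3) ^ 2) ≤ E m (x + 1997) / 20000 := by xdiv
  have z3 : 18 * (6084 * (2 * (L ^ 2 * (r * r) ^ 2))) ≤ E m (x + 1997) / 20000 := by xdiv
  have z4 : 18 * (6084 * (1 / 8 * x2 ^ 2)) ≤ E m (x + 1997) / 20000 := by xdiv
  have z5 : 18 * (10368 * (2 * (L ^ 2 * ((r * w ^ 2) * (r * v ^ 2))))) ≤ E m (x + 1997) / 20000 := by xdiv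
  have z6 : 18 * (10368 * (1 / 8 * (v * w) ^ 2)) ≤ E m (x + 1997) / 20000 := by xdiv
  have z7 : 18 * (10368 * (u ^ 2 * (v * d3) ^ 2)) ≤ E m (x + 1997) / 20000 := by xdiv
  have z8 : 18 * (4608 * ((v * w) ^ 2 * (v * d3) ^ 2)) ≤ E m (x + 1997) / 20000 := by xdiv
  have z9 : 18 * (4500000 * ((v * w) ^ 4 * (v * w) ^ 2)) ≤ E m (x + 1997) / 20000 := by xdiv
  have z10 : 18 * (2250000 * (u ^ 2 * (r * r) ^ 2)) ≤ E m (x + 1997) / 20000 := by xdiv
  have z11 : 18 * (80000 * ((v * w) ^ 2 * (w * w) ^ 2)) ≤ E m (x + 1997) / 20000 := by xdiv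
  have z12 : 18 * (160000 * (u ^ 2 * (w * w) ^ 2)) ≤ E m (x + 1997) / 20000 := by xdiv
  unfold SqB
  have hE := E_nonneg (lt_of_lt_of_le one_pos hm) (x + 1997)
  linarith [z0, z1, z2, z3, z4, z5, z6, z7, z8, z9, z10, z11, z12]

set_option maxHeartbeats 2000000 in
lemma sq2 {m x v w r x1 x2 t3 t4 d3 d4 L : ℝ}
    (h : At m x 2004 (13 / 8) 4 (683 / 2) v w r x1 x2 t3 t4 d3 d4 L)
    (h1 : 680 - 1 / 4 ≤ x) (h2 : x ≤ 800 + 1 / 10) :
    SqB L (1 + w) (v * w) v w r x2 d3 d4 t4 ≤ E m (x + 1997) / 1000 := by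
  obtain ⟨hm, hb, hv, hw, hr, hx1, hx2, hL, ht3, ht4, hd3, hd4⟩ := h
  have hu : O m 2 (683 / 2) (1 + w) := by
    have := (O.one (m := m)).add hm hw
    refine this.mono hm (by norm_num) (by rw [max_le_iff]; constructor <;> norm_num)
  generalize 1 + w = u at hu ⊢
  have z0 : 18 * (400 * t4 ^ 2) ≤ E m (x + 1997) / 20000 := by xdiv
  have z1 : 18 * (450 * (v * d4) ^ 2) ≤ E m (x + 1997) / 20000 := by xdiv
  have z2 : 18 * (1458 * (w * d3) ^ 2) ≤ E m (x + 1997) / 20000 := by xdiv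
  have z3 : 18 * (6084 * (2 * (L ^ 2 * (r * r) ^ 2))) ≤ E m (x + 1997) / 20000 := by xdiv
  have z4 : 18 * (6084 * (1 / 8 * x2 ^ 2)) ≤ E m (x + 1997) / 20000 := by xdiv
  have z5 : 18 * (10368 * (2 * (L ^ 2 * ((r * w ^ 2) * (r * v ^ 2))))) ≤ E m (x + 1997) / 20000 := by xdiv
  have z6 : 18 * (10368 * (1 / 8 * (v * w) ^ 2)) ≤ E m (x + 1997) / 20000 := by xdiv
  have z7 : 18 * (10368 * (u ^ 2 * (v * d3) ^ 2)) ≤ E m (x + 1997) / 20000 := by xdiv
  have z8 : 18 * (4608 * ((v * w) ^ 2 * (v * d3) ^ 2)) ≤ E m (x + 1997) / 20000 := by xdiv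
  have z9 : 18 * (4500000 * ((v * w) ^ 4 * (v * w) ^ 2)) ≤ E m (x + 1997) / 20000 := by xdiv
  have z10 : 18 * (2250000 * (u ^ 2 * (r * r) ^ 2)) ≤ E m (x + 1997) / 20000 := by xdiv
  have z11 : 18 * (80000 * ((v * w) ^ 2 * (w * w) ^ 2)) ≤ E m (x + 1997) / 20000 := by xdiv
  have z12 : 18 * (160000 * (u ^ 2 * (w * w) ^ 2)) ≤ E m (x + 1997) / 20000 := by xdiv
  unfold SqB
  have hE := E_nonneg (lt_of_lt_of_le one_pos hm) (x + 1997)
  linarith [z0, z1, z2, z3, z4, z5, z6, z7, z8, z9, z10, z11, z12]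

/-- drift bound, stage 1: `X₅, X₁ X₄, r₁ X₃` -/
lemma main1 {m x v w r x1 x2 t3 t4 d3 d4 L U X3 R1 : ℝ}
    (h : At m x 2003 0 3 305 v w r x1 x2 t3 t4 d3 d4 L) (hU : O m 2 361 U)
    (hX : O m 3 (1000 + 3 / 10) X3) (hR1 : O m 4 (680 + 1 / 10) R1)
    (h1 : 800 ≤ x) (h2 : x ≤ 1000 + 1 / 10) :
    12 * (L * x2 ^ 2) + 12 * X3 + 6 * (U * (x2 ^ 2 + x1 ^ 2)) + 6 * (R1 * (X3 + U))
      ≤ E m (x + 997) / 1000 := by
  obtain ⟨hm, hb, hv, hw, hr, hx1, hx2, hL, ht3, ht4, hd3, hd4⟩ := h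
  xdiv

/-! ### stage 2 -/

/-- drift bound, stage 2 -/
lemma main2 {m x v w r x1 x2 t3 t4 d3 d4 L U : ℝ}
    (h : At m x 2004 (13 / 8) 4 (683 / 2) v w r x1 x2 t3 t4 d3 d4 L) (hU : O m 1 336 U)
    (h1 : 680 - 1 / 4 ≤ x) (h2 : x ≤ 800 + 1 / 10) :
    12 * (L * x2 ^ 2) + 6 * (U * (x2 ^ 2 + 4 * x1 ^ 2)) ≤ E m (x + 997) / 1000 := by
  obtain ⟨hm, hb, hv, hw, hr, hx1, hx2, hL, ht3, ht4, hd3, hd4⟩ := h
  xdiv

lemma err2 {m x v w r x1 x2 t3 t4 d3 d4 L : ℝ}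
    (h : At m x 2004 (13 / 8) 4 (683 / 2) v w r x1 x2 t3 t4 d3 d4 L)
    (h1 : 680 - 1 / 4 ≤ x) (h2 : x ≤ 800 + 1 / 10) :
    Err v w r x1 x2 t3 t4 d3 d4 ≤ E m (x + 997) / 1000 := by
  obtain ⟨hm, hb, hv, hw, hr, hx1, hx2, hL, ht3, ht4, hd3, hd4⟩ := h
  unfold Err
  xdiv

lemma errm2 {m x v w r x1 x2 t3 t4 d3 d4 L β : ℝ}
    (h : At m x 2004 (13 / 8) 4 (683 / 2) v w r x1 x2 t3 t4 d3 d4 L) (hβ : O m 1 ((x + 1 / 5) / 2) β)
    (h1 : 680 - 1 / 4 ≤ x) (h2 : x ≤ 800 + 1 / 10) :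
    6 * (β * (t4 + v * d4 + w * d3)) + 6 * (x1 * t4 + x2 * t3) ≤ E m (x + 997) / 1000 := by
  obtain ⟨hm, hb, hv, hw, hr, hx1, hx2, hL, ht3, ht4, hd3, hd4⟩ := h
  xdiv

end Crest.Agent.R62.X3Num
end

-- ▼ part R62/MainX3

/-!
R62: the pieces `S1X3l`, `S1X3u`, `S2X3` of `StepDefs` (helper298).
-/

set_option autoImplicit false
set_option linter.unusedSectionVars false
set_option linter.unusedVariables false

open Matrix Finset

namespace Crest.Agent.R62.MainX3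

open Crest.Agent.R62.Upd Crest.Agent.R62.AvX3 Crest.Agent.R62.AvBase Crest.Agent.R62.X3Drift
open Crest.Agent.R62.Step Crest.Agent.R62.Expo Crest.Agent.R62.Nums Crest.Agent.R062
open Crest.Agent.R62.X3Num
open Crest.Agent.R62.AvX1 (ind Vf Wf)

variable {ι : Type} [Fintype ι] [DecidableEq ι]

lemma E_nat (m : ℝ) (k : ℕ) [k.AtLeastTwo] : m ^ (OfNat.ofNat k : ℕ) = E m (OfNat.ofNat k) :=
  (E_ofNat m k).symm

/-- row sums from the indicator form -/
lemma row_of {K : Matrix ι ι ℝ} {F : Finset ι} {s : ℝ} (hK : K.IsSymm)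
    (hd : ∀ i j, i ∉ F → K i j = 0) (h : K *ᵥ ind F = s • ind F) :
    ∀ x ∈ F, ∑ y, K x y = s := by
  intro x hx
  have h1 := congrFun h x
  simp only [mulVec, dotProduct, ind, Pi.smul_apply, smul_eq_mul, mul_ite, mul_one, mul_zero,
    if_pos hx] at h1
  rw [← h1]
  refine Finset.sum_congr rfl fun y _ => ?_
  by_cases hy : y ∈ F
  · rw [if_pos hy]
  · rw [if_neg hy, ← hK.apply x y, hd y x hy]

/-- the atoms from numerical bounds -/
lemma at_of {m x κ e V W : ℝ} (hm : 1 ≤ m) (hb : (5 : ℝ) * 10 ^ 14 ≤ m) (hV : V ≤ κ / 4 + x / 4)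
    (hx : 5 * x ≤ 3 * κ) (hx0 : 0 ≤ x) (hκ : 0 ≤ κ - x) (he : 0 ≤ e) :
    At m x κ e V W (E m V) (E m W) (2 * E m (x / 2 + e)) (E m (x / 2)) (E m ((κ - x) / 2))
      (E m ((κ - x) / 4) * E m ((κ - x) / 2) + E m (x / 2))
      ((E m ((κ - x) / 4) ^ 2 + 1) * E m ((κ - x) / 2))
      (E m ((κ - x) / 4) * (2 * E m (x / 2 + e)) + E m V)
      ((E m ((κ - x) / 4) ^ 2 + 1) * (2 * E m (x / 2 + e))) (E m ((κ - x) / 4)) := by
  have h0 : 0 < m := lt_of_lt_of_le one_pos hm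
  have o1 : O m 1 ((κ - x) / 4) (E m ((κ - x) / 4)) := O.E h0 _
  have o2 : O m 1 ((κ - x) / 2) (E m ((κ - x) / 2)) := O.E h0 _
  have o3 : O m 1 (x / 2) (E m (x / 2)) := O.E h0 _
  have o4 : O m 2 (x / 2 + e) (2 * E m (x / 2 + e)) :=
    ⟨by have := (E_pos h0 (x / 2 + e)).le; positivity, le_rfl⟩
  have oV : O m 1 V (E m V) := O.E h0 _
  have oL : O m 2 ((κ - x) / 2) (E m ((κ - x) / 4) ^ 2 + 1) := by
    refine ((o1.sq hm).add hm O.one).mono hm (by norm_num) (max_le ?_ ?_) <;> linarith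
  refine ⟨hm, hb, oV, O.E h0 _, o4, o3, o2, o1, ?_, ?_, ?_, ?_⟩
  · refine ((o1.mul hm o2).add hm o3).mono hm (by norm_num) (max_le ?_ ?_) <;> linarith
  · refine (oL.mul hm o2).mono hm (by norm_num) ?_; linarith
  · refine ((o1.mul hm o4).add hm oV).mono hm (by norm_num) (max_le ?_ ?_) <;> linarith
  · refine (oL.mul hm o4).mono hm (by norm_num) ?_; linarith

lemma good_of {d m : ℕ} {γ : ℝ} {F : Finset ι} {K : Bool → Matrix ι ι ℝ} {S : Finset (ι × ι)}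
    (c : Ctx d m γ F K S) (b : Bool) : GoodS (K b) F S := by
  intro p hp
  have h := Finset.mem_product.1 (c.sub hp)
  exact ⟨h.1, h.2, c.ne p hp, (c.good1 p hp b).trans (by norm_num),
    (c.good2 p hp b).trans (by norm_num)⟩


/-! ### the final scalar step -/

lemma fin_up {m x ρ c D N2 : ℝ} (hm : 1 ≤ m) (hb : (5 : ℝ) * 10 ^ 14 ≤ m) (hρ : ρ = E m x)
    (hc : E m 1000 / 4 ≤ c) (hD : D ≤ 6 * (E m (x + 997) / 1000))
    (hN : N2 ≤ 2 * (E m (x + 1997) / 1000)) : 2 * D / c + N2 / c ^ 2 ≤ ρ / m ^ 2 := by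
  have h0 : 0 < m := lt_of_lt_of_le one_pos hm
  have e1000 : 0 < E m 1000 := E_pos h0 _
  have hc0 : 0 < c := lt_of_lt_of_le (by positivity) hc
  have a1 : E m (x + 997) = E m (x - 3) * E m 1000 := by rw [E_mul h0]; congr 1; ring
  have a2 : E m (x + 1997) = E m (x - 3) * (E m 1000) ^ 2 := by
    rw [E_sq h0, E_mul h0]; congr 1; ring
  have a3 : ρ / m ^ 2 = E m (x - 3) * m := by
    rw [hρ, div_eq_iff (by positivity)]
    have : m = E m 1 := (E_one m).symm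
    calc E m x = E m (x - 3 + 1 + 2) := by congr 1; ring
      _ = E m (x - 3) * E m 1 * E m 2 := by rw [E_add h0, E_add h0]
      _ = E m (x - 3) * m * m ^ 2 := by rw [E_one, E_ofNat]
  have hz := E_pos h0 (x - 3)
  have b1 : 2 * D / c ≤ 1 * E m (x - 3) := by
    rw [div_le_iff₀ hc0]
    rw [a1] at hD
    have : E m (x - 3) * (E m 1000 / 4) ≤ E m (x - 3) * c := mul_le_mul_of_nonneg_left hc hz.le
    have : 0 ≤ E m (x - 3) * E m 1000 := by positivity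
    linarith
  have b2 : N2 / c ^ 2 ≤ 1 * E m (x - 3) := by
    rw [div_le_iff₀ (by positivity)]
    rw [a2] at hN
    have h1 : (E m 1000 / 4) ^ 2 ≤ c ^ 2 := pow_le_pow_left₀ (by positivity) hc 2
    have h2 : E m (x - 3) * (E m 1000 / 4) ^ 2 ≤ E m (x - 3) * c ^ 2 :=
      mul_le_mul_of_nonneg_left h1 hz.le
    have h3 : 0 ≤ E m (x - 3) * (E m 1000) ^ 2 := by positivity
    have h4 : E m (x - 3) * (E m 1000 / 4) ^ 2 = E m (x - 3) * (E m 1000) ^ 2 / 16 := by ring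
    linarith
  rw [a3]
  nlinarith

/-! ### stage 1 -/

section stage1
variable {d n m : ℕ} {γ : ℝ} {F : Finset ι} {K : Bool → Matrix ι ι ℝ} {S : Finset (ι × ι)}
  {Θ : ι → ι → ℝ}

/-- abbreviation: all numbers of a stage -/
def BdsE (K : Matrix ι ι ℝ) (F : Finset ι) (m x κ e V W : ℝ) : Prop :=
  Bds K F (E m V) (E m W) (2 * E m (x / 2 + e)) (E m (x / 2)) (E m ((κ - x) / 2))
      (E m ((κ - x) / 4) * E m ((κ - x) / 2) + E m (x / 2))
      ((E m ((κ - x) / 4) ^ 2 + 1) * E m ((κ - x) / 2))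
      (E m ((κ - x) / 4) * (2 * E m (x / 2 + e)) + E m V)
      ((E m ((κ - x) / 4) ^ 2 + 1) * (2 * E m (x / 2 + e)))

theorem bds1 (hp : Prm d n m) (c : Ctx d m γ F K S) (b1 : Box1 d n m F K) (b : Bool) :
    BdsE (K b) F m (ex m F.card) 2003 0 3 305 := by
  have P := par hp
  have R := rho1 hp b1
  have h4 := opB1 hp c b1 b
  have m0 := P.m0
  refine Bds.of (c.symm b) (fun i hi j => c.dead b i j hi) h4.2 (E_pos m0 _).le (E_pos m0 _).le
    (by have := (E_pos m0 (ex m F.card / 2 + 0)).le; positivity) (E_pos m0 _).le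
    (E_pos m0 _).le ?_ ?_ ?_ ?_ ?_
  · rw [E_sq m0]
    have := b1.Vu b
    rw [pow_eq] at this
    norm_num at this ⊢
    exact this
  · rw [E_sq m0]
    have := b1.Wu b
    rw [pow_eq] at this
    norm_num at this ⊢
    exact this
  · have := Rf_le1 hp c b1 b
    rw [mul_pow, E_sq m0]
    have e : 2 * (ex (m : ℝ) F.card / 2 + 0) = ex m F.card := by ring
    rw [e, ← R.eq]
    have h5 : Rf (K b) = ∑ x, (K b ^ 2) x x ^ 2 := rfl
    have := R.pos
    linarith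
  · rw [E_sq m0]
    have e : 2 * (ex (m : ℝ) F.card / 2) = ex m F.card := by ring
    rw [e, ← R.eq]
    exact X2_le1 P b1 b
  · rw [E_sq m0]
    have e : 2 * ((2003 - ex (m : ℝ) F.card) / 2) = 2003 - ex m F.card := by ring
    rw [e]; exact h4.1

lemma U_le (P : Par d n m) (ρ : ℝ) : U m ρ ≤ E m 361 := by
  unfold U
  rw [pow_eq]
  have h : max 0 (min 1 ((ρ - (m : ℝ) ^ 800) / (m : ℝ) ^ 800)) ≤ 1 :=
    max_le zero_le_one (min_le_left _ _)
  have := (E_pos P.m0 ((361 : ℕ) : ℝ)).le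
  have e : ((361 : ℕ) : ℝ) = 361 := by norm_num
  rw [e] at this ⊢
  nlinarith

lemma X1_abs1 (P : Par d n m) (b1 : Box1 d n m F K) (b : Bool) : |(K b).trace| ≤ 2 * E m 361 := by
  have h1 := b1.X1u b
  have h2 := b1.X1l b
  have h3 := U_le P (F.card : ℝ)
  rw [pow_eq] at h1 h2
  have h4 : E (m : ℝ) ((335 : ℕ) : ℝ) ≤ E m 361 := E_mono P.m1 (by norm_num)
  have := (E_pos P.m0 361).le
  rw [abs_le]; constructor <;> linarith

/-- the error of the weighted drift in stage 1 -/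
theorem errW1 (hp : Prm d n m) (c : Ctx d m γ F K S) (b1 : Box1 d n m F K)
    (t : Tilt1 d n m F K S Θ) (b : Bool) :
    |∑ p ∈ S, (1 - Θ p.1 p.2) * dX3 (Mach.sg b : ℝ) (K b) p.1 p.2 - mainX3 (K b) F.card|
      ≤ 5 * (E m (ex m F.card + 997) / 1000) := by
  have P := par hp
  have R := rho1 hp b1
  have m0 := P.m0
  have hB := bds1 hp c b1 b
  have hA := at_of (m := m) (x := ex m F.card) (κ := 2003) (e := 0) (V := 3) (W := 305) P.m1
    P.mbig (by have := R.lo; linarith) (by have := R.hi; linarith) (by have := R.lo; linarith)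
    (by have := R.hi; linarith) le_rfl
  have hβ : (((F ×ˢ F) \ S).card : ℝ) ≤ E m ((ex m F.card + 1 / 5) / 2) ^ 2 := by
    rw [E_sq m0]
    refine (bad1 hp c b1).trans (le_of_eq ?_)
    congr 1; ring
  have hη : (E (m : ℝ) (-1)) = 1 / m := by rw [E_neg m0, E_one]; ring
  have hθ : ∑ p ∈ S, Θ p.1 p.2 ^ 2 ≤ E m ((1928 - ex m F.card) / 2) ^ 2 := by
    rw [E_sq m0, show 2 * ((1928 - ex (m : ℝ) F.card) / 2) = 1928 - ex m F.card by ring,
      E_sub m0, ← R.eq, le_div_iff₀ R.pos]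
    have h1 := t.frob
    rw [E_nat] at h1
    refine le_trans (mul_le_mul_of_nonneg_right ?_ R.pos.le) h1
    rw [← Fintype.sum_prod_type' (f := fun x y => Θ x y ^ 2)]
    exact Finset.sum_le_sum_of_subset_of_nonneg (Finset.subset_univ S) fun p _ _ => sq_nonneg _
  have hN : OpB (Matrix.of Θ) (E m 371) := by
    have := t.opB
    rwa [E_nat] at this
  have h := sum_w (X3Low.sg_sq b) hB (fun i hi j => c.dead b i j hi)
    (row_of (c.symm b) (c.dead b) (c.row b)) (good_of c b) (E_pos m0 _).le hβ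
    (E_pos m0 (-1)).le (E_pos m0 _).le (fun p _ => by rw [hη]; exact t.abs_le _ _) hθ t.supp hN
  refine h.trans ?_
  have o1 : O (m : ℝ) 1 ((ex m F.card + 1 / 5) / 2) (E m ((ex m F.card + 1 / 5) / 2)) := O.E m0 _
  have o2 : O (m : ℝ) 1 ((1928 - ex m F.card) / 2) (E m ((1928 - ex m F.card) / 2)) := O.E m0 _
  have o3 : O (m : ℝ) 1 371 (E m 371) := O.E m0 _
  have z1 := err1 hA R.lo R.hi
  have z2 := errm1 hA o1 R.lo R.hi
  have z3 := errt1 hA o2 o3 R.lo R.hi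
  have e0 := Err_nonneg hB
  have q1 := hB.x10
  have q2 := hB.t40
  have q3 := hB.x20
  have q4 := hB.t30
  have q5 := hB.v0
  have q6 := hB.w0
  have q7 := hB.d30
  have q8 := hB.d40
  have e1 := (E_pos m0 ((ex m F.card + 1 / 5) / 2)).le
  have hη1 : E (m : ℝ) (-1) ≤ 1 := E_le_one P.m1 (by norm_num)
  unfold ErrW ErrM
  generalize E (m : ℝ) ((ex m F.card + 1 / 5) / 2) = β at *
  generalize E (m : ℝ) ((1928 - ex m F.card) / 2) = θ at *
  generalize E (m : ℝ) 371 = N at *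
  set t3 := E (m : ℝ) ((2003 - ex m F.card) / 4) * E m ((2003 - ex m F.card) / 2)
    + E m (ex m F.card / 2) with ht3
  set t4 := (E (m : ℝ) ((2003 - ex m F.card) / 4) ^ 2 + 1) * E m ((2003 - ex m F.card) / 2)
    with ht4
  set d3 := E (m : ℝ) ((2003 - ex m F.card) / 4) * (2 * E m (ex m F.card / 2 + 0)) + E m 3
    with hd3
  set d4 := (E (m : ℝ) ((2003 - ex m F.card) / 4) ^ 2 + 1) * (2 * E m (ex m F.card / 2 + 0))
    with hd4
  have hx : 0 ≤ 6 * (E (m : ℝ) (ex m F.card / 2) * t4 + E m ((2003 - ex m F.card) / 2) * t3) := by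
    positivity
  have hb' : 0 ≤ 6 * (β * (t4 + E m 3 * d4 + E m 305 * d3)) := by positivity
  have hm' : E (m : ℝ) (-1) * (6 * (E m (ex m F.card / 2) * t4
        + E m ((2003 - ex m F.card) / 2) * t3) + Err (E m 3) (E m 305) (2 * E m (ex m F.card / 2 + 0))
        (E m (ex m F.card / 2)) (E m ((2003 - ex m F.card) / 2)) t3 t4 d3 d4)
      ≤ 1 * (6 * (E m (ex m F.card / 2) * t4
        + E m ((2003 - ex m F.card) / 2) * t3) + Err (E m 3) (E m 305) (2 * E m (ex m F.card / 2 + 0))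
        (E m (ex m F.card / 2)) (E m ((2003 - ex m F.card) / 2)) t3 t4 d3 d4) :=
    mul_le_mul_of_nonneg_right hη1 (by positivity)
  linarith

lemma th_abs (P : Par d n m) (t : Tilt1 d n m F K S Θ) (x y : ι) :
    0 ≤ 1 - Θ x y ∧ 1 - Θ x y ≤ 2 := by
  have h1 := t.abs_le x y
  have h2 : (1 : ℝ) / m ≤ 1 := by
    rw [div_le_one P.m0]; exact P.m1
  have h3 := abs_le.1 (h1.trans h2)
  constructor <;> linarith [h3.1, h3.2]

/-- the second moment in stage 1 -/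
theorem sqW1 (hp : Prm d n m) (c : Ctx d m γ F K S) (b1 : Box1 d n m F K)
    (t : Tilt1 d n m F K S Θ) (b : Bool) :
    ∑ p ∈ S, (1 - Θ p.1 p.2) * dX3 (Mach.sg b : ℝ) (K b) p.1 p.2 ^ 2
      ≤ 2 * (E m (ex m F.card + 1997) / 1000) := by
  have P := par hp
  have R := rho1 hp b1
  have hB := bds1 hp c b1 b
  have hA := at_of (m := m) (x := ex m F.card) (κ := 2003) (e := 0) (V := 3) (W := 305) P.m1
    P.mbig (by have := R.lo; linarith) (by have := R.hi; linarith) (by have := R.lo; linarith)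
    (by have := R.hi; linarith) le_rfl
  have h1 := sq_X3' (X3Low.sg_sq b) hB (opB1 hp c b1 b).2 (good_of c b)
  have h2 := sq1 hA R.lo R.hi
  calc ∑ p ∈ S, (1 - Θ p.1 p.2) * dX3 (Mach.sg b : ℝ) (K b) p.1 p.2 ^ 2
      ≤ ∑ p ∈ S, 2 * dX3 (Mach.sg b : ℝ) (K b) p.1 p.2 ^ 2 :=
        Finset.sum_le_sum fun p _ =>
          mul_le_mul_of_nonneg_right (th_abs P t p.1 p.2).2 (sq_nonneg _)
    _ = 2 * ∑ p ∈ S, dX3 (Mach.sg b : ℝ) (K b) p.1 p.2 ^ 2 := by rw [Finset.mul_sum]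
    _ ≤ _ := mul_le_mul_of_nonneg_left (h1.trans h2) (by norm_num)

/-- generic bound of `mainX3` -/
lemma main_le {K : Matrix ι ι ℝ} {F : Finset ι} {v w r x1 x2 t3 t4 d3 d4 L U : ℝ} {ρ : ℝ}
    (h : Bds K F v w r x1 x2 t3 t4 d3 d4) (hL : OpB K L) (hU : |K.trace| ≤ U) :
    |12 * (K ^ 5).trace + 6 * (K.trace * ((K ^ 4).trace - (K ^ 2).trace))|
      ≤ 12 * (L * x2 ^ 2) + 6 * (U * (x2 ^ 2 + x1 ^ 2)) := by
  have q2 := frob_pow (K := K) h.sym 1
  have q4 := frob_pow (K := K) h.sym 2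
  simp only [pow_one, Nat.reduceMul, mul_one] at q2 q4
  have X2 : (K ^ 2).trace ≤ x1 ^ 2 := by rw [← q2]; exact h.hX1
  have X4 : (K ^ 4).trace ≤ x2 ^ 2 := by rw [← q4]; exact h.hX2
  have X20 : 0 ≤ (K ^ 2).trace := by simpa using trace_even_nonneg (K := K) h.sym 1
  have X40 : 0 ≤ (K ^ 4).trace := by simpa using trace_even_nonneg (K := K) h.sym 2
  have h5 := abs_trace_five_le (K := K) h.sym hL
  have h5' : |12 * (K ^ 5).trace| ≤ 12 * (L * x2 ^ 2) := by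
    rw [abs_mul, abs_of_pos (by norm_num : (0:ℝ) < 12)]
    refine mul_le_mul_of_nonneg_left (h5.trans (mul_le_mul_of_nonneg_left X4 hL.1)) (by norm_num)
  have h6 : |(K ^ 4).trace - (K ^ 2).trace| ≤ x2 ^ 2 + x1 ^ 2 := by
    rw [abs_le]; constructor <;> nlinarith [sq_nonneg x1, sq_nonneg x2]
  refine (abs_add_le _ _).trans (add_le_add h5' ?_)
  rw [abs_mul, abs_mul, abs_of_pos (by norm_num : (0:ℝ) < 6)]
  refine mul_le_mul_of_nonneg_left ?_ (by norm_num)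
  exact mul_le_mul hU h6 (abs_nonneg _) ((abs_nonneg _).trans hU)


/-- numbers for `mainX3` in stage 1 -/
lemma mainnum1 (hp : Prm d n m) (b1 : Box1 d n m F K) :
    12 * (E m ((2003 - ex m F.card) / 4) * E m ((2003 - ex m F.card) / 2) ^ 2)
      + 12 * (3 * ((d : ℝ) - 1) ^ 2 * n)
      + 6 * (2 * E m 361 * (E m ((2003 - ex m F.card) / 2) ^ 2 + E m (ex m F.card / 2) ^ 2))
      + 6 * (4 * r1 d n m * (3 * ((d : ℝ) - 1) ^ 2 * n + 2 * E m 361))
      ≤ E m (ex m F.card + 997) / 1000 := by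
  have P := par hp
  have R := rho1 hp b1
  have m0 := P.m0
  have hm := P.m1
  have hA := at_of (m := m) (x := ex m F.card) (κ := 2003) (e := 0) (V := 3) (W := 305) P.m1
    P.mbig (by have := R.lo; linarith) (by have := R.hi; linarith) (by have := R.lo; linarith)
    (by have := R.hi; linarith) le_rfl
  have oU : O (m : ℝ) 2 361 (2 * E m 361) :=
    ⟨by have := (E_pos m0 361).le; positivity, le_rfl⟩
  have oX : O (m : ℝ) 3 (1000 + 3 / 10) (3 * ((d : ℝ) - 1) ^ 2 * n) := by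
    have h := ((O.ofNat (m := (m : ℝ)) 3).mul hm (P.d1O.sq hm)).mul hm P.nO
    refine h.mono hm (by norm_num) (by norm_num)
  have oR : O (m : ℝ) 4 (680 + 1 / 10) (4 * r1 d n m) := by
    have h := (O.ofNat (m := (m : ℝ)) 4).mul hm P.r1O
    refine h.mono hm (by norm_num) (by norm_num)
  exact main1 hA oU oX oR R.lo R.hi

theorem s1x3u : S1X3u ι := by
  intro d n m γ F K S Θ hp c b1 t b
  have P := par hp
  have R := rho1 hp b1
  have m0 := P.m0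
  have hd3 := P.d3
  have hB := bds1 hp c b1 b
  have hL := (opB1 hp c b1 b).2
  have hn := P.n_ge
  have hE := E_pos m0 1000
  have hn0 : (0 : ℝ) < n := lt_of_lt_of_le hE hn
  set q : ℝ := ((d : ℝ) - 1) ^ 2 * n with hq
  have hd4 : (4 : ℝ) ≤ ((d : ℝ) - 1) ^ 2 := by nlinarith
  have hq1 : 4 * (n : ℝ) ≤ q := by rw [hq]; exact mul_le_mul_of_nonneg_right hd4 hn0.le
  have hU := X1_abs1 P b1 b
  have hU2 : 2 * E (m : ℝ) 361 ≤ n := by
    have h1 : E (m : ℝ) 1000 = E m 361 * E m 639 := by rw [E_mul m0]; norm_num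
    have h2 : (2 : ℝ) ≤ E m 639 := by
      have := E_mono P.m1 (show (1 : ℝ) / 10 ≤ 639 by norm_num)
      have := P.d10
      linarith
    have := (E_pos m0 361).le
    nlinarith
  set b0 : ℝ := 2 * ((d : ℝ) - 1) ^ 2 * n with hb0
  have hb0q : b0 = 2 * q := by rw [hb0, hq]; ring
  have hX3u := b1.X3u b
  have hX3u' : (K b ^ 3).trace ≤ 3 * q := by rw [hq]; linarith
  have main := main_le (ρ := F.card) hB hL hU
  have mnum := mainnum1 hp b1
  have err := errW1 hp c b1 t b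
  have sqb := sqW1 hp c b1 t b
  have X2le := X2_le1 P b1 b
  -- positivity of pieces of mnum
  have r0 := P.r1_pos
  have p2 : 0 ≤ 6 * (4 * r1 d n m * (3 * ((d : ℝ) - 1) ^ 2 * n + 2 * E m 361)) := by
    have := (E_pos m0 361).le
    positivity
  have p1 : 0 ≤ 12 * (3 * ((d : ℝ) - 1) ^ 2 * n) := by positivity
  have hA0 := (E_pos m0 (ex m F.card + 997)).le
  have step := pot_step S (fun p => 1 - Θ p.1 p.2)
    (fun p => dX3 (Mach.sg b : ℝ) (K b) p.1 p.2) (fun p _ => (th_abs P t p.1 p.2).1)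
    (X := (K b ^ 3).trace) (b := b0) (c := q) (D := 6 * (E m (ex m F.card + 997) / 1000))
    (N2 := 2 * (E m (ex m F.card + 1997) / 1000)) (by linarith)
    (max_le (by linarith) (by linarith)) (by positivity) ?_ sqb
  · have fin := fin_up P.m1 P.mbig R.eq (c := q) (D := 6 * (E m (ex m F.card + 997) / 1000))
      (N2 := 2 * (E m (ex m F.card + 1997) / 1000)) (by linarith) le_rfl le_rfl
    refine le_trans (le_of_eq ?_) (step.trans fin)
    unfold inc p1X3u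
    refine Finset.sum_congr rfl fun p hp' => ?_
    simp only [nx]
    rw [trace_step (X3Low.sg_sq b) (c.symm b)]
  · intro hX
    have hm1 : mainX3 (K b) F.card ≤ E m (ex m F.card + 997) / 1000 := by
      unfold mainX3
      have h1 := (abs_le.1 main).2
      have h2 : ((K b ^ 2).trace - F.card) * ((K b ^ 3).trace - (K b).trace) ≤ 0 := by
        have h3 := (abs_le.1 hU).2
        exact mul_nonpos_of_nonpos_of_nonneg (by linarith) (by linarith)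
      linarith
    have h2 := (abs_le.1 err).2
    linarith

theorem s1x3l : S1X3l ι := by
  intro d n m γ F K S Θ hp c b1 t b
  have P := par hp
  have R := rho1 hp b1
  have m0 := P.m0
  have hd3 := P.d3
  have hB := bds1 hp c b1 b
  have hL := (opB1 hp c b1 b).2
  have hn := P.n_ge
  have hE := E_pos m0 1000
  have hn0 : (0 : ℝ) < n := lt_of_lt_of_le hE hn
  have hU := X1_abs1 P b1 b
  have hX3u := b1.X3u b
  have hX3l := b1.X3l b
  have main := main_le (ρ := F.card) hB hL hU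
  have mnum := mainnum1 hp b1
  have err := errW1 hp c b1 t b
  have sqb := sqW1 hp c b1 t b
  have X2le := X2_le1 P b1 b
  have X2ge := b1.X2l b
  have r0 := P.r1_pos
  have hA0 := (E_pos m0 (ex m F.card + 997)).le
  have sqb' : ∑ p ∈ S, (1 - Θ p.1 p.2) * (-dX3 (Mach.sg b : ℝ) (K b) p.1 p.2) ^ 2
      ≤ 2 * (E m (ex m F.card + 1997) / 1000) := by
    simpa only [neg_sq] using sqb
  have step := pot_step S (fun p => 1 - Θ p.1 p.2)
    (fun p => -dX3 (Mach.sg b : ℝ) (K b) p.1 p.2) (fun p _ => (th_abs P t p.1 p.2).1)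
    (X := -(K b ^ 3).trace) (b := -(3 / 2 * (n : ℝ))) (c := (n : ℝ) / 4)
    (D := 6 * (E m (ex m F.card + 997) / 1000))
    (N2 := 2 * (E m (ex m F.card + 1997) / 1000)) (by linarith)
    (max_le (by linarith) (by linarith)) (by positivity) ?_ sqb'
  · have fin := fin_up P.m1 P.mbig R.eq (c := (n : ℝ) / 4)
      (D := 6 * (E m (ex m F.card + 997) / 1000))
      (N2 := 2 * (E m (ex m F.card + 1997) / 1000)) (by linarith) le_rfl le_rfl
    refine le_trans (le_of_eq ?_) (step.trans fin)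
    unfold inc p1X3l
    refine Finset.sum_congr rfl fun p hp' => ?_
    simp only [nx]
    rw [trace_step (X3Low.sg_sq b) (c.symm b)]
    congr 3
    · congr 2; ring
    · congr 2; ring
  · intro hX
    have hm1 : -mainX3 (K b) F.card ≤ E m (ex m F.card + 997) / 1000 := by
      unfold mainX3
      have h1 := (abs_le.1 main).1
      have h3 := abs_le.1 hU
      have h2 : ((F.card : ℝ) - (K b ^ 2).trace) * ((K b ^ 3).trace - (K b).trace)
          ≤ 4 * r1 d n m * (3 * ((d : ℝ) - 1) ^ 2 * n + 2 * E m 361) := by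
        have h4 : (K b ^ 3).trace - (K b).trace ≤ 3 * ((d : ℝ) - 1) ^ 2 * n + 2 * E m 361 := by
          linarith [h3.1]
        have h5 : 0 ≤ 3 * ((d : ℝ) - 1) ^ 2 * n + 2 * E m 361 := by
          have := (E_pos m0 361).le
          positivity
        calc ((F.card : ℝ) - (K b ^ 2).trace) * ((K b ^ 3).trace - (K b).trace)
            ≤ ((F.card : ℝ) - (K b ^ 2).trace) * (3 * ((d : ℝ) - 1) ^ 2 * n + 2 * E m 361) :=
              mul_le_mul_of_nonneg_left h4 (by linarith)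
          _ ≤ _ := mul_le_mul_of_nonneg_right (by linarith) h5
      linarith
    have h2 := (abs_le.1 err).1
    have e : ∑ p ∈ S, (1 - Θ p.1 p.2) * -dX3 (Mach.sg b : ℝ) (K b) p.1 p.2
        = -∑ p ∈ S, (1 - Θ p.1 p.2) * dX3 (Mach.sg b : ℝ) (K b) p.1 p.2 := by
      rw [← Finset.sum_neg_distrib]
      exact Finset.sum_congr rfl fun p _ => by ring
    rw [e]
    linarith

end stage1

/-! ### stage 2 -/

section stage2
variable {d n m : ℕ} {γ x0 : ℝ} {F : Finset ι} {K : Bool → Matrix ι ι ℝ} {S : Finset (ι × ι)}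

/-- `X₂ ≤ ρ` in stage 2 -/
lemma X2_le_rho2 (hp : Prm d n m) (b2 : Box2 d n m x0 F K) (b : Bool) :
    (K b ^ 2).trace ≤ F.card := by
  have P := par hp
  have R := rho2 hp b2
  have m0 := P.m0
  have h1 := b2.X2u b
  rw [E_nat] at h1
  refine h1.trans ?_
  have hr := P.r1_ge
  have hρ : E m (680 - 1 / 4) ≤ (F.card : ℝ) := by rw [R.eq]; exact E_mono P.m1 R.lo
  have k : 4 * E (m : ℝ) 670 ≤ E m (680 - 1 / 4) := by
    have e : E (m : ℝ) (680 - 1 / 4) = E m 670 * E m (10 - 1 / 4) := by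
      rw [E_mul m0]; congr 1; norm_num
    have h2 : (4 : ℝ) ≤ E m (10 - 1 / 4) := by
      have h3 := E_mono P.m1 (show (1 : ℝ) / 10 ≤ 10 - 1 / 4 by norm_num)
      have := P.d10; have := P.d3; linarith
    rw [e]
    have := (E_pos m0 670).le
    nlinarith
  have k2 : E (m : ℝ) (680 - 1 / 4) ≤ E m 680 := E_mono P.m1 (by norm_num)
  have hpos : 0 < (F.card : ℝ) + r1 d n m / 2 := by have := R.pos; have := P.r1_pos; linarith
  unfold phi2
  have h5 : (F.card : ℝ) ^ 2 / (F.card + r1 d n m / 2) ≤ F.card - E m 670 := by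
    rw [div_le_iff₀ hpos]
    have a1 : E (m : ℝ) 670 * F.card ≤ r1 d n m / 4 * F.card :=
      mul_le_mul_of_nonneg_right (by linarith) R.pos.le
    have a2 : E (m : ℝ) 670 * r1 d n m ≤ F.card / 4 * r1 d n m :=
      mul_le_mul_of_nonneg_right (by linarith) P.r1_pos.le
    nlinarith [mul_pos R.pos P.r1_pos]
  linarith

theorem bds2 (hp : Prm d n m) (c : Ctx d m γ F K S) (b2 : Box2 d n m x0 F K) (b : Bool) :
    BdsE (K b) F m (ex m F.card) 2004 (13 / 8) 4 (683 / 2) := by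
  have P := par hp
  have R := rho2 hp b2
  have h4 := opB2 hp c b2 b
  have m0 := P.m0
  have hX2 := X2_le_rho2 hp b2 b
  refine Bds.of (c.symm b) (fun i hi j => c.dead b i j hi) h4.2 (E_pos m0 _).le (E_pos m0 _).le
    (by have := (E_pos m0 (ex m F.card / 2 + 13 / 8)).le; positivity) (E_pos m0 _).le
    (E_pos m0 _).le ?_ ?_ ?_ ?_ ?_
  · rw [E_sq m0]
    have := b2.Vu b
    rw [pow_eq] at this
    norm_num at this ⊢
    exact this
  · rw [E_sq m0]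
    have := b2.Wu b
    rw [pow_eq] at this
    norm_num at this ⊢
    exact this
  · have h1 := Rf_eq (c.symm b) (c.dead b)
    have h2 := b2.Wu b
    rw [E_nat] at h2
    rw [mul_pow, E_sq m0]
    have h5 : Rf (K b) = ∑ x, (K b ^ 2) x x ^ 2 := rfl
    have h6 : E (m : ℝ) 683 ≤ E m (2 * (ex m F.card / 2 + 13 / 8)) :=
      E_mono P.m1 (by have := R.lo; linarith)
    have h7 : (F.card : ℝ) ≤ E m (2 * (ex m F.card / 2 + 13 / 8)) := by
      conv_lhs => rw [R.eq]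
      exact E_mono P.m1 (by linarith)
    have h8 : Rf (K b) ≤ 2 * E m (2 * (ex m F.card / 2 + 13 / 8)) := by linarith
    have := (E_pos m0 (2 * (ex (m : ℝ) F.card / 2 + 13 / 8))).le
    linarith
  · rw [E_sq m0]
    have e : 2 * (ex (m : ℝ) F.card / 2) = ex m F.card := by ring
    rw [e, ← R.eq]
    exact hX2
  · rw [E_sq m0]
    have e : 2 * ((2004 - ex (m : ℝ) F.card) / 2) = 2004 - ex m F.card := by ring
    rw [e]; exact h4.1

theorem s2x3 : S2X3 ι := by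
  intro d n m γ x0 F K S hp c b2 b
  have P := par hp
  have R := rho2 hp b2
  have m0 := P.m0
  have hd3 := P.d3
  have hB := bds2 hp c b2 b
  have hA := at_of (m := m) (x := ex m F.card) (κ := 2004) (e := 13 / 8) (V := 4) (W := 683 / 2)
    P.m1 P.mbig (by have := R.lo; linarith) (by have := R.hi; linarith)
    (by have := R.lo; linarith) (by have := R.hi; linarith) (by norm_num)
  have hL := (opB2 hp c b2 b).2
  have hn := P.n_ge
  have hE := E_pos m0 1000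
  have hn0 : (0 : ℝ) < n := lt_of_lt_of_le hE hn
  set q : ℝ := ((d : ℝ) - 1) ^ 2 * n with hq
  have hd4 : (4 : ℝ) ≤ ((d : ℝ) - 1) ^ 2 := by nlinarith
  have hq1 : 4 * (n : ℝ) ≤ q := by rw [hq]; exact mul_le_mul_of_nonneg_right hd4 hn0.le
  have hU : |(K b).trace| ≤ E m 336 := by
    have := b2.X1 b
    rwa [E_nat] at this
  have hU2 : E (m : ℝ) 336 ≤ n := (E_mono P.m1 (by norm_num)).trans hn
  set b0 : ℝ := 4 * ((d : ℝ) - 1) ^ 2 * n with hb0
  have hb0q : b0 = 4 * q := by rw [hb0, hq]; ring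
  have hX3u := b2.X3u b
  have hX3u' : (K b ^ 3).trace ≤ 5 * q := by rw [hq]; linarith
  have main := main_le (ρ := F.card) hB hL hU
  have oU : O (m : ℝ) 1 336 (E m 336) := O.E m0 _
  have mnum := main2 hA oU R.lo R.hi
  have hβ : (((F ×ˢ F) \ S).card : ℝ) ≤ E m ((ex m F.card + 1 / 5) / 2) ^ 2 := by
    rw [E_sq m0]
    refine (bad2 hp c b2).trans (le_of_eq ?_)
    congr 1; ring
  have err := mean_X3 (X3Low.sg_sq b) hB (fun i hi j => c.dead b i j hi)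
    (row_of (c.symm b) (c.dead b) (c.row b)) (good_of c b) (E_pos m0 _).le hβ
  have o1 : O (m : ℝ) 1 ((ex m F.card + 1 / 5) / 2) (E m ((ex m F.card + 1 / 5) / 2)) := O.E m0 _
  have z1 := err2 hA R.lo R.hi
  have z2 := errm2 hA o1 R.lo R.hi
  have sqb := sq_X3' (X3Low.sg_sq b) hB hL (good_of c b)
  have z3 := sq2 hA R.lo R.hi
  have X2le := X2_le_rho2 hp b2 b
  have hA0 := (E_pos m0 (ex m F.card + 997)).le
  have hA1 := (E_pos m0 (ex m F.card + 1997)).le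
  have s0 := sq_nonneg (E (m : ℝ) (ex m F.card / 2))
  have u0 := (E_pos m0 336).le
  have step := pot_step S (fun p => 1 - (0 : ℝ))
    (fun p => dX3 (Mach.sg b : ℝ) (K b) p.1 p.2) (fun p _ => by norm_num)
    (X := (K b ^ 3).trace) (b := b0) (c := q) (D := 6 * (E m (ex m F.card + 997) / 1000))
    (N2 := 2 * (E m (ex m F.card + 1997) / 1000)) (by linarith)
    (max_le (by linarith) (by linarith)) (by positivity) ?_ ?_
  · have fin := fin_up P.m1 P.mbig R.eq (c := q) (D := 6 * (E m (ex m F.card + 997) / 1000))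
      (N2 := 2 * (E m (ex m F.card + 1997) / 1000)) (by linarith) le_rfl le_rfl
    refine le_trans (le_of_eq ?_) (step.trans fin)
    unfold inc p2X3
    refine Finset.sum_congr rfl fun p hp' => ?_
    simp only [nx]
    rw [trace_step (X3Low.sg_sq b) (c.symm b)]
  · intro hX
    have hm1 : mainX3 (K b) F.card ≤ E m (ex m F.card + 997) / 1000 := by
      unfold mainX3
      have h1 := (abs_le.1 main).2
      have h2 : ((K b ^ 2).trace - F.card) * ((K b ^ 3).trace - (K b).trace) ≤ 0 := by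
        have h3 := (abs_le.1 hU).2
        exact mul_nonpos_of_nonpos_of_nonneg (by linarith) (by linarith)
      have h4 : 0 ≤ E (m : ℝ) 336 * E (m : ℝ) (ex m F.card / 2) ^ 2 := mul_nonneg u0 s0
      linarith
    have h2 := (abs_le.1 err).2
    have e1 : ∑ p ∈ S, (1 - (0 : ℝ)) * dX3 (Mach.sg b : ℝ) (K b) p.1 p.2
        = ∑ p ∈ S, dX3 (Mach.sg b : ℝ) (K b) p.1 p.2 :=
      Finset.sum_congr rfl fun p _ => by ring
    rw [e1]
    unfold ErrM at h2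
    unfold mainX3 at hm1
    linarith
  · have e1 : ∑ p ∈ S, (1 - (0 : ℝ)) * dX3 (Mach.sg b : ℝ) (K b) p.1 p.2 ^ 2
        = ∑ p ∈ S, dX3 (Mach.sg b : ℝ) (K b) p.1 p.2 ^ 2 :=
      Finset.sum_congr rfl fun p _ => by ring
    rw [e1]
    have := sqb.trans z3
    linarith

end stage2

end Crest.Agent.R62.MainX3
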