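import Crest.Agent.R62.AvX1
import Crest.Agent.R62.L2P
import Crest.Agent.R62.UpdX
import Crest.Agent.R062.MachDefs
import Crest.Agent.R62.PotCst

-- ▼ part R62/LateBase
section

/-!
R62, late phase (helper316): consequences of `K ≥ -1` and `‖K‖ ≤ Λ` for sums of diagonal entries.

`a_x = K_xx`, `Q = K²`, `X = Tr K²`, `V = ∑ K_xx²`.
-/

set_option autoImplicit false
set_option linter.unusedSectionVars false
set_option linter.unusedVariables false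

open Matrix Finset

namespace Crest.Agent.R62.Late

open Crest.Agent.R62.Upd Crest.Agent.R62.AvX1 Crest.Agent.R62.AvBase

variable {ι : Type*} [Fintype ι] [DecidableEq ι]

/-- `K + 1 ≥ 0` as a quadratic form -/
def Ge1 (K : Matrix ι ι ℝ) : Prop := ∀ f : ι → ℝ, 0 ≤ f ⬝ᵥ (K *ᵥ f) + f ⬝ᵥ f

/-- Cauchy–Schwarz for the form `K + 1` -/
lemma ge1_cs {K : Matrix ι ι ℝ} (hK : K.IsSymm) (h : Ge1 K) (u w : ι → ℝ) :
    (u ⬝ᵥ (K *ᵥ w) + u ⬝ᵥ w) ^ 2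
      ≤ (u ⬝ᵥ (K *ᵥ u) + u ⬝ᵥ u) * (w ⬝ᵥ (K *ᵥ w) + w ⬝ᵥ w) := by
  have key : ∀ t : ℝ, 0 ≤ (w ⬝ᵥ (K *ᵥ w) + w ⬝ᵥ w) * (t * t)
      + (2 * (u ⬝ᵥ (K *ᵥ w) + u ⬝ᵥ w)) * t + (u ⬝ᵥ (K *ᵥ u) + u ⬝ᵥ u) := by
    intro t
    have h1 := h (u + t • w)
    have h2 : w ⬝ᵥ (K *ᵥ u) = u ⬝ᵥ (K *ᵥ w) := dot_mulVec_comm hK w u
    have h3 : w ⬝ᵥ u = u ⬝ᵥ w := dotProduct_comm w u
    simp only [Matrix.mulVec_add, Matrix.mulVec_smul, dotProduct_add, add_dotProduct,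
      dotProduct_smul, smul_dotProduct, smul_eq_mul] at h1
    rw [h2, h3] at h1
    linarith
  have h4 := discrim_le_zero key
  unfold discrim at h4
  nlinarith

lemma single_form (K : Matrix ι ι ℝ) (x y : ι) :
    (Pi.single x (1 : ℝ)) ⬝ᵥ (K *ᵥ (Pi.single y (1 : ℝ))) = K x y := by
  simp

/-- 2×2 minors -/
lemma entry_le {K : Matrix ι ι ℝ} (hK : K.IsSymm) (h : Ge1 K) (x y : ι) :
    K x y ^ 2 ≤ (1 + |K x x|) * (1 + |K y y|) := by
  by_cases hxy : x = y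
  · subst hxy
    rw [← sq_abs]
    nlinarith [abs_nonneg (K x x)]
  · have h1 := ge1_cs hK h (Pi.single x 1) (Pi.single y 1)
    rw [single_form, single_form, single_form] at h1
    have h2 : (Pi.single x (1 : ℝ) : ι → ℝ) ⬝ᵥ Pi.single y 1 = 0 := by
      simp [hxy]
    have h3 : ∀ z : ι, (Pi.single z (1 : ℝ) : ι → ℝ) ⬝ᵥ Pi.single z 1 = 1 := by
      intro z; simp
    rw [h2, h3, h3, add_zero] at h1
    have h5 : 0 ≤ K x x + 1 := by
      have := h (Pi.single x 1)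
      rwa [single_form, h3] at this
    have h6 : 0 ≤ K y y + 1 := by
      have := h (Pi.single y 1)
      rwa [single_form, h3] at this
    calc K x y ^ 2 ≤ (K x x + 1) * (K y y + 1) := h1
      _ ≤ (1 + |K x x|) * (1 + |K y y|) :=
        mul_le_mul (by linarith [le_abs_self (K x x)]) (by linarith [le_abs_self (K y y)]) h6
          (by linarith [abs_nonneg (K x x)])

/-- `Q_xx ≤ Λ (1 + |K_xx|)` -/
lemma diag_le {K : Matrix ι ι ℝ} (hK : K.IsSymm) (h : Ge1 K) {Λ : ℝ} (hΛ : OpB K Λ)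
    (hΛ1 : 1 ≤ Λ) (x : ι) : (K ^ 2) x x ≤ Λ * (1 + |K x x|) := by
  set e : ι → ℝ := Pi.single x 1 with he
  set w : ι → ℝ := K *ᵥ e + e with hw
  have h3 : e ⬝ᵥ e = 1 := by simp [he]
  have hKe : e ⬝ᵥ (K *ᵥ e) = K x x := single_form K x x
  have h1 := ge1_cs hK h e w
  have e1 : e ⬝ᵥ (K *ᵥ w) + e ⬝ᵥ w = w ⬝ᵥ w := by
    have h2 : e ⬝ᵥ (K *ᵥ w) = w ⬝ᵥ (K *ᵥ e) := dot_mulVec_comm hK e w
    rw [h2, dotProduct_comm e w, ← dotProduct_add]
  rw [e1, hKe, h3] at h1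
  have h4 : w ⬝ᵥ (K *ᵥ w) ≤ Λ * (w ⬝ᵥ w) := by
    have := (abs_le.mp (form_self_le hΛ 1 w)).2
    simpa using this
  have hww : 0 ≤ w ⬝ᵥ w := dot_self_nonneg w
  have h5 : 0 ≤ K x x + 1 := by
    have := h e
    rwa [hKe, h3] at this
  have h6 : w ⬝ᵥ w ≤ (K x x + 1) * (Λ + 1) := by
    rcases hww.eq_or_lt with h0 | h0
    · rw [← h0]; positivity
    · have : (w ⬝ᵥ w) * (w ⬝ᵥ w) ≤ ((K x x + 1) * (Λ + 1)) * (w ⬝ᵥ w) := by
        calc (w ⬝ᵥ w) * (w ⬝ᵥ w) = (w ⬝ᵥ w) ^ 2 := by ring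
          _ ≤ (K x x + 1) * (w ⬝ᵥ (K *ᵥ w) + w ⬝ᵥ w) := h1
          _ ≤ (K x x + 1) * (Λ * (w ⬝ᵥ w) + w ⬝ᵥ w) :=
              mul_le_mul_of_nonneg_left (by linarith) h5
          _ = _ := by ring
      exact le_of_mul_le_mul_right this h0
  have h7 : w ⬝ᵥ w = (K ^ 2) x x + 2 * K x x + 1 := by
    have hc : (K *ᵥ e) ⬝ᵥ (K *ᵥ e) = (K ^ 2) x x := by
      have : K *ᵥ e = fun z => (K ^ 1) z x := by
        ext z; simp [he]
      rw [this, col_sq hK.eq 1 x]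
    rw [hw, add_dotProduct, dotProduct_add, dotProduct_add, hc, h3, hKe,
      dotProduct_comm (K *ᵥ e) e, hKe]
    ring
  rw [h7] at h6
  have h8 : (K ^ 2) x x ≤ (Λ - 1) * K x x + Λ := by linarith
  have h9 : (Λ - 1) * K x x ≤ Λ * |K x x| := by
    have h10 : (Λ - 1) * K x x ≤ (Λ - 1) * |K x x| :=
      mul_le_mul_of_nonneg_left (le_abs_self _) (by linarith)
    nlinarith [abs_nonneg (K x x)]
  linarith

/-! ### sums -/

/-- `A = ∑ |K_xx| Q_xx` -/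
def Af (K : Matrix ι ι ℝ) : ℝ := ∑ x, |K x x| * (K ^ 2) x x
/-- `R2 = ∑ Q_xx²` -/
def R2f (K : Matrix ι ι ℝ) : ℝ := ∑ x, (K ^ 2) x x ^ 2
/-- `g_x = ∑_z |K_zz| K_xz²` -/
def gf (K : Matrix ι ι ℝ) (x : ι) : ℝ := ∑ z, |K z z| * K x z ^ 2
/-- `H = ∑ |K_xx| g_x` -/
def Hf (K : Matrix ι ι ℝ) : ℝ := ∑ x, |K x x| * gf K x
/-- `M4 = ∑ K_xz⁴` -/
def M4f (K : Matrix ι ι ℝ) : ℝ := ∑ x, ∑ z, K x z ^ 4

lemma Q_eq {K : Matrix ι ι ℝ} (hK : K.IsSymm) (x : ι) : (K ^ 2) x x = ∑ z, K x z ^ 2 := by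
  rw [← sum_KK hK]
  exact Finset.sum_congr rfl fun z _ => by ring

lemma Q_nonneg {K : Matrix ι ι ℝ} (hK : K.IsSymm) (x : ι) : 0 ≤ (K ^ 2) x x :=
  diag_sq_nonneg hK.eq x

lemma gf_nonneg (K : Matrix ι ι ℝ) (x : ι) : 0 ≤ gf K x :=
  Finset.sum_nonneg fun z _ => mul_nonneg (abs_nonneg _) (sq_nonneg _)

lemma Af_nonneg {K : Matrix ι ι ℝ} (hK : K.IsSymm) : 0 ≤ Af K :=
  Finset.sum_nonneg fun x _ => mul_nonneg (abs_nonneg _) (Q_nonneg hK x)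

lemma Hf_nonneg (K : Matrix ι ι ℝ) : 0 ≤ Hf K :=
  Finset.sum_nonneg fun x _ => mul_nonneg (abs_nonneg _) (gf_nonneg K x)



lemma X_nonneg {K : Matrix ι ι ℝ} (hK : K.IsSymm) : 0 ≤ (K ^ 2).trace :=
  Finset.sum_nonneg fun x _ => Q_nonneg hK x

section
variable {K : Matrix ι ι ℝ} {Λ : ℝ}

/-- `A ≤ X + 2 Λ V` -/
lemma Af_le (hK : K.IsSymm) (h : Ge1 K) (hΛ : OpB K Λ) (hΛ1 : 1 ≤ Λ) :
    Af K ≤ (K ^ 2).trace + 2 * Λ * Vf K := by
  unfold Af Vf Matrix.trace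
  rw [Finset.mul_sum, ← Finset.sum_add_distrib]
  refine Finset.sum_le_sum fun x _ => ?_
  rw [Matrix.diag_apply]
  have h1 := diag_le hK h hΛ hΛ1 x
  have h2 := Q_nonneg hK x
  have h3 := abs_nonneg (K x x)
  have h4 : K x x ^ 2 = |K x x| ^ 2 := (sq_abs _).symm
  rw [h4]
  rcases le_total (|K x x|) 1 with h5 | h5
  · have : |K x x| * (K ^ 2) x x ≤ 1 * (K ^ 2) x x := mul_le_mul_of_nonneg_right h5 h2
    have : 0 ≤ 2 * Λ * |K x x| ^ 2 := by positivity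
    linarith
  · have h6 : |K x x| * (K ^ 2) x x ≤ |K x x| * (Λ * (1 + |K x x|)) :=
      mul_le_mul_of_nonneg_left h1 h3
    have h7 : |K x x| * (Λ * (1 + |K x x|)) ≤ 2 * Λ * |K x x| ^ 2 := by
      nlinarith [mul_nonneg (mul_nonneg (by linarith : (0:ℝ) ≤ Λ) h3) (by linarith : (0:ℝ) ≤ |K x x| - 1)]
    linarith

/-- `R2 ≤ Λ (X + A)` -/
lemma R2f_le (hK : K.IsSymm) (h : Ge1 K) (hΛ : OpB K Λ) (hΛ1 : 1 ≤ Λ) :
    R2f K ≤ Λ * ((K ^ 2).trace + Af K) := by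
  unfold Af R2f Matrix.trace
  rw [← Finset.sum_add_distrib, Finset.mul_sum]
  refine Finset.sum_le_sum fun x _ => ?_
  rw [Matrix.diag_apply]
  have h1 := diag_le hK h hΛ hΛ1 x
  have h2 := Q_nonneg hK x
  nlinarith [mul_le_mul_of_nonneg_right h1 h2]

/-- `∑ g = A` -/
lemma sum_gf (hK : K.IsSymm) : ∑ x, gf K x = Af K := by
  unfold gf Af
  rw [Finset.sum_comm]
  refine Finset.sum_congr rfl fun z _ => ?_
  rw [← Finset.mul_sum, Q_eq hK]
  congr 1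
  exact Finset.sum_congr rfl fun x _ => by rw [hK.apply z x]

/-- `∑ g Q` symmetric form -/
lemma gf_le (hK : K.IsSymm) (h : Ge1 K) (x : ι) :
    gf K x ≤ (K ^ 2) x x + 2 * (1 + |K x x|) * Vf K := by
  unfold gf Vf
  rw [Q_eq hK, Finset.mul_sum, ← Finset.sum_add_distrib]
  refine Finset.sum_le_sum fun z _ => ?_
  have h1 := entry_le hK h x z
  have h2 := abs_nonneg (K z z)
  have h3 := abs_nonneg (K x x)
  have h4 : K z z ^ 2 = |K z z| ^ 2 := (sq_abs _).symm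
  rw [h4]
  rcases le_total (|K z z|) 1 with h5 | h5
  · have : |K z z| * K x z ^ 2 ≤ 1 * K x z ^ 2 := mul_le_mul_of_nonneg_right h5 (sq_nonneg _)
    have : 0 ≤ 2 * (1 + |K x x|) * |K z z| ^ 2 := by positivity
    linarith
  · have h6 : |K z z| * K x z ^ 2 ≤ |K z z| * ((1 + |K x x|) * (1 + |K z z|)) :=
      mul_le_mul_of_nonneg_left h1 h2
    have h7 : |K z z| * ((1 + |K x x|) * (1 + |K z z|)) ≤ 2 * (1 + |K x x|) * |K z z| ^ 2 := by
      nlinarith [mul_nonneg (mul_nonneg (by linarith : (0:ℝ) ≤ 1 + |K x x|) h2)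
        (by linarith : (0:ℝ) ≤ |K z z| - 1)]
    nlinarith [sq_nonneg (K x z)]

/-- `H ≤ 4 V² + 2 A` -/
lemma Hf_le (hK : K.IsSymm) (h : Ge1 K) : Hf K ≤ 4 * Vf K ^ 2 + 2 * Af K := by
  have e1 : Hf K = ∑ x, ∑ z, |K x x| * (|K z z| * K x z ^ 2) := by
    unfold Hf gf
    exact Finset.sum_congr rfl fun x _ => Finset.mul_sum _ _ _
  have e2 : 4 * Vf K ^ 2 + 2 * Af K
      = ∑ x, ∑ z, (4 * (K x x ^ 2 * K z z ^ 2) + (|K z z| * K x z ^ 2 + |K x x| * K x z ^ 2)) := by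
    simp only [Finset.sum_add_distrib, ← Finset.mul_sum]
    have a1 : ∑ x, K x x ^ 2 * ∑ z, K z z ^ 2 = Vf K ^ 2 := by
      rw [← Finset.sum_mul]; unfold Vf; ring
    have a2 : ∑ x, ∑ z, |K z z| * K x z ^ 2 = Af K := sum_gf hK
    have a3 : ∑ x, |K x x| * ∑ z, K x z ^ 2 = Af K := by
      unfold Af
      exact Finset.sum_congr rfl fun x _ => by rw [Q_eq hK]
    rw [a1, a2, a3]; ring
  rw [e1, e2]
  refine Finset.sum_le_sum fun x _ => Finset.sum_le_sum fun z _ => ?_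
  have h1 := entry_le hK h x z
  have h2 := abs_nonneg (K z z)
  have h3 := abs_nonneg (K x x)
  have h4 : K z z ^ 2 = |K z z| ^ 2 := (sq_abs _).symm
  have h4' : K x x ^ 2 = |K x x| ^ 2 := (sq_abs _).symm
  rw [h4, h4']
  have hk := sq_nonneg (K x z)
  set α := |K x x|
  set β := |K z z|
  set q := K x z ^ 2
  rcases le_total β 1 with h5 | h5
  · have : α * (β * q) ≤ α * (1 * q) :=
      mul_le_mul_of_nonneg_left (mul_le_mul_of_nonneg_right h5 hk) h3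
    have : 0 ≤ 4 * (α ^ 2 * β ^ 2) := by positivity
    nlinarith [mul_nonneg h2 hk]
  · rcases le_total α 1 with h6 | h6
    · have : α * (β * q) ≤ 1 * (β * q) :=
        mul_le_mul_of_nonneg_right h6 (mul_nonneg h2 hk)
      have : 0 ≤ 4 * (α ^ 2 * β ^ 2) := by positivity
      nlinarith [mul_nonneg h3 hk]
    · have h7 : q ≤ 4 * (α * β) := by nlinarith
      have h8 : α * (β * q) ≤ α * (β * (4 * (α * β))) :=
        mul_le_mul_of_nonneg_left (mul_le_mul_of_nonneg_left h7 h2) h3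
      nlinarith [mul_nonneg h3 hk, mul_nonneg h2 hk]

/-- `M4 ≤ X + 2A + H` -/
lemma M4f_le (hK : K.IsSymm) (h : Ge1 K) : M4f K ≤ (K ^ 2).trace + 2 * Af K + Hf K := by
  have e2 : (K ^ 2).trace + 2 * Af K + Hf K
      = ∑ x, ∑ z, (K x z ^ 2 + (|K z z| * K x z ^ 2 + |K x x| * K x z ^ 2)
          + |K x x| * (|K z z| * K x z ^ 2)) := by
    simp only [Finset.sum_add_distrib, ← Finset.mul_sum]
    have a0 : ∑ x, ∑ z, K x z ^ 2 = (K ^ 2).trace := by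
      unfold Matrix.trace
      exact Finset.sum_congr rfl fun x _ => by rw [Matrix.diag_apply, Q_eq hK]
    have a2 : ∑ x, ∑ z, |K z z| * K x z ^ 2 = Af K := sum_gf hK
    have a3 : ∑ x, |K x x| * ∑ z, K x z ^ 2 = Af K := by
      unfold Af
      exact Finset.sum_congr rfl fun x _ => by rw [Q_eq hK]
    have a4 : ∑ x, |K x x| * ∑ z, |K z z| * K x z ^ 2 = Hf K := rfl
    rw [a0, a2, a3, a4]; ring
  unfold M4f
  rw [e2]
  refine Finset.sum_le_sum fun x _ => Finset.sum_le_sum fun z _ => ?_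
  have h1 := mul_le_mul_of_nonneg_right (entry_le hK h x z) (sq_nonneg (K x z))
  nlinarith

/-- `∑ g Q ≤ R2 + 2 V (X + A)` -/
lemma sum_gQ_le (hK : K.IsSymm) (h : Ge1 K) :
    ∑ x, gf K x * (K ^ 2) x x ≤ R2f K + 2 * Vf K * ((K ^ 2).trace + Af K) := by
  have e2 : R2f K + 2 * Vf K * ((K ^ 2).trace + Af K)
      = ∑ x, ((K ^ 2) x x + 2 * (1 + |K x x|) * Vf K) * (K ^ 2) x x := by
    unfold R2f Af Matrix.trace
    simp only [Matrix.diag_apply]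
    rw [← Finset.sum_add_distrib, Finset.mul_sum, ← Finset.sum_add_distrib]
    exact Finset.sum_congr rfl fun x _ => by ring
  rw [e2]
  exact Finset.sum_le_sum fun x _ => mul_le_mul_of_nonneg_right (gf_le hK h x) (Q_nonneg hK x)

/-- `∑ g² ≤ R2 + 2 V (X + A) + 2 V (A + H)` -/
lemma sum_g_sq_le (hK : K.IsSymm) (h : Ge1 K) :
    ∑ x, gf K x ^ 2 ≤ R2f K + 2 * Vf K * ((K ^ 2).trace + Af K)
      + 2 * Vf K * (Af K + Hf K) := by
  have h1 := sum_gQ_le hK h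
  have h2 : ∑ x, gf K x ^ 2 ≤ ∑ x, (gf K x * (K ^ 2) x x
      + 2 * Vf K * (gf K x + |K x x| * gf K x)) := by
    refine Finset.sum_le_sum fun x _ => ?_
    have := mul_le_mul_of_nonneg_left (gf_le hK h x) (gf_nonneg K x)
    nlinarith
  rw [Finset.sum_add_distrib, ← Finset.mul_sum, Finset.sum_add_distrib, sum_gf hK] at h2
  have e : ∑ x, |K x x| * gf K x = Hf K := rfl
  rw [e] at h2
  linarith

end

end Crest.Agent.R62.Late
end

-- ▼ part R62/LateX2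
section

/-!
R62, late phase (helper316): one-step upper bound for `X_2 = Tr K²` summed over good pairs,
with crude error terms.
-/

set_option autoImplicit false
set_option linter.unusedSectionVars false
set_option linter.unusedVariables false

open Matrix Finset

namespace Crest.Agent.R62.Late

open Crest.Agent.R62.Upd Crest.Agent.R62.AvX1 Crest.Agent.R62.AvBase Crest.Agent.R62.L2P

variable {ι : Type*} [Fintype ι] [DecidableEq ι]

/-- the standing assumptions for one sign -/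
structure Ctx (F : Finset ι) (K : Matrix ι ι ℝ) (s : ℝ) (S : Finset (ι × ι))
    (N v R t β Db : ℝ) : Prop where
  hs : s = 1 ∨ s = -1
  sym : K.IsSymm
  dead : ∀ i j, i ∉ F → K i j = 0
  row : K *ᵥ ind F = s • ind F
  hS : S ⊆ F ×ˢ F
  good : ∀ p ∈ S, GoodPair K p.1 p.2
  N1 : 1 ≤ N
  X : (K ^ 2).trace ≤ N ^ 2
  op : OpB K N
  ge : Ge1 K
  v0 : 0 ≤ v
  V : Vf K ≤ v ^ 2
  R0 : 0 ≤ R
  R2 : R2f K ≤ R ^ 2
  t0 : 0 ≤ t
  card : (F.card : ℝ) ≤ t ^ 2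
  β0 : 0 ≤ β
  bad : ((((F ×ˢ F) \ S).card : ℕ) : ℝ) ≤ β ^ 2
  D0 : 0 ≤ Db
  rowL : ∀ x ∈ F, (((F.filter fun y => (x, y) ∉ S).card : ℕ) : ℝ) ≤ Db
  rowR : ∀ y ∈ F, (((F.filter fun x => (x, y) ∉ S).card : ℕ) : ℝ) ≤ Db

section scalars

variable {s a b c D p q r c3 A B : ℝ}

lemma sc_inv (hs : s = 1 ∨ s = -1) (hD : D = (1 - s * c) ^ 2 - a * b) (hD0 : 5 / 16 ≤ D)
    (hc : |c| ≤ 1 / 4) :
    |1 / D - 1| ≤ 8 * |c| + 4 * |a * b| ∧ |1 / D - 1 - 2 * s * c| ≤ 12 * c ^ 2 + 5 * |a * b| ∧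
      |(1 - s * c) * (1 / D) - 1| ≤ 4 * |c| + 4 * |a * b| := by
  have hDpos : 0 < D := by linarith
  have hs2 : s ^ 2 = 1 := by rcases hs with rfl | rfl <;> norm_num
  have hs1 := abs_s hs2
  have hc0 := abs_nonneg c
  have hm0 := abs_nonneg (a * b)
  have hc2 : c ^ 2 ≤ 1 / 4 * |c| := by rw [← sq_abs]; nlinarith
  have hsc : |s * c| = |c| := by rw [abs_mul, hs1, one_mul]
  have e1 : 1 / D - 1 = (2 * (s * c) - c ^ 2 + a * b) / D := by
    rw [div_sub_one hDpos.ne']; congr 1; rw [hD]; linear_combination (-c ^ 2) * hs2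
  have e2 : 1 / D - 1 - 2 * s * c
      = (3 * c ^ 2 - 2 * (s * c) * c ^ 2 + (a * b) * (1 + 2 * (s * c))) / D := by
    field_simp
    rw [hD]; linear_combination (3 * c ^ 2 - 2 * s * c ^ 3) * hs2
  have e3 : (1 - s * c) * (1 / D) - 1 = (s * c - c ^ 2 + a * b) / D := by
    field_simp
    rw [hD]; linear_combination (-c ^ 2) * hs2
  have b1 : |2 * (s * c) - c ^ 2 + a * b| ≤ 9 / 4 * |c| + |a * b| := by
    calc _ ≤ |2 * (s * c) - c ^ 2| + |a * b| := abs_add_le _ _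
      _ ≤ |2 * (s * c)| + |c ^ 2| + |a * b| := by linarith [abs_sub (2 * (s * c)) (c ^ 2)]
      _ = 2 * |c| + c ^ 2 + |a * b| := by
          rw [abs_mul 2, hsc, abs_of_nonneg (sq_nonneg c)]; norm_num
      _ ≤ _ := by linarith
  have b3 : |s * c - c ^ 2 + a * b| ≤ 5 / 4 * |c| + |a * b| := by
    calc _ ≤ |s * c - c ^ 2| + |a * b| := abs_add_le _ _
      _ ≤ |s * c| + |c ^ 2| + |a * b| := by linarith [abs_sub (s * c) (c ^ 2)]
      _ = |c| + c ^ 2 + |a * b| := by rw [hsc, abs_of_nonneg (sq_nonneg c)]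
      _ ≤ _ := by linarith
  have b2 : |3 * c ^ 2 - 2 * (s * c) * c ^ 2 + (a * b) * (1 + 2 * (s * c))|
      ≤ 7 / 2 * c ^ 2 + 3 / 2 * |a * b| := by
    have h1 : |2 * (s * c) * c ^ 2| ≤ 1 / 2 * c ^ 2 := by
      rw [abs_mul, abs_mul, hsc, abs_of_nonneg (sq_nonneg c)]
      have : |(2 : ℝ)| = 2 := by norm_num
      rw [this]; nlinarith [sq_nonneg c]
    have h2 : |(a * b) * (1 + 2 * (s * c))| ≤ 3 / 2 * |a * b| := by
      rw [abs_mul]
      have : |1 + 2 * (s * c)| ≤ 3 / 2 := by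
        calc _ ≤ |(1 : ℝ)| + |2 * (s * c)| := abs_add_le _ _
          _ = 1 + 2 * |c| := by rw [abs_mul 2, hsc]; norm_num
          _ ≤ _ := by linarith
      calc |a * b| * |1 + 2 * (s * c)| ≤ |a * b| * (3 / 2) :=
            mul_le_mul_of_nonneg_left this hm0
        _ = _ := by ring
    calc _ ≤ |3 * c ^ 2 - 2 * (s * c) * c ^ 2| + |(a * b) * (1 + 2 * (s * c))| := abs_add_le _ _
      _ ≤ |3 * c ^ 2| + |2 * (s * c) * c ^ 2| + |(a * b) * (1 + 2 * (s * c))| := by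
          linarith [abs_sub (3 * c ^ 2) (2 * (s * c) * c ^ 2)]
      _ ≤ _ := by
          rw [abs_mul 3, abs_of_nonneg (sq_nonneg c)]
          have : |(3 : ℝ)| = 3 := by norm_num
          rw [this]; linarith
  refine ⟨?_, ?_, ?_⟩
  · rw [e1, abs_div, abs_of_pos hDpos, div_le_iff₀ hDpos]
    have h0 : 0 ≤ 8 * |c| + 4 * |a * b| := by positivity
    nlinarith [mul_le_mul_of_nonneg_left hD0 h0]
  · rw [e2, abs_div, abs_of_pos hDpos, div_le_iff₀ hDpos]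
    have h0 : 0 ≤ 12 * c ^ 2 + 5 * |a * b| := by positivity
    nlinarith [mul_le_mul_of_nonneg_left hD0 h0, sq_nonneg c]
  · rw [e3, abs_div, abs_of_pos hDpos, div_le_iff₀ hDpos]
    have h0 : 0 ≤ 4 * |c| + 4 * |a * b| := by positivity
    nlinarith [mul_le_mul_of_nonneg_left hD0 h0]

/-- pointwise upper bound for the change of `X_2` -/
lemma sc_X2 (hs : s = 1 ∨ s = -1) (hD : D = (1 - s * c) ^ 2 - a * b) (hD0 : 5 / 16 ≤ D)
    (hc : |c| ≤ 1 / 4) (hp : 0 ≤ p) (hq : 0 ≤ q) :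
    -2 - 2 * ((r ^ 2 - 2 * s * (1 - s * c) * (c3 - c) - a * B - (p - 1) * (q - 1) - b * A) / D)
      ≤ -2 * (p + q) + 4 * s * c3 + 2 * (a * B + b * A)
        + (24 * c ^ 2 + 10 * |a * b|)
        + (p + q) * (16 * |c| + 8 * |a * b|) + 7 * (p * q)
        + (|c3| + |c|) * (16 * |c| + 16 * |a * b|)
        + (|a| * |B| + |b| * |A|) * (16 * |c| + 8 * |a * b|) := by
  have hDpos : 0 < D := by linarith
  obtain ⟨h1, h2, h3⟩ := sc_inv (a := a) (b := b) hs hD hD0 hc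
  have hs2 : s ^ 2 = 1 := by rcases hs with rfl | rfl <;> norm_num
  have hs1 := abs_s hs2
  set i : ℝ := 1 / D with hi
  have hi0 : 0 < i := by rw [hi]; positivity
  have hi1 : i ≤ 16 / 5 := by
    rw [hi, div_le_iff₀ hDpos]; linarith
  have e : -2 - 2 * ((r ^ 2 - 2 * s * (1 - s * c) * (c3 - c) - a * B - (p - 1) * (q - 1)
        - b * A) / D)
      = -2 * (p + q) + 4 * s * c3 + 2 * (a * B + b * A) - 2 * r ^ 2 * i
        + 4 * (s * ((c3 - c) * ((1 - s * c) * i - 1))) + 2 * ((a * B + b * A) * (i - 1))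
        + 2 * (i - 1 - 2 * s * c) - 2 * ((p + q) * (i - 1)) + 2 * (p * q) * i := by
    rw [hi]; field_simp; ring
  rw [e]
  have t1 : 0 ≤ 2 * r ^ 2 * i := by positivity
  have t2 : s * ((c3 - c) * ((1 - s * c) * i - 1)) ≤ (|c3| + |c|) * (4 * |c| + 4 * |a * b|) := by
    refine (le_abs_self _).trans ?_
    rw [abs_mul, abs_mul, hs1, one_mul]
    exact mul_le_mul (abs_sub _ _) h3 (abs_nonneg _) (by positivity)
  have t3 : (a * B + b * A) * (i - 1) ≤ (|a| * |B| + |b| * |A|) * (8 * |c| + 4 * |a * b|) := by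
    refine (le_abs_self _).trans ?_
    rw [abs_mul]
    refine mul_le_mul ?_ h1 (abs_nonneg _) (by positivity)
    calc |a * B + b * A| ≤ |a * B| + |b * A| := abs_add_le _ _
      _ = _ := by rw [abs_mul, abs_mul]
  have t4 : i - 1 - 2 * s * c ≤ 12 * c ^ 2 + 5 * |a * b| := (le_abs_self _).trans h2
  have t5 : -((p + q) * (i - 1)) ≤ (p + q) * (8 * |c| + 4 * |a * b|) := by
    have : -(i - 1) ≤ 8 * |c| + 4 * |a * b| := (neg_le_abs _).trans h1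
    nlinarith [mul_le_mul_of_nonneg_left this (add_nonneg hp hq)]
  have t6 : 2 * (p * q) * i ≤ 7 * (p * q) := by
    nlinarith [mul_nonneg hp hq]
  nlinarith

end scalars

section

variable {F : Finset ι} {K : Matrix ι ι ℝ} {s : ℝ} {S : Finset (ι × ι)} {N v R t β Db : ℝ}

namespace Ctx

lemma hs2 (h : Ctx F K s S N v R t β Db) : s ^ 2 = 1 := by
  rcases h.hs with rfl | rfl <;> norm_num

lemma N0 (h : Ctx F K s S N v R t β Db) : 0 ≤ N := by linarith [h.N1]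

lemma X4 (h : Ctx F K s S N v R t β Db) : (K ^ 4).trace ≤ N ^ 4 := by
  have h1 := trace_even_le h.sym.eq h.op 1 1
  norm_num at h1
  calc _ ≤ _ := h1
    _ ≤ N ^ 2 * N ^ 2 := mul_le_mul_of_nonneg_left h.X (sq_nonneg N)
    _ = _ := by ring

lemma X6 (h : Ctx F K s S N v R t β Db) : (K ^ 6).trace ≤ N ^ 6 := by
  have h1 := trace_even_le h.sym.eq h.op 2 1
  norm_num at h1
  calc _ ≤ _ := h1
    _ ≤ N ^ 2 * N ^ 4 := mul_le_mul_of_nonneg_left h.X4 (sq_nonneg N)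
    _ = _ := by ring

lemma l2a (h : Ctx F K s S N v R t β Db) : L2 F (fun x => K x x) v :=
  ⟨h.v0, (Finset.sum_le_sum_of_subset_of_nonneg (Finset.subset_univ F)
    fun _ _ _ => sq_nonneg _).trans h.V⟩

lemma l2one (h : Ctx F K s S N v R t β Db) : L2 F (fun _ => (1 : ℝ)) t :=
  ⟨h.t0, by simpa using h.card⟩

lemma l2Q (h : Ctx F K s S N v R t β Db) : L2 F (fun x => (K ^ 2) x x) R :=
  ⟨h.R0, (Finset.sum_le_sum_of_subset_of_nonneg (Finset.subset_univ F)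
    fun _ _ _ => sq_nonneg _).trans h.R2⟩

lemma l2K3 (h : Ctx F K s S N v R t β Db) : L2 F (fun x => (K ^ 3) x x) (N * R) := by
  have h1 : L2 F (fun x => N * (K ^ 2) x x) (|N| * R) := h.l2Q.smul N
  rw [abs_of_nonneg h.N0] at h1
  refine h1.of_abs_le fun x _ => ?_
  have := abs_diag_le h.sym.eq h.op 1 x
  simpa [abs_mul, abs_of_nonneg h.N0, abs_of_nonneg (Q_nonneg h.sym x)] using this

lemma l2B (h : Ctx F K s S N v R t β Db) : L2 F (fun x => (K ^ 3) x x - K x x) (N * R + v) :=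
  h.l2K3.sub h.l2a

lemma l2c (h : Ctx F K s S N v R t β Db) (T : Finset (ι × ι)) :
    L2 T (fun p => K p.1 p.2) N := by
  refine L2.ofMatrix (f := fun x y => K x y) h.N0 ?_ T
  have h1 := frob_pow h.sym.eq 1
  simp only [pow_one, mul_one] at h1
  rw [h1]; exact h.X


lemma l2c3 (h : Ctx F K s S N v R t β Db) (T : Finset (ι × ι)) :
    L2 T (fun p => (K ^ 3) p.1 p.2) (N ^ 3) := by
  have hN := h.N0
  refine L2.ofMatrix (f := fun x y => (K ^ 3) x y) (by positivity) ?_ T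
  have h1 := frob_pow h.sym.eq 3
  norm_num at h1
  rw [h1]; calc _ ≤ _ := h.X6
    _ = _ := by ring

/-- sum over `S` of a nonnegative one-variable function -/
lemma sum_bad_left (h : Ctx F K s S N v R t β Db) (f : ι → ℝ) (hf : ∀ x, 0 ≤ f x) :
    ∑ p ∈ (F ×ˢ F) \ S, f p.1 ≤ Db * ∑ x ∈ F, f x := by
  have e : (F ×ˢ F) \ S = (F ×ˢ F).filter fun p => p ∉ S := by
    ext p; simp [Finset.mem_sdiff, Finset.mem_filter]
  rw [e, Finset.sum_filter, Finset.sum_product, Finset.mul_sum]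
  refine Finset.sum_le_sum fun x hx => ?_
  rw [← Finset.sum_filter]
  simp only [Finset.sum_const, nsmul_eq_mul]
  exact mul_le_mul_of_nonneg_right (h.rowL x hx) (hf x)

lemma sum_bad_right (h : Ctx F K s S N v R t β Db) (f : ι → ℝ) (hf : ∀ x, 0 ≤ f x) :
    ∑ p ∈ (F ×ˢ F) \ S, f p.2 ≤ Db * ∑ x ∈ F, f x := by
  have e : (F ×ˢ F) \ S = (F ×ˢ F).filter fun p => p ∉ S := by
    ext p; simp [Finset.mem_sdiff, Finset.mem_filter]
  rw [e, Finset.sum_filter, Finset.sum_product_right, Finset.mul_sum]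
  refine Finset.sum_le_sum fun x hx => ?_
  rw [← Finset.sum_filter]
  simp only [Finset.sum_const, nsmul_eq_mul]
  exact mul_le_mul_of_nonneg_right (h.rowR x hx) (hf x)

lemma sum_FF_left (f : ι → ℝ) : ∑ p ∈ F ×ˢ F, f p.1 = F.card * ∑ x ∈ F, f x := by
  rw [Finset.sum_product]
  simp [Finset.mul_sum]

lemma sum_FF_right (f : ι → ℝ) : ∑ p ∈ F ×ˢ F, f p.2 = F.card * ∑ x ∈ F, f x := by
  rw [Finset.sum_product]
  simp

lemma sumF_Q (h : Ctx F K s S N v R t β Db) : ∑ x ∈ F, (K ^ 2) x x = (K ^ 2).trace :=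
  sum_F_eq_univ F (fun y => (K ^ 2) y y) fun y hy => dead_pow h.sym h.dead 1 y y hy

lemma sumF_a2 (h : Ctx F K s S N v R t β Db) : ∑ x ∈ F, K x x ^ 2 = Vf K :=
  sum_F_eq_univ F (fun y => K y y ^ 2) fun y hy => by rw [h.dead y y hy]; norm_num

/-- `-∑_S 2 (p+q)` -/
lemma sum_pq (h : Ctx F K s S N v R t β Db) :
    ∑ p ∈ S, (-2 * ((K ^ 2) p.1 p.1 + (K ^ 2) p.2 p.2))
      ≤ -4 * F.card * (K ^ 2).trace + 4 * Db * N ^ 2 := by
  rw [sum_good h.hS, ← Finset.mul_sum, ← Finset.mul_sum, Finset.sum_add_distrib,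
    Finset.sum_add_distrib, sum_FF_left (fun x => (K ^ 2) x x),
    sum_FF_right (fun x => (K ^ 2) x x), h.sumF_Q]
  have h1 := h.sum_bad_left (fun x => (K ^ 2) x x) (fun x => Q_nonneg h.sym x)
  have h2 := h.sum_bad_right (fun x => (K ^ 2) x x) (fun x => Q_nonneg h.sym x)
  rw [h.sumF_Q] at h1 h2
  have h3 : Db * (K ^ 2).trace ≤ Db * N ^ 2 := mul_le_mul_of_nonneg_left h.X h.D0
  linarith

/-- first order term -/
lemma sum_c3 (h : Ctx F K s S N v R t β Db) :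
    ∑ p ∈ S, 4 * s * (K ^ 3) p.1 p.2 ≤ 4 * F.card + 4 * β * N ^ 3 := by
  have h1 : ∑ p ∈ F ×ˢ F, (K ^ 3) p.1 p.2 = s ^ 3 * (F.card : ℝ) := sum_FF_pow h.row 3
  have h2 := abs_sum_sub_le h.hS (h.l2c3 (F ×ˢ F)) h.bad
  rw [h1, Real.sqrt_sq h.β0] at h2
  rw [← Finset.mul_sum]
  have h3 := abs_le.mp h2
  rcases h.hs with rfl | rfl
  · norm_num at h3 ⊢; nlinarith [h3.1, h3.2]
  · norm_num at h3 ⊢; nlinarith [h3.1, h3.2]

/-- `2 ∑_S (aB + bA)` -/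
lemma sum_aB (h : Ctx F K s S N v R t β Db) {τ : ℝ} (hτ : |K.trace| ≤ τ) :
    ∑ p ∈ S, 2 * (K p.1 p.1 * ((K ^ 3) p.2 p.2 - K p.2 p.2)
        + K p.2 p.2 * ((K ^ 3) p.1 p.1 - K p.1 p.1))
      ≤ 4 * τ * (N ^ 3 + τ) + 4 * β * (v * (N * R + v)) := by
  have e1 : ∑ y ∈ F, ((K ^ 3) y y - K y y) = (K ^ 3).trace - K.trace := by
    rw [Finset.sum_sub_distrib, sum_F_eq_univ F (fun y => (K ^ 3) y y)
      (fun y hy => dead_pow h.sym h.dead 2 y y hy), sum_F_eq_univ F (fun y => K y y)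
      (fun y hy => h.dead y y hy)]
    rfl
  have e0 : ∑ y ∈ F, K y y = K.trace := sum_F_eq_univ F (fun y => K y y) fun y hy => h.dead y y hy
  have f1 := sum_tensor F F (fun x => K x x) (fun y => (K ^ 3) y y - K y y)
  have f2 := sum_tensor F F (fun y => (K ^ 3) y y - K y y) (fun x => K x x)
  rw [e0, e1] at f1 f2
  have g1 := abs_sum_sub_le h.hS (L2.tensor h.l2a h.l2B (S := F ×ˢ F) (Finset.Subset.refl _)) h.bad
  have g2 := abs_sum_sub_le h.hS (L2.tensor h.l2B h.l2a (S := F ×ˢ F) (Finset.Subset.refl _)) h.bad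
  rw [f1, Real.sqrt_sq h.β0] at g1
  rw [f2, Real.sqrt_sq h.β0] at g2
  rw [← Finset.mul_sum, Finset.sum_add_distrib]
  have e3 : ∑ p ∈ S, K p.2 p.2 * ((K ^ 3) p.1 p.1 - K p.1 p.1)
      = ∑ p ∈ S, ((K ^ 3) p.1 p.1 - K p.1 p.1) * K p.2 p.2 :=
    Finset.sum_congr rfl fun p _ => mul_comm _ _
  rw [e3]
  have hX3 : |(K ^ 3).trace| ≤ N ^ 3 := by
    have h3 := trace_three_sq_le h.sym.eq
    have h4 : ((K ^ 3).trace) ^ 2 ≤ (N ^ 3) ^ 2 := by
      calc _ ≤ _ := h3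
        _ ≤ N ^ 2 * N ^ 4 := mul_le_mul h.X h.X4 (by
            have := trace_even_nonneg h.sym.eq 2; norm_num at this; exact this) (sq_nonneg N)
        _ = _ := by ring
    exact abs_le_of_sq_le_sq h4 (pow_nonneg h.N0 3)
  have hτ0 : 0 ≤ τ := (abs_nonneg _).trans hτ
  have hp : K.trace * ((K ^ 3).trace - K.trace) ≤ τ * (N ^ 3 + τ) := by
    refine (le_abs_self _).trans ?_
    rw [abs_mul]
    refine mul_le_mul hτ ?_ (abs_nonneg _) hτ0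
    exact (abs_sub _ _).trans (add_le_add hX3 hτ)
  have g1' := (abs_le.mp g1).2
  have g2' := (abs_le.mp g2).2
  have hp2 : ((K ^ 3).trace - K.trace) * K.trace = K.trace * ((K ^ 3).trace - K.trace) :=
    mul_comm _ _
  rw [hp2] at g2'
  nlinarith

lemma sum_abs_ab (h : Ctx F K s S N v R t β Db) :
    ∑ p ∈ S, |K p.1 p.1 * K p.2 p.2| ≤ v ^ 2 * t ^ 2 := by
  have h1 : ∑ p ∈ S, |K p.1 p.1 * K p.2 p.2| ≤ ∑ p ∈ F ×ˢ F, |K p.1 p.1| * |K p.2 p.2| := by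
    calc _ ≤ ∑ p ∈ F ×ˢ F, |K p.1 p.1 * K p.2 p.2| :=
          Finset.sum_le_sum_of_subset_of_nonneg h.hS fun _ _ _ => abs_nonneg _
      _ = _ := Finset.sum_congr rfl fun p _ => abs_mul _ _
  rw [sum_tensor F F (fun x => |K x x|) (fun y => |K y y|)] at h1
  have h2 : ∑ x ∈ F, |K x x| ≤ v * t := by
    have := h.l2a.sum_mul h.l2one
    simpa using this
  have h3 : 0 ≤ ∑ x ∈ F, |K x x| := Finset.sum_nonneg fun _ _ => abs_nonneg _
  calc _ ≤ _ := h1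
    _ ≤ (v * t) * (v * t) := mul_le_mul h2 h2 h3 (mul_nonneg h.v0 h.t0)
    _ = _ := by ring

lemma l2ab (h : Ctx F K s S N v R t β Db) :
    L2 S (fun p => K p.1 p.1 * K p.2 p.2) (v * v) :=
  L2.tensor h.l2a h.l2a h.hS

lemma sum_c_sq (h : Ctx F K s S N v R t β Db) : ∑ p ∈ S, K p.1 p.2 ^ 2 ≤ N ^ 2 := (h.l2c S).2

lemma sum_pq_c (h : Ctx F K s S N v R t β Db) :
    ∑ p ∈ S, ((K ^ 2) p.1 p.1 + (K ^ 2) p.2 p.2)
        * (16 * |K p.1 p.2| + 8 * |K p.1 p.1 * K p.2 p.2|)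
      ≤ 2 * (R * t) * (16 * N + 8 * (v * v)) := by
  have a1 : L2 S (fun p => (K ^ 2) p.1 p.1 * 1) (R * t) := L2.tensor h.l2Q h.l2one h.hS
  have a2 : L2 S (fun p => 1 * (K ^ 2) p.2 p.2) (t * R) := L2.tensor h.l2one h.l2Q h.hS
  have a3 := (a1.add a2)
  have b1 := a3.sum_mul (h.l2c S)
  have b2 := a3.sum_mul h.l2ab
  have e : ∀ p ∈ S, ((K ^ 2) p.1 p.1 + (K ^ 2) p.2 p.2)
        * (16 * |K p.1 p.2| + 8 * |K p.1 p.1 * K p.2 p.2|)
      = 16 * (|(K ^ 2) p.1 p.1 * 1 + 1 * (K ^ 2) p.2 p.2| * |K p.1 p.2|)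
        + 8 * (|(K ^ 2) p.1 p.1 * 1 + 1 * (K ^ 2) p.2 p.2| * |K p.1 p.1 * K p.2 p.2|) := by
    intro p _
    have h1 := Q_nonneg h.sym p.1
    have h2 := Q_nonneg h.sym p.2
    rw [mul_one, one_mul, abs_of_nonneg (add_nonneg h1 h2)]
    ring
  rw [Finset.sum_congr rfl e, Finset.sum_add_distrib, ← Finset.mul_sum, ← Finset.mul_sum]
  linarith

lemma sum_p_q (h : Ctx F K s S N v R t β Db) :
    ∑ p ∈ S, (K ^ 2) p.1 p.1 * (K ^ 2) p.2 p.2 ≤ N ^ 4 := by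
  have h1 : ∑ p ∈ S, (K ^ 2) p.1 p.1 * (K ^ 2) p.2 p.2
      ≤ ∑ p ∈ F ×ˢ F, (K ^ 2) p.1 p.1 * (K ^ 2) p.2 p.2 :=
    Finset.sum_le_sum_of_subset_of_nonneg h.hS fun p _ _ =>
      mul_nonneg (Q_nonneg h.sym _) (Q_nonneg h.sym _)
  rw [sum_tensor F F (fun x => (K ^ 2) x x) (fun y => (K ^ 2) y y), h.sumF_Q] at h1
  calc _ ≤ _ := h1
    _ ≤ N ^ 2 * N ^ 2 := mul_le_mul h.X h.X (X_nonneg h.sym) (sq_nonneg N)
    _ = _ := by ring

lemma sum_c3c (h : Ctx F K s S N v R t β Db) :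
    ∑ p ∈ S, (|(K ^ 3) p.1 p.2| + |K p.1 p.2|)
        * (16 * |K p.1 p.2| + 16 * |K p.1 p.1 * K p.2 p.2|)
      ≤ 16 * (N ^ 3 + N) * (N + v * v) := by
  have b1 := (h.l2c3 S).sum_mul (h.l2c S)
  have b2 := (h.l2c3 S).sum_mul h.l2ab
  have b3 := (h.l2c S).sum_mul (h.l2c S)
  have b4 := (h.l2c S).sum_mul h.l2ab
  have e : ∀ p ∈ S, (|(K ^ 3) p.1 p.2| + |K p.1 p.2|)
        * (16 * |K p.1 p.2| + 16 * |K p.1 p.1 * K p.2 p.2|)
      = 16 * (|(K ^ 3) p.1 p.2| * |K p.1 p.2|) + 16 * (|(K ^ 3) p.1 p.2|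
          * |K p.1 p.1 * K p.2 p.2|) + 16 * (|K p.1 p.2| * |K p.1 p.2|)
        + 16 * (|K p.1 p.2| * |K p.1 p.1 * K p.2 p.2|) := by
    intro p _; ring
  rw [Finset.sum_congr rfl e]
  simp only [Finset.sum_add_distrib, ← Finset.mul_sum]
  nlinarith

lemma sum_aBc (h : Ctx F K s S N v R t β Db) :
    ∑ p ∈ S, (|K p.1 p.1| * |(K ^ 3) p.2 p.2 - K p.2 p.2|
        + |K p.2 p.2| * |(K ^ 3) p.1 p.1 - K p.1 p.1|)
        * (16 * |K p.1 p.2| + 8 * |K p.1 p.1 * K p.2 p.2|)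
      ≤ 2 * (v * (N * R + v)) * (16 * N + 8 * (v * v)) := by
  have a1 : L2 S (fun p => K p.1 p.1 * ((K ^ 3) p.2 p.2 - K p.2 p.2)) (v * (N * R + v)) :=
    L2.tensor h.l2a h.l2B h.hS
  have a2 : L2 S (fun p => ((K ^ 3) p.1 p.1 - K p.1 p.1) * K p.2 p.2) ((N * R + v) * v) :=
    L2.tensor h.l2B h.l2a h.hS
  have b1 := a1.sum_mul (h.l2c S)
  have b2 := a1.sum_mul h.l2ab
  have b3 := a2.sum_mul (h.l2c S)
  have b4 := a2.sum_mul h.l2ab
  have e : ∀ p ∈ S, (|K p.1 p.1| * |(K ^ 3) p.2 p.2 - K p.2 p.2|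
        + |K p.2 p.2| * |(K ^ 3) p.1 p.1 - K p.1 p.1|)
        * (16 * |K p.1 p.2| + 8 * |K p.1 p.1 * K p.2 p.2|)
      = 16 * (|K p.1 p.1 * ((K ^ 3) p.2 p.2 - K p.2 p.2)| * |K p.1 p.2|)
        + 8 * (|K p.1 p.1 * ((K ^ 3) p.2 p.2 - K p.2 p.2)| * |K p.1 p.1 * K p.2 p.2|)
        + 16 * (|((K ^ 3) p.1 p.1 - K p.1 p.1) * K p.2 p.2| * |K p.1 p.2|)
        + 8 * (|((K ^ 3) p.1 p.1 - K p.1 p.1) * K p.2 p.2| * |K p.1 p.1 * K p.2 p.2|) := by
    intro p _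
    rw [abs_mul (K p.1 p.1) ((K ^ 3) p.2 p.2 - K p.2 p.2),
      abs_mul ((K ^ 3) p.1 p.1 - K p.1 p.1)]
    ring
  rw [Finset.sum_congr rfl e]
  simp only [Finset.sum_add_distrib, ← Finset.mul_sum]
  nlinarith

lemma Wf_le (h : Ctx F K s S N v R t β Db) : Wf F K ≤ (R + t) ^ 2 := (h.l2Q.sub h.l2one).2

/-- `∑_S dT²` -/
lemma sum_dT2 (h : Ctx F K s S N v R t β Db) :
    ∑ p ∈ S, dT s K p.1 p.2 ^ 2 ≤ 96 * (v ^ 2 * (R + t) ^ 2) + 192 * N ^ 4 := by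
  have h1 := sum_dT_sq h.hs2 h.sym h.hS h.good
  have h2 : Vf K * Wf F K ≤ v ^ 2 * (R + t) ^ 2 :=
    mul_le_mul h.V h.Wf_le (Wf_nonneg F K) (sq_nonneg v)
  linarith [h.X4]

end Ctx

lemma D1_eq (hs : s = 1 ∨ s = -1) (x y : ι) :
    (UpdX.D1 s K x y / Dl s K x y) ^ 2 = dT s K x y ^ 2 := by
  have hs2 : s ^ 2 = 1 := by rcases hs with rfl | rfl <;> norm_num
  have : UpdX.D1 s K x y / Dl s K x y = - dT s K x y := by
    unfold UpdX.D1 dT
    rw [← neg_div]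
    congr 1
    linear_combination (2 * K x y * (K ^ 2) x y) * hs2
  rw [this]; ring

/-- error term for `X_2` -/
def errX (N v R t β Db τ : ℝ) : ℝ :=
  4 * Db * N ^ 2 + 4 * β * N ^ 3 + (4 * τ * (N ^ 3 + τ) + 4 * β * (v * (N * R + v)))
    + (24 * N ^ 2 + 10 * (v ^ 2 * t ^ 2)) + 2 * (R * t) * (16 * N + 8 * (v * v)) + 7 * N ^ 4
    + 16 * (N ^ 3 + N) * (N + v * v) + 2 * (v * (N * R + v)) * (16 * N + 8 * (v * v))
    + (96 * (v ^ 2 * (R + t) ^ 2) + 192 * N ^ 4)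

/-- **late one-step bound for `X_2`** -/
theorem sum_X2 (h : Ctx F K s S N v R t β Db) {τ : ℝ} (hτ : |K.trace| ≤ τ) :
    ∑ p ∈ S, (((upd s K p.1 p.2) ^ 2).trace - (K ^ 2).trace)
      ≤ -4 * F.card * ((K ^ 2).trace - 1) + errX N v R t β Db τ := by
  have hpt : ∀ p ∈ S, ((upd s K p.1 p.2) ^ 2).trace - (K ^ 2).trace ≤
      (-2 * ((K ^ 2) p.1 p.1 + (K ^ 2) p.2 p.2)) + 4 * s * (K ^ 3) p.1 p.2
      + 2 * (K p.1 p.1 * ((K ^ 3) p.2 p.2 - K p.2 p.2)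
        + K p.2 p.2 * ((K ^ 3) p.1 p.1 - K p.1 p.1))
      + (24 * K p.1 p.2 ^ 2 + 10 * |K p.1 p.1 * K p.2 p.2|)
      + ((K ^ 2) p.1 p.1 + (K ^ 2) p.2 p.2)
        * (16 * |K p.1 p.2| + 8 * |K p.1 p.1 * K p.2 p.2|)
      + 7 * ((K ^ 2) p.1 p.1 * (K ^ 2) p.2 p.2)
      + (|(K ^ 3) p.1 p.2| + |K p.1 p.2|)
        * (16 * |K p.1 p.2| + 16 * |K p.1 p.1 * K p.2 p.2|)
      + (|K p.1 p.1| * |(K ^ 3) p.2 p.2 - K p.2 p.2|
        + |K p.2 p.2| * |(K ^ 3) p.1 p.1 - K p.1 p.1|)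
        * (16 * |K p.1 p.2| + 8 * |K p.1 p.1 * K p.2 p.2|)
      + dT s K p.1 p.2 ^ 2 := by
    intro p hp
    obtain ⟨hxy, hc, hab⟩ := h.good p hp
    have hD := Dl_ge h.hs2 hc hab
    have hD0 : Dl s K p.1 p.2 ≠ 0 := by linarith
    rw [UpdX.X2_upd h.hs h.sym hxy hD0, D1_eq h.hs]
    have := sc_X2 (r := (K ^ 2) p.1 p.2) (c3 := (K ^ 3) p.1 p.2)
      (A := (K ^ 3) p.1 p.1 - K p.1 p.1) (B := (K ^ 3) p.2 p.2 - K p.2 p.2) h.hs rfl hD hc
      (Q_nonneg h.sym p.1) (Q_nonneg h.sym p.2)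
    unfold UpdX.D2
    have e : ((K ^ 2) p.1 p.2 ^ 2 - 2 * s * (1 - s * K p.1 p.2) * ((K ^ 3) p.1 p.2 - K p.1 p.2)
        - K p.1 p.1 * ((K ^ 3) p.2 p.2 - K p.2 p.2)
        - ((K ^ 2) p.1 p.1 - 1) * ((K ^ 2) p.2 p.2 - 1)
        - K p.2 p.2 * ((K ^ 3) p.1 p.1 - K p.1 p.1)) / Dl s K p.1 p.2 =
        ((K ^ 2) p.1 p.2 ^ 2 - 2 * s * (1 - s * K p.1 p.2) * ((K ^ 3) p.1 p.2 - K p.1 p.2)
        - K p.1 p.1 * ((K ^ 3) p.2 p.2 - K p.2 p.2)
        - ((K ^ 2) p.1 p.1 - 1) * ((K ^ 2) p.2 p.2 - 1)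
        - K p.2 p.2 * ((K ^ 3) p.1 p.1 - K p.1 p.1)) /
          ((1 - s * K p.1 p.2) ^ 2 - K p.1 p.1 * K p.2 p.2) := rfl
    rw [e]
    have hDl : Dl s K p.1 p.2 = (1 - s * K p.1 p.2) ^ 2 - K p.1 p.1 * K p.2 p.2 := rfl
    rw [← hDl] at this ⊢
    linarith
  refine (Finset.sum_le_sum hpt).trans ?_
  simp only [Finset.sum_add_distrib, ← Finset.mul_sum]
  have k1 := h.sum_pq
  have k2 := h.sum_c3
  have k3 := h.sum_aB hτ
  have k4 := h.sum_c_sq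
  have k5 := h.sum_abs_ab
  have k6 := h.sum_pq_c
  have k7 := h.sum_p_q
  have k8 := h.sum_c3c
  have k9 := h.sum_aBc
  have k10 := h.sum_dT2
  simp only [Finset.sum_add_distrib, ← Finset.mul_sum] at k1 k2 k3
  unfold errX
  linarith

end

end Crest.Agent.R62.Late
end

-- ▼ part R62/LateV
section

/-!
R62, late phase (helper316): one-step bounds for `(T - s)²` and for `V = ∑ K_xx²`, summed over
good pairs, with crude error terms.
-/

set_option autoImplicit false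
set_option linter.unusedSectionVars false
set_option linter.unusedVariables false

open Matrix Finset

namespace Crest.Agent.R62.Late

open Crest.Agent.R62.Upd Crest.Agent.R62.AvX1 Crest.Agent.R62.AvBase Crest.Agent.R62.L2P

variable {ι : Type*} [Fintype ι] [DecidableEq ι]

section T

variable {F : Finset ι} {K : Matrix ι ι ℝ} {s : ℝ} {S : Finset (ι × ι)} {N v R t β Db : ℝ}

/-- error term for `(T - s)²` -/
def errT (N v R t β τ : ℝ) : ℝ :=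
  2 * (τ + 1) * (2 * τ * N ^ 2 + 2 * N ^ 3
      + ((16 * N + 8 * v ^ 2 + 2 * β) * (v * (R + t)) + (4 * N + 8 * v ^ 2 + 2 * β) * N ^ 2))
    + (96 * (v ^ 2 * (R + t) ^ 2) + 192 * N ^ 4)

lemma Ctx.abs_X3 (h : Ctx F K s S N v R t β Db) : |(K ^ 3).trace| ≤ N ^ 3 := by
  have h3 := trace_three_sq_le h.sym.eq
  have h4 : ((K ^ 3).trace) ^ 2 ≤ (N ^ 3) ^ 2 := by
    calc _ ≤ _ := h3
      _ ≤ N ^ 2 * N ^ 4 := mul_le_mul h.X h.X4 (by
          have := trace_even_nonneg h.sym.eq 2; norm_num at this; exact this) (sq_nonneg N)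
      _ = _ := by ring
  exact abs_le_of_sq_le_sq h4 (pow_nonneg h.N0 3)

/-- **late one-step bound for `(T - s)²`** -/
theorem sum_T (h : Ctx F K s S N v R t β Db) {τ : ℝ} (hτ : |K.trace| ≤ τ) :
    ∑ p ∈ S, (((upd s K p.1 p.2).trace - s) ^ 2 - (K.trace - s) ^ 2)
      ≤ -4 * F.card * (K.trace - s) ^ 2 + errT N v R t β τ := by
  have hτ0 : 0 ≤ τ := (abs_nonneg _).trans hτ
  have hN := h.N0
  have e : ∀ p ∈ S, ((upd s K p.1 p.2).trace - s) ^ 2 - (K.trace - s) ^ 2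
      = 2 * (K.trace - s) * dT s K p.1 p.2 + dT s K p.1 p.2 ^ 2 := by
    intro p hp
    obtain ⟨hxy, hc, hab⟩ := h.good p hp
    have hD := Dl_ge h.hs2 hc hab
    have hD0 : Dl s K p.1 p.2 ≠ 0 := by linarith
    rw [trace_upd h.hs2 h.sym hxy hD0]
    ring
  rw [Finset.sum_congr rfl e, Finset.sum_add_distrib, ← Finset.mul_sum]
  have h1 := one_step h.hs2 h.sym h.dead h.row h.hS h.good
  have h2 := h.sum_dT2
  have hVW : √(Vf K * Wf F K) ≤ v * (R + t) := by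
    have : Vf K * Wf F K ≤ (v * (R + t)) ^ 2 := by
      calc _ ≤ v ^ 2 * (R + t) ^ 2 := mul_le_mul h.V h.Wf_le (Wf_nonneg F K) (sq_nonneg v)
        _ = _ := by ring
    exact Real.sqrt_le_iff.mpr ⟨mul_nonneg h.v0 (add_nonneg h.R0 h.t0), this⟩
  have hX : √(K ^ 2).trace ≤ N := Real.sqrt_le_iff.mpr ⟨hN, h.X⟩
  have hX4 : √(K ^ 4).trace ≤ N ^ 2 := by
    refine Real.sqrt_le_iff.mpr ⟨by positivity, ?_⟩
    calc (K ^ 4).trace ≤ N ^ 4 := h.X4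
      _ = _ := by ring
  have hβ : √(((F ×ˢ F) \ S).card : ℝ) ≤ β := Real.sqrt_le_iff.mpr ⟨h.β0, h.bad⟩
  have hV := h.V
  have hV0 := Vf_nonneg K
  set E := (16 * N + 8 * v ^ 2 + 2 * β) * (v * (R + t)) + (4 * N + 8 * v ^ 2 + 2 * β) * N ^ 2
    with hE
  have h3 : |∑ p ∈ S, dT s K p.1 p.2 - (2 * K.trace * ((K ^ 2).trace - F.card)
      + 2 * s * F.card + 2 * (K ^ 3).trace)| ≤ E := by
    refine h1.trans ?_
    rw [hE]
    have b1 := Real.sqrt_nonneg (K ^ 2).trace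
    have b2 := Real.sqrt_nonneg (((F ×ˢ F) \ S).card : ℝ)
    have b3 := Real.sqrt_nonneg (Vf K * Wf F K)
    have b4 := Real.sqrt_nonneg (K ^ 4).trace
    refine add_le_add (mul_le_mul (by linarith) hVW b3 ?_) (mul_le_mul (by linarith) hX4 b4 ?_)
    · have := sq_nonneg v; linarith [h.β0]
    · have := sq_nonneg v; linarith [h.β0]
  set D := ∑ p ∈ S, dT s K p.1 p.2 with hDdef
  set T := K.trace
  set X := (K ^ 2).trace
  set X3 := (K ^ 3).trace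
  have hX0 : 0 ≤ X := X_nonneg h.sym
  have hs1 := abs_s h.hs2
  have e2 : 2 * T * (X - F.card) + 2 * s * F.card + 2 * X3
      = -2 * F.card * (T - s) + (2 * T * X + 2 * X3) := by ring
  rw [e2] at h3
  have h4 : |D - -2 * F.card * (T - s)| ≤ 2 * τ * N ^ 2 + 2 * N ^ 3 + E := by
    have h5 : |2 * T * X + 2 * X3| ≤ 2 * τ * N ^ 2 + 2 * N ^ 3 := by
      have a1 : |T * X| ≤ τ * N ^ 2 := by
        rw [abs_mul, abs_of_nonneg hX0]
        exact mul_le_mul hτ h.X hX0 hτ0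
      have a2 : |X3| ≤ N ^ 3 := h.abs_X3
      calc |2 * T * X + 2 * X3| ≤ |2 * T * X| + |2 * X3| := abs_add_le _ _
        _ = 2 * |T * X| + 2 * |X3| := by
            rw [mul_assoc, abs_mul 2 (T * X), abs_mul 2 X3]; norm_num
        _ ≤ _ := by linarith
    have h6 : D - -2 * F.card * (T - s)
        = (D - (-2 * F.card * (T - s) + (2 * T * X + 2 * X3))) + (2 * T * X + 2 * X3) := by ring
    rw [h6]
    refine (abs_add_le _ _).trans ?_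
    linarith
  have h7 : |T - s| ≤ τ + 1 := by
    calc _ ≤ |T| + |s| := abs_sub _ _
      _ ≤ _ := by rw [hs1]; linarith
  have h8 : 2 * (T - s) * D ≤ -4 * F.card * (T - s) ^ 2
      + 2 * (τ + 1) * (2 * τ * N ^ 2 + 2 * N ^ 3 + E) := by
    have h9 : (T - s) * (D - -2 * F.card * (T - s))
        ≤ (τ + 1) * (2 * τ * N ^ 2 + 2 * N ^ 3 + E) := by
      refine (le_abs_self _).trans ?_
      rw [abs_mul]
      exact mul_le_mul h7 h4 (abs_nonneg _) (by linarith)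
    nlinarith
  unfold errT
  rw [← hE]
  linarith

end T

/-! ### `V` -/

/-- Minkowski for finite sums -/
lemma L2_sum {α κ : Type*} (S : Finset α) (Z : Finset κ) (f : κ → α → ℝ) (a : κ → ℝ)
    (h : ∀ z ∈ Z, L2 S (f z) (a z)) : L2 S (fun p => ∑ z ∈ Z, f z p) (∑ z ∈ Z, a z) := by
  classical
  induction Z using Finset.induction_on with
  | empty => exact ⟨by simp, by simp⟩
  | insert z Z hz ih =>
    have h1 := (h z (Finset.mem_insert_self z Z)).add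
      (ih fun w hw => h w (Finset.mem_insert_of_mem hw))
    rw [Finset.sum_insert hz]
    exact h1.congr fun p _ => by rw [Finset.sum_insert hz]

/-- `P_xy = ∑_z K_zz K_zx K_zy` -/
def Pf (K : Matrix ι ι ℝ) (x y : ι) : ℝ := ∑ z, K z z * (K z x * K z y)
/-- signed `G_x = ∑_z K_zz K_zx²` -/
def Gf (K : Matrix ι ι ℝ) (x : ι) : ℝ := ∑ z, K z z * K z x ^ 2
/-- `M_x = ∑_z K_zx⁴` -/
def Mx (K : Matrix ι ι ℝ) (x : ι) : ℝ := ∑ z, K z x ^ 4
/-- `C_xy = ∑_z K_zx² K_zy²` -/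
def Cf (K : Matrix ι ι ℝ) (x y : ι) : ℝ := ∑ z, K z x ^ 2 * K z y ^ 2

/-- the increment of the diagonal entry `z` -/
noncomputable def dz (s : ℝ) (K : Matrix ι ι ℝ) (x y z : ι) : ℝ :=
  Bxx s K x y * K z x ^ 2 + 2 * Bxy s K x y * (K z x * K z y) + Byy s K x y * K z y ^ 2

lemma upd_diag (s : ℝ) (K : Matrix ι ι ℝ) (x y z : ι) :
    upd s K x y z z = if z = x ∨ z = y then 0 else K z z + dz s K x y z := by
  unfold upd Pi2 dz
  by_cases h : z = x ∨ z = y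
  · rw [if_pos h, if_pos (by tauto)]
  · rw [if_neg h, if_neg (by tauto), Khat_apply]
    ring

lemma Vf_upd_le (s : ℝ) (K : Matrix ι ι ℝ) {x y : ι} (hxy : x ≠ y) :
    Vf (upd s K x y) ≤ Vf K + (2 * Bxx s K x y * Gf K x + 4 * Bxy s K x y * Pf K x y
        + 2 * Byy s K x y * Gf K y) + ∑ z, dz s K x y z ^ 2
      - K x x ^ 2 - 2 * (K x x * dz s K x y x) - K y y ^ 2 - 2 * (K y y * dz s K x y y) := by
  unfold Vf
  have e1 : ∀ z, upd s K x y z z ^ 2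
      = if z = x ∨ z = y then 0 else (K z z + dz s K x y z) ^ 2 := by
    intro z
    rw [upd_diag]
    split_ifs <;> norm_num
  simp_rw [e1]
  rw [sum_ne x y hxy]
  have e2 : ∑ z, (K z z + dz s K x y z) ^ 2 = ∑ z, K z z ^ 2
      + (2 * Bxx s K x y * Gf K x + 4 * Bxy s K x y * Pf K x y + 2 * Byy s K x y * Gf K y)
      + ∑ z, dz s K x y z ^ 2 := by
    unfold Gf Pf
    simp only [Finset.mul_sum, ← Finset.sum_add_distrib]
    refine Finset.sum_congr rfl fun z _ => ?_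
    unfold dz; ring
  rw [e2]
  nlinarith [sq_nonneg (dz s K x y x), sq_nonneg (dz s K x y y)]

section V

variable {F : Finset ι} {K : Matrix ι ι ℝ} {s : ℝ} {S : Finset (ι × ι)} {N v R t β Db : ℝ}

lemma Q_col (hK : K.IsSymm) (z : ι) : ∑ x, K z x ^ 2 = (K ^ 2) z z := (Q_eq hK z).symm

lemma Cf_sum (hK : K.IsSymm) : ∑ x, ∑ y, Cf K x y = R2f K := by
  unfold Cf R2f
  calc ∑ x, ∑ y, ∑ z, K z x ^ 2 * K z y ^ 2 = ∑ x, ∑ z, ∑ y, K z x ^ 2 * K z y ^ 2 :=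
        Finset.sum_congr rfl fun x _ => Finset.sum_comm
    _ = ∑ z, ∑ x, ∑ y, K z x ^ 2 * K z y ^ 2 := Finset.sum_comm
    _ = _ := by
        refine Finset.sum_congr rfl fun z _ => ?_
        simp only [← Finset.mul_sum, ← Finset.sum_mul, Q_col hK]
        ring

lemma Mx_sum : ∑ x, Mx K x = M4f K := by
  unfold Mx M4f
  exact Finset.sum_comm

lemma Cf_nonneg (x y : ι) : 0 ≤ Cf K x y := Finset.sum_nonneg fun z _ => by positivity
lemma Mx_nonneg (x : ι) : 0 ≤ Mx K x := Finset.sum_nonneg fun z _ => by positivity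

lemma abs_Gf_le (hK : K.IsSymm) (x : ι) : |Gf K x| ≤ gf K x := by
  unfold Gf gf
  refine (Finset.abs_sum_le_sum_abs _ _).trans (le_of_eq ?_)
  refine Finset.sum_congr rfl fun z _ => ?_
  rw [abs_mul, abs_of_nonneg (sq_nonneg (K z x)), hK.apply x z]

/-- Frobenius norm of `K D K` -/
lemma Pf_l2 (hK : K.IsSymm) {A : ℝ} (hA : Af K ≤ A) (T : Finset (ι × ι)) :
    L2 T (fun p => Pf K p.1 p.2) A := by
  have h1 : ∀ z ∈ (Finset.univ : Finset ι), L2 T (fun p : ι × ι => K z z * (K z p.1 * K z p.2))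
      (|K z z| * (K ^ 2) z z) := by
    intro z _
    have hq := Q_nonneg hK z
    have h2 : L2 Finset.univ (fun x => K z x) (√((K ^ 2) z z)) :=
      L2.of_le (by rw [Q_col hK])
    have h3 : L2 T (fun p : ι × ι => K z p.1 * K z p.2) (√((K ^ 2) z z) * √((K ^ 2) z z)) :=
      L2.tensor h2 h2 (by intro p _; simp)
    rw [Real.mul_self_sqrt hq] at h3
    exact h3.smul (K z z)
  have h2 := L2_sum T Finset.univ (fun z (p : ι × ι) => K z z * (K z p.1 * K z p.2))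
    (fun z => |K z z| * (K ^ 2) z z) h1
  exact (h2.mono hA : _)

lemma row_sum (h : Ctx F K s S N v R t β Db) (z : ι) :
    ∑ x ∈ F, K z x = s * (if z ∈ F then 1 else 0) := by
  have h1 := congrFun h.row z
  simp only [Matrix.mulVec, dotProduct, ind, Pi.smul_apply, smul_eq_mul] at h1
  rw [← h1]
  simp [Finset.sum_ite_mem]

lemma Pf_sum (h : Ctx F K s S N v R t β Db) : ∑ p ∈ F ×ˢ F, Pf K p.1 p.2 = K.trace := by
  rw [Finset.sum_product]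
  unfold Pf
  calc ∑ x ∈ F, ∑ y ∈ F, ∑ z, K z z * (K z x * K z y)
      = ∑ x ∈ F, ∑ z, ∑ y ∈ F, K z z * (K z x * K z y) :=
        Finset.sum_congr rfl fun x _ => Finset.sum_comm
    _ = ∑ z, ∑ x ∈ F, ∑ y ∈ F, K z z * (K z x * K z y) := Finset.sum_comm
    _ = ∑ z, K z z := by
        refine Finset.sum_congr rfl fun z _ => ?_
        simp only [← Finset.mul_sum, ← Finset.sum_mul, row_sum h]
        have hs2 := h.hs2
        by_cases hz : z ∈ F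
        · rw [if_pos hz]; linear_combination (K z z) * hs2
        · rw [if_neg hz, h.dead z z hz]; ring
    _ = _ := rfl

lemma Gf_sum (h : Ctx F K s S N v R t β Db) {A : ℝ} (hA : Af K ≤ A) :
    |∑ x ∈ F, Gf K x| ≤ A := by
  calc |∑ x ∈ F, Gf K x| ≤ ∑ x ∈ F, |Gf K x| := Finset.abs_sum_le_sum_abs _ _
    _ ≤ ∑ x, |Gf K x| :=
        Finset.sum_le_sum_of_subset_of_nonneg (Finset.subset_univ _) fun _ _ _ => abs_nonneg _
    _ ≤ ∑ x, gf K x := Finset.sum_le_sum fun x _ => abs_Gf_le h.sym x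
    _ = Af K := sum_gf h.sym
    _ ≤ A := hA

lemma Gf_l2 (h : Ctx F K s S N v R t β Db) {g : ℝ} (hg0 : 0 ≤ g)
    (hg : ∑ x, gf K x ^ 2 ≤ g ^ 2) : L2 F (fun x => Gf K x) g := by
  refine ⟨hg0, le_trans ?_ hg⟩
  calc ∑ x ∈ F, Gf K x ^ 2 ≤ ∑ x, Gf K x ^ 2 :=
        Finset.sum_le_sum_of_subset_of_nonneg (Finset.subset_univ _) fun _ _ _ => sq_nonneg _
    _ ≤ _ := Finset.sum_le_sum fun x _ => by
        rw [← sq_abs]
        exact pow_le_pow_left₀ (abs_nonneg _) (abs_Gf_le h.sym x) 2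

/-- pointwise bound of the squared increments -/
lemma dz_sq_le (hs : s = 1 ∨ s = -1) {x y : ι} (hc : |K x y| ≤ 1 / 4)
    (hab : |K x x * K y y| ≤ 1 / 4) (z : ι) :
    dz s K x y z ^ 2 ≤ 32 * K y y ^ 2 * K z x ^ 4 + 192 * (K z x ^ 2 * K z y ^ 2)
      + 32 * K x x ^ 2 * K z y ^ 4 := by
  have hs2 : s ^ 2 = 1 := by rcases hs with rfl | rfl <;> norm_num
  have hD := Dl_ge (K := K) hs2 hc hab
  have hDpos : 0 < Dl s K x y := by linarith
  unfold dz Bxx Bxy Byy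
  set D := Dl s K x y
  set i := 1 / D with hi
  have hi0 : 0 < i := by rw [hi]; positivity
  have hi1 : i ≤ 16 / 5 := by rw [hi, div_le_iff₀ hDpos]; linarith
  have hi2 : i ^ 2 ≤ 256 / 25 := by nlinarith
  have hsc : (s - K x y) ^ 2 ≤ 25 / 16 := by
    have := abs_le.mp hc
    rcases hs with rfl | rfl <;> nlinarith
  have hb2 : (s * (1 - s * K x y)) = s - K x y := by linear_combination (-K x y) * hs2
  rw [hb2]
  set u := K z x
  set w := K z y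
  set a := K x x
  set b := K y y
  have e : b / D * u ^ 2 + 2 * ((s - K x y) / D) * (u * w) + a / D * w ^ 2
      = i * (b * u ^ 2 + 2 * (s - K x y) * (u * w) + a * w ^ 2) := by
    rw [hi]; field_simp
  rw [e, mul_pow]
  have h3 : (b * u ^ 2 + 2 * (s - K x y) * (u * w) + a * w ^ 2) ^ 2
      ≤ 3 * (b ^ 2 * u ^ 4 + 4 * (s - K x y) ^ 2 * (u ^ 2 * w ^ 2) + a ^ 2 * w ^ 4) := by
    nlinarith [sq_nonneg (b * u ^ 2 - 2 * (s - K x y) * (u * w)), sq_nonneg (b * u ^ 2 - a * w ^ 2),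
      sq_nonneg (2 * (s - K x y) * (u * w) - a * w ^ 2)]
  have h4 : (s - K x y) ^ 2 * (u ^ 2 * w ^ 2) ≤ 25 / 16 * (u ^ 2 * w ^ 2) :=
    mul_le_mul_of_nonneg_right hsc (by positivity)
  have h5 : (b * u ^ 2 + 2 * (s - K x y) * (u * w) + a * w ^ 2) ^ 2
      ≤ 3 * (b ^ 2 * u ^ 4) + 75 / 4 * (u ^ 2 * w ^ 2) + 3 * (a ^ 2 * w ^ 4) := by linarith
  have h6 : 0 ≤ (b * u ^ 2 + 2 * (s - K x y) * (u * w) + a * w ^ 2) ^ 2 := sq_nonneg _
  have h7 : 0 ≤ b ^ 2 * u ^ 4 := by positivity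
  have h8 : 0 ≤ u ^ 2 * w ^ 2 := by positivity
  have h9 : 0 ≤ a ^ 2 * w ^ 4 := by positivity
  calc i ^ 2 * (b * u ^ 2 + 2 * (s - K x y) * (u * w) + a * w ^ 2) ^ 2
      ≤ 256 / 25 * (b * u ^ 2 + 2 * (s - K x y) * (u * w) + a * w ^ 2) ^ 2 :=
        mul_le_mul_of_nonneg_right hi2 h6
    _ ≤ 256 / 25 * (3 * (b ^ 2 * u ^ 4) + 75 / 4 * (u ^ 2 * w ^ 2) + 3 * (a ^ 2 * w ^ 4)) :=
        mul_le_mul_of_nonneg_left h5 (by norm_num)
    _ ≤ _ := by linarith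

lemma sum_dz_sq_le (hs : s = 1 ∨ s = -1) {x y : ι} (hc : |K x y| ≤ 1 / 4)
    (hab : |K x x * K y y| ≤ 1 / 4) :
    ∑ z, dz s K x y z ^ 2 ≤ 32 * (K y y ^ 2 * Mx K x) + 192 * Cf K x y
      + 32 * (K x x ^ 2 * Mx K y) := by
  have h1 := Finset.sum_le_sum fun z (_ : z ∈ (Finset.univ : Finset ι)) => dz_sq_le hs hc hab z
  refine h1.trans (le_of_eq ?_)
  unfold Mx Cf
  simp only [Finset.mul_sum, ← Finset.sum_add_distrib]
  exact Finset.sum_congr rfl fun z _ => by ring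

/-- pointwise bound of the linear part -/
lemma sc_V {a b c D G H P : ℝ} (hs : s = 1 ∨ s = -1) (hD : D = (1 - s * c) ^ 2 - a * b)
    (hD0 : 5 / 16 ≤ D) (hc : |c| ≤ 1 / 4) :
    2 * (b / D) * G + 4 * (s * (1 - s * c) / D) * P + 2 * (a / D) * H
      - 2 * (a * (b / D * a ^ 2 + 2 * (s * (1 - s * c) / D) * (a * c) + a / D * c ^ 2))
      - 2 * (b * (b / D * c ^ 2 + 2 * (s * (1 - s * c) / D) * (c * b) + a / D * b ^ 2))
      ≤ 4 * (s * P) + 2 * (b * G + a * H) + 16 * ((|c| + |a * b|) * |P|)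
        + (|b * G| + |a * H|) * (16 * |c| + 8 * |a * b|)
        + (a ^ 2 + b ^ 2) * (16 * |c| + 8 * |a * b|) := by
  have hDpos : 0 < D := by linarith
  obtain ⟨h1, h2, h3⟩ := sc_inv (a := a) (b := b) hs hD hD0 hc
  have hs2 : s ^ 2 = 1 := by rcases hs with rfl | rfl <;> norm_num
  have hs1 := abs_s hs2
  set i : ℝ := 1 / D with hi
  have hi0 : 0 < i := by rw [hi]; positivity
  have hi1 : i ≤ 16 / 5 := by
    rw [hi, div_le_iff₀ hDpos]; linarith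
  have e : 2 * (b / D) * G + 4 * (s * (1 - s * c) / D) * P + 2 * (a / D) * H
      - 2 * (a * (b / D * a ^ 2 + 2 * (s * (1 - s * c) / D) * (a * c) + a / D * c ^ 2))
      - 2 * (b * (b / D * c ^ 2 + 2 * (s * (1 - s * c) / D) * (c * b) + a / D * b ^ 2))
      = 4 * (s * P) + 2 * (b * G + a * H) + 4 * (s * P * ((1 - s * c) * i - 1))
        + 2 * ((b * G + a * H) * (i - 1))
        - 2 * (i * a ^ 2 * (a * b + 2 * (s * c) - c ^ 2))
        - 2 * (i * b ^ 2 * (a * b + 2 * (s * c) - c ^ 2)) := by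
    rw [hi]
    field_simp
    linear_combination (4 * (a ^ 2 + b ^ 2) * c ^ 2) * hs2
  rw [e]
  have t1 : s * P * ((1 - s * c) * i - 1) ≤ (4 * |c| + 4 * |a * b|) * |P| := by
    refine (le_abs_self _).trans ?_
    rw [abs_mul, abs_mul, hs1, one_mul, mul_comm]
    exact mul_le_mul_of_nonneg_right h3 (abs_nonneg _)
  have t2 : (b * G + a * H) * (i - 1) ≤ (|b * G| + |a * H|) * (8 * |c| + 4 * |a * b|) := by
    refine (le_abs_self _).trans ?_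
    rw [abs_mul]
    exact mul_le_mul (abs_add_le _ _) h1 (abs_nonneg _) (by positivity)
  have hc2 : c ^ 2 ≤ 1 / 4 * |c| := by rw [← sq_abs]; nlinarith [abs_nonneg c]
  have hsc : |s * c| = |c| := by rw [abs_mul, hs1, one_mul]
  have t3 : |a * b + 2 * (s * c) - c ^ 2| ≤ |a * b| + 9 / 4 * |c| := by
    calc _ ≤ |a * b + 2 * (s * c)| + |c ^ 2| := abs_sub _ _
      _ ≤ |a * b| + |2 * (s * c)| + |c ^ 2| := by linarith [abs_add_le (a * b) (2 * (s * c))]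
      _ = |a * b| + 2 * |c| + c ^ 2 := by
          rw [abs_mul 2, hsc, abs_of_nonneg (sq_nonneg c)]; norm_num
      _ ≤ _ := by linarith
  have t4 : ∀ w : ℝ, -(i * w ^ 2 * (a * b + 2 * (s * c) - c ^ 2))
      ≤ w ^ 2 * (8 * |c| + 4 * |a * b|) := by
    intro w
    have h5 : -(a * b + 2 * (s * c) - c ^ 2) ≤ |a * b| + 9 / 4 * |c| :=
      (neg_le_abs _).trans t3
    have h6 : i * -(a * b + 2 * (s * c) - c ^ 2) ≤ 16 / 5 * (|a * b| + 9 / 4 * |c|) := by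
      have h7 : i * -(a * b + 2 * (s * c) - c ^ 2) ≤ i * (|a * b| + 9 / 4 * |c|) :=
        mul_le_mul_of_nonneg_left h5 hi0.le
      have h8 : i * (|a * b| + 9 / 4 * |c|) ≤ 16 / 5 * (|a * b| + 9 / 4 * |c|) :=
        mul_le_mul_of_nonneg_right hi1 (by positivity)
      linarith
    have h9 : 16 / 5 * (|a * b| + 9 / 4 * |c|) ≤ 8 * |c| + 4 * |a * b| := by
      have := abs_nonneg (a * b); have := abs_nonneg c; linarith
    have := mul_le_mul_of_nonneg_left (h6.trans h9) (sq_nonneg w)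
    nlinarith
  have t5 := t4 a
  have t6 := t4 b
  nlinarith

/-- error term for `V` -/
def errV (N v R t β Db τ A M g : ℝ) : ℝ :=
  2 * Db * v ^ 2 + (4 * τ + 4 * β * A) + (4 * τ * A + 4 * β * (v * g))
    + 16 * ((N + v * v) * A) + 2 * (v * g) * (16 * N + 8 * (v * v))
    + 2 * (v ^ 2 * t) * (16 * N + 8 * (v * v)) + 64 * (v ^ 2 * M) + 192 * R ^ 2

/-- **late one-step bound for `V = ∑ K_xx²`** -/
theorem sum_V (h : Ctx F K s S N v R t β Db) {τ A M g : ℝ} (hτ : |K.trace| ≤ τ)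
    (hA : Af K ≤ A) (hM : M4f K ≤ M) (hg0 : 0 ≤ g) (hg : ∑ x, gf K x ^ 2 ≤ g ^ 2) :
    ∑ p ∈ S, (Vf (upd s K p.1 p.2) - Vf K)
      ≤ -2 * F.card * Vf K + errV N v R t β Db τ A M g := by
  have hτ0 : 0 ≤ τ := (abs_nonneg _).trans hτ
  have hN := h.N0
  have hA0 : 0 ≤ A := (Af_nonneg h.sym).trans hA
  have hpt : ∀ p ∈ S, Vf (upd s K p.1 p.2) - Vf K ≤
      -(K p.1 p.1 ^ 2 + K p.2 p.2 ^ 2) + 4 * (s * Pf K p.1 p.2)
      + 2 * (K p.2 p.2 * Gf K p.1 + K p.1 p.1 * Gf K p.2)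
      + 16 * ((|K p.1 p.2| + |K p.1 p.1 * K p.2 p.2|) * |Pf K p.1 p.2|)
      + (|K p.2 p.2 * Gf K p.1| + |K p.1 p.1 * Gf K p.2|)
          * (16 * |K p.1 p.2| + 8 * |K p.1 p.1 * K p.2 p.2|)
      + (K p.1 p.1 ^ 2 + K p.2 p.2 ^ 2) * (16 * |K p.1 p.2| + 8 * |K p.1 p.1 * K p.2 p.2|)
      + (32 * (K p.2 p.2 ^ 2 * Mx K p.1) + 192 * Cf K p.1 p.2
          + 32 * (K p.1 p.1 ^ 2 * Mx K p.2)) := by
    intro p hp
    obtain ⟨hxy, hc, hab⟩ := h.good p hp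
    have hD := Dl_ge h.hs2 hc hab
    have h1 := Vf_upd_le s K hxy
    have h2 := sum_dz_sq_le (K := K) h.hs hc hab
    have h3 := sc_V (G := Gf K p.1) (H := Gf K p.2) (P := Pf K p.1 p.2) h.hs
      (rfl : Dl s K p.1 p.2 = (1 - s * K p.1 p.2) ^ 2 - K p.1 p.1 * K p.2 p.2) hD hc
    have e1 : dz s K p.1 p.2 p.1 = K p.2 p.2 / Dl s K p.1 p.2 * K p.1 p.1 ^ 2
        + 2 * (s * (1 - s * K p.1 p.2) / Dl s K p.1 p.2) * (K p.1 p.1 * K p.1 p.2)
        + K p.1 p.1 / Dl s K p.1 p.2 * K p.1 p.2 ^ 2 := rfl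
    have e2 : dz s K p.1 p.2 p.2 = K p.2 p.2 / Dl s K p.1 p.2 * K p.1 p.2 ^ 2
        + 2 * (s * (1 - s * K p.1 p.2) / Dl s K p.1 p.2) * (K p.1 p.2 * K p.2 p.2)
        + K p.1 p.1 / Dl s K p.1 p.2 * K p.2 p.2 ^ 2 := by
      unfold dz Bxx Bxy Byy
      rw [h.sym.apply p.1 p.2]
    rw [e1, e2] at h1
    unfold Bxx Bxy Byy at h1
    linarith
  refine (Finset.sum_le_sum hpt).trans ?_
  simp only [Finset.sum_add_distrib]
  -- 1
  have k1 : ∑ p ∈ S, (-(K p.1 p.1 ^ 2 + K p.2 p.2 ^ 2)) ≤ -2 * F.card * Vf K + 2 * Db * v ^ 2 := by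
    rw [sum_good h.hS, Finset.sum_neg_distrib, Finset.sum_neg_distrib, Finset.sum_add_distrib,
      Finset.sum_add_distrib, Ctx.sum_FF_left (fun x => K x x ^ 2),
      Ctx.sum_FF_right (fun x => K x x ^ 2), h.sumF_a2]
    have b1 := h.sum_bad_left (fun x => K x x ^ 2) (fun x => sq_nonneg _)
    have b2 := h.sum_bad_right (fun x => K x x ^ 2) (fun x => sq_nonneg _)
    rw [h.sumF_a2] at b1 b2
    have b3 : Db * Vf K ≤ Db * v ^ 2 := mul_le_mul_of_nonneg_left h.V h.D0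
    linarith
  -- 2
  have k2 : ∑ p ∈ S, 4 * (s * Pf K p.1 p.2) ≤ 4 * τ + 4 * β * A := by
    rw [← Finset.mul_sum, ← Finset.mul_sum]
    have b1 := abs_sum_sub_le h.hS (Pf_l2 h.sym hA (F ×ˢ F)) h.bad
    rw [Pf_sum h, Real.sqrt_sq h.β0] at b1
    have b2 : |∑ p ∈ S, Pf K p.1 p.2| ≤ τ + β * A := by
      calc |∑ p ∈ S, Pf K p.1 p.2|
          = |(∑ p ∈ S, Pf K p.1 p.2 - K.trace) + K.trace| := by ring_nf
        _ ≤ _ := abs_add_le _ _
        _ ≤ _ := by linarith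
    have b3 : s * ∑ p ∈ S, Pf K p.1 p.2 ≤ τ + β * A := by
      refine (le_abs_self _).trans ?_
      rw [abs_mul, abs_s h.hs2, one_mul]; exact b2
    linarith
  -- 3
  have hG := Gf_l2 h hg0 hg
  have k3 : ∑ p ∈ S, 2 * (K p.2 p.2 * Gf K p.1 + K p.1 p.1 * Gf K p.2)
      ≤ 4 * τ * A + 4 * β * (v * g) := by
    have e0 : ∑ y ∈ F, K y y = K.trace :=
      sum_F_eq_univ F (fun y => K y y) fun y hy => h.dead y y hy
    have f1 := sum_tensor F F (fun x => K x x) (fun y => Gf K y)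
    have f2 := sum_tensor F F (fun y => Gf K y) (fun x => K x x)
    rw [e0] at f1 f2
    have g1 := abs_sum_sub_le h.hS (L2.tensor h.l2a hG (S := F ×ˢ F) (Finset.Subset.refl _)) h.bad
    have g2 := abs_sum_sub_le h.hS (L2.tensor hG h.l2a (S := F ×ˢ F) (Finset.Subset.refl _)) h.bad
    rw [f1, Real.sqrt_sq h.β0] at g1
    rw [f2, Real.sqrt_sq h.β0] at g2
    rw [← Finset.mul_sum, Finset.sum_add_distrib]
    have e3 : ∑ p ∈ S, K p.2 p.2 * Gf K p.1 = ∑ p ∈ S, Gf K p.1 * K p.2 p.2 :=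
      Finset.sum_congr rfl fun p _ => mul_comm _ _
    rw [e3]
    have hp : K.trace * ∑ y ∈ F, Gf K y ≤ τ * A := by
      refine (le_abs_self _).trans ?_
      rw [abs_mul]
      exact mul_le_mul hτ (Gf_sum h hA) (abs_nonneg _) hτ0
    have g1' := (abs_le.mp g1).2
    have g2' := (abs_le.mp g2).2
    have hp2 : (∑ y ∈ F, Gf K y) * K.trace = K.trace * ∑ y ∈ F, Gf K y := mul_comm _ _
    rw [hp2] at g2'
    nlinarith
  -- 4
  have k4 : ∑ p ∈ S, 16 * ((|K p.1 p.2| + |K p.1 p.1 * K p.2 p.2|) * |Pf K p.1 p.2|)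
      ≤ 16 * ((N + v * v) * A) := by
    have b1 := (h.l2c S).sum_mul (Pf_l2 h.sym hA S)
    have b2 := h.l2ab.sum_mul (Pf_l2 h.sym hA S)
    rw [← Finset.mul_sum]
    have e : ∀ p ∈ S, (|K p.1 p.2| + |K p.1 p.1 * K p.2 p.2|) * |Pf K p.1 p.2|
        = |K p.1 p.2| * |Pf K p.1 p.2| + |K p.1 p.1 * K p.2 p.2| * |Pf K p.1 p.2| := by
      intro p _; ring
    rw [Finset.sum_congr rfl e, Finset.sum_add_distrib]
    nlinarith
  -- 5
  have k5 : ∑ p ∈ S, (|K p.2 p.2 * Gf K p.1| + |K p.1 p.1 * Gf K p.2|)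
          * (16 * |K p.1 p.2| + 8 * |K p.1 p.1 * K p.2 p.2|)
      ≤ 2 * (v * g) * (16 * N + 8 * (v * v)) := by
    have a1 : L2 S (fun p => K p.1 p.1 * Gf K p.2) (v * g) := L2.tensor h.l2a hG h.hS
    have a2 : L2 S (fun p => Gf K p.1 * K p.2 p.2) (g * v) := L2.tensor hG h.l2a h.hS
    have b1 := a1.sum_mul (h.l2c S)
    have b2 := a1.sum_mul h.l2ab
    have b3 := a2.sum_mul (h.l2c S)
    have b4 := a2.sum_mul h.l2ab
    have e : ∀ p ∈ S, (|K p.2 p.2 * Gf K p.1| + |K p.1 p.1 * Gf K p.2|)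
          * (16 * |K p.1 p.2| + 8 * |K p.1 p.1 * K p.2 p.2|)
        = 16 * (|K p.1 p.1 * Gf K p.2| * |K p.1 p.2|)
          + 8 * (|K p.1 p.1 * Gf K p.2| * |K p.1 p.1 * K p.2 p.2|)
          + 16 * (|Gf K p.1 * K p.2 p.2| * |K p.1 p.2|)
          + 8 * (|Gf K p.1 * K p.2 p.2| * |K p.1 p.1 * K p.2 p.2|) := by
      intro p _
      rw [mul_comm (K p.2 p.2) (Gf K p.1)]
      ring
    rw [Finset.sum_congr rfl e]
    simp only [Finset.sum_add_distrib, ← Finset.mul_sum]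
    nlinarith
  -- 6
  have k6 : ∑ p ∈ S, (K p.1 p.1 ^ 2 + K p.2 p.2 ^ 2)
          * (16 * |K p.1 p.2| + 8 * |K p.1 p.1 * K p.2 p.2|)
      ≤ 2 * (v ^ 2 * t) * (16 * N + 8 * (v * v)) := by
    have a0 : L2 F (fun x => K x x ^ 2) (v ^ 2) := by
      refine ⟨sq_nonneg _, ?_⟩
      have := h.l2a.sum_pow_four
      calc ∑ x ∈ F, (K x x ^ 2) ^ 2 = ∑ x ∈ F, K x x ^ 4 :=
            Finset.sum_congr rfl fun x _ => by ring
        _ ≤ v ^ 4 := this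
        _ = _ := by ring
    have a1 : L2 S (fun p => K p.1 p.1 ^ 2 * 1) (v ^ 2 * t) := L2.tensor a0 h.l2one h.hS
    have a2 : L2 S (fun p => 1 * K p.2 p.2 ^ 2) (t * v ^ 2) := L2.tensor h.l2one a0 h.hS
    have b1 := a1.sum_mul (h.l2c S)
    have b2 := a1.sum_mul h.l2ab
    have b3 := a2.sum_mul (h.l2c S)
    have b4 := a2.sum_mul h.l2ab
    have e : ∀ p ∈ S, (K p.1 p.1 ^ 2 + K p.2 p.2 ^ 2)
          * (16 * |K p.1 p.2| + 8 * |K p.1 p.1 * K p.2 p.2|)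
        = 16 * (|K p.1 p.1 ^ 2 * 1| * |K p.1 p.2|)
          + 8 * (|K p.1 p.1 ^ 2 * 1| * |K p.1 p.1 * K p.2 p.2|)
          + 16 * (|1 * K p.2 p.2 ^ 2| * |K p.1 p.2|)
          + 8 * (|1 * K p.2 p.2 ^ 2| * |K p.1 p.1 * K p.2 p.2|) := by
      intro p _
      rw [mul_one, one_mul, abs_of_nonneg (sq_nonneg (K p.1 p.1)),
        abs_of_nonneg (sq_nonneg (K p.2 p.2))]
      ring
    rw [Finset.sum_congr rfl e]
    simp only [Finset.sum_add_distrib, ← Finset.mul_sum]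
    nlinarith
  -- 7
  have k7 : ∑ p ∈ S, 32 * (K p.2 p.2 ^ 2 * Mx K p.1) + ∑ p ∈ S, 192 * Cf K p.1 p.2
      + ∑ p ∈ S, 32 * (K p.1 p.1 ^ 2 * Mx K p.2) ≤ 64 * (v ^ 2 * M) + 192 * R ^ 2 := by
    simp only [← Finset.mul_sum]
    have hMF : ∑ x ∈ F, Mx K x ≤ M := by
      calc ∑ x ∈ F, Mx K x ≤ ∑ x, Mx K x :=
            Finset.sum_le_sum_of_subset_of_nonneg (Finset.subset_univ _) fun _ _ _ => Mx_nonneg _
        _ = M4f K := Mx_sum
        _ ≤ M := hM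
    have hMF0 : 0 ≤ ∑ x ∈ F, Mx K x := Finset.sum_nonneg fun _ _ => Mx_nonneg _
    have hV0 := Vf_nonneg K
    have c1 : ∑ p ∈ S, K p.1 p.1 ^ 2 * Mx K p.2 ≤ v ^ 2 * M := by
      calc ∑ p ∈ S, K p.1 p.1 ^ 2 * Mx K p.2 ≤ ∑ p ∈ F ×ˢ F, K p.1 p.1 ^ 2 * Mx K p.2 :=
            Finset.sum_le_sum_of_subset_of_nonneg h.hS fun p _ _ =>
              mul_nonneg (sq_nonneg _) (Mx_nonneg _)
        _ = Vf K * ∑ x ∈ F, Mx K x := by
            rw [sum_tensor F F (fun x => K x x ^ 2) (fun y => Mx K y), h.sumF_a2]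
        _ ≤ _ := mul_le_mul h.V hMF hMF0 (sq_nonneg v)
    have c2 : ∑ p ∈ S, K p.2 p.2 ^ 2 * Mx K p.1 ≤ v ^ 2 * M := by
      calc ∑ p ∈ S, K p.2 p.2 ^ 2 * Mx K p.1 = ∑ p ∈ S, Mx K p.1 * K p.2 p.2 ^ 2 :=
            Finset.sum_congr rfl fun p _ => mul_comm _ _
        _ ≤ ∑ p ∈ F ×ˢ F, Mx K p.1 * K p.2 p.2 ^ 2 :=
            Finset.sum_le_sum_of_subset_of_nonneg h.hS fun p _ _ =>
              mul_nonneg (Mx_nonneg _) (sq_nonneg _)
        _ = Vf K * ∑ x ∈ F, Mx K x := by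
            rw [sum_tensor F F (fun x => Mx K x) (fun y => K y y ^ 2), h.sumF_a2]; ring
        _ ≤ _ := mul_le_mul h.V hMF hMF0 (sq_nonneg v)
    have c3 : ∑ p ∈ S, Cf K p.1 p.2 ≤ R ^ 2 := by
      calc ∑ p ∈ S, Cf K p.1 p.2 ≤ ∑ p ∈ F ×ˢ F, Cf K p.1 p.2 :=
            Finset.sum_le_sum_of_subset_of_nonneg h.hS fun p _ _ => Cf_nonneg _ _
        _ ≤ ∑ x, ∑ y, Cf K x y := sum_prod_le_univ F (fun x y => Cf K x y) fun _ _ => Cf_nonneg _ _
        _ = R2f K := Cf_sum h.sym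
        _ ≤ _ := h.R2
    linarith
  unfold errV
  linarith

end V

end Crest.Agent.R62.Late
end

-- ▼ part R62/LateNum
section

/-!
R62 (helper110): numerical closures (B), (C) of the late phase (helper316 #5125).
-/

set_option autoImplicit false

namespace Crest.Agent.R62.Late

/-- common facts -/
lemma late_facts {u b z θ : ℝ} (hu : 1 ≤ u) (hb : 4 ≤ b) (hz : 10 ^ 13 * b ^ 3 ≤ z)
    (hθ : θ = 1 / (10 ^ 4 * b)) :
    0 < θ ∧ θ * b = 1 / 10 ^ 4 ∧ θ ≤ 1 / 10 ^ 4 ∧ 0 < z ∧ 10 ^ 13 * b ≤ z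
      ∧ 10 ^ 5 * b * z ≤ θ ^ 2 * z ^ 2 := by
  have hb0 : 0 < b := by linarith
  have h1 : 0 < θ := by rw [hθ]; positivity
  have h2 : θ * b = 1 / 10 ^ 4 := by rw [hθ]; field_simp
  have h3 : θ ≤ 1 / 10 ^ 4 := by
    rw [← h2]
    nlinarith
  have hb3 : b ≤ b ^ 3 := by nlinarith [sq_nonneg b, sq_nonneg (b - 1)]
  have h4 : 10 ^ 13 * b ≤ z := by nlinarith
  have h5 : 0 < z := by nlinarith
  refine ⟨h1, h2, h3, h5, h4, ?_⟩
  -- θ² z ≥ 10^5 b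
  have h6 : 10 ^ 5 * b ≤ θ ^ 2 * z := by
    have e1 : θ ^ 2 * b ^ 2 = 1 / 10 ^ 8 := by
      rw [← mul_pow, h2]; norm_num
    have e2 : θ ^ 2 * (10 ^ 13 * b ^ 3) = 10 ^ 5 * b := by
      calc θ ^ 2 * (10 ^ 13 * b ^ 3) = 10 ^ 13 * (θ ^ 2 * b ^ 2) * b := by ring
        _ = 10 ^ 5 * b := by rw [e1]; norm_num
    rw [← e2]
    exact mul_le_mul_of_nonneg_left hz (sq_nonneg _)
  calc 10 ^ 5 * b * z ≤ θ ^ 2 * z * z := mul_le_mul_of_nonneg_right h6 h5.le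
    _ = θ ^ 2 * z ^ 2 := by ring

/-- (B) -/
theorem errT_le {u b z θ : ℝ} (hu : 1 ≤ u) (hb : 4 ≤ b) (hz : 10 ^ 13 * b ^ 3 ≤ z)
    (hθ : θ = 1 / (10 ^ 4 * b)) :
    errT (3 / 2 * u ^ 2) (θ * u) (3 * u ^ 3) (z * u ^ 2) (b * (z * u ^ 2)) (2 * u ^ 2)
      ≤ 1 / 100 * z ^ 2 * u ^ 8 := by
  obtain ⟨h1, h2, h3, h4, h5, h6⟩ := late_facts hu hb hz hθ
  have hu0 : 0 < u := by linarith
  have hb0 : 0 < b := by linarith
  have hu2 : 1 ≤ u ^ 2 := one_le_pow₀ hu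
  have hz13 : (10 : ℝ) ^ 13 ≤ z := by nlinarith
  have hz0 : 0 ≤ z := h4.le
  have hbz : (10 : ℝ) ^ 13 * b ≤ b * z := by nlinarith
  -- pieces
  have p0 : 0 ≤ u ^ 2 := by positivity
  have a1 : 2 * (2 * u ^ 2 + 1) ≤ 6 * u ^ 2 := by linarith
  have hθ2 : θ ^ 2 ≤ 1 := by nlinarith
  have a2 : 16 * (3 / 2 * u ^ 2) + 8 * (θ * u) ^ 2 + 2 * (b * (z * u ^ 2))
      ≤ 3 * (b * z) * u ^ 2 := by
    have : 24 + 8 * θ ^ 2 ≤ b * z := by nlinarith
    nlinarith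
  have a3 : 4 * (3 / 2 * u ^ 2) + 8 * (θ * u) ^ 2 + 2 * (b * (z * u ^ 2))
      ≤ 3 * (b * z) * u ^ 2 := by nlinarith
  have a4 : θ * u * (3 * u ^ 3 + z * u ^ 2) ≤ 2 * θ * z * u ^ 4 := by
    have e1 : θ * u * (3 * u ^ 3 + z * u ^ 2) = 3 * (θ * u ^ 4) + (θ * z) * u ^ 3 := by ring
    have e2 : (θ * z) * u ^ 3 ≤ (θ * z) * u ^ 4 :=
      mul_le_mul_of_nonneg_left (pow_le_pow_right₀ hu (by norm_num)) (by positivity)
    have e3 : 3 * (θ * u ^ 4) ≤ z * (θ * u ^ 4) :=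
      mul_le_mul_of_nonneg_right (by linarith) (by positivity)
    rw [e1]
    calc 3 * (θ * u ^ 4) + (θ * z) * u ^ 3 ≤ z * (θ * u ^ 4) + (θ * z) * u ^ 4 := add_le_add e3 e2
      _ = 2 * θ * z * u ^ 4 := by ring
  have hbzu : 0 ≤ 3 * (b * z) * u ^ 2 := by positivity
  have b1 : (16 * (3 / 2 * u ^ 2) + 8 * (θ * u) ^ 2 + 2 * (b * (z * u ^ 2)))
      * (θ * u * (3 * u ^ 3 + z * u ^ 2)) ≤ 6 / 10 ^ 4 * (z ^ 2 * u ^ 6) := by
    calc _ ≤ (3 * (b * z) * u ^ 2) * (2 * θ * z * u ^ 4) :=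
          mul_le_mul a2 a4 (by positivity) hbzu
      _ = 6 * (θ * b) * (z ^ 2 * u ^ 6) := by ring
      _ = _ := by rw [h2]; ring
  have b2 : (4 * (3 / 2 * u ^ 2) + 8 * (θ * u) ^ 2 + 2 * (b * (z * u ^ 2)))
      * (3 / 2 * u ^ 2) ^ 2 ≤ 1 / 10 ^ 4 * (z ^ 2 * u ^ 6) := by
    calc _ ≤ (3 * (b * z) * u ^ 2) * (3 / 2 * u ^ 2) ^ 2 :=
          mul_le_mul_of_nonneg_right a3 (by positivity)
      _ = 27 / 4 * b * (z * u ^ 6) := by ring
      _ ≤ 1 / 10 ^ 4 * z * (z * u ^ 6) :=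
          mul_le_mul_of_nonneg_right (by linarith) (by positivity)
      _ = _ := by ring
  have hz2 : (10 : ℝ) ^ 13 ≤ z ^ 2 := by nlinarith
  have b3 : 2 * (2 * u ^ 2) * (3 / 2 * u ^ 2) ^ 2 + 2 * (3 / 2 * u ^ 2) ^ 3
      ≤ 1 / 10 ^ 4 * (z ^ 2 * u ^ 6) := by
    calc _ = 63 / 4 * u ^ 6 := by ring
      _ ≤ 1 / 10 ^ 4 * z ^ 2 * u ^ 6 :=
          mul_le_mul_of_nonneg_right (by linarith) (by positivity)
      _ = _ := by ring
  have b4 : 96 * ((θ * u) ^ 2 * (3 * u ^ 3 + z * u ^ 2) ^ 2) ≤ 1 / 10 ^ 4 * (z ^ 2 * u ^ 8) := by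
    have e1 : (θ * u) ^ 2 * (3 * u ^ 3 + z * u ^ 2) ^ 2
        = (θ * u * (3 * u ^ 3 + z * u ^ 2)) ^ 2 := by ring
    rw [e1]
    calc _ ≤ 96 * (2 * θ * z * u ^ 4) ^ 2 :=
          mul_le_mul_of_nonneg_left (pow_le_pow_left₀ (by positivity) a4 2) (by norm_num)
      _ = 384 * θ ^ 2 * (z ^ 2 * u ^ 8) := by ring
      _ ≤ 1 / 10 ^ 4 * (z ^ 2 * u ^ 8) := by
          refine mul_le_mul_of_nonneg_right ?_ (by positivity)
          have : θ ^ 2 ≤ 1 / 10 ^ 8 := by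
            have := pow_le_pow_left₀ h1.le h3 2
            norm_num at this ⊢
            exact this
          linarith
  have b5 : 192 * (3 / 2 * u ^ 2) ^ 4 ≤ 1 / 10 ^ 4 * (z ^ 2 * u ^ 8) := by
    calc _ = 972 * u ^ 8 := by ring
      _ ≤ 1 / 10 ^ 4 * z ^ 2 * u ^ 8 :=
          mul_le_mul_of_nonneg_right (by linarith) (by positivity)
      _ = _ := by ring
  have c1 : 2 * (2 * u ^ 2) * (3 / 2 * u ^ 2) ^ 2 + 2 * (3 / 2 * u ^ 2) ^ 3
      + ((16 * (3 / 2 * u ^ 2) + 8 * (θ * u) ^ 2 + 2 * (b * (z * u ^ 2)))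
        * (θ * u * (3 * u ^ 3 + z * u ^ 2))
        + (4 * (3 / 2 * u ^ 2) + 8 * (θ * u) ^ 2 + 2 * (b * (z * u ^ 2)))
        * (3 / 2 * u ^ 2) ^ 2) ≤ 8 / 10 ^ 4 * (z ^ 2 * u ^ 6) := by linarith
  have c2 := mul_le_mul a1 c1 (by positivity) (by positivity : (0 : ℝ) ≤ 6 * u ^ 2)
  unfold errT
  calc _ ≤ 6 * u ^ 2 * (8 / 10 ^ 4 * (z ^ 2 * u ^ 6))
        + (1 / 10 ^ 4 * (z ^ 2 * u ^ 8) + 1 / 10 ^ 4 * (z ^ 2 * u ^ 8)) :=
        add_le_add c2 (add_le_add b4 b5)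
    _ = 50 / 10 ^ 4 * (z ^ 2 * u ^ 8) := by ring
    _ ≤ 1 / 100 * (z ^ 2 * u ^ 8) :=
        mul_le_mul_of_nonneg_right (by norm_num) (by positivity)
    _ = _ := by ring

/-- (C) -/
theorem errV_le {u b z θ : ℝ} (hu : 1 ≤ u) (hb : 4 ≤ b) (hz : 10 ^ 13 * b ^ 3 ≤ z)
    (hθ : θ = 1 / (10 ^ 4 * b)) :
    errV (3 / 2 * u ^ 2) (θ * u) (3 * u ^ 3) (z * u ^ 2) (b * (z * u ^ 2)) (8 * b ^ 2 * u ^ 4)
      (2 * u ^ 2) (3 * u ^ 4) (16 * u ^ 4) (4 * u ^ 3) ≤ 1 / 100 * θ ^ 2 * z ^ 2 * u ^ 6 := by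
  obtain ⟨h1, h2, h3, h4, h5, h6⟩ := late_facts hu hb hz hθ
  have hu0 : 0 < u := by linarith
  have hb0 : 0 < b := by linarith
  have hz13 : (10 : ℝ) ^ 13 ≤ z := by nlinarith
  have hbz : (10 : ℝ) ^ 13 ≤ b * z := by nlinarith
  have hθ1 : θ ≤ 1 := by linarith [show (1 : ℝ) / 10 ^ 4 ≤ 1 by norm_num]
  have hθ2 : θ ^ 2 ≤ 1 := by nlinarith
  -- expand
  have e : errV (3 / 2 * u ^ 2) (θ * u) (3 * u ^ 3) (z * u ^ 2) (b * (z * u ^ 2))
      (8 * b ^ 2 * u ^ 4) (2 * u ^ 2) (3 * u ^ 4) (16 * u ^ 4) (4 * u ^ 3)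
      = (16 * (θ * b) ^ 2 + 12 * (b * z) + 24 + 16 * (θ * b) * z + 48 * (3 / 2)
        + 48 * θ ^ 2 + 8 * θ * (24 + 8 * θ ^ 2) + 2 * θ ^ 2 * z * (24 + 8 * θ ^ 2)
        + 1024 * θ ^ 2 + 1728) * u ^ 6 + 8 * u ^ 2 := by
    unfold errV; ring
  have hu26 : u ^ 2 ≤ u ^ 6 := pow_le_pow_right₀ hu (by norm_num)
  rw [e, h2]
  have k1 : 8 * θ * (24 + 8 * θ ^ 2) ≤ 256 := by
    have : θ * (24 + 8 * θ ^ 2) ≤ 1 * 32 :=
      mul_le_mul hθ1 (by linarith) (by positivity) (by norm_num)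
    linarith
  have k2 : 2 * θ ^ 2 * z * (24 + 8 * θ ^ 2) ≤ 64 * z := by
    have : (θ ^ 2 * z) * (24 + 8 * θ ^ 2) ≤ (1 * z) * 32 :=
      mul_le_mul (mul_le_mul_of_nonneg_right hθ2 h4.le) (by linarith) (by positivity)
        (by positivity)
    linarith
  have hzbz : 4 * z ≤ b * z := mul_le_mul_of_nonneg_right hb h4.le
  have k3 : 16 * (1 / 10 ^ 4 : ℝ) ^ 2 + 12 * (b * z) + 24 + 16 * (1 / 10 ^ 4) * z + 48 * (3 / 2)
      + 48 * θ ^ 2 + 8 * θ * (24 + 8 * θ ^ 2) + 2 * θ ^ 2 * z * (24 + 8 * θ ^ 2)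
      + 1024 * θ ^ 2 + 1728 ≤ 100 * (b * z) := by
    norm_num
    linarith
  have k4 : (100 * (b * z)) ≤ 1 / 1000 * (θ ^ 2 * z ^ 2) := by linarith
  have h8 : 8 ≤ 1 / 1000 * (θ ^ 2 * z ^ 2) := by linarith
  have hu6 : 0 ≤ u ^ 6 := by positivity
  calc _ ≤ 1 / 1000 * (θ ^ 2 * z ^ 2) * u ^ 6 + 8 * u ^ 6 :=
        add_le_add (mul_le_mul_of_nonneg_right (k3.trans k4) hu6) (by linarith)
    _ ≤ 1 / 1000 * (θ ^ 2 * z ^ 2) * u ^ 6 + 1 / 1000 * (θ ^ 2 * z ^ 2) * u ^ 6 :=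
        add_le_add le_rfl (mul_le_mul_of_nonneg_right h8 hu6)
    _ = 2 / 1000 * (θ ^ 2 * z ^ 2 * u ^ 6) := by ring
    _ ≤ 1 / 100 * (θ ^ 2 * z ^ 2 * u ^ 6) :=
        mul_le_mul_of_nonneg_right (by norm_num) (by positivity)
    _ = _ := by ring

end Crest.Agent.R62.Late
end

-- ▼ part R62/LateErrX
section

/-!
R62 (helper230): numeric closure (A) of the late phase: the error term of `X_2`.
-/

set_option autoImplicit false

namespace Crest.Agent.R62.Late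

theorem errX_le {u b z θ : ℝ} (hu : 1 ≤ u) (hb : 4 ≤ b) (hz : (10 : ℝ) ^ 13 * b ^ 3 ≤ z)
    (hθ : θ = 1 / (10 ^ 4 * b)) :
    errX (3 / 2 * u ^ 2) (θ * u) (3 * u ^ 3) (z * u ^ 2) (b * (z * u ^ 2)) (8 * b ^ 2 * u ^ 4)
      (2 * u ^ 2) ≤ 1 / 100 * z ^ 2 * u ^ 8 := by
  have hb0 : (0 : ℝ) < b := by linarith
  have hu0 : (0 : ℝ) < u := by linarith
  have hθ0 : 0 ≤ θ := by rw [hθ]; positivity
  have hθ1 : θ ≤ 1 / 40000 := by
    rw [hθ]
    apply one_div_le_one_div_of_le (by norm_num)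
    linarith
  have hθ2 : θ ^ 2 ≤ 1 / 10 ^ 9 := by
    calc θ ^ 2 ≤ (1 / 40000 : ℝ) ^ 2 := pow_le_pow_left₀ hθ0 hθ1 2
      _ ≤ 1 / 10 ^ 9 := by norm_num
  have hθ20 : 0 ≤ θ ^ 2 := sq_nonneg θ
  have hb3 : b ≤ b ^ 3 := by
    calc b = b ^ 1 := (pow_one b).symm
      _ ≤ b ^ 3 := pow_le_pow_right₀ (by linarith) (by norm_num)
  have hzb : (10 : ℝ) ^ 13 * b ≤ z := by
    have := mul_le_mul_of_nonneg_left hb3 (show (0 : ℝ) ≤ 10 ^ 13 by positivity)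
    linarith
  have hz1 : (10 : ℝ) ^ 13 ≤ z := by
    have : (10 : ℝ) ^ 13 * 1 ≤ 10 ^ 13 * b :=
      mul_le_mul_of_nonneg_left (by linarith) (by positivity)
    linarith
  have hz0 : 0 < z := by linarith [show (0 : ℝ) < 10 ^ 13 by positivity]
  have p4 : u ^ 4 ≤ u ^ 8 := pow_le_pow_right₀ hu (by norm_num)
  have p6 : u ^ 6 ≤ u ^ 8 := pow_le_pow_right₀ hu (by norm_num)
  have p7 : u ^ 7 ≤ u ^ 8 := pow_le_pow_right₀ hu (by norm_num)
  have hU : 0 < u ^ 8 := by positivity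
  -- monomials against `W = z² u⁸`
  have hz2 : (10 : ℝ) ^ 13 * z ≤ z ^ 2 := by
    rw [pow_two]; exact mul_le_mul_of_nonneg_right hz1 hz0.le
  have q0 : (10 : ℝ) ^ 13 ≤ z ^ 2 := by
    have : (10 : ℝ) ^ 13 * 1 ≤ 10 ^ 13 * z :=
      mul_le_mul_of_nonneg_left (by linarith [show (1 : ℝ) ≤ 10 ^ 13 by norm_num]) (by positivity)
    linarith
  have q1 : (10 : ℝ) ^ 13 * (b * z) ≤ z ^ 2 := by
    have := mul_le_mul_of_nonneg_right hzb hz0.le
    calc (10 : ℝ) ^ 13 * (b * z) = 10 ^ 13 * b * z := by ring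
      _ ≤ z * z := this
      _ = z ^ 2 := by ring
  have q2 : (10 : ℝ) ^ 13 * b ^ 2 ≤ z ^ 2 := by
    have hbz : b ≤ z := by
      have : (1 : ℝ) * b ≤ 10 ^ 13 * b := mul_le_mul_of_nonneg_right (by norm_num) hb0.le
      linarith
    have h2 : b ^ 2 ≤ b * z := by rw [pow_two]; exact mul_le_mul_of_nonneg_left hbz hb0.le
    have := mul_le_mul_of_nonneg_left h2 (show (0 : ℝ) ≤ 10 ^ 13 by positivity)
    linarith
  have m1 : (10 : ℝ) ^ 13 * u ^ 8 ≤ z ^ 2 * u ^ 8 := mul_le_mul_of_nonneg_right q0 hU.le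
  have m2 : (10 : ℝ) ^ 13 * (z * u ^ 8) ≤ z ^ 2 * u ^ 8 := by
    have := mul_le_mul_of_nonneg_right hz2 hU.le
    linarith
  have m3 : (10 : ℝ) ^ 13 * (b ^ 2 * u ^ 8) ≤ z ^ 2 * u ^ 8 := by
    have := mul_le_mul_of_nonneg_right q2 hU.le
    linarith
  have m4 : (10 : ℝ) ^ 13 * (b * z * u ^ 8) ≤ z ^ 2 * u ^ 8 := by
    have := mul_le_mul_of_nonneg_right q1 hU.le
    linarith
  have n0 : 0 ≤ b * z * u ^ 8 := by positivity
  have n1 : 0 ≤ z * u ^ 8 := by positivity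
  have n2 : 0 ≤ z ^ 2 * u ^ 8 := by positivity
  have hθle : θ ≤ 1 := by linarith
  -- the mixed monomials
  have t1 : b * z * θ * u ^ 8 ≤ b * z * u ^ 8 := by
    calc b * z * θ * u ^ 8 = θ * (b * z * u ^ 8) := by ring
      _ ≤ 1 * (b * z * u ^ 8) := mul_le_mul_of_nonneg_right hθle n0
      _ = _ := one_mul _
  have hθsq : θ ^ 2 ≤ 1 := by linarith [show (1 : ℝ) / 10 ^ 9 ≤ 1 by norm_num]
  have t2 : b * z * θ ^ 2 * u ^ 4 ≤ b * z * u ^ 8 := by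
    calc b * z * θ ^ 2 * u ^ 4 ≤ b * z * 1 * u ^ 8 := by gcongr
      _ = _ := by ring
  have t3 : θ ^ 2 * z ^ 2 * u ^ 6 ≤ 1 / 10 ^ 9 * (z ^ 2 * u ^ 8) := by
    calc θ ^ 2 * z ^ 2 * u ^ 6 ≤ 1 / 10 ^ 9 * z ^ 2 * u ^ 8 := by gcongr
      _ = _ := by ring
  have t4 : z * u ^ 7 ≤ z * u ^ 8 := by gcongr
  have t5 : θ ^ 2 * z * u ^ 7 ≤ z * u ^ 8 := by
    calc θ ^ 2 * z * u ^ 7 ≤ 1 * z * u ^ 8 := by gcongr
      _ = _ := by ring
  have t6 : θ ^ 2 * u ^ 8 ≤ u ^ 8 := by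
    calc θ ^ 2 * u ^ 8 ≤ 1 * u ^ 8 := by gcongr
      _ = _ := by ring
  have t7 : θ ^ 2 * u ^ 4 ≤ u ^ 8 := by
    calc θ ^ 2 * u ^ 4 ≤ 1 * u ^ 8 := by gcongr
      _ = _ := by ring
  have t8 : θ * u ^ 8 ≤ u ^ 8 := by
    calc θ * u ^ 8 ≤ 1 * u ^ 8 := by gcongr
      _ = _ := by ring
  have hθ3 : θ ^ 3 ≤ 1 := pow_le_one₀ hθ0 hθle
  have hθ4 : θ ^ 4 ≤ 1 := pow_le_one₀ hθ0 hθle
  have t9 : θ ^ 3 * u ^ 8 ≤ u ^ 8 := by
    calc θ ^ 3 * u ^ 8 ≤ 1 * u ^ 8 := by gcongr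
      _ = _ := by ring
  have t10 : θ ^ 4 * u ^ 4 ≤ u ^ 8 := by
    calc θ ^ 4 * u ^ 4 ≤ 1 * u ^ 8 := by gcongr
      _ = _ := by ring
  have key : errX (3 / 2 * u ^ 2) (θ * u) (3 * u ^ 3) (z * u ^ 2) (b * (z * u ^ 2))
      (8 * b ^ 2 * u ^ 4) (2 * u ^ 2) =
      72 * (b ^ 2 * u ^ 8) + 27 / 2 * (b * z * u ^ 8) + (27 * u ^ 8 + 16 * u ^ 4)
      + (18 * (b * z * θ * u ^ 8) + 4 * (b * z * θ ^ 2 * u ^ 4))
      + (54 * u ^ 4 + 10 * (θ ^ 2 * z ^ 2 * u ^ 6))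
      + (144 * (z * u ^ 7) + 48 * (θ ^ 2 * z * u ^ 7)) + 567 / 16 * u ^ 8
      + (81 * u ^ 8 + 54 * (θ ^ 2 * u ^ 8) + 36 * u ^ 4 + 24 * (θ ^ 2 * u ^ 4))
      + (216 * (θ * u ^ 8) + 72 * (θ ^ 3 * u ^ 8) + 48 * (θ ^ 2 * u ^ 4)
        + 16 * (θ ^ 4 * u ^ 4))
      + (864 * (θ ^ 2 * u ^ 8) + 576 * (θ ^ 2 * z * u ^ 7) + 96 * (θ ^ 2 * z ^ 2 * u ^ 6)
        + 972 * u ^ 8) := by
    unfold errX; ring
  rw [key]
  have f1 : u ^ 8 ≤ 1 / 10 ^ 13 * (z ^ 2 * u ^ 8) := by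
    rw [div_mul_eq_mul_div, le_div_iff₀ (by positivity)]; linarith
  have f2 : z * u ^ 8 ≤ 1 / 10 ^ 13 * (z ^ 2 * u ^ 8) := by
    rw [div_mul_eq_mul_div, le_div_iff₀ (by positivity)]; linarith
  have f3 : b ^ 2 * u ^ 8 ≤ 1 / 10 ^ 13 * (z ^ 2 * u ^ 8) := by
    rw [div_mul_eq_mul_div, le_div_iff₀ (by positivity)]; linarith
  have f4 : b * z * u ^ 8 ≤ 1 / 10 ^ 13 * (z ^ 2 * u ^ 8) := by
    rw [div_mul_eq_mul_div, le_div_iff₀ (by positivity)]; linarith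
  nlinarith [f1, f2, f3, f4, t1, t2, t3, t4, t5, t6, t7, t8, t9, t10, p4, n2]

end Crest.Agent.R62.Late
end

-- ▼ part R62/LateStep
section

/-!
R62, late phase (helper316): the abstract step of the late phase.

`Psi z θ k g K = ∑_b [ z² (Tr K_b² - 1)/k + z² (Tr K_b - s_b)²/k + z V_b / (θ² g) ]`.
-/

set_option autoImplicit false
set_option linter.unusedSectionVars false
set_option linter.unusedVariables false
set_option linter.style.multiGoal false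
set_option linter.style.show false

open Matrix Finset

namespace Crest.Agent.R62.Late

open Crest.Agent.R62.Upd Crest.Agent.R62.AvBase Crest.Agent.R62.AvX1
open Crest.Agent.R062

variable {ι : Type*} [Fintype ι] [DecidableEq ι]

lemma opB_of_frob {K : Matrix ι ι ℝ} {L : ℝ} (hK : K.IsSymm) (hL : 0 ≤ L)
    (h : (K ^ 2).trace ≤ L ^ 2) : OpB K L := by
  refine ⟨hL, fun v => ?_⟩
  have h2 : (K *ᵥ v) ⬝ᵥ (K *ᵥ v) ≤ (K ^ 2).trace * (v ⬝ᵥ v) := by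
    have h3 := frob_pow hK.eq 1
    simp only [mul_one, pow_one] at h3
    rw [← h3]
    simp only [Matrix.mulVec, dotProduct, Finset.sum_mul]
    refine Finset.sum_le_sum fun x _ => ?_
    have := Finset.sum_mul_sq_le_sq_mul_sq Finset.univ (fun y => K x y) v
    calc _ = (∑ y, K x y * v y) ^ 2 := by rw [← Finset.sum_mul]; ring
      _ ≤ _ := this
      _ = _ := by rw [Finset.sum_mul]; simp only [pow_two (v _)]
  exact h2.trans (mul_le_mul_of_nonneg_right h (dot_self_nonneg v))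

/-- `Tr K² ≥ 1` because `K u = s u`, `u ≠ 0` -/
lemma one_le_X2 {K : Matrix ι ι ℝ} {s : ℝ} {F : Finset ι} (hK : K.IsSymm)
    (hs : s ^ 2 = 1) (hr : K *ᵥ ind F = s • ind F) (hF : 0 < F.card) :
    1 ≤ (K ^ 2).trace := by
  have hX := X_nonneg hK
  have h1 := (opB_of_frob hK (Real.sqrt_nonneg _) (Real.sq_sqrt hX).ge).2 (ind F)
  rw [hr, Real.sq_sqrt hX] at h1
  have h2 : ind F ⬝ᵥ ind F = (F.card : ℝ) := by
    simp [dotProduct, ind]
  rw [smul_dotProduct, dotProduct_smul, h2, smul_eq_mul, smul_eq_mul, ← mul_assoc, ← pow_two, hs,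
    one_mul] at h1
  have h3 : (0 : ℝ) < F.card := by exact_mod_cast hF
  by_contra hcon
  push Not at hcon
  nlinarith

/-- structural facts in the late phase for both signs; `S` is the set of good pairs -/
structure LCtx (d : ℝ) (F : Finset ι) (K : Bool → Matrix ι ι ℝ) (S : Finset (ι × ι)) :
    Prop where
  symm : ∀ b, (K b).IsSymm
  dead : ∀ b i j, i ∉ F → K b i j = 0
  row : ∀ b, K b *ᵥ ind F = (Mach.sg b : ℝ) • ind F
  ge : ∀ b, Ge1 (K b)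
  sub : S ⊆ F ×ˢ F
  good : ∀ b, ∀ p ∈ S, GoodPair (K b) p.1 p.2
  bad : ((((F ×ˢ F) \ S).card : ℕ) : ℝ) ≤ (d + 1) * d * F.card
    + ∑ b, (25 * (K b ^ 2).trace + 100 * Vf (K b) ^ 2)
  rowL : ∀ x ∈ F, (((F.filter fun y => (x, y) ∉ S).card : ℕ) : ℝ) ≤ (d + 1) * d
    + ∑ b, (25 * (K b ^ 2) x x + 100 * (K b x x ^ 2 * Vf (K b)))
  rowR : ∀ y ∈ F, (((F.filter fun x => (x, y) ∉ S).card : ℕ) : ℝ) ≤ (d + 1) * d
    + ∑ b, (25 * (K b ^ 2) y y + 100 * (K b y y ^ 2 * Vf (K b)))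

lemma sg_or (b : Bool) : (Mach.sg b : ℝ) = 1 ∨ (Mach.sg b : ℝ) = -1 := by
  cases b <;> simp [Mach.sg]

lemma diag_le_trace {K : Matrix ι ι ℝ} (hK : K.IsSymm) (x : ι) :
    (K ^ 2) x x ≤ (K ^ 2).trace :=
  Finset.single_le_sum (f := fun x => (K ^ 2) x x) (fun x _ => Q_nonneg hK x)
    (Finset.mem_univ x)

lemma diag_sq_le_Vf (K : Matrix ι ι ℝ) (x : ι) : K x x ^ 2 ≤ Vf K :=
  Finset.single_le_sum (f := fun x => K x x ^ 2) (fun x _ => sq_nonneg _) (Finset.mem_univ x)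

section one

variable {d b z θ u : ℝ} {F : Finset ι} {K : Bool → Matrix ι ι ℝ} {S : Finset (ι × ι)}

/-- numerical bounds at a late time: `#F = (z u²)²`, `X_2 ≤ 1 + u⁴`, `V ≤ θ² u²`,
`(T - s)² ≤ u⁴` -/
structure LBd (b z θ u : ℝ) (F : Finset ι) (K : Bool → Matrix ι ι ℝ) : Prop where
  hu : 1 ≤ u
  hb : 4 ≤ b
  hz : 10 ^ 13 * b ^ 3 ≤ z
  hθ : θ = 1 / (10 ^ 4 * b)
  card : (F.card : ℝ) = (z * u ^ 2) ^ 2
  X : ∀ c, (K c ^ 2).trace ≤ 1 + u ^ 4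
  V : ∀ c, Vf (K c) ≤ θ ^ 2 * u ^ 2
  T : ∀ c, ((K c).trace - Mach.sg c) ^ 2 ≤ u ^ 4

namespace LBd

lemma X' (h : LBd b z θ u F K) (c : Bool) : (K c ^ 2).trace ≤ 2 * u ^ 4 := by
  have := h.X c
  have h1 : 1 ≤ u ^ 4 := one_le_pow₀ h.hu
  linarith

lemma b0 (h : LBd b z θ u F K) : 0 < b := by linarith [h.hb]

lemma z0 (h : LBd b z θ u F K) : 1 ≤ z := by
  have hb := h.hb
  have h1 : (1 : ℝ) ≤ b ^ 3 := one_le_pow₀ (by linarith)
  have := h.hz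
  linarith

lemma hθ0 (h : LBd b z θ u F K) : 0 < θ := by
  rw [h.hθ]; exact div_pos one_pos (mul_pos (by norm_num) h.b0)

lemma θ1 (h : LBd b z θ u F K) : θ ≤ 1 / 10 ^ 4 := by
  refine h.hθ.le.trans ?_
  rw [div_le_div_iff₀ (mul_pos (by norm_num) h.b0) (by norm_num)]
  nlinarith [h.hb]

lemma V1 (h : LBd b z θ u F K) (c : Bool) : Vf (K c) ^ 2 ≤ 1 / 1000 * u ^ 4 := by
  have h1 := h.V c
  have h2 := h.θ1
  have h3 := h.hθ0
  have hu := h.hu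
  have h4 : Vf (K c) ≤ 1 / 10 ^ 8 * u ^ 2 := by
    refine h1.trans (mul_le_mul_of_nonneg_right ?_ (by positivity))
    calc θ ^ 2 ≤ (1 / 10 ^ 4) ^ 2 := pow_le_pow_left₀ h3.le h2 2
      _ = _ := by norm_num
  have h5 := Vf_nonneg (K c)
  calc Vf (K c) ^ 2 ≤ (1 / 10 ^ 8 * u ^ 2) ^ 2 := pow_le_pow_left₀ h5 h4 2
    _ = 1 / 10 ^ 16 * u ^ 4 := by ring
    _ ≤ 1 / 1000 * u ^ 4 := mul_le_mul_of_nonneg_right (by norm_num) (by positivity)

end LBd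

lemma rowBound (h : LCtx d F K S) (h2 : LBd b z θ u F K) (hd : b = d + 1) (x : ι) :
    (d + 1) * d + ∑ b, (25 * (K b ^ 2) x x + 100 * (K b x x ^ 2 * Vf (K b)))
      ≤ 8 * b ^ 2 * u ^ 4 := by
  rw [Fintype.sum_bool]
  have e : ∀ c, 25 * (K c ^ 2) x x + 100 * (K c x x ^ 2 * Vf (K c)) ≤ 51 * u ^ 4 := by
    intro c
    have h3 := (diag_le_trace (h.symm c) x).trans (h2.X' c)
    have h4 := diag_sq_le_Vf (K c) x
    have h5 := Vf_nonneg (K c)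
    have h6 := h2.V1 c
    have h7 : K c x x ^ 2 * Vf (K c) ≤ Vf (K c) ^ 2 := by nlinarith
    have h8 : 0 ≤ u ^ 4 := by have := h2.hu; positivity
    linarith
  have h1 : 1 ≤ u ^ 4 := one_le_pow₀ h2.hu
  have h3 : (d + 1) * d ≤ b ^ 2 * u ^ 4 := by
    have : (d + 1) * d ≤ b ^ 2 := by rw [hd]; nlinarith [h2.hb]
    calc _ ≤ b ^ 2 := this
      _ = b ^ 2 * 1 := by ring
      _ ≤ _ := mul_le_mul_of_nonneg_left h1 (sq_nonneg b)
  have h4 : (102 : ℝ) * u ^ 4 ≤ 7 * b ^ 2 * u ^ 4 := by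
    refine mul_le_mul_of_nonneg_right ?_ (by positivity)
    nlinarith [h2.hb]
  linarith [e true, e false]

/-- the context of the one-step bounds -/
theorem ctx_of (h : LCtx d F K S) (h2 : LBd b z θ u F K) (hd : b = d + 1) (c : Bool) :
    Ctx F (K c) (Mach.sg c : ℝ) S (3 / 2 * u ^ 2) (θ * u) (3 * u ^ 3) (z * u ^ 2)
      (b * (z * u ^ 2)) (8 * b ^ 2 * u ^ 4) := by
  have hu := h2.hu
  have hb := h2.hb
  have hz := h2.z0
  have hθ := h2.θ1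
  have hθ0 := h2.hθ0
  have hu2 : 1 ≤ u ^ 2 := one_le_pow₀ hu
  have hu4 : 1 ≤ u ^ 4 := one_le_pow₀ hu
  have hX : (K c ^ 2).trace ≤ (3 / 2 * u ^ 2) ^ 2 := by
    have := h2.X' c
    nlinarith
  have hOp : OpB (K c) (3 / 2 * u ^ 2) := opB_of_frob (h.symm c) (by positivity) hX
  have hN1 : 1 ≤ 3 / 2 * u ^ 2 := by linarith
  have hV : Vf (K c) ≤ (θ * u) ^ 2 := by rw [mul_pow]; exact h2.V c
  have hθ2 : θ ^ 2 ≤ 1 / 10 ^ 8 := by
    calc θ ^ 2 ≤ (1 / 10 ^ 4) ^ 2 := pow_le_pow_left₀ hθ0.le hθ 2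
      _ = _ := by norm_num
  have hA : Af (K c) ≤ 3 * u ^ 4 := by
    have h3 := Af_le (h.symm c) (h.ge c) hOp hN1
    have h4 := h2.X' c
    have h5 : 2 * (3 / 2 * u ^ 2) * Vf (K c) ≤ 2 * (3 / 2 * u ^ 2) * (1 / 10 ^ 8 * u ^ 2) := by
      refine mul_le_mul_of_nonneg_left ?_ (by positivity)
      exact (h2.V c).trans (mul_le_mul_of_nonneg_right hθ2 (by positivity))
    nlinarith
  exact {
    hs := sg_or c
    sym := h.symm c
    dead := h.dead c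
    row := h.row c
    hS := h.sub
    good := h.good c
    N1 := hN1
    X := hX
    op := hOp
    ge := h.ge c
    v0 := by positivity
    V := hV
    R0 := by positivity
    R2 := by
      have h3 := R2f_le (h.symm c) (h.ge c) hOp hN1
      have h4 := h2.X' c
      calc R2f (K c) ≤ _ := h3
        _ ≤ (3 / 2 * u ^ 2) * (2 * u ^ 4 + 3 * u ^ 4) :=
            mul_le_mul_of_nonneg_left (by linarith) (by positivity)
        _ ≤ _ := by nlinarith [pow_pos (by linarith : (0:ℝ) < u) 6]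
    t0 := by positivity
    card := h2.card.le
    β0 := by positivity
    bad := by
      refine h.bad.trans ?_
      rw [Fintype.sum_bool, h2.card]
      have e : ∀ c, 25 * (K c ^ 2).trace + 100 * Vf (K c) ^ 2 ≤ 51 * u ^ 4 := by
        intro c
        have h3 := h2.X' c
        have h6 := h2.V1 c
        linarith
      have h4 : (102 : ℝ) * u ^ 4 ≤ (z * u ^ 2) ^ 2 := by
        have h5 : (102 : ℝ) ≤ z ^ 2 := by
          have := h2.hz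
          have h7 : (1 : ℝ) ≤ b ^ 3 := one_le_pow₀ (by linarith)
          nlinarith
        calc (102 : ℝ) * u ^ 4 ≤ z ^ 2 * u ^ 4 := mul_le_mul_of_nonneg_right h5 (by positivity)
          _ = _ := by ring
      have h8 : (d + 1) * d * (z * u ^ 2) ^ 2 + (z * u ^ 2) ^ 2 ≤ (b * (z * u ^ 2)) ^ 2 := by
        have : (d + 1) * d + 1 ≤ b ^ 2 := by rw [hd]; nlinarith
        calc _ = ((d + 1) * d + 1) * (z * u ^ 2) ^ 2 := by ring
          _ ≤ b ^ 2 * (z * u ^ 2) ^ 2 := mul_le_mul_of_nonneg_right this (by positivity)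
          _ = _ := by ring
      linarith [e true, e false]
    D0 := by positivity
    rowL := fun x hx => (h.rowL x hx).trans (rowBound h h2 hd x)
    rowR := fun x hx => (h.rowR x hx).trans (rowBound h h2 hd x) }

lemma tau_le (h2 : LBd b z θ u F K) (c : Bool) : |(K c).trace| ≤ 2 * u ^ 2 := by
  have h1 : |(K c).trace - (Mach.sg c : ℝ)| ≤ u ^ 2 := by
    refine abs_le_of_sq_le_sq ?_ (by positivity)
    have := h2.T c
    calc _ ≤ u ^ 4 := this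
      _ = _ := by ring
  have hu2 : 1 ≤ u ^ 2 := one_le_pow₀ h2.hu
  rw [abs_le] at h1 ⊢
  rcases sg_or c with h | h <;> rw [h] at h1 <;> constructor <;> linarith [h1.1, h1.2]

lemma bounds (h : LCtx d F K S) (h2 : LBd b z θ u F K) (hd : b = d + 1) (c : Bool) :
    Af (K c) ≤ 3 * u ^ 4 ∧ M4f (K c) ≤ 16 * u ^ 4 ∧ ∑ x, gf (K c) x ^ 2 ≤ (4 * u ^ 3) ^ 2 := by
  have hC := ctx_of h h2 hd c
  have hu := h2.hu
  have hu4 : 1 ≤ u ^ 4 := one_le_pow₀ hu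
  have hθ2 : θ ^ 2 ≤ 1 / 10 ^ 8 := by
    calc θ ^ 2 ≤ (1 / 10 ^ 4) ^ 2 := pow_le_pow_left₀ h2.hθ0.le h2.θ1 2
      _ = _ := by norm_num
  have hV : Vf (K c) ≤ 1 / 10 ^ 8 * u ^ 2 :=
    (h2.V c).trans (mul_le_mul_of_nonneg_right hθ2 (by positivity))
  have hV0 := Vf_nonneg (K c)
  have hA : Af (K c) ≤ 3 * u ^ 4 := by
    have h3 := Af_le (h.symm c) (h.ge c) hC.op hC.N1
    have h4 := h2.X' c
    have h5 : 2 * (3 / 2 * u ^ 2) * Vf (K c) ≤ 2 * (3 / 2 * u ^ 2) * (1 / 10 ^ 8 * u ^ 2) :=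
      mul_le_mul_of_nonneg_left hV (by positivity)
    nlinarith
  have hH : Hf (K c) ≤ 7 * u ^ 4 := by
    have h3 := Hf_le (h.symm c) (h.ge c)
    have h4 := h2.V1 c
    linarith
  refine ⟨hA, ?_, ?_⟩
  · have h3 := M4f_le (h.symm c) (h.ge c)
    have h4 := h2.X' c
    linarith
  · have h3 := sum_g_sq_le (h.symm c) (h.ge c)
    have h4 := h2.X' c
    have h5 : R2f (K c) ≤ 9 * u ^ 6 := by
      refine hC.R2.trans (le_of_eq (by ring))
    have h6 : 2 * Vf (K c) * ((K c ^ 2).trace + Af (K c)) ≤ 2 * (1 / 10 ^ 8 * u ^ 2) * (5 * u ^ 4) :=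
      mul_le_mul (by linarith) (by linarith)
        (add_nonneg (X_nonneg (h.symm c)) (Af_nonneg (h.symm c))) (by positivity)
    have h7 : 2 * Vf (K c) * (Af (K c) + Hf (K c)) ≤ 2 * (1 / 10 ^ 8 * u ^ 2) * (10 * u ^ 4) :=
      mul_le_mul (by linarith) (by linarith)
        (add_nonneg (Af_nonneg (h.symm c)) (Hf_nonneg (K c))) (by positivity)
    nlinarith [pow_pos (by linarith : (0:ℝ) < u) 6]

end one

/-- the late potential -/
noncomputable def Psi (z θ k g : ℝ) (K : Bool → Matrix ι ι ℝ) : ℝ :=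
  ∑ b, (z ^ 2 * ((K b ^ 2).trace - 1) / k + z ^ 2 * ((K b).trace - Mach.sg b) ^ 2 / k
    + z * Vf (K b) / (θ ^ 2 * g))

section step

variable {d b z θ u k g g' : ℝ} {F : Finset ι} {K : Bool → Matrix ι ι ℝ} {S : Finset (ι × ι)}

/-- scalar combination for a functional with rate `-4` and weight `z²/k` -/
lemma comb1 {α : Type*} (S : Finset α) (f : α → ℝ) {X e z k : ℝ} (hk : 100 ≤ k) (hX : 0 ≤ X)
    (hS : (S.card : ℝ) ≤ k ^ 2) (hD : ∑ p ∈ S, (f p - X) ≤ -4 * k * X + e)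
    (he : z ^ 2 * e ≤ 1 / 100 * k ^ 2) :
    ∑ p ∈ S, (z ^ 2 * f p / (k - 2) - z ^ 2 * X / k) ≤ -2 * k * (z ^ 2 * X / k) + 11 / 1000 * k := by
  have hk2 : 0 < k - 2 := by linarith
  have hk0 : 0 < k := by linarith
  have e1 : ∑ p ∈ S, (z ^ 2 * f p / (k - 2) - z ^ 2 * X / k)
      = z ^ 2 / (k - 2) * ∑ p ∈ S, (f p - X) + S.card * (z ^ 2 * X * (2 / (k * (k - 2)))) := by
    rw [Finset.mul_sum, ← nsmul_eq_mul, ← Finset.sum_const, ← Finset.sum_add_distrib]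
    refine Finset.sum_congr rfl fun p _ => ?_
    field_simp
    ring
  rw [e1]
  have h1 : z ^ 2 / (k - 2) * ∑ p ∈ S, (f p - X) ≤ z ^ 2 / (k - 2) * (-4 * k * X + e) :=
    mul_le_mul_of_nonneg_left hD (by positivity)
  have h2 : (S.card : ℝ) * (z ^ 2 * X * (2 / (k * (k - 2))))
      ≤ k ^ 2 * (z ^ 2 * X * (2 / (k * (k - 2)))) :=
    mul_le_mul_of_nonneg_right hS (by positivity)
  have h3 : z ^ 2 / (k - 2) * (-4 * k * X + e) + k ^ 2 * (z ^ 2 * X * (2 / (k * (k - 2))))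
      = (-2 * k * (z ^ 2 * X) + z ^ 2 * e) / (k - 2) := by
    field_simp
    ring
  have h4 : -2 * k * (z ^ 2 * X / k) = -2 * (z ^ 2 * X) := by
    field_simp
  have h5 : (-2 * k * (z ^ 2 * X) + z ^ 2 * e) / (k - 2) ≤ -2 * (z ^ 2 * X) + 11 / 1000 * k := by
    rw [div_le_iff₀ hk2]
    have h6 : 0 ≤ z ^ 2 * X := by positivity
    nlinarith
  rw [h4]
  linarith

/-- scalar combination for `V` -/
lemma comb2 {α : Type*} (S : Finset α) (f : α → ℝ) {V e z k g g' θ : ℝ} (hk : 100 ≤ k)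
    (hV : 0 ≤ V) (hz : 0 < z) (hθ : 0 < θ) (hg' : 0 < g') (hgg : g' ≤ g)
    (hg : g ≤ g' * (1 + 3 / (2 * k)))
    (hS : (S.card : ℝ) ≤ k ^ 2) (hD : ∑ p ∈ S, (f p - V) ≤ -2 * k * V + e)
    (he : z * e ≤ 11 / 1000 * k * (θ ^ 2 * g')) :
    ∑ p ∈ S, (z * f p / (θ ^ 2 * g') - z * V / (θ ^ 2 * g))
      ≤ -(1 / 2) * k * (z * V / (θ ^ 2 * g)) + 11 / 1000 * k := by
  have hk0 : 0 < k := by linarith
  have hg0 : 0 < g := by linarith
  have e1 : ∑ p ∈ S, (z * f p / (θ ^ 2 * g') - z * V / (θ ^ 2 * g))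
      = z / (θ ^ 2 * g') * ∑ p ∈ S, (f p - V)
        + S.card * (z * V / (θ ^ 2 * g') - z * V / (θ ^ 2 * g)) := by
    rw [Finset.mul_sum, ← nsmul_eq_mul, ← Finset.sum_const, ← Finset.sum_add_distrib]
    refine Finset.sum_congr rfl fun p _ => ?_
    field_simp
    ring
  rw [e1]
  have h1 : z / (θ ^ 2 * g') * ∑ p ∈ S, (f p - V) ≤ z / (θ ^ 2 * g') * (-2 * k * V + e) :=
    mul_le_mul_of_nonneg_left hD (by positivity)
  set c := z * V / (θ ^ 2 * g) with hc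
  have hc0 : 0 ≤ c := by positivity
  have hzV : z * V = c * (θ ^ 2 * g) := by rw [hc]; field_simp
  have h2 : z * V / (θ ^ 2 * g') = c * (g / g') := by
    rw [hzV]; field_simp
  have h3 : g / g' ≤ 1 + 3 / (2 * k) := by rw [div_le_iff₀ hg']; linarith
  have h3' : 1 ≤ g / g' := by rw [le_div_iff₀ hg']; linarith
  have h4 : (S.card : ℝ) * (z * V / (θ ^ 2 * g') - c) ≤ k ^ 2 * (c * (3 / (2 * k))) := by
    rw [h2]
    have h5 : 0 ≤ c * (g / g') - c := by nlinarith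
    calc (S.card : ℝ) * (c * (g / g') - c) ≤ k ^ 2 * (c * (g / g') - c) :=
          mul_le_mul_of_nonneg_right hS h5
      _ ≤ _ := mul_le_mul_of_nonneg_left (by nlinarith) (by positivity)
  have h5 : k ^ 2 * (c * (3 / (2 * k))) = 3 / 2 * k * c := by
    field_simp
  have h6 : z / (θ ^ 2 * g') * (-2 * k * V + e) = -2 * k * (c * (g / g')) + z * e / (θ ^ 2 * g') := by
    rw [← h2]; field_simp
  have h7 : z * e / (θ ^ 2 * g') ≤ 11 / 1000 * k := by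
    rw [div_le_iff₀ (by positivity)]; exact he
  have h8 : -2 * k * (c * (g / g')) ≤ -2 * k * c := by
    have : c ≤ c * (g / g') := by nlinarith
    nlinarith
  linarith

lemma part_nonneg (hz : 0 < z) (hk : 0 < k) (hg : 0 < g) (hF : 0 < F.card)
    (h : LCtx d F K S) (c : Bool) :
    0 ≤ z ^ 2 * ((K c ^ 2).trace - 1) / k ∧ 0 ≤ z ^ 2 * ((K c).trace - Mach.sg c) ^ 2 / k ∧
      0 ≤ z * Vf (K c) / (θ ^ 2 * g) := by
  have h1 : 1 ≤ (K c ^ 2).trace := one_le_X2 (h.symm c)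
    (by rcases sg_or c with h | h <;> rw [h] <;> norm_num) (h.row c) hF
  have h2 := Vf_nonneg (K c)
  refine ⟨?_, ?_, ?_⟩
  · exact div_nonneg (mul_nonneg (sq_nonneg z) (by linarith)) hk.le
  · positivity
  · positivity

lemma part_le (hz : 0 < z) (hk : 0 < k) (hg : 0 < g) (hF : 0 < F.card)
    (h : LCtx d F K S) (hP : Psi z θ k g K ≤ 1) (c : Bool) :
    z ^ 2 * ((K c ^ 2).trace - 1) / k ≤ 1 ∧ z ^ 2 * ((K c).trace - Mach.sg c) ^ 2 / k ≤ 1 ∧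
      z * Vf (K c) / (θ ^ 2 * g) ≤ 1 := by
  have h1 := part_nonneg (θ := θ) hz hk hg hF h true
  have h2 := part_nonneg (θ := θ) hz hk hg hF h false
  unfold Psi at hP
  rw [Fintype.sum_bool] at hP
  cases c
  · refine ⟨?_, ?_, ?_⟩ <;> linarith [h1.1, h1.2.1, h1.2.2, h2.1, h2.2.1, h2.2.2]
  · refine ⟨?_, ?_, ?_⟩ <;> linarith [h1.1, h1.2.1, h1.2.2, h2.1, h2.2.1, h2.2.2]

lemma lbd_of (h : LCtx d F K S) (hb : 4 ≤ b) (hz : 10 ^ 13 * b ^ 3 ≤ z)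
    (hθ : θ = 1 / (10 ^ 4 * b)) (hk : z ^ 2 ≤ (F.card : ℝ)) (hg : 0 < g)
    (hgk : g ^ 2 ≤ F.card) (hP : Psi z θ F.card g K ≤ 1) :
    ∃ u, LBd b z θ u F K ∧ z * u ^ 2 = Real.sqrt F.card := by
  have hb3 : (1 : ℝ) ≤ b ^ 3 := one_le_pow₀ (by linarith)
  have hz1 : 1 ≤ z := by linarith
  have hz0 : 0 < z := by linarith
  have hk0 : (0 : ℝ) < F.card := lt_of_lt_of_le (by positivity) hk
  have hF : 0 < F.card := by exact_mod_cast hk0
  have hsk : z ≤ Real.sqrt F.card := Real.le_sqrt_of_sq_le hk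
  refine ⟨Real.sqrt (Real.sqrt F.card / z), ?_, ?_⟩
  swap
  · rw [Real.sq_sqrt (by positivity)]; field_simp
  have hu2 : Real.sqrt (Real.sqrt F.card / z) ^ 2 = Real.sqrt F.card / z :=
    Real.sq_sqrt (by positivity)
  have hu4 : Real.sqrt (Real.sqrt F.card / z) ^ 4 = F.card / z ^ 2 := by
    have : Real.sqrt (Real.sqrt F.card / z) ^ 4 = (Real.sqrt (Real.sqrt F.card / z) ^ 2) ^ 2 := by
      ring
    rw [this, hu2, div_pow, Real.sq_sqrt hk0.le]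
  have hθ0 : 0 < θ := by rw [hθ]; positivity
  refine ⟨?_, hb, hz, hθ, ?_, ?_, ?_, ?_⟩
  · rw [Real.one_le_sqrt, le_div_iff₀ hz0, one_mul]; exact hsk
  · rw [hu2, mul_div_cancel₀ _ hz0.ne', Real.sq_sqrt hk0.le]
  · intro c
    have h1 := (part_le (θ := θ) hz0 hk0 hg hF h hP c).1
    rw [div_le_one hk0] at h1
    rw [hu4]
    have : (K c ^ 2).trace - 1 ≤ F.card / z ^ 2 := by
      rw [le_div_iff₀ (by positivity)]; linarith
    linarith
  · intro c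
    have h1 := (part_le (θ := θ) hz0 hk0 hg hF h hP c).2.2
    rw [div_le_one (by positivity)] at h1
    rw [hu2]
    have h2 : g ≤ Real.sqrt F.card := Real.le_sqrt_of_sq_le hgk
    have h3 : z * Vf (K c) ≤ θ ^ 2 * Real.sqrt F.card :=
      h1.trans (mul_le_mul_of_nonneg_left h2 (by positivity))
    rw [← mul_div_assoc, le_div_iff₀ hz0]
    linarith
  · intro c
    have h1 := (part_le (θ := θ) hz0 hk0 hg hF h hP c).2.1
    rw [div_le_one hk0] at h1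
    rw [hu4, le_div_iff₀ (by positivity)]
    linarith

/-- **the late step** -/
theorem late_step (h : LCtx d F K S) (hd : b = d + 1) (hb : 4 ≤ b) (hz : 10 ^ 13 * b ^ 3 ≤ z)
    (hθ : θ = 1 / (10 ^ 4 * b)) (hk : z ^ 2 ≤ (F.card : ℝ)) (hg' : 0 < g') (hgg : g' ≤ g)
    (hg : g ≤ g' * (1 + 3 / (2 * F.card))) (hgk : g ^ 2 ≤ F.card)
    (hkg : (F.card : ℝ) ≤ g ^ 2 * (1 + 1 / 1000)) (hP : Psi z θ F.card g K ≤ 1) :
    ∑ p ∈ S, Psi z θ (F.card - 2) g' (fun c => upd (Mach.sg c : ℝ) (K c) p.1 p.2)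
      ≤ S.card * (1 - 1 / (4 * F.card)) := by
  have hb3 : (1 : ℝ) ≤ b ^ 3 := one_le_pow₀ (by linarith)
  have hz1 : 10 ^ 13 ≤ z := by linarith
  have hz0 : 0 < z := by linarith
  have hk1 : (100 : ℝ) ≤ F.card := by
    refine le_trans ?_ hk
    nlinarith
  have hk0 : (0 : ℝ) < F.card := by linarith
  have hF : 0 < F.card := by exact_mod_cast hk0
  have hg0 : 0 < g := by linarith
  have hθ0 : 0 < θ := by rw [hθ]; positivity
  obtain ⟨u, h2, hu⟩ := lbd_of h hb hz hθ hk hg0 hgk hP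
  have hSle : (S.card : ℝ) ≤ (F.card : ℝ) ^ 2 := by
    have := Finset.card_le_card h.sub
    rw [Finset.card_product] at this
    calc (S.card : ℝ) ≤ ((F.card * F.card : ℕ) : ℝ) := by exact_mod_cast this
      _ = _ := by push_cast; ring
  have hSge : (F.card : ℝ) / 2 ≤ S.card := by
    have h3 := (ctx_of h h2 hd true).bad
    rw [mul_pow, ← h2.card] at h3
    have h4 : ((((F ×ˢ F) \ S).card : ℕ) : ℝ) + S.card = (F.card : ℝ) ^ 2 := by
      have := Finset.card_sdiff_add_card_eq_card h.sub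
      rw [Finset.card_product] at this
      rw [pow_two]
      exact_mod_cast this
    have h5 : b ^ 2 + 1 / 2 ≤ F.card := by
      refine le_trans ?_ hk
      have : b ^ 2 ≤ b ^ 3 := pow_le_pow_right₀ (by linarith) (by norm_num)
      nlinarith
    nlinarith
  have hX1 : ∀ c, 1 ≤ (K c ^ 2).trace := fun c => one_le_X2 (h.symm c)
    (by rcases sg_or c with h | h <;> rw [h] <;> norm_num) (h.row c) hF
  have hz4 : z ^ 2 * (1 / 100 * z ^ 2 * u ^ 8) = 1 / 100 * (F.card : ℝ) ^ 2 := by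
    rw [h2.card]; ring
  have hsum : ∑ p ∈ S, (Psi z θ (F.card - 2) g' (fun c => upd (Mach.sg c : ℝ) (K c) p.1 p.2)
      - Psi z θ F.card g K) ≤ -(1 / 2) * F.card * Psi z θ F.card g K + 7 / 100 * F.card := by
    have e1 : ∀ p : ι × ι, Psi z θ (F.card - 2) g' (fun c => upd (Mach.sg c : ℝ) (K c) p.1 p.2)
        - Psi z θ F.card g K
        = ∑ c : Bool, ((z ^ 2 * (((upd (Mach.sg c : ℝ) (K c) p.1 p.2) ^ 2).trace - 1) / (F.card - 2)
            - z ^ 2 * ((K c ^ 2).trace - 1) / F.card)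
          + (z ^ 2 * ((upd (Mach.sg c : ℝ) (K c) p.1 p.2).trace - Mach.sg c) ^ 2 / (F.card - 2)
            - z ^ 2 * ((K c).trace - Mach.sg c) ^ 2 / F.card)
          + (z * Vf (upd (Mach.sg c : ℝ) (K c) p.1 p.2) / (θ ^ 2 * g')
            - z * Vf (K c) / (θ ^ 2 * g))) := by
      intro p
      unfold Psi
      rw [← Finset.sum_sub_distrib]
      exact Finset.sum_congr rfl fun c _ => by ring
    simp_rw [e1]
    rw [Finset.sum_comm]
    have e2 : ∀ c : Bool, ∑ p ∈ S,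
        ((z ^ 2 * (((upd (Mach.sg c : ℝ) (K c) p.1 p.2) ^ 2).trace - 1) / (F.card - 2)
            - z ^ 2 * ((K c ^ 2).trace - 1) / F.card)
          + (z ^ 2 * ((upd (Mach.sg c : ℝ) (K c) p.1 p.2).trace - Mach.sg c) ^ 2 / (F.card - 2)
            - z ^ 2 * ((K c).trace - Mach.sg c) ^ 2 / F.card)
          + (z * Vf (upd (Mach.sg c : ℝ) (K c) p.1 p.2) / (θ ^ 2 * g')
            - z * Vf (K c) / (θ ^ 2 * g)))
        ≤ -(1 / 2) * F.card * (z ^ 2 * ((K c ^ 2).trace - 1) / F.card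
            + z ^ 2 * ((K c).trace - Mach.sg c) ^ 2 / F.card + z * Vf (K c) / (θ ^ 2 * g))
          + 33 / 1000 * F.card := by
      intro c
      have hC := ctx_of h h2 hd c
      have hτ := tau_le h2 c
      obtain ⟨hA, hM, hg2⟩ := bounds h h2 hd c
      have s1 := comb1 (z := z) S (fun p => ((upd (Mach.sg c : ℝ) (K c) p.1 p.2) ^ 2).trace - 1)
        (X := (K c ^ 2).trace - 1) (k := F.card)
        (e := errX (3 / 2 * u ^ 2) (θ * u) (3 * u ^ 3) (z * u ^ 2) (b * (z * u ^ 2))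
          (8 * b ^ 2 * u ^ 4) (2 * u ^ 2)) hk1 (by linarith [hX1 c]) hSle
        (by
          have := sum_X2 hC hτ
          refine le_trans (le_of_eq ?_) this
          exact Finset.sum_congr rfl fun p _ => by ring)
        (by
          rw [← hz4]
          exact mul_le_mul_of_nonneg_left (errX_le h2.hu hb hz hθ) (sq_nonneg z))
      have s2 := comb1 (z := z) S (fun p => ((upd (Mach.sg c : ℝ) (K c) p.1 p.2).trace
          - Mach.sg c) ^ 2)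
        (X := ((K c).trace - Mach.sg c) ^ 2) (k := F.card)
        (e := errT (3 / 2 * u ^ 2) (θ * u) (3 * u ^ 3) (z * u ^ 2) (b * (z * u ^ 2))
          (2 * u ^ 2)) hk1 (sq_nonneg _) hSle (sum_T hC hτ)
        (by
          rw [← hz4]
          exact mul_le_mul_of_nonneg_left (errT_le h2.hu hb hz hθ) (sq_nonneg z))
      have s3 := comb2 S (fun p => Vf (upd (Mach.sg c : ℝ) (K c) p.1 p.2))
        (V := Vf (K c)) (k := F.card) (g := g) (g' := g') (θ := θ) (z := z)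
        (e := errV (3 / 2 * u ^ 2) (θ * u) (3 * u ^ 3) (z * u ^ 2) (b * (z * u ^ 2))
          (8 * b ^ 2 * u ^ 4) (2 * u ^ 2) (3 * u ^ 4) (16 * u ^ 4) (4 * u ^ 3)) hk1
        (Vf_nonneg _) hz0 hθ0 hg' hgg hg hSle
        (sum_V hC hτ hA hM (by have := h2.hu; positivity) hg2)
        (by
          have h3 := mul_le_mul_of_nonneg_left (errV_le h2.hu hb hz hθ) hz0.le
          refine h3.trans ?_
          have h4 : z * (1 / 100 * θ ^ 2 * z ^ 2 * u ^ 6)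
              = 1 / 100 * θ ^ 2 * F.card * (z * u ^ 2) := by rw [h2.card]; ring
          have h5 : z * u ^ 2 ≤ 11 / 10 * g' := by
            rw [hu]
            have h6 : g ≤ g' * (1 + 3 / 200) := by
              refine hg.trans (mul_le_mul_of_nonneg_left ?_ hg'.le)
              have : 3 / (2 * (F.card : ℝ)) ≤ 3 / 200 := by
                apply div_le_div_of_nonneg_left <;> linarith
              linarith
            refine Real.sqrt_le_iff.mpr ⟨by positivity, ?_⟩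
            calc (F.card : ℝ) ≤ g ^ 2 * (1 + 1 / 1000) := hkg
              _ ≤ (g' * (1 + 3 / 200)) ^ 2 * (1 + 1 / 1000) :=
                  mul_le_mul_of_nonneg_right (pow_le_pow_left₀ hg0.le h6 2) (by norm_num)
              _ ≤ _ := by nlinarith [sq_nonneg g']
          rw [h4]
          calc 1 / 100 * θ ^ 2 * F.card * (z * u ^ 2)
              ≤ 1 / 100 * θ ^ 2 * F.card * (11 / 10 * g') :=
                mul_le_mul_of_nonneg_left h5 (by positivity)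
            _ = _ := by ring)
      have p1 := part_nonneg (θ := θ) hz0 hk0 hg0 hF h c
      rw [Finset.sum_add_distrib, Finset.sum_add_distrib]
      have q1 : 0 ≤ F.card * (z ^ 2 * ((K c ^ 2).trace - 1) / F.card) :=
        mul_nonneg hk0.le p1.1
      have q2 : 0 ≤ F.card * (z ^ 2 * ((K c).trace - Mach.sg c) ^ 2 / F.card) :=
        mul_nonneg hk0.le p1.2.1
      generalize z ^ 2 * ((K c ^ 2).trace - 1) / F.card = A at s1 q1 ⊢
      generalize z ^ 2 * ((K c).trace - Mach.sg c) ^ 2 / F.card = B at s2 q2 ⊢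
      generalize z * Vf (K c) / (θ ^ 2 * g) = C at s3 ⊢
      linarith
    have e3 := Finset.sum_le_sum fun (c : Bool) (_ : c ∈ Finset.univ) => e2 c
    refine e3.trans ?_
    rw [Finset.sum_add_distrib, ← Finset.mul_sum]
    simp only [Finset.sum_const, Finset.card_univ, Fintype.card_bool]
    have e4 : (2 : ℕ) • (33 / 1000 * (F.card : ℝ)) = 66 / 1000 * F.card := by
      rw [nsmul_eq_mul]; push_cast; ring
    rw [e4]
    change -(1 / 2) * (F.card : ℝ) * Psi z θ F.card g K + 66 / 1000 * F.card ≤ _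
    linarith
  rw [Finset.sum_sub_distrib, Finset.sum_const, nsmul_eq_mul] at hsum
  have hf : (S.card : ℝ) * (1 / (4 * F.card)) ≤ F.card / 4 := by
    rw [mul_one_div, div_le_iff₀ (by positivity)]
    nlinarith
  have h7 : ((S.card : ℝ) - F.card / 2) * Psi z θ F.card g K ≤ (S.card : ℝ) - F.card / 2 :=
    mul_le_of_le_one_right (by linarith) hP
  linarith

end step

end Crest.Agent.R62.Late
end

-- ▼ part R62/LateCst

/-!
R62 (helper134): rational approximation of `√k` for the late phase.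

`g N k = ⌊√(k N⁴)⌋ / N²`, `ginv d` = its inverse as a constant of the machine
(`N = n d + 1`, `k = n d - 2 t`).
-/

set_option autoImplicit false
set_option linter.unusedVariables false

open scoped BigOperators

namespace Crest.Agent.R62.LateCst

/-- rational approximation of `√k` -/
noncomputable def g (N k : ℕ) : ℝ := (Nat.sqrt (k * N ^ 4) : ℝ) / (N : ℝ) ^ 2

variable {N k : ℕ}

lemma g_nonneg (N k : ℕ) : 0 ≤ g N k := by unfold g; positivity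


/-- `g² ≤ k` -/
theorem g_sq_le (hN : 0 < N) (k : ℕ) : g N k ^ 2 ≤ k := by
  have hN' : (0 : ℝ) < (N : ℝ) := by exact_mod_cast hN
  have h1 : Nat.sqrt (k * N ^ 4) ^ 2 ≤ k * N ^ 4 := Nat.sqrt_le' _
  have h2 : (Nat.sqrt (k * N ^ 4) : ℝ) ^ 2 ≤ (k : ℝ) * (N : ℝ) ^ 4 := by exact_mod_cast h1
  unfold g
  rw [div_pow, ← pow_mul, div_le_iff₀ (by positivity)]
  exact h2

/-- `k < (g + 1/N²)²` -/
theorem lt_g_add_sq (hN : 0 < N) (k : ℕ) : (k : ℝ) < (g N k + 1 / (N : ℝ) ^ 2) ^ 2 := by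
  have hN' : (0 : ℝ) < (N : ℝ) := by exact_mod_cast hN
  have h1 : k * N ^ 4 < (Nat.sqrt (k * N ^ 4) + 1) ^ 2 := Nat.lt_succ_sqrt' _
  have h2 : (k : ℝ) * (N : ℝ) ^ 4 < ((Nat.sqrt (k * N ^ 4) : ℝ) + 1) ^ 2 := by exact_mod_cast h1
  unfold g
  rw [← add_div, div_pow, ← pow_mul, lt_div_iff₀ (by positivity)]
  exact h2

/-- monotone -/
theorem g_mono (N : ℕ) {a b : ℕ} (h : a ≤ b) : g N a ≤ g N b := by
  unfold g
  refine div_le_div_of_nonneg_right ?_ (by positivity)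
  exact_mod_cast Nat.sqrt_le_sqrt (Nat.mul_le_mul_right _ h)

/-- lower bound: `r ≤ g N k` if `r² ≤ k` -/
theorem le_g {r : ℕ} (hN : 0 < N) (h : r ^ 2 ≤ k) : (r : ℝ) ≤ g N k := by
  have hN' : (0 : ℝ) < (N : ℝ) := by exact_mod_cast hN
  unfold g
  rw [le_div_iff₀ (by positivity)]
  have h1 : r * N ^ 2 ≤ Nat.sqrt (k * N ^ 4) := by
    rw [Nat.le_sqrt']
    calc (r * N ^ 2) ^ 2 = r ^ 2 * N ^ 4 := by ring
      _ ≤ k * N ^ 4 := Nat.mul_le_mul_right _ h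
  exact_mod_cast h1

theorem one_le_g (hN : 0 < N) (hk : 1 ≤ k) : 1 ≤ g N k := by
  have := le_g (N := N) (k := k) (r := 1) hN (by simpa using hk)
  simpa using this

theorem g_pos (hN : 0 < N) (hk : 1 ≤ k) : 0 < g N k :=
  lt_of_lt_of_le one_pos (one_le_g hN hk)

/-- `k ≤ g² (1 + 3 / N²)` -/
theorem le_g_sq' (hN : 0 < N) (hk : 1 ≤ k) : (k : ℝ) ≤ g N k ^ 2 * (1 + 3 / (N : ℝ) ^ 2) := by
  have hN' : (0 : ℝ) < (N : ℝ) := by exact_mod_cast hN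
  have hN1 : (1 : ℝ) ≤ (N : ℝ) := by exact_mod_cast hN
  have h1 := lt_g_add_sq hN k
  have h2 := one_le_g hN hk
  have h3 : 1 / (N : ℝ) ^ 2 ≤ 1 := by
    rw [div_le_one (by positivity)]
    exact one_le_pow₀ hN1
  have h4 : 0 ≤ 1 / (N : ℝ) ^ 2 := by positivity
  have e : 3 / (N : ℝ) ^ 2 = 3 * (1 / (N : ℝ) ^ 2) := by ring
  rw [e]
  nlinarith [mul_nonneg h4 (by linarith : (0 : ℝ) ≤ g N k - 1),
    mul_nonneg (mul_nonneg h4 (by linarith : (0 : ℝ) ≤ g N k - 1)) (by linarith : (0 : ℝ) ≤ g N k)]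

/-- `k ≤ g² (1 + 1/1000)` -/
theorem le_g_sq (hN : 100 ≤ N) (hk : 1 ≤ k) : (k : ℝ) ≤ g N k ^ 2 * (1 + 1 / 1000) := by
  have hN' : (100 : ℝ) ≤ (N : ℝ) := by exact_mod_cast hN
  have hN0 : 0 < N := by omega
  refine (le_g_sq' hN0 hk).trans ?_
  refine mul_le_mul_of_nonneg_left ?_ (sq_nonneg _)
  have : 3 / (N : ℝ) ^ 2 ≤ 1 / 1000 := by
    rw [div_le_div_iff₀ (by positivity) (by norm_num)]
    nlinarith
  linarith

/-- `g(k) ≤ g(k-2) (1 + 3/(2k))` -/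
theorem g_le_g_sub (hN : k ≤ N) (hk : 10 ≤ k) :
    g N k ≤ g N (k - 2) * (1 + 3 / (2 * (k : ℝ))) := by
  have hN0 : 0 < N := by omega
  have hk' : (10 : ℝ) ≤ (k : ℝ) := by exact_mod_cast hk
  have hNk : (k : ℝ) ≤ (N : ℝ) := by exact_mod_cast hN
  have h1 := g_sq_le hN0 k
  have h2 := le_g_sq' (N := N) (k := k - 2) hN0 (by omega)
  have h3 : ((k - 2 : ℕ) : ℝ) = (k : ℝ) - 2 := by
    rw [Nat.cast_sub (by omega)]; norm_num
  rw [h3] at h2
  have h0 : 0 ≤ g N (k - 2) * (1 + 3 / (2 * (k : ℝ))) :=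
    mul_nonneg (g_nonneg _ _) (by positivity)
  refine (sq_le_sq₀ (g_nonneg _ _) h0).mp ?_
  refine h1.trans ?_
  rw [mul_pow]
  set G := g N (k - 2) ^ 2 with hG
  have hG0 : 0 ≤ G := sq_nonneg _
  -- `G ≥ (k-2)/(1+3/k²)`
  have h4 : (k : ℝ) - 2 ≤ G * (1 + 3 / (k : ℝ) ^ 2) := by
    refine h2.trans (mul_le_mul_of_nonneg_left ?_ hG0)
    have : 3 / (N : ℝ) ^ 2 ≤ 3 / (k : ℝ) ^ 2 := by
      apply div_le_div_of_nonneg_left (by norm_num) (by positivity)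
      exact pow_le_pow_left₀ (by positivity) hNk 2
    linarith
  -- compare
  have h5 : (k : ℝ) * (1 + 3 / (k : ℝ) ^ 2) ≤ ((k : ℝ) - 2) * (1 + 3 / (2 * (k : ℝ))) ^ 2 := by
    have hk0 : (0 : ℝ) < k := by linarith
    have e1 : (k : ℝ) * (1 + 3 / (k : ℝ) ^ 2) = ((k : ℝ) ^ 2 + 3) / k := by
      field_simp
    have e2 : ((k : ℝ) - 2) * (1 + 3 / (2 * (k : ℝ))) ^ 2
        = ((k : ℝ) - 2) * (2 * k + 3) ^ 2 / (4 * (k : ℝ) ^ 2) := by
      field_simp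
      ring
    rw [e1, e2, div_le_div_iff₀ hk0 (by positivity)]
    have h6 : 0 ≤ (k : ℝ) - 10 := by linarith
    nlinarith [mul_nonneg h6 h6, mul_nonneg (mul_nonneg h6 h6) hk0.le, mul_nonneg h6 hk0.le]
  have h7 : (0 : ℝ) < 1 + 3 / (k : ℝ) ^ 2 := by positivity
  have h8 : (k : ℝ) * (1 + 3 / (k : ℝ) ^ 2)
      ≤ (G * (1 + 3 / (2 * (k : ℝ))) ^ 2) * (1 + 3 / (k : ℝ) ^ 2) := by
    refine h5.trans ?_
    calc ((k : ℝ) - 2) * (1 + 3 / (2 * (k : ℝ))) ^ 2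
        ≤ (G * (1 + 3 / (k : ℝ) ^ 2)) * (1 + 3 / (2 * (k : ℝ))) ^ 2 :=
          mul_le_mul_of_nonneg_right h4 (sq_nonneg _)
      _ = _ := by ring
  exact le_of_mul_le_mul_right h8 h7

end Crest.Agent.R62.LateCst

namespace Crest.Agent.R062.Mach.Cst

open Crest.Agent.Lib.PT

/-- `1 / g`, `N = n d + 1`, `k = n d - 2 t` -/
def ginv (d : ℕ) : Cst where
  f n t := (((n * d + 1) ^ 2 : ℕ) : ℚ) / ((Nat.sqrt ((n * d - 2 * t) * (n * d + 1) ^ 4) : ℕ) : ℚ)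
  ptf := by
    have hn : PTF (fun p : Un × Un => p.1.val) := PTU.toPTF (PTU.val PTF.fst)
    have ht : PTF (fun p : Un × Un => p.2.val) := PTU.toPTF (PTU.val PTF.snd)
    have hN : PTF (fun p : Un × Un => p.1.val * d + 1) := by fun_prop
    have hk : PTF (fun p : Un × Un => p.1.val * d - 2 * p.2.val) := by fun_prop
    exact PTF.ratDiv (PTF.ratNatCast (PTF.natPowConst hN 2))
      (PTF.ratNatCast (PTF.natSqrt (PTF.natMul hk (PTF.natPowConst hN 4))))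
  deg := 2 * (d + 1)
  bd n t := by
    have h1 : n * d + 1 ≤ (n + t + 2) ^ (d + 1) := by
      have h2 : d + 1 ≤ 2 ^ d := Nat.lt_two_pow_self
      have h3 : 2 ^ d ≤ (n + t + 2) ^ d := Nat.pow_le_pow_left (by omega) d
      calc n * d + 1 ≤ (d + 1) * (n + t + 2) := by nlinarith [Nat.zero_le (d * t), Nat.zero_le t]
        _ ≤ (n + t + 2) ^ d * (n + t + 2) := Nat.mul_le_mul_right _ (h2.trans h3)
        _ = _ := (pow_succ _ _).symm
    have h4 : (((n * d + 1) ^ 2 : ℕ) : ℚ) ≤ ((n : ℚ) + t + 2) ^ (2 * (d + 1)) := by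
      have : (n * d + 1) ^ 2 ≤ (n + t + 2) ^ (2 * (d + 1)) := by
        calc (n * d + 1) ^ 2 ≤ ((n + t + 2) ^ (d + 1)) ^ 2 := Nat.pow_le_pow_left h1 2
          _ = _ := by rw [← pow_mul, mul_comm]
      exact_mod_cast this
    refine le_trans ?_ h4
    rw [abs_div, Nat.abs_cast, Nat.abs_cast]
    rcases Nat.eq_zero_or_pos (Nat.sqrt ((n * d - 2 * t) * (n * d + 1) ^ 4)) with h | h
    · rw [h, Nat.cast_zero, div_zero]
      positivity
    · refine div_le_self (by positivity) ?_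
      exact_mod_cast h

theorem ginv_f (d n t : ℕ) : (((ginv d).f n t : ℚ) : ℝ)
    = (R62.LateCst.g (n * d + 1) (n * d - 2 * t))⁻¹ := by
  unfold ginv R62.LateCst.g
  push_cast
  rw [inv_div]

end Crest.Agent.R062.Mach.Cst
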