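import Crest.Agent.R62.CtxReal
import Crest.Agent.R62.PotCst
import Crest.Agent.R62.Barrier
import Crest.Agent.R62.LateCst_Mg
import Crest.Agent.R62.Box
import Crest.Agent.R062.EndPT

-- ▼ part R62/MainCst
section

/-!
R62 (helper114): the potentials of stages 1 and 2 as `Pot`s.
-/

set_option autoImplicit false
set_option linter.unusedSectionVars false
set_option linter.unusedVariables false
open scoped Matrix BigOperators

namespace Crest.Agent.R62.MainCst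

open Crest.Agent.R62.State Crest.Agent.R62.EvalKit Crest.Agent.R062 Crest.Agent.R062.Mach
open Crest.Agent.R62.SpecOf Crest.Agent.R62.GoodPairs Crest.Agent.R62.AvBase
open Crest.Agent.R62.Weights Crest.Agent.R62.Step Crest.Agent.R62.AvX1
open Crest.Agent.R62.CtxReal
open Crest.Agent.Lib.PT

/-- the size parameter -/
def mm (n : ℕ) : ℕ := Nat.nthRoot 1000 n

theorem prm_ev (d : ℕ) (hd : 3 ≤ d) (M0 : ℕ) :
    ∃ n0 : ℕ, 0 < n0 ∧ ∀ n, n0 ≤ n → Prm d n (mm n) ∧ M0 ≤ mm n := by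
  have h0 : ∀ᶠ m : ℕ in Filter.atTop, (10 : ℝ) ^ 10 * (d : ℝ) ^ 10 ≤ m ∧ M0 ≤ m := by
    have h1 : ∀ᶠ m : ℕ in Filter.atTop, (10 : ℝ) ^ 10 * (d : ℝ) ^ 10 ≤ m :=
      tendsto_natCast_atTop_atTop.eventually_ge_atTop _
    exact h1.and (Filter.eventually_ge_atTop M0)
  obtain ⟨n0, hn0⟩ := Barrier.ev_of_root (K := 1000) (by norm_num) h0
  refine ⟨n0 + 1, by omega, fun n hn => ?_⟩
  obtain ⟨⟨h1, h2⟩, h3, h4, h5⟩ := hn0 n (by omega)
  exact ⟨⟨hd, h1, h3, h4⟩, h2⟩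

/-! ### constants -/

/-- `m` -/
def mC : Cst := Cst.root 1000 (by norm_num)


/-- `m ^ k` -/
def mP (k : ℕ) : Cst := Cst.pow mC k

lemma mP_f (k n t : ℕ) : (mP k).f n t = (mm n : ℚ) ^ k := rfl

/-- natural numbers have polynomially bounded inverses -/
lemma inv_ok {x : ℚ} (h : ∃ k : ℤ, x = k) (n t : ℕ) :
    x = 0 ∨ 1 ≤ |x| * ((n : ℚ) + t + 2) ^ 0 := by
  obtain ⟨k, rfl⟩ := h
  rcases eq_or_ne k 0 with h | h
  · left; simp [h]
  · right
    rw [pow_zero, mul_one]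
    exact_mod_cast Int.one_le_abs h

/-- `1 / m ^ k` -/
def mI (k : ℕ) : Cst := Cst.inv (mP k) 0 (fun n t => inv_ok ⟨(mm n : ℤ) ^ k, by
  rw [mP_f]; push_cast; rfl⟩ n t)

lemma mI_f (k n t : ℕ) : (mI k).f n t = ((mm n : ℚ) ^ k)⁻¹ := rfl

/-- `n d` -/
def ndC (d : ℕ) : Cst := Cst.mul Cst.n (Cst.const d)

lemma ndC_f (d n t : ℕ) : (ndC d).f n t = (n : ℚ) * d := rfl

/-- `1 / (n d)` -/
def ndI (d : ℕ) : Cst := Cst.inv (ndC d) 0 (fun n t => inv_ok ⟨(n : ℤ) * d, by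
  rw [ndC_f]; push_cast; rfl⟩ n t)

lemma ndI_f (d n t : ℕ) : (ndI d).f n t = ((n : ℚ) * d)⁻¹ := rfl

/-- `1 / n` -/
def nI : Cst := Cst.inv Cst.n 0 (fun n t => inv_ok ⟨(n : ℤ), by
  rw [Cst.n_f]; push_cast; rfl⟩ n t)

lemma nI_f (n t : ℕ) : nI.f n t = (n : ℚ)⁻¹ := rfl

/-- `ρ = n d - 2 t` -/
def rhoC (d : ℕ) : Cst := Cst.free d

lemma rhoC_f (d n t : ℕ) : (rhoC d).f n t = (n : ℚ) * d - 2 * t := Cst.free_f d n t

/-- minimum -/
def minC (a b : Cst) : Cst := Cst.neg (Cst.max (Cst.neg a) (Cst.neg b))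

lemma minC_f (a b : Cst) (n t : ℕ) : (minC a b).f n t = min (a.f n t) (b.f n t) := by
  unfold minC
  rw [Cst.neg_f, Cst.max_f, Cst.neg_f, Cst.neg_f, max_neg_neg, neg_neg]

/-- `r1` -/
def r1C (d : ℕ) : Cst := Cst.mul (ndC d) (mI 320)

lemma r1C_f (d n t : ℕ) : (r1C d).f n t = (n : ℚ) * d / (mm n : ℚ) ^ 320 := by
  unfold r1C
  rw [Cst.mul_f, ndC_f, mI_f, div_eq_mul_inv]

lemma r1C_real (d n t : ℕ) : (((r1C d).f n t : ℚ) : ℝ) = r1 d n (mm n) := by
  rw [r1C_f]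
  unfold r1
  push_cast
  rfl

/-- `1 / r1` -/
def r1I (d : ℕ) : Cst := Cst.mul (ndI d) (mP 320)

lemma r1I_real (d n t : ℕ) : (((r1I d).f n t : ℚ) : ℝ) = (r1 d n (mm n))⁻¹ := by
  unfold r1I r1
  rw [Cst.mul_f, ndI_f, mP_f]
  push_cast
  rw [inv_div, div_eq_mul_inv, mul_comm]

/-- the barrier `U` of `X_1` -/
def UC (d : ℕ) : Cst :=
  Cst.mul (mP 361) (Cst.max (Cst.const 0) (minC (Cst.const 1)
    (Cst.mul (Cst.sub (rhoC d) (mP 800)) (mI 800))))

lemma UC_real (d n t : ℕ) :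
    (((UC d).f n t : ℚ) : ℝ) = U (mm n) ((n : ℝ) * d - 2 * t) := by
  unfold UC U
  rw [Cst.mul_f, mP_f, Cst.max_f, minC_f, Cst.const_f, Cst.const_f, Cst.mul_f, Cst.sub_f,
    rhoC_f, mP_f, mI_f]
  push_cast
  rw [div_eq_mul_inv]

/-- the barrier `ρ² / (ρ + r1/2)` of `X_2` in stage 2 -/
def phiC (d : ℕ) : Cst :=
  Cst.mul (Cst.mul (Cst.pow (rhoC d) 2) (Cst.mul (Cst.const 2) (mP 320)))
    (Cst.inv (Cst.add (Cst.mul (Cst.mul (Cst.const 2) (mP 320)) (rhoC d)) (ndC d)) 0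
      (fun n t => inv_ok ⟨2 * (mm n : ℤ) ^ 320 * ((n : ℤ) * d - 2 * t) + n * d, by
        rw [Cst.add_f, Cst.mul_f, Cst.mul_f, Cst.const_f, mP_f, rhoC_f, ndC_f]
        push_cast
        rfl⟩ n t))

lemma phiC_real (d n t : ℕ) (hm : mm n ≠ 0) :
    (((phiC d).f n t : ℚ) : ℝ) = phi2 (r1 d n (mm n)) ((n : ℝ) * d - 2 * t) := by
  unfold phiC phi2 r1
  rw [Cst.mul_f, Cst.mul_f, Cst.pow_f, Cst.mul_f, Cst.const_f, Cst.inv_f, Cst.add_f, Cst.mul_f,
    Cst.mul_f, Cst.const_f, mP_f, rhoC_f, ndC_f]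
  push_cast
  have h0 : ((mm n : ℕ) : ℝ) ^ 320 ≠ 0 := pow_ne_zero _ (by exact_mod_cast hm)
  set M : ℝ := ((mm n : ℕ) : ℝ) ^ 320 with hM
  set ρ : ℝ := (n : ℝ) * d - 2 * t with hρ
  have h1 : ρ + (n : ℝ) * d / M / 2 = (2 * M * ρ + (n : ℝ) * d) / (2 * M) := by
    field_simp
  rw [h1, div_div_eq_mul_div, div_eq_mul_inv]

/-! ### the potentials -/

section pots
variable {P : Par} {d : ℕ}

lemma w_val (b : Bool) (n : ℕ) (l : List (ℕ × ℕ)) :
    (Pot.w (P := P) (d := d) b).val n l = Wf (Fs n d l) (KR P d n b l) := by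
  change ∑ z, ((KR P d n b l ^ 2) z z - uv n d l z) ^ 2 = _
  rw [Wf_KR]
  symm
  have h1 : ∀ z ∈ Fs n d l, ((KR P d n b l ^ 2) z z - 1) ^ 2 =
      ((KR P d n b l ^ 2) z z - uv n d l z) ^ 2 := fun z hz => by
    rw [uv_eq_ind, if_pos hz]
  rw [Finset.sum_congr rfl h1]
  refine Finset.sum_subset (Finset.subset_univ _) fun z _ hz => ?_
  rw [diag_dead b hz, uv_eq_ind, if_neg hz]
  simp

lemma v_val (b : Bool) (n : ℕ) (l : List (ℕ × ℕ)) :
    (Pot.v (P := P) (d := d) b).val n l = Vf (KR P d n b l) := rfl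

lemma x_val (k : ℕ) (b : Bool) (n : ℕ) (l : List (ℕ × ℕ)) :
    (Pot.x (P := P) (d := d) k b).val n l = (KR P d n b l ^ k).trace := rfl

lemma x_val1 (b : Bool) (n : ℕ) (l : List (ℕ × ℕ)) :
    (Pot.x (P := P) (d := d) 1 b).val n l = (KR P d n b l).trace := by
  rw [x_val, pow_one]

lemma add_val (a b : Pot P d) (n : ℕ) (l : List (ℕ × ℕ)) :
    (Pot.add a b).val n l = a.val n l + b.val n l := rfl
lemma sub_val (a b : Pot P d) (n : ℕ) (l : List (ℕ × ℕ)) :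
    (Pot.sub a b).val n l = a.val n l - b.val n l := rfl
lemma neg_val (a : Pot P d) (n : ℕ) (l : List (ℕ × ℕ)) :
    (Pot.neg a).val n l = -a.val n l := rfl

/-- `((a)_+)² c` -/
noncomputable def psq (c : Cst) (a : Pot P d) : Pot P d := Pot.smul c (Pot.posSq a)

lemma psq_val (c : Cst) (a : Pot P d) (n : ℕ) (l : List (ℕ × ℕ)) :
    (psq c a).val n l = (c.f n l.length : ℝ) * (max (a.val n l) 0) ^ 2 := rfl

noncomputable def q1X1u (b : Bool) : Pot P d :=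
  psq (mI 670) (Pot.sub (Pot.x 1 b) (Pot.ofCst (UC d)))
noncomputable def q1X1l (b : Bool) : Pot P d := psq (mI 670) (Pot.neg (Pot.x 1 b))
noncomputable def q1X2u (b : Bool) : Pot P d :=
  psq (Cst.mul (Cst.const 16) (Cst.pow (r1I d) 2))
    (Pot.sub (Pot.x 2 b) (Pot.ofCst (Cst.sub (rhoC d) (r1C d))))
noncomputable def q1X2l (b : Bool) : Pot P d :=
  psq (Cst.pow (r1I d) 2)
    (Pot.sub (Pot.ofCst (Cst.sub (rhoC d) (Cst.mul (Cst.const 3) (r1C d)))) (Pot.x 2 b))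
noncomputable def q1X3l (b : Bool) : Pot P d :=
  psq (Cst.mul (Cst.const 16) (Cst.pow nI 2))
    (Pot.sub (Pot.ofCst (Cst.mul (Cst.const (3 / 2)) Cst.n)) (Pot.x 3 b))
noncomputable def q1X3u (b : Bool) : Pot P d :=
  psq (Cst.mul (Cst.const ((((d : ℚ) - 1) ^ 2) ^ 2)⁻¹) (Cst.pow nI 2))
    (Pot.sub (Pot.x 3 b) (Pot.ofCst (Cst.mul (Cst.const (2 * ((d : ℚ) - 1) ^ 2)) Cst.n)))
noncomputable def q1X4 (b : Bool) : Pot P d :=
  Pot.smul (Cst.mul (rhoC d) (mI 2003)) (Pot.x 4 b)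
noncomputable def q1V (b : Bool) : Pot P d := Pot.smul (mI 6) (Pot.v b)
noncomputable def q1W (b : Bool) : Pot P d := Pot.smul (mI 610) (Pot.w b)
noncomputable def q1M : Pot P d := Pot.smul (mI 1010) (Pot.cross 2 2)

/-- the one-sign part of stage 1 -/
noncomputable def pPart1 (b : Bool) : Pot P d :=
  Pot.add (Pot.add (Pot.add (Pot.add (Pot.add (Pot.add (Pot.add (Pot.add (q1X1u b) (q1X1l b))
    (q1X2u b)) (q1X2l b)) (q1X3l b)) (q1X3u b)) (q1X4 b)) (q1V b)) (q1W b)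

/-- the potential of stage 1 -/
noncomputable def pPhi1 (P : Par) (d : ℕ) : Pot P d :=
  Pot.add (Pot.add (pPart1 true) (pPart1 false)) q1M

noncomputable def q2X1 (b : Bool) : Pot P d := Pot.smul (mI 672) (Pot.sq (Pot.x 1 b))
noncomputable def q2X2 (b : Bool) : Pot P d :=
  psq (mI 1340) (Pot.sub (Pot.x 2 b) (Pot.ofCst (phiC d)))
noncomputable def q2X2l (b : Bool) : Pot P d :=
  psq (Cst.pow (r1I d) 2)
    (Pot.sub (Pot.ofCst (Cst.sub (rhoC d) (Cst.mul (Cst.const 5) (r1C d)))) (Pot.x 2 b))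
noncomputable def q2X3 (b : Bool) : Pot P d :=
  psq (Cst.mul (Cst.const ((((d : ℚ) - 1) ^ 2) ^ 2)⁻¹) (Cst.pow nI 2))
    (Pot.sub (Pot.x 3 b) (Pot.ofCst (Cst.mul (Cst.const (4 * ((d : ℚ) - 1) ^ 2)) Cst.n)))
noncomputable def q2X4 (b : Bool) : Pot P d :=
  Pot.smul (Cst.mul (rhoC d) (mI 2004)) (Pot.x 4 b)
noncomputable def q2V (b : Bool) : Pot P d := Pot.smul (mI 8) (Pot.v b)
noncomputable def q2W (b : Bool) : Pot P d := Pot.smul (mI 683) (Pot.w b)

/-- the one-sign part of stage 2 -/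
noncomputable def pPart2 (b : Bool) : Pot P d :=
  Pot.add (Pot.add (Pot.add (Pot.add (Pot.add (Pot.add (q2X1 b) (q2X2 b))
    (q2X2l b)) (q2X3 b)) (q2X4 b)) (q2V b)) (q2W b)

/-- the potential of stage 2 -/
noncomputable def pPhi2 (P : Par) (d : ℕ) : Pot P d :=
  Pot.add (pPart2 true) (pPart2 false)

variable {n : ℕ} {l : List (ℕ × ℕ)}

lemma rho_real (h : (Fs n d l).card + 2 * l.length = n * d) :
    ((Fs n d l).card : ℝ) = (n : ℝ) * d - 2 * l.length := by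
  have h1 : (((Fs n d l).card + 2 * l.length : ℕ) : ℝ) = ((n * d : ℕ) : ℝ) := by rw [h]
  push_cast at h1
  linarith

lemma pPart1_val (b : Bool) (h : (Fs n d l).card + 2 * l.length = n * d) :
    (pPart1 (P := P) (d := d) b).val n l = Box.part1 d n (mm n) (Fs n d l) (KR P d n b l) := by
  have hρ := rho_real h
  have e1 : (q1X1u (P := P) (d := d) b).val n l
      = p1X1u (mm n) (Fs n d l).card (KR P d n b l).trace := by
    unfold q1X1u p1X1u
    rw [psq_val, sub_val, x_val1, Pot.ofCst_val, UC_real, mI_f, hρ]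
    push_cast
    rw [div_eq_mul_inv, mul_comm]
  have e2 : (q1X1l (P := P) (d := d) b).val n l = p1X1l (mm n) (KR P d n b l).trace := by
    unfold q1X1l p1X1l
    rw [psq_val, neg_val, x_val1, mI_f]
    push_cast
    rw [div_eq_mul_inv, mul_comm]
  have e3 : (q1X2u (P := P) (d := d) b).val n l
      = p1X2u (r1 d n (mm n)) (Fs n d l).card (KR P d n b l ^ 2).trace := by
    unfold q1X2u p1X2u
    rw [psq_val, sub_val, x_val, Pot.ofCst_val, Cst.sub_f, rhoC_f, Cst.mul_f, Cst.pow_f,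
      Cst.const_f, hρ]
    push_cast
    rw [r1C_real, r1I_real, div_pow, div_div_eq_mul_div, div_eq_mul_inv]
    have : (KR P d n b l ^ 2).trace - ((n : ℝ) * d - 2 * l.length - r1 d n (mm n)) =
      (KR P d n b l ^ 2).trace - ((n : ℝ) * d - 2 * l.length) + r1 d n (mm n) := by ring
    rw [this, inv_pow]
    ring
  have e4 : (q1X2l (P := P) (d := d) b).val n l
      = p1X2l (r1 d n (mm n)) (Fs n d l).card (KR P d n b l ^ 2).trace := by
    unfold q1X2l p1X2l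
    rw [psq_val, sub_val, x_val, Pot.ofCst_val, Cst.sub_f, rhoC_f, Cst.mul_f, Cst.pow_f,
      Cst.const_f, hρ]
    push_cast
    rw [r1C_real, r1I_real, div_eq_mul_inv, inv_pow]
    ring
  have e5 : (q1X3l (P := P) (d := d) b).val n l = p1X3l n (KR P d n b l ^ 3).trace := by
    unfold q1X3l p1X3l
    rw [psq_val, sub_val, x_val, Pot.ofCst_val, Cst.mul_f, Cst.mul_f, Cst.pow_f,
      Cst.const_f, Cst.const_f, Cst.n_f, nI_f]
    push_cast
    rw [div_pow, div_div_eq_mul_div, div_eq_mul_inv, inv_pow]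
    ring
  have e6 : (q1X3u (P := P) (d := d) b).val n l = p1X3u d n (KR P d n b l ^ 3).trace := by
    unfold q1X3u p1X3u
    rw [psq_val, sub_val, x_val, Pot.ofCst_val, Cst.mul_f, Cst.mul_f, Cst.pow_f,
      Cst.const_f, Cst.const_f, Cst.n_f, nI_f]
    push_cast
    rw [div_eq_mul_inv, mul_pow (((d : ℝ) - 1) ^ 2), mul_inv, inv_pow]
    ring
  have e7 : (q1X4 (P := P) (d := d) b).val n l
      = p1X4 (mm n) (Fs n d l).card (KR P d n b l ^ 4).trace := by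
    unfold q1X4 p1X4
    rw [Pot.smul_val, Cst.mul_f, rhoC_f, mI_f, x_val, hρ]
    push_cast
    rw [div_eq_mul_inv]
    ring
  have e8 : (q1V (P := P) (d := d) b).val n l = p1V (mm n) (Vf (KR P d n b l)) := by
    unfold q1V p1V
    rw [Pot.smul_val, mI_f, v_val]
    push_cast
    rw [div_eq_mul_inv, mul_comm]
  have e9 : (q1W (P := P) (d := d) b).val n l
      = p1W (mm n) (Wf (Fs n d l) (KR P d n b l)) := by
    unfold q1W p1W
    rw [Pot.smul_val, mI_f, w_val]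
    push_cast
    rw [div_eq_mul_inv, mul_comm]
  unfold pPart1 Box.part1
  simp only [add_val]
  rw [e1, e2, e3, e4, e5, e6, e7, e8, e9]

theorem pPhi1_val (h : (Fs n d l).card + 2 * l.length = n * d) :
    (pPhi1 P d).val n l = Phi1R P d n (mm n) l := by
  have e10 : (q1M (P := P) (d := d)).val n l = p1M (mm n) (Mf (fun b => KR P d n b l)) := by
    unfold q1M p1M
    rw [Pot.smul_val, mI_f]
    push_cast
    rw [div_eq_mul_inv, mul_comm]
    rfl
  unfold pPhi1 Phi1R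
  rw [Box.Phi1_eq, add_val, add_val, pPart1_val _ h, pPart1_val _ h, e10]

lemma pPart2_val (b : Bool) (h : (Fs n d l).card + 2 * l.length = n * d) (hm : mm n ≠ 0) :
    (pPart2 (P := P) (d := d) b).val n l = Box.part2 d n (mm n) (Fs n d l) (KR P d n b l) := by
  have hρ := rho_real h
  have e1 : (q2X1 (P := P) (d := d) b).val n l = p2X1 (mm n) (KR P d n b l).trace := by
    unfold q2X1 p2X1
    rw [Pot.smul_val, mI_f]
    change _ * ((Pot.x (P := P) (d := d) 1 b).val n l) ^ 2 = _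
    rw [x_val1]
    push_cast
    rw [div_eq_mul_inv, mul_comm]
  have e2 : (q2X2 (P := P) (d := d) b).val n l
      = p2X2 (mm n) (r1 d n (mm n)) (Fs n d l).card (KR P d n b l ^ 2).trace := by
    unfold q2X2 p2X2
    rw [psq_val, sub_val, x_val, Pot.ofCst_val, phiC_real d n _ hm, mI_f, hρ]
    push_cast
    rw [div_eq_mul_inv, mul_comm]
  have e3 : (q2X2l (P := P) (d := d) b).val n l
      = p2X2l (r1 d n (mm n)) (Fs n d l).card (KR P d n b l ^ 2).trace := by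
    unfold q2X2l p2X2l
    rw [psq_val, sub_val, x_val, Pot.ofCst_val, Cst.sub_f, rhoC_f, Cst.mul_f, Cst.pow_f,
      Cst.const_f, hρ]
    push_cast
    rw [r1C_real, r1I_real, div_eq_mul_inv, inv_pow]
    ring
  have e4 : (q2X3 (P := P) (d := d) b).val n l = p2X3 d n (KR P d n b l ^ 3).trace := by
    unfold q2X3 p2X3
    rw [psq_val, sub_val, x_val, Pot.ofCst_val, Cst.mul_f, Cst.mul_f, Cst.pow_f,
      Cst.const_f, Cst.const_f, Cst.n_f, nI_f]
    push_cast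
    rw [div_eq_mul_inv, mul_pow (((d : ℝ) - 1) ^ 2), mul_inv, inv_pow]
    ring
  have e5 : (q2X4 (P := P) (d := d) b).val n l
      = p2X4 (mm n) (Fs n d l).card (KR P d n b l ^ 4).trace := by
    unfold q2X4 p2X4
    rw [Pot.smul_val, Cst.mul_f, rhoC_f, mI_f, x_val, hρ]
    push_cast
    rw [div_eq_mul_inv]
    ring
  have e6 : (q2V (P := P) (d := d) b).val n l = p2V (mm n) (Vf (KR P d n b l)) := by
    unfold q2V p2V
    rw [Pot.smul_val, mI_f, v_val]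
    push_cast
    rw [div_eq_mul_inv, mul_comm]
  have e7 : (q2W (P := P) (d := d) b).val n l
      = p2W (mm n) (Wf (Fs n d l) (KR P d n b l)) := by
    unfold q2W p2W
    rw [Pot.smul_val, mI_f, w_val]
    push_cast
    rw [div_eq_mul_inv, mul_comm]
  unfold pPart2 Box.part2
  simp only [add_val]
  rw [e1, e2, e3, e4, e5, e6, e7]

theorem pPhi2_val (h : (Fs n d l).card + 2 * l.length = n * d) (hm : mm n ≠ 0) :
    (pPhi2 P d).val n l = Phi2R P d n (mm n) l := by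
  unfold pPhi2 Phi2R
  rw [Box.Phi2_eq, add_val, pPart2_val _ h hm, pPart2_val _ h hm]

/-- the card identity after a step -/
lemma card_cons {x y : Fin (n * d)} (h : (Fs n d l).card + 2 * l.length = n * d)
    (hxy : (x, y) ∈ Sg P d n l) :
    (Fs n d (((x : ℕ), (y : ℕ)) :: l)).card + 2 * (((x : ℕ), (y : ℕ)) :: l).length = n * d := by
  have h1 := card_Fs_cons hxy
  rw [List.length_cons]
  omega

end pots

end Crest.Agent.R62.MainCst
end

-- ▼ part R62/LateT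

/-!
R62 (helper134): the end time of the late phase and the numeric handover 2 → 3.
-/

set_option autoImplicit false
set_option linter.unusedSectionVars false
set_option linter.unusedVariables false

open Matrix Finset

namespace Crest.Agent.R62.LateT

open Crest.Agent.R062 Crest.Agent.Lib.PT Crest.Agent.R62.AvX1

/-! ### the end time -/

/-- the constant `z` of the late potential -/
def zq (d : ℕ) : ℕ := 2 * (10 ^ 13 * (d + 1) ^ 3 + EndComplete.thr d)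

/-- the late phase stops at `Mq d - 2` live stubs -/
def Mq (d : ℕ) : ℕ := zq d ^ 2

/-- the number of steps -/
def Tq (d n : ℕ) : ℕ := (n * d - (Mq d - 2)) / 2

lemma zq_ge (d : ℕ) : 2 * (10 ^ 13 * (d + 1) ^ 3) ≤ zq d := by
  unfold zq; omega

lemma zq_ge' (d : ℕ) : 2 * EndComplete.thr d ≤ zq d := by
  unfold zq; omega

lemma zq_pos (d : ℕ) : 0 < zq d := by
  have := zq_ge' d
  unfold EndComplete.thr at this
  omega

lemma two_le_thr (d : ℕ) : 2 ≤ EndComplete.thr d := by unfold EndComplete.thr; omega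

lemma zq_le_Mq (d : ℕ) : zq d ≤ Mq d := by
  unfold Mq
  rw [pow_two]
  exact Nat.le_mul_of_pos_left _ (zq_pos d)

lemma thr_lt_Mq (d : ℕ) : EndComplete.thr d + 1 ≤ Mq d := by
  have h1 := zq_ge' d
  have h2 := zq_le_Mq d
  have h3 := two_le_thr d
  omega

lemma Mq_even (d : ℕ) : Even (Mq d) := by
  unfold Mq zq
  rw [mul_pow]
  exact ⟨2 * (10 ^ 13 * (d + 1) ^ 3 + EndComplete.thr d) ^ 2, by ring⟩

lemma four_le_Mq (d : ℕ) : 4 ≤ Mq d := by
  have h1 := zq_ge' d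
  have h2 := zq_le_Mq d
  have h3 := two_le_thr d
  omega

lemma Mq_cast (d : ℕ) : ((Mq d : ℕ) : ℝ) = (zq d : ℝ) ^ 2 := by unfold Mq; push_cast; ring

theorem Tq_ptf (d : ℕ) : PTF (fun n : Un => Tq d n.val) := by
  have hn : PTF (fun n : Un => n.val) := PTU.toPTF (PTU.val PTF.id)
  unfold Tq
  exact PTF.natDiv (PTF.natSub (PTF.natMul hn (PTF.const d)) (PTF.const (Mq d - 2))) (PTF.const 2)

theorem Tq_le (d n : ℕ) : 2 * Tq d n ≤ n * d := by
  unfold Tq
  omega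

theorem Tq_eq {d n : ℕ} (h : Mq d ≤ n * d) (hn : Even n) :
    2 * Tq d n = n * d - (Mq d - 2) := by
  have h1 : Even (n * d) := hn.mul_right d
  have h2 := Mq_even d
  have h3 := four_le_Mq d
  obtain ⟨a, ha⟩ := h1
  obtain ⟨c, hc⟩ := h2
  unfold Tq
  omega


theorem Tq_thr {d n : ℕ} (h : Mq d ≤ n * d) (hn : Even n) :
    2 * Tq d n + EndComplete.thr d ≤ n * d + 1 := by
  rw [Tq_eq h hn]
  have h3 := four_le_Mq d
  have h4 := thr_lt_Mq d
  omega

/-- before the end time there are at least `Mq d` live stubs -/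
theorem Mq_le_of_lt {d n t : ℕ} (h : Mq d ≤ n * d) (hn : Even n) (ht : t < Tq d n) :
    Mq d ≤ n * d - 2 * t := by
  have h1 := Tq_eq h hn
  have h3 := four_le_Mq d
  obtain ⟨a, ha⟩ := hn.mul_right d
  obtain ⟨c, hc⟩ := Mq_even d
  omega

/-! ### the constant `x0` -/

/-- `x0 = 1/(100 z²)` -/
noncomputable def x0q (d : ℕ) : ℝ := 1 / (100 * (zq d : ℝ) ^ 2)

lemma zq_real (d : ℕ) : (10 : ℝ) ^ 13 * ((d : ℝ) + 1) ^ 3 ≤ zq d := by
  have h1 : ((2 * (10 ^ 13 * (d + 1) ^ 3) : ℕ) : ℝ) ≤ zq d := by exact_mod_cast zq_ge d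
  push_cast at h1
  have h2 : (0 : ℝ) ≤ ((d : ℝ) + 1) ^ 3 := by positivity
  linarith

lemma zq_real_ge (d : ℕ) : (10 : ℝ) ^ 13 ≤ zq d := by
  have h1 := zq_real d
  have h2 : (1 : ℝ) ≤ ((d : ℝ) + 1) ^ 3 := one_le_pow₀ (by
    have : (0 : ℝ) ≤ d := Nat.cast_nonneg d
    linarith)
  linarith

lemma zq_real_pos (d : ℕ) : (0 : ℝ) < zq d := by
  have := zq_real_ge d; linarith

lemma x0q_pos (d : ℕ) : 0 < x0q d := by
  have := zq_real_pos d
  unfold x0q; positivity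

lemma x0q_le_one (d : ℕ) : x0q d ≤ 1 := by
  have h1 := zq_real_ge d
  unfold x0q
  rw [div_le_one (by have := zq_real_pos d; positivity)]
  nlinarith

lemma x0q_m {d : ℕ} {m : ℝ} (hm : 10 ^ 18 * (zq d : ℝ) ^ 8 ≤ m) : 10 ^ 10 ≤ m * x0q d ^ 4 := by
  have h0 := zq_real_pos d
  unfold x0q
  rw [div_pow, one_pow, mul_one_div, le_div_iff₀ (by positivity)]
  calc (10 : ℝ) ^ 10 * (100 * (zq d : ℝ) ^ 2) ^ 4 = 10 ^ 18 * (zq d : ℝ) ^ 8 := by ring
    _ ≤ m := hm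

/-! ### handover -/

variable {ι : Type*} [Fintype ι] [DecidableEq ι]

lemma sg_sq (b : Bool) : (Mach.sg b : ℝ) ^ 2 = 1 := by cases b <;> simp [Mach.sg]

/-- numeric criterion: the bounds at the end of stage 2 give `Psi ≤ 1/2` -/
theorem psi_le_of {d : ℕ} {m k g : ℝ} {K : Bool → Matrix ι ι ℝ}
    (hm : 10 ^ 18 * (zq d : ℝ) ^ 8 ≤ m) (hk : 1000 * (zq d : ℝ) ^ 2 ≤ k) (hg : 0 < g)
    (hgk : k ≤ g ^ 2 * (1 + 1 / 1000))
    (h : ∀ b, (K b ^ 2).trace ≤ 3 * x0q d * k ∧ (K b).trace ^ 2 * m ^ 7 ≤ k ∧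
      Vf (K b) ^ 2 * m ^ 660 ≤ k) (hV : ∀ b, 0 ≤ Vf (K b)) :
    Late.Psi (zq d) (1 / (10 ^ 4 * ((d : ℝ) + 1))) k g K ≤ 1 / 2 := by
  have hz := zq_real_pos d
  have hzg := zq_real_ge d
  have hz1 : (1 : ℝ) ≤ zq d := by linarith
  set z : ℝ := (zq d : ℝ) with hzdef
  have hd0 : (0 : ℝ) ≤ d := Nat.cast_nonneg d
  have hd1 : (1 : ℝ) ≤ (d : ℝ) + 1 := by linarith
  have hk0 : 0 < k := lt_of_lt_of_le (by positivity) hk
  -- `z ≤ m`
  have hz8 : z ≤ z ^ 8 := by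
    calc z = z ^ 1 := (pow_one z).symm
      _ ≤ z ^ 8 := pow_le_pow_right₀ hz1 (by norm_num)
  have hz8' : 0 < z ^ 8 := by positivity
  have hzm : 10 ^ 5 * z ≤ m := by
    refine le_trans ?_ hm
    nlinarith
  have hm1 : 1 ≤ m := by nlinarith
  have hm0 : 0 < m := by linarith
  have key : ∀ b, z ^ 2 * ((K b ^ 2).trace - 1) / k
      + z ^ 2 * ((K b).trace - Mach.sg b) ^ 2 / k
      + z * Vf (K b) / ((1 / (10 ^ 4 * ((d : ℝ) + 1))) ^ 2 * g) ≤ 1 / 4 := by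
    intro b
    obtain ⟨h2, h1, h4⟩ := h b
    have hVb := hV b
    -- first term
    have t1 : z ^ 2 * ((K b ^ 2).trace - 1) / k ≤ 3 / 100 := by
      rw [div_le_iff₀ hk0]
      have e : z ^ 2 * (3 * x0q d * k) = 3 / 100 * k := by
        unfold x0q
        rw [← hzdef]
        field_simp
      have h3 : z ^ 2 * ((K b ^ 2).trace - 1) ≤ z ^ 2 * (3 * x0q d * k) :=
        mul_le_mul_of_nonneg_left (by linarith) (by positivity)
      rw [e] at h3
      exact h3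
    -- second term
    have t2 : z ^ 2 * ((K b).trace - Mach.sg b) ^ 2 / k ≤ 1 / 100 := by
      rw [div_le_iff₀ hk0]
      have hs := sg_sq b
      have h3 : ((K b).trace - (Mach.sg b : ℝ)) ^ 2 ≤ 2 * (K b).trace ^ 2 + 2 := by
        nlinarith [sq_nonneg ((K b).trace + (Mach.sg b : ℝ))]
      have h5 : z ^ 2 * (K b).trace ^ 2 * 1000 ≤ k := by
        have h6 : z ^ 2 * 1000 ≤ m ^ 7 := by
          have h7 : m ^ 2 ≤ m ^ 7 := pow_le_pow_right₀ hm1 (by norm_num)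
          have h8 : z ^ 2 * 1000 ≤ m ^ 2 := by
            have : (10 ^ 5 * z) ^ 2 ≤ m ^ 2 := pow_le_pow_left₀ (by positivity) hzm 2
            nlinarith [sq_nonneg z]
          linarith
        calc z ^ 2 * (K b).trace ^ 2 * 1000 = (K b).trace ^ 2 * (z ^ 2 * 1000) := by ring
          _ ≤ (K b).trace ^ 2 * m ^ 7 := mul_le_mul_of_nonneg_left h6 (sq_nonneg _)
          _ ≤ k := h1
      have h7 : z ^ 2 * ((K b).trace - (Mach.sg b : ℝ)) ^ 2
          ≤ z ^ 2 * (2 * (K b).trace ^ 2 + 2) := mul_le_mul_of_nonneg_left h3 (by positivity)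
      nlinarith
    -- third term
    have t3 : z * Vf (K b) / ((1 / (10 ^ 4 * ((d : ℝ) + 1))) ^ 2 * g) ≤ 1 / 100 := by
      have hθ : (0 : ℝ) < (1 / (10 ^ 4 * ((d : ℝ) + 1))) ^ 2 := by positivity
      rw [div_le_iff₀ (by positivity)]
      -- `V m^330 ≤ 2 g`
      have h5 : Vf (K b) * m ^ 330 ≤ 2 * g := by
        have h6 : (Vf (K b) * m ^ 330) ^ 2 ≤ (2 * g) ^ 2 := by
          calc (Vf (K b) * m ^ 330) ^ 2 = Vf (K b) ^ 2 * m ^ 660 := by ring
            _ ≤ k := h4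
            _ ≤ g ^ 2 * (1 + 1 / 1000) := hgk
            _ ≤ (2 * g) ^ 2 := by nlinarith [sq_nonneg g]
        exact (sq_le_sq₀ (by positivity) (by positivity)).mp h6
      -- `200 z (10^4 (d+1))^2 ≤ m^330`
      have h7 : 200 * z * (10 ^ 4 * ((d : ℝ) + 1)) ^ 2 ≤ m ^ 330 := by
        have h8 : ((d : ℝ) + 1) ^ 2 ≤ z := by
          have := zq_real d
          rw [← hzdef] at this
          have h9 : ((d : ℝ) + 1) ^ 2 ≤ ((d : ℝ) + 1) ^ 3 := pow_le_pow_right₀ hd1 (by norm_num)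
          have h10 : (0 : ℝ) ≤ ((d : ℝ) + 1) ^ 3 := by positivity
          nlinarith
        have h9 : m ^ 2 ≤ m ^ 330 := pow_le_pow_right₀ hm1 (by norm_num)
        have h10 : (10 ^ 5 * z) ^ 2 ≤ m ^ 2 := pow_le_pow_left₀ (by positivity) hzm 2
        have h11 : 200 * z * (10 ^ 4 * ((d : ℝ) + 1)) ^ 2 ≤ m * m := by
          calc 200 * z * (10 ^ 4 * ((d : ℝ) + 1)) ^ 2
              = (2 * 10 ^ 10) * z * ((d : ℝ) + 1) ^ 2 := by ring
            _ ≤ (2 * 10 ^ 10) * z * z := mul_le_mul_of_nonneg_left h8 (by positivity)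
            _ ≤ (10 ^ 18 * z ^ 8) * (10 ^ 18 * z ^ 8) := by
                have : z * z ≤ z ^ 8 * z ^ 8 := mul_le_mul hz8 hz8 hz.le hz8'.le
                nlinarith
            _ ≤ m * m := mul_le_mul hm hm (by positivity) hm0.le
        nlinarith
      have hm330 : (0 : ℝ) < m ^ 330 := by positivity
      -- combine
      have h8 : z * Vf (K b) * m ^ 330 ≤ z * (2 * g) := by
        calc z * Vf (K b) * m ^ 330 = z * (Vf (K b) * m ^ 330) := by ring
          _ ≤ z * (2 * g) := mul_le_mul_of_nonneg_left h5 hz.le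
      have h9 : z * (2 * g) ≤ 1 / 100 * ((1 / (10 ^ 4 * ((d : ℝ) + 1))) ^ 2 * g) * m ^ 330 := by
        have h10 : z * 200 ≤ (1 / (10 ^ 4 * ((d : ℝ) + 1))) ^ 2 * m ^ 330 := by
          rw [div_pow, one_pow, div_mul_eq_mul_div, one_mul, le_div_iff₀ (by positivity)]
          linarith
        nlinarith
      exact le_of_mul_le_mul_right (h8.trans h9) hm330
    linarith
  unfold Late.Psi
  rw [Fintype.sum_bool]
  have h1 := key true
  have h2 := key false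
  linarith

lemma Vf_nonneg (K : Matrix ι ι ℝ) : 0 ≤ Vf K := by
  unfold Vf
  exact Finset.sum_nonneg fun _ _ => sq_nonneg _

end Crest.Agent.R62.LateT

namespace Crest.Agent.R62.LateT

open Crest.Agent.R062 Crest.Agent.R62.AvX1 Crest.Agent.R62.Step

variable {ι : Type} [Fintype ι] [DecidableEq ι]

/-- HANDOVER 2 → 3 -/
theorem psi_of_Phi2 {d n m : ℕ} {F : Finset ι} {K : Bool → Matrix ι ι ℝ} (hp : Prm d n m)
    (hs : ∀ b, (K b).IsSymm) (h : Phi2 d n m F K ≤ 1) (hm : 10 ^ 18 * (zq d : ℝ) ^ 8 ≤ m)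
    (h1 : x0q d * r1 d n m ≤ F.card) (h2 : (F.card : ℝ) ≤ x0q d * r1 d n m + 4) :
    Late.Psi (zq d) (1 / (10 ^ 4 * ((d : ℝ) + 1))) F.card (LateCst.g (n * d + 1) F.card) K
      ≤ 1 / 2 := by
  have hz := zq_real_pos d
  have hzg := zq_real_ge d
  have hz1 : (1 : ℝ) ≤ zq d := by linarith
  have hm1 := Box.one_le_m hp
  have hm0 := Box.m_pos hp
  have hmg := Box.m_ge hp
  have hrg := Box.r1_ge' hp
  have h3 := Box.handover23 hp hs h (x0q_pos d) (x0q_le_one d) (x0q_m hm) h1 h2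
  -- `1000 z² ≤ ρ`
  have hk : 1000 * (zq d : ℝ) ^ 2 ≤ F.card := by
    refine le_trans ?_ h1
    have h4 : x0q d * (m : ℝ) ^ 680 ≤ x0q d * r1 d n m :=
      mul_le_mul_of_nonneg_left hrg (x0q_pos d).le
    refine le_trans ?_ h4
    unfold x0q
    rw [div_mul_eq_mul_div, one_mul, le_div_iff₀ (by positivity)]
    have h5 : (m : ℝ) ≤ (m : ℝ) ^ 680 := by
      calc (m : ℝ) = (m : ℝ) ^ 1 := (pow_one _).symm
        _ ≤ (m : ℝ) ^ 680 := pow_le_pow_right₀ hm1 (by norm_num)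
    refine le_trans ?_ h5
    refine le_trans ?_ hm
    have h6 : (zq d : ℝ) ^ 4 ≤ (zq d : ℝ) ^ 8 := pow_le_pow_right₀ hz1 (by norm_num)
    have h7 : (0 : ℝ) < (zq d : ℝ) ^ 8 := by positivity
    calc 1000 * (zq d : ℝ) ^ 2 * (100 * (zq d : ℝ) ^ 2) = 10 ^ 5 * (zq d : ℝ) ^ 4 := by ring
      _ ≤ 10 ^ 18 * (zq d : ℝ) ^ 8 := by nlinarith
  have hk1 : 1 ≤ F.card := by
    have : (1 : ℝ) ≤ F.card := by nlinarith
    exact_mod_cast this
  have hN : 100 ≤ n * d + 1 := by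
    have h5 : (m : ℝ) ≤ (m : ℝ) ^ 1000 := by
      calc (m : ℝ) = (m : ℝ) ^ 1 := (pow_one _).symm
        _ ≤ (m : ℝ) ^ 1000 := pow_le_pow_right₀ hm1 (by norm_num)
    have h6 : (100 : ℝ) ≤ n := by
      have := hp.hn1
      linarith
    have h7 : 100 ≤ n := by exact_mod_cast h6
    have h8 := hp.hd
    nlinarith
  exact psi_le_of hm hk (LateCst.g_pos (by omega) hk1) (LateCst.le_g_sq hN hk1) h3
    fun b => Vf_nonneg _

end Crest.Agent.R62.LateT
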