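import Crest.Agent.R62.LateCst_Mg
import Crest.Agent.R62.CtxReal
import Crest.Agent.R62.Assembly
import Crest.Agent.R062.MachPar
import Crest.Agent.R62.LateT_Mg
import Crest.Agent.R62.Start_Mg
import Crest.Agent.R62.StepDefs
import Crest.Agent.R62.AvBase
import Crest.Agent.R62.L2P
import Crest.Agent.R62.UpdX
import Crest.Agent.R62.X3Low
import Crest.Agent.R62.TiltK
import Crest.Agent.R62.Expo
import Crest.Agent.R62.Nums

-- ▼ part R62/LatePot
section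

/-!
R62, late phase (helper316): the real state, the late potential as a machine potential, the late
step in the form of `SpecOf.final`.
-/

set_option autoImplicit false
set_option linter.unusedSectionVars false
set_option linter.unusedVariables false
set_option linter.style.multiGoal false
set_option linter.style.show false
open scoped Matrix BigOperators

namespace Crest.Agent.R62.Late

open Crest.Agent.R62.State Crest.Agent.R62.EvalKit Crest.Agent.R062 Crest.Agent.R062.Mach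
open Crest.Agent.R62.SpecOf Crest.Agent.R62.GoodPairs Crest.Agent.R62.AvBase
open Crest.Agent.R62.CtxReal Crest.Agent.R62.AvX1

variable {P : Par} {d n : ℕ} {l : List (ℕ × ℕ)}

/-! ### the context of the real state -/

lemma ge1_of_low {ι : Type*} [Fintype ι] [DecidableEq ι] {K : Matrix ι ι ℝ} {F : Finset ι}
    {s γ : ℝ} (hs : s = 1 ∨ s = -1) (hK : K.IsSymm) (hrow : K *ᵥ ind F = s • ind F)
    (hF : 0 < F.card) (hγ0 : 0 ≤ γ) (hγ1 : γ ≤ 1)
    (hlow : ∀ f : ι → ℝ, ∑ i ∈ F, f i = 0 → -γ * ∑ i ∈ F, f i ^ 2 ≤ f ⬝ᵥ (K *ᵥ f)) :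
    Ge1 K := by
  intro f
  have hk : (0 : ℝ) < F.card := by exact_mod_cast hF
  set k : ℝ := (F.card : ℝ) with hkd
  set c : ℝ := (∑ i ∈ F, f i) / k with hc
  have hck : ∑ i ∈ F, f i = c * k := by rw [hc]; field_simp
  set g : ι → ℝ := f - c • ind F with hg
  have hgF : ∀ i ∈ F, g i = f i - c := by
    intro i hi
    simp [hg, ind, hi]
  have hg0 : ∑ i ∈ F, g i = 0 := by
    rw [Finset.sum_congr rfl hgF, Finset.sum_sub_distrib, hck, Finset.sum_const, nsmul_eq_mul]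
    ring
  have h1 := hlow g hg0
  have hgsq : ∑ i ∈ F, g i ^ 2 = ∑ i ∈ F, f i ^ 2 - c ^ 2 * k := by
    have e : ∀ i ∈ F, g i ^ 2 = f i ^ 2 - 2 * c * f i + c ^ 2 := by
      intro i hi; rw [hgF i hi]; ring
    rw [Finset.sum_congr rfl e, Finset.sum_add_distrib, Finset.sum_sub_distrib, ← Finset.mul_sum,
      hck, Finset.sum_const, nsmul_eq_mul]
    ring
  have hfi : f ⬝ᵥ ind F = c * k := by
    rw [← hck]
    simp only [dotProduct, ind, mul_ite, mul_one, mul_zero]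
    rw [Finset.sum_ite_mem, Finset.univ_inter]
  have hii : ind F ⬝ᵥ ind F = k := by
    rw [hkd]
    simp [dotProduct, ind]
  have hiK : ind F ⬝ᵥ (K *ᵥ f) = s * (c * k) := by
    rw [Upd.dot_mulVec_comm hK, hrow, dotProduct_smul, hfi, smul_eq_mul]
  have hgK : g ⬝ᵥ (K *ᵥ g) = f ⬝ᵥ (K *ᵥ f) - s * c ^ 2 * k := by
    rw [hg, Matrix.mulVec_sub, Matrix.mulVec_smul, hrow, sub_dotProduct, dotProduct_sub,
      dotProduct_sub, smul_dotProduct, dotProduct_smul, dotProduct_smul, hfi, hiK,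
      smul_dotProduct, dotProduct_smul, dotProduct_smul, hii]
    simp only [smul_eq_mul]
    ring
  have hff : ∑ i ∈ F, f i ^ 2 ≤ f ⬝ᵥ f := by
    simp only [dotProduct, ← pow_two]
    exact Finset.sum_le_sum_of_subset_of_nonneg (Finset.subset_univ _) fun i _ _ => sq_nonneg _
  have hg2 : 0 ≤ ∑ i ∈ F, g i ^ 2 := Finset.sum_nonneg fun i _ => sq_nonneg _
  rw [hgK, hgsq] at h1
  rw [hgsq] at hg2
  have h2 : γ * (∑ i ∈ F, f i ^ 2 - c ^ 2 * k) ≤ 1 * (∑ i ∈ F, f i ^ 2 - c ^ 2 * k) :=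
    mul_le_mul_of_nonneg_right hγ1 hg2
  have h3 : -(c ^ 2 * k) ≤ s * c ^ 2 * k := by
    have h4 : 0 ≤ c ^ 2 * k := mul_nonneg (sq_nonneg c) hk.le
    rcases hs with rfl | rfl <;> linarith
  linarith

lemma card_pos (h : Lst P d n l) : 0 < (Fs n d l).card := by
  have h1 := h.card
  have h2 := h.len
  omega

lemma Lst.ge1 (h : Lst P d n l) (b : Bool) : Ge1 (KR P d n b l) := by
  have h0 := h.γ0
  have h1 := h.γ1
  exact ge1_of_low (sg_eq b) (Kmat_symm (P.gam.v n) (sg b) (P.mu.v n) n d l) (h.row b) (card_pos h)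
    h0.le (by nlinarith) (h.low b)

open Classical in
/-- the late context of the real state -/
theorem lctx (h : Lst P d n l) :
    LCtx (d : ℝ) (Fs n d l) (fun b => KR P d n b l) (Sg P d n l) := by
  have hd : 0 < d := by have := h.hd; omega
  have hrow : ∀ x ∈ Fs n d l,
      ((((Fs n d l).filter fun y => (x, y) ∉ Sg P d n l).card : ℕ) : ℝ) ≤ (d + 1) * d
        + ∑ b : Bool, (25 * (KR P d n b l ^ 2) x x
          + 100 * (KR P d n b l x x ^ 2 * Vf (KR P d n b l))) := by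
    intro x hx
    have h1 := card_bad_row (P := P) hd h.valid x hx
    have e : ((Fs n d l).filter fun y => (x, y) ∉ Sg P d n l)
        = ((Fs n d l).filter fun y => ¬ Gp P d n l x y) :=
      Finset.filter_congr fun y _ => by rw [mem_Sg]
    rw [e, Fintype.sum_bool]
    unfold Vf
    linarith
  exact {
    symm := fun b => Kmat_symm (P.gam.v n) (sg b) (P.mu.v n) n d l
    dead := fun b i j hi => KR_dead (Or.inl hi)
    row := fun b => h.row b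
    ge := fun b => Lst.ge1 h b
    sub := Sg_subset P d n l
    good := fun b p hp => by
      have h1 := mem_Sg.mp hp
      exact ⟨fun e => adm_ne h1.1 (congrArg Fin.val e), (h1.2.1 b).trans (by norm_num),
        (h1.2.2 b).trans (by norm_num)⟩
    bad := by
      have h1 := card_bad (P := P) (n := n) (l := l) hd h.valid
      rw [Fintype.sum_bool]
      unfold Vf
      convert h1.trans (le_of_eq _) using 3
      ring
    rowL := fun x hx => by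
      convert hrow x hx
    rowR := fun y hy => by
      have h1 := hrow y hy
      have e : ((Fs n d l).filter fun x => (x, y) ∉ Sg P d n l)
          = ((Fs n d l).filter fun x => (y, x) ∉ Sg P d n l) :=
        Finset.filter_congr fun x _ => by
          rw [mem_Sg, mem_Sg]
          exact not_congr ⟨fun h => h.symm, fun h => h.symm⟩
      rw [← e] at h1
      convert h1 }

/-- one late step of the real state -/
theorem real_step (h : Lst P d n l) {z g g' : ℝ} (hz : 10 ^ 13 * ((d : ℝ) + 1) ^ 3 ≤ z)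
    (hk : z ^ 2 ≤ ((Fs n d l).card : ℝ)) (hg' : 0 < g') (hgg : g' ≤ g)
    (hg : g ≤ g' * (1 + 3 / (2 * ((Fs n d l).card : ℝ)))) (hgk : g ^ 2 ≤ ((Fs n d l).card : ℝ))
    (hkg : ((Fs n d l).card : ℝ) ≤ g ^ 2 * (1 + 1 / 1000))
    (hP : Psi z (1 / (10 ^ 4 * ((d : ℝ) + 1))) (Fs n d l).card g (fun b => KR P d n b l) ≤ 1) :
    ∃ x y : Fin (n * d), Gp P d n l x y ∧
      Psi z (1 / (10 ^ 4 * ((d : ℝ) + 1))) ((Fs n d l).card - 2) g'
        (fun b => KR P d n b (((x : ℕ), (y : ℕ)) :: l)) ≤ 1 - 1 / (4 * ((Fs n d l).card : ℝ)) := by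
  classical
  have hd3 : (3 : ℝ) ≤ d := by exact_mod_cast h.hd
  have hL := lctx h
  have hstep := late_step (b := (d : ℝ) + 1) hL rfl (by linarith) hz rfl hk hg' hgg hg hgk hkg hP
  have hne : (Sg P d n l).Nonempty := by
    have hk0 : (0 : ℝ) < (Fs n d l).card := by exact_mod_cast card_pos h
    have hg0 : 0 < g := by linarith
    obtain ⟨u, h2, -⟩ := lbd_of (b := (d : ℝ) + 1) hL (by linarith) hz rfl hk hg0 hgk hP
    have h3 := (ctx_of hL h2 rfl true).bad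
    rw [mul_pow, ← h2.card] at h3
    by_contra hcon
    rw [Finset.not_nonempty_iff_eq_empty] at hcon
    rw [hcon, Finset.sdiff_empty, Finset.card_product] at h3
    push_cast at h3
    have h4 : ((d : ℝ) + 1) ^ 2 < (Fs n d l).card := by
      refine lt_of_lt_of_le ?_ hk
      have h5 : (1 : ℝ) ≤ (d : ℝ) + 1 := by linarith
      have h6 : ((d : ℝ) + 1) ^ 1 ≤ ((d : ℝ) + 1) ^ 3 := pow_le_pow_right₀ h5 (by norm_num)
      have h7 : (d : ℝ) + 1 < z := by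
        rw [pow_one] at h6
        nlinarith
      nlinarith
    nlinarith
  obtain ⟨p, hp, h1⟩ := exists_of_avg (Sg P d n l) hne (fun _ => 1)
    (fun p => Psi z (1 / (10 ^ 4 * ((d : ℝ) + 1))) ((Fs n d l).card - 2) g'
      (fun c => Upd.upd (Mach.sg c : ℝ) (KR P d n c l) p.1 p.2))
    (1 - 1 / (4 * ((Fs n d l).card : ℝ))) (fun _ _ => one_pos) (by
      simp only [one_mul, Finset.sum_const, nsmul_eq_mul, mul_one]
      linarith)
  refine ⟨p.1, p.2, mem_Sg.mp hp, ?_⟩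
  have e : (fun b => KR P d n b (((p.1 : ℕ), (p.2 : ℕ)) :: l))
      = fun c => Upd.upd (Mach.sg c : ℝ) (KR P d n c l) p.1 p.2 := by
    funext c
    exact Kmat_cons _ _ _ n d l p.1 p.2
  rw [e]
  exact h1

/-! ### the late potential as a machine potential -/

/-- one sign -/
noncomputable def psiB (P : Par) (d z : ℕ) (b : Bool) : Pot P d :=
  Pot.add (Pot.add
    (Pot.smul (Cst.mul (Cst.const ((z : ℚ) ^ 2)) (Cst.invFree d)) (Pot.sub (Pot.x 2 b) (Pot.int 1)))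
    (Pot.smul (Cst.mul (Cst.const ((z : ℚ) ^ 2)) (Cst.invFree d))
      (Pot.sq (Pot.sub (Pot.x 1 b) (Pot.int (if b then 1 else -1))))))
    (Pot.smul (Cst.mul (Cst.const ((z : ℚ) * (10 ^ 4 * ((d : ℚ) + 1)) ^ 2)) (Cst.ginv d)) (Pot.v b))

/-- **the late potential**; the constraint of the late phase is `psi3 ≤ 1` -/
noncomputable def psi3 (P : Par) (d z : ℕ) : Pot P d := Pot.add (psiB P d z true) (psiB P d z false)

lemma sg_cast (b : Bool) : ((if b then 1 else -1 : ℤ) : ℝ) = Mach.sg b := by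
  cases b <;> simp [Mach.sg]

/-- `g` at the list `l` -/
noncomputable def gl (n d : ℕ) (l : List (ℕ × ℕ)) : ℝ :=
  LateCst.g (n * d + 1) (n * d - 2 * l.length)

lemma psiB_val (z : ℕ) (b : Bool) (l : List (ℕ × ℕ)) :
    (psiB P d z b).val n l
      = (z : ℝ) ^ 2 * ((KR P d n b l ^ 2).trace - 1) / ((n : ℝ) * d - 2 * l.length)
        + (z : ℝ) ^ 2 * ((KR P d n b l).trace - Mach.sg b) ^ 2 / ((n : ℝ) * d - 2 * l.length)
        + (z : ℝ) * Vf (KR P d n b l) / ((1 / (10 ^ 4 * ((d : ℝ) + 1))) ^ 2 * gl n d l) := by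
  have e1 : (psiB P d z b).val n l
      = (((Cst.mul (Cst.const ((z : ℚ) ^ 2)) (Cst.invFree d)).f n l.length : ℚ) : ℝ)
          * (Matrix.trace (KR P d n b l ^ 2) - ((1 : ℤ) : ℝ))
        + (((Cst.mul (Cst.const ((z : ℚ) ^ 2)) (Cst.invFree d)).f n l.length : ℚ) : ℝ)
          * (Matrix.trace (KR P d n b l ^ 1) - ((if b then 1 else -1 : ℤ) : ℝ)) ^ 2
        + (((Cst.mul (Cst.const ((z : ℚ) * (10 ^ 4 * ((d : ℚ) + 1)) ^ 2))
            (Cst.ginv d)).f n l.length : ℚ) : ℝ) * (∑ z, (KR P d n b l z z) ^ 2) := rfl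
  rw [e1, Cst.mul_f, Cst.mul_f, Cst.const_f, Cst.const_f, Cst.invFree_f, Rat.cast_mul,
    Rat.cast_mul, Cst.ginv_f, sg_cast, pow_one]
  push_cast
  have hd : ((d : ℝ) + 1) ≠ 0 := by positivity
  unfold gl Vf
  rw [div_eq_mul_inv _ ((1 / (10 ^ 4 * ((d : ℝ) + 1))) ^ 2 * LateCst.g (n * d + 1)
    (n * d - 2 * l.length)), mul_inv, one_div, inv_pow, inv_inv]
  ring

/-- the value of the late potential -/
theorem psi3_val (z : ℕ) (l : List (ℕ × ℕ)) :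
    (psi3 P d z).val n l = Psi (z : ℝ) (1 / (10 ^ 4 * ((d : ℝ) + 1)))
      ((n : ℝ) * d - 2 * l.length) (gl n d l) (fun b => KR P d n b l) := by
  have e1 : (psi3 P d z).val n l = (psiB P d z true).val n l + (psiB P d z false).val n l := rfl
  rw [e1, psiB_val, psiB_val]
  unfold Psi
  rw [Fintype.sum_bool]

lemma card_real (h : Lst P d n l) : ((Fs n d l).card : ℝ) = (n : ℝ) * d - 2 * l.length := by
  have h1 := h.card
  have : (((Fs n d l).card + 2 * l.length : ℕ) : ℝ) = ((n * d : ℕ) : ℝ) := by rw [h1]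
  push_cast at this
  linarith

/-- **the late step** -/
theorem psi3_step (h : Lst P d n l) {z : ℕ} (hz : 10 ^ 13 * (d + 1) ^ 3 ≤ z)
    (hk : z ^ 2 + 2 * l.length ≤ n * d) (hP : (psi3 P d z).val n l ≤ 1) :
    ∃ x y : Fin (n * d), Gp P d n l x y ∧
      (psi3 P d z).val n (((x : ℕ), (y : ℕ)) :: l)
        ≤ 1 - 1 / (4 * ((n : ℝ) * d - 2 * l.length)) := by
  have hc := card_real h
  have hcn : (Fs n d l).card = n * d - 2 * l.length := by have := h.card; omega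
  have hz13 : 1000 ≤ z := by
    refine le_trans ?_ hz
    have h1 : 1 ≤ (d + 1) ^ 3 := Nat.one_le_pow _ _ (by omega)
    calc 1000 ≤ 10 ^ 13 * 1 := by norm_num
      _ ≤ 10 ^ 13 * (d + 1) ^ 3 := Nat.mul_le_mul_left _ h1
  have hzz : 1000 ≤ z ^ 2 := by nlinarith
  have hbig : 1000 ≤ n * d - 2 * l.length := by omega
  rw [psi3_val, ← hc] at hP
  have hgl : gl n d l = LateCst.g (n * d + 1) (Fs n d l).card := by rw [hcn]; rfl
  have hgl' : ∀ p : ℕ × ℕ, gl n d (p :: l) = LateCst.g (n * d + 1) ((Fs n d l).card - 2) := by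
    intro p
    unfold gl
    rw [hcn, List.length_cons]
    congr 1
  have hN0 : 0 < n * d + 1 := by omega
  have hgpos : 0 < LateCst.g (n * d + 1) ((Fs n d l).card - 2) :=
    LateCst.g_pos hN0 (by omega)
  obtain ⟨x, y, hg, h1⟩ := real_step h (z := (z : ℝ)) (g := gl n d l)
    (g' := LateCst.g (n * d + 1) ((Fs n d l).card - 2)) (by exact_mod_cast hz)
    (by
      have : z ^ 2 ≤ (Fs n d l).card := by omega
      exact_mod_cast this) hgpos (by rw [hgl]; exact LateCst.g_mono _ (by omega))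
    (by rw [hgl]; exact LateCst.g_le_g_sub (by omega) (by omega))
    (by rw [hgl]; exact LateCst.g_sq_le hN0 _)
    (by rw [hgl]; exact LateCst.le_g_sq (by omega) (by omega)) hP
  refine ⟨x, y, hg, ?_⟩
  rw [psi3_val, hgl', ← hc, List.length_cons]
  have e : (n : ℝ) * d - 2 * ((l.length + 1 : ℕ) : ℝ) = (Fs n d l).card - 2 := by
    rw [hc]; push_cast; ring
  rw [e]
  exact h1

/-- bound of `Tr K²` in the late phase -/
theorem psi3_X2 (h : Lst P d n l) {z : ℕ} (hz : 0 < z) (hP : (psi3 P d z).val n l ≤ 1)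
    (b : Bool) :
    (KR P d n b l ^ 2).trace ≤ 1 + ((n : ℝ) * d - 2 * l.length) / (z : ℝ) ^ 2 := by
  have hc := card_real h
  have hcn : (Fs n d l).card = n * d - 2 * l.length := by have := h.card; omega
  have hF := card_pos h
  have hk0 : (0 : ℝ) < (Fs n d l).card := by exact_mod_cast hF
  rw [psi3_val, ← hc] at hP
  have hg : 0 < gl n d l := by
    unfold gl
    exact LateCst.g_pos (by omega) (by rw [← hcn]; omega)
  have hz0 : (0 : ℝ) < z := by exact_mod_cast hz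
  have h1 := (part_le (θ := 1 / (10 ^ 4 * ((d : ℝ) + 1))) hz0 hk0 hg hF (lctx h) hP b).1
  rw [div_le_one hk0] at h1
  rw [← hc]
  have : (KR P d n b l ^ 2).trace - 1 ≤ (Fs n d l).card / (z : ℝ) ^ 2 := by
    rw [le_div_iff₀ (by positivity)]; linarith
  linarith

/-- the end of the late phase -/
theorem psi3_end (h : Lst P d n l) {z : ℕ} (hz : 0 < z) (hk : n * d < z ^ 2 + 2 * l.length)
    (hP : (psi3 P d z).val n l ≤ 1) (b : Bool) : (KR P d n b l ^ 2).trace < 2 := by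
  have h1 := psi3_X2 h hz hP b
  have hz0 : (0 : ℝ) < (z : ℝ) ^ 2 := by positivity
  have h2 : ((n : ℝ) * d - 2 * l.length) / (z : ℝ) ^ 2 < 1 := by
    rw [div_lt_one hz0]
    have : ((n * d : ℕ) : ℝ) < ((z ^ 2 + 2 * l.length : ℕ) : ℝ) := by exact_mod_cast hk
    push_cast at this
    linarith
  linarith

end Crest.Agent.R62.Late
end

-- ▼ part R062/MachFinal
section

/-!
# R62: from a specification to the statement S0084
-/

set_option autoImplicit false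

namespace Crest.Agent.R062.MachFinal

open Crest.Agent.R062.Mach
open scoped Matrix

open Classical in
/-- The statement S0084 for `d` from a specification with the parameters `parOf d hd δ` and the
end condition. -/
theorem final {d : ℕ} (hd : 3 ≤ d) (S : Spec d) (δ : Delta) (hP : S.P = parOf d hd δ) (n1 : ℕ)
    (hδ : ∀ n, n1 ≤ n → Even n → δ.f n < 1)
    (hT : ∀ n, n1 ≤ n → Even n → 2 * S.T n + EndComplete.thr d ≤ n * d + 1)
    (hend : ∀ n, n1 ≤ n → Even n → ∀ l, Good S.P d n S.cs l → l.length = S.T n →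
      ∀ b : Bool, ∑ i ∈ Finset.range (n * d), ∑ j ∈ Finset.range (n * d),
        S.P.K d n b l i j ^ 2 < 2) :
    ∃ n₀ : ℕ, ∃ F : List Bool → List Bool, Crest.Complexity.PolyTime F ∧
      ∀ n : ℕ, n₀ ≤ n → Even n →
        (Crest.CombinatoricsR.GraphCode.adjGraph n
            (F (Crest.CombinatoricsR.GraphCode.unary n))).IsRegularOfDegree d ∧
        ∀ x : Fin n → ℝ, ∑ i, x i = 0 → x ≠ 0 →
          |x ⬝ᵥ ((Crest.CombinatoricsR.GraphCode.adjGraph n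
              (F (Crest.CombinatoricsR.GraphCode.unary n))).adjMatrix ℝ *ᵥ x)| <
            2 * Real.sqrt ((d : ℝ) - 1) * (x ⬝ᵥ x) := by
  obtain ⟨sel, h1, h2⟩ := machine S (by omega)
  refine R62.Glue.glue hd S n1 ⟨S.n0, sel, h1, h2⟩ ?_ ?_ hT hend
  · intro n hn he
    rw [hP]
    exact parOf_ok hd δ n (hδ n hn he)
  · intro n hn he
    rw [hP]
    exact parOf_mu d hd δ n

end Crest.Agent.R062.MachFinal
end

-- ▼ part R62/MainPot
section

/-!
R62: the potential of the whole process, the step of the process, and S0084 from the pieces.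
-/

set_option autoImplicit false
set_option linter.unusedSectionVars false
set_option linter.unusedVariables false
open scoped Matrix BigOperators

namespace Crest.Agent.R62.MainPot

open Crest.Agent.R62.State Crest.Agent.R62.EvalKit Crest.Agent.R062 Crest.Agent.R062.Mach
open Crest.Agent.R62.SpecOf Crest.Agent.R62.GoodPairs Crest.Agent.R62.AvBase
open Crest.Agent.R62.Weights Crest.Agent.R62.Step Crest.Agent.R62.AvX1
open Crest.Agent.R62.CtxReal Crest.Agent.R62.MainCst Crest.Agent.R62.Assembly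
open Crest.Agent.Lib.PT

/-! ### the potential -/

/-- `x0 r1` -/
def x0r (d : ℕ) : Cst := Cst.mul (Cst.const (1 / (100 * (LateT.zq d : ℚ) ^ 2))) (r1C d)

lemma x0r_real (d n t : ℕ) : (((x0r d).f n t : ℚ) : ℝ) = LateT.x0q d * r1 d n (mm n) := by
  unfold x0r LateT.x0q
  rw [Cst.mul_f, Cst.const_f, Rat.cast_mul, r1C_real]
  push_cast
  rfl

/-- the barrier `1/2 + 39 H / m²` -/
noncomputable def bar (P : Par) (d : ℕ) : Pot P d :=
  Pot.add (Pot.ofCst (Cst.const (1 / 2))) (Pot.smul (Cst.mul (Cst.const 39) (mI 2)) harm)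

/-- the barrier -/
noncomputable def barR (d n t : ℕ) : ℝ := 1 / 2 + 39 / (mm n : ℝ) ^ 2 * ((Hq d n t : ℚ) : ℝ)

lemma bar_val {P : Par} {d : ℕ} (n : ℕ) (l : List (ℕ × ℕ)) :
    (bar P d).val n l = barR d n l.length := by
  have e : (bar P d).val n l = (((Cst.const (1 / 2)).f n l.length : ℚ) : ℝ)
      + (((Cst.mul (Cst.const 39) (mI 2)).f n l.length : ℚ) : ℝ) * ((Hq d n l.length : ℚ) : ℝ) :=
    rfl
  rw [e, Cst.const_f, Cst.mul_f, Cst.const_f, mI_f]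
  unfold barR
  push_cast
  rw [div_eq_mul_inv (39 : ℝ)]

/-- the potential of the whole process -/
noncomputable def main (P : Par) (d : ℕ) : Pot P d :=
  Pot.switchC (mP 800) (rhoC d) (Pot.sub (pPhi1 P d) (bar P d))
    (Pot.switchC (x0r d) (rhoC d) (Pot.sub (pPhi2 P d) (bar P d))
      (Pot.sub (Late.psi3 P d (LateT.zq d)) (Pot.int 1)))

section
variable {P : Par} {d n : ℕ} {l : List (ℕ × ℕ)}

lemma cond1 (h : (Fs n d l).card + 2 * l.length = n * d) :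
    ((mP 800).f n l.length ≤ (rhoC d).f n l.length) ↔
      ((mm n : ℝ) ^ 800 ≤ ((Fs n d l).card : ℝ)) := by
  rw [rho_real h, mP_f, rhoC_f]
  constructor
  · intro h1
    have h2 := (Rat.cast_le (K := ℝ)).2 h1
    push_cast at h2
    exact h2
  · intro h1
    rw [← Rat.cast_le (K := ℝ)]
    push_cast
    exact h1

lemma cond2 (h : (Fs n d l).card + 2 * l.length = n * d) :
    ((x0r d).f n l.length ≤ (rhoC d).f n l.length) ↔
      (LateT.x0q d * r1 d n (mm n) ≤ ((Fs n d l).card : ℝ)) := by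
  rw [rho_real h, ← x0r_real d n l.length, ← Rat.cast_le (K := ℝ), rhoC_f]
  push_cast
  exact Iff.rfl

lemma main_val1 (h : (Fs n d l).card + 2 * l.length = n * d)
    (h1 : (mm n : ℝ) ^ 800 ≤ ((Fs n d l).card : ℝ)) :
    (main P d).val n l = Phi1R P d n (mm n) l - barR d n l.length := by
  unfold main
  rw [Pot.switchC_val, if_pos ((cond1 h).2 h1)]
  change (pPhi1 P d).val n l - (bar P d).val n l = _
  rw [pPhi1_val h, bar_val]

lemma main_val2 (h : (Fs n d l).card + 2 * l.length = n * d) (hm : mm n ≠ 0)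
    (h1 : ¬ (mm n : ℝ) ^ 800 ≤ ((Fs n d l).card : ℝ))
    (h2 : LateT.x0q d * r1 d n (mm n) ≤ ((Fs n d l).card : ℝ)) :
    (main P d).val n l = Phi2R P d n (mm n) l - barR d n l.length := by
  unfold main
  rw [Pot.switchC_val, if_neg (fun h' => h1 ((cond1 h).1 h')), Pot.switchC_val,
    if_pos ((cond2 h).2 h2)]
  change (pPhi2 P d).val n l - (bar P d).val n l = _
  rw [pPhi2_val h hm, bar_val]

lemma main_val3 (h : (Fs n d l).card + 2 * l.length = n * d)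
    (h1 : ¬ (mm n : ℝ) ^ 800 ≤ ((Fs n d l).card : ℝ))
    (h2 : ¬ LateT.x0q d * r1 d n (mm n) ≤ ((Fs n d l).card : ℝ)) :
    (main P d).val n l = (Late.psi3 P d (LateT.zq d)).val n l - 1 := by
  unfold main
  rw [Pot.switchC_val, if_neg (fun h' => h1 ((cond1 h).1 h')), Pot.switchC_val,
    if_neg (fun h' => h2 ((cond2 h).1 h'))]
  change (Late.psi3 P d (LateT.zq d)).val n l - ((1 : ℤ) : ℝ) = _
  push_cast
  rfl

lemma barR_succ (h : (Fs n d l).card + 2 * l.length = n * d) :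
    barR d n (l.length + 1) = barR d n l.length
      + 39 / ((mm n : ℝ) ^ 2 * ((Fs n d l).card : ℝ)) := by
  unfold barR
  have e : n * d - 2 * l.length = (Fs n d l).card := by omega
  rw [Hq_succ, e]
  push_cast
  rw [mul_add, ← add_assoc, div_mul_div_comm, mul_one]

end

/-! ### numerics -/

/-- everything that is needed about `n` -/
structure Big (d n : ℕ) : Prop where
  prm : Prm d n (mm n)
  hz : (10 : ℝ) ^ 18 * (LateT.zq d : ℝ) ^ 8 ≤ (mm n : ℝ)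
  log : 1 + Real.log ((n * d : ℕ) : ℝ) ≤ (mm n : ℝ)

theorem big_ev (d : ℕ) (hd : 3 ≤ d) : ∃ n0 : ℕ, 0 < n0 ∧ ∀ n, n0 ≤ n → Big d n := by
  obtain ⟨M1, hM1⟩ := Filter.eventually_atTop.1 (Barrier.ev_log_small d 1000 1 one_pos)
  obtain ⟨n0, h0, hn0⟩ := prm_ev d hd (max M1 (10 ^ 18 * LateT.zq d ^ 8))
  refine ⟨n0, h0, fun n hn => ?_⟩
  obtain ⟨h1, h2⟩ := hn0 n hn
  have hm1 : (1 : ℝ) ≤ (mm n : ℝ) := Box.one_le_m h1
  have hm0 : (0 : ℝ) < (mm n : ℝ) := by linarith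
  refine ⟨h1, ?_, ?_⟩
  · exact_mod_cast (le_max_right _ _).trans h2
  · have h3 := hM1 (mm n) ((le_max_left _ _).trans h2)
    rw [div_le_iff₀ hm0, one_mul] at h3
    refine le_trans ?_ h3
    have hn : (0 : ℝ) < n := Box.n_pos h1
    have hd0 : (0 : ℝ) < d := by have : 0 < d := by omega
                                 exact_mod_cast this
    have h4 : (n : ℝ) ≤ ((mm n : ℝ) + 1) ^ 1000 := (Barrier.nthRoot_bounds (by norm_num) n).2.le
    have h5 : (((n * d : ℕ)) : ℝ) ≤ (d : ℝ) * ((mm n : ℝ) + 1) ^ 1000 := by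
      push_cast
      rw [mul_comm]
      exact mul_le_mul_of_nonneg_left h4 hd0.le
    have h6 : (0 : ℝ) < ((n * d : ℕ) : ℝ) := by push_cast; positivity
    have := Real.log_le_log h6 h5
    linarith

namespace Big

variable {d n : ℕ}

lemma m1 (h : Big d n) : (1 : ℝ) ≤ (mm n : ℝ) := Box.one_le_m h.prm
lemma m0 (h : Big d n) : (0 : ℝ) < (mm n : ℝ) := Box.m_pos h.prm
lemma mg (h : Big d n) : (10 : ℝ) ^ 10 ≤ (mm n : ℝ) := Box.m_ge h.prm
lemma mne (h : Big d n) : mm n ≠ 0 := by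
  have := h.m0
  intro e
  rw [e] at this
  simp at this

lemma r1_le (h : Big d n) : r1 d n (mm n) ≤ (mm n : ℝ) ^ 681 := Box.r1_le' h.prm
lemma r1_ge (h : Big d n) : (mm n : ℝ) ^ 680 ≤ r1 d n (mm n) := Box.r1_ge' h.prm

lemma npos (h : Big d n) : 0 < n := by
  have := Box.n_pos h.prm
  exact_mod_cast this

/-- `m ≤ n` -/
lemma m_le_n (h : Big d n) : (mm n : ℝ) ≤ n := by
  have h1 := h.prm.hn1
  have h2 : (mm n : ℝ) ^ 1 ≤ (mm n : ℝ) ^ 1000 := pow_le_pow_right₀ h.m1 (by norm_num)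
  rw [pow_one] at h2
  exact h2.trans h1

/-- `d ≤ m` -/
lemma d_le_m (h : Big d n) : (d : ℝ) ≤ (mm n : ℝ) := by
  have h1 := Box.d_pow_le_m h.prm 1 (by norm_num)
  rw [pow_one] at h1
  have h2 : (0 : ℝ) ≤ d := Nat.cast_nonneg d
  nlinarith

lemma d_le_n (h : Big d n) : (d : ℝ) ≤ n := h.d_le_m.trans h.m_le_n

/-- `x0 r1 + 2 ≤ m^800` -/
lemma x0r_le (h : Big d n) : LateT.x0q d * r1 d n (mm n) + 2 ≤ (mm n : ℝ) ^ 800 := by
  have h0 : 0 < r1 d n (mm n) := Box.r1_pos h.prm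
  have h1 : LateT.x0q d * r1 d n (mm n) ≤ r1 d n (mm n) :=
    mul_le_of_le_one_left h0.le (LateT.x0q_le_one d)
  have h2 := h.r1_le
  have h3 : (mm n : ℝ) ^ 800 = (mm n : ℝ) ^ 681 * (mm n : ℝ) ^ 119 := by
    rw [← pow_add]
  have h4 : (1 : ℝ) ≤ (mm n : ℝ) ^ 681 := one_le_pow₀ h.m1
  have h5 : (mm n : ℝ) ^ 1 ≤ (mm n : ℝ) ^ 119 := pow_le_pow_right₀ h.m1 (by norm_num)
  rw [pow_one] at h5
  have h6 : (3 : ℝ) ≤ (mm n : ℝ) ^ 119 := by
    have := h.mg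
    have h7 : (3 : ℝ) ≤ 10 ^ 10 := by norm_num
    linarith
  rw [h3]
  nlinarith

/-- `z² ≤ x0 r1` -/
lemma z_le (h : Big d n) : (LateT.zq d : ℝ) ^ 2 ≤ LateT.x0q d * r1 d n (mm n) := by
  have hz := LateT.zq_real_pos d
  have hz1 : (1 : ℝ) ≤ LateT.zq d := by
    have := LateT.zq_real_ge d
    linarith [show (1 : ℝ) ≤ 10 ^ 13 by norm_num]
  have h2 : (mm n : ℝ) ^ 1 ≤ (mm n : ℝ) ^ 680 := pow_le_pow_right₀ h.m1 (by norm_num)
  rw [pow_one] at h2
  have h3 : (mm n : ℝ) ≤ r1 d n (mm n) := h2.trans h.r1_ge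
  have h4 := h.hz
  unfold LateT.x0q
  rw [div_mul_eq_mul_div, one_mul, le_div_iff₀ (by positivity)]
  refine le_trans ?_ (h4.trans h3)
  have h5 : (LateT.zq d : ℝ) ^ 4 ≤ (LateT.zq d : ℝ) ^ 8 := pow_le_pow_right₀ hz1 (by norm_num)
  have h6 : (0 : ℝ) < (LateT.zq d : ℝ) ^ 8 := by positivity
  calc (LateT.zq d : ℝ) ^ 2 * (100 * (LateT.zq d : ℝ) ^ 2) = 100 * (LateT.zq d : ℝ) ^ 4 := by ring
    _ ≤ 100 * (LateT.zq d : ℝ) ^ 8 := by linarith
    _ ≤ 10 ^ 18 * (LateT.zq d : ℝ) ^ 8 := by nlinarith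

lemma z2_le_nd (h : Big d n) : (LateT.zq d : ℝ) ^ 2 ≤ (n : ℝ) * d := by
  have h1 := h.z_le
  have h2 := h.x0r_le
  have h3 : (mm n : ℝ) ^ 800 ≤ (mm n : ℝ) ^ 1000 := pow_le_pow_right₀ h.m1 (by norm_num)
  have h4 := h.prm.hn1
  have h5 : (3 : ℝ) ≤ d := Box.d3 h.prm
  have h6 : (0 : ℝ) < n := Box.n_pos h.prm
  nlinarith

lemma Mq_le (h : Big d n) : LateT.Mq d ≤ n * d := by
  have h1 := h.z2_le_nd
  rw [← LateT.Mq_cast] at h1
  exact_mod_cast h1

/-- `m^800 ≤ n d` -/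
lemma m800_le (h : Big d n) : (mm n : ℝ) ^ 800 ≤ (n : ℝ) * d := by
  have h3 : (mm n : ℝ) ^ 800 ≤ (mm n : ℝ) ^ 1000 := pow_le_pow_right₀ h.m1 (by norm_num)
  have h4 := h.prm.hn1
  have h5 : (3 : ℝ) ≤ d := Box.d3 h.prm
  have h6 : (0 : ℝ) < n := Box.n_pos h.prm
  nlinarith

/-- the barrier is at most `1` -/
lemma bar_le (h : Big d n) {t : ℕ} (ht : 2 * t ≤ n * d) : barR d n t ≤ 1 := by
  have h1 := (Hq_log ht).trans h.log
  have h2 := h.m0
  have h3 := h.mg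
  unfold barR
  have h4 : 39 / (mm n : ℝ) ^ 2 * ((Hq d n t : ℚ) : ℝ) ≤ 39 / (mm n : ℝ) ^ 2 * (mm n : ℝ) :=
    mul_le_mul_of_nonneg_left h1 (by positivity)
  have h5 : 39 / (mm n : ℝ) ^ 2 * (mm n : ℝ) = 39 / (mm n : ℝ) := by
    field_simp
  have h6 : 39 / (mm n : ℝ) ≤ 1 / 2 := by
    rw [div_le_div_iff₀ h2 (by norm_num)]
    have : (78 : ℝ) ≤ 10 ^ 10 := by norm_num
    linarith
  linarith

lemma bar_ge (t : ℕ) : 1 / 2 ≤ barR d n t := by
  unfold barR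
  have h1 : (0 : ℝ) ≤ ((Hq d n t : ℚ) : ℝ) := by exact_mod_cast Hq_nonneg d n t
  have h2 : 0 ≤ 39 / (mm n : ℝ) ^ 2 * ((Hq d n t : ℚ) : ℝ) := by positivity
  linarith

lemma bar_zero : barR d n 0 = 1 / 2 := by
  unfold barR
  simp [Hq]

/-- the margin -/
lemma margin (h : Big d n) {ρ : ℝ} (h0 : 0 < ρ) (h1 : ρ ≤ (n : ℝ) * d) :
    1 / ((n : ℝ) + 2) ^ 4 ≤ 1 / ((mm n : ℝ) ^ 2 * ρ) ∧ 1 / ((n : ℝ) + 2) ^ 4 ≤ 1 / (4 * ρ) := by
  have hm0 := h.m0
  have hmn := h.m_le_n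
  have hdn := h.d_le_n
  have hn : (0 : ℝ) < n := Box.n_pos h.prm
  have hd0 : (0 : ℝ) ≤ d := Nat.cast_nonneg d
  have h2 : ρ ≤ (n : ℝ) ^ 2 := by nlinarith
  have h3 : (mm n : ℝ) ^ 2 ≤ (n : ℝ) ^ 2 := pow_le_pow_left₀ hm0.le hmn 2
  have h4 : (4 : ℝ) ≤ (n : ℝ) ^ 2 := by
    have := h.mg
    have h5 : (2 : ℝ) ≤ 10 ^ 10 := by norm_num
    nlinarith
  have h5 : (n : ℝ) ^ 4 ≤ ((n : ℝ) + 2) ^ 4 := pow_le_pow_left₀ hn.le (by linarith) 4
  have h6 : (n : ℝ) ^ 4 = (n : ℝ) ^ 2 * (n : ℝ) ^ 2 := by ring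
  constructor
  · refine one_div_le_one_div_of_le (by positivity) ?_
    refine le_trans ?_ h5
    rw [h6]
    exact mul_le_mul h3 h2 h0.le (by positivity)
  · refine one_div_le_one_div_of_le (by positivity) ?_
    refine le_trans ?_ h5
    rw [h6]
    exact mul_le_mul h4 h2 h0.le (by positivity)

end Big

/-! ### the process -/

/-- the parameter `δ = m ^ (-320)` -/
def dl : Delta := Delta.root 1000 (by norm_num) 320

/-- the parameters of the process -/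
noncomputable def PP (d : ℕ) (hd : 3 ≤ d) : Par := parOf d hd dl

lemma dl_f (n : ℕ) : dl.f n = ((mm n : ℚ) ^ 320)⁻¹ := rfl

lemma dl_lt {d n : ℕ} (h : Big d n) : dl.f n < 1 := by
  rw [dl_f]
  have h1 : (1 : ℚ) < (mm n : ℚ) := by
    have h2 := h.mg
    have h3 : (1 : ℝ) < (mm n : ℝ) := by linarith [show (1 : ℝ) < 10 ^ 10 by norm_num]
    exact_mod_cast h3
  exact inv_lt_one_of_one_lt₀ (one_lt_pow₀ h1 (by norm_num))

lemma gam_sq {d : ℕ} (hd : 3 ≤ d) (n : ℕ) : (PP d hd).gam.v n ^ 2 ≤ 1 / 2 := by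
  unfold PP
  rw [parOf_gam]
  unfold Start.gam
  have h0 : (0 : ℝ) ≤ dl.f n := by exact_mod_cast dl.nonneg n
  have h1 : (dl.f n : ℝ) ≤ 1 := by exact_mod_cast dl.le_one n
  have hd' : (3 : ℝ) ≤ d := by exact_mod_cast hd
  have hs2 : Real.sqrt ((d : ℝ) - 1) ^ 2 = (d : ℝ) - 1 := Real.sq_sqrt (by linarith)
  rw [div_pow, hs2, div_le_div_iff₀ (by linarith) (by norm_num)]
  nlinarith

section
variable {d n : ℕ} {l : List (ℕ × ℕ)}

/-- the list facts -/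
lemma lst {hd : 3 ≤ d} (hB : Big d n) (hev : Even n) {F : List (Pot (PP d hd) d)}
    (h : St (PP d hd) d F n l) (hlen : 2 * l.length < n * d) : Lst (PP d hd) d n l := by
  have h1 := parOf_ok hd dl n (dl_lt hB)
  exact lst_of_St hd hB.npos hev h h1.1 (gam_sq hd n) h1.2.2 (parOf_mu d hd dl n) hlen

/-- **the step** -/
theorem step {hd : 3 ≤ d} (Q1 : Pieces1 (Fin (n * d))) (Q2 : Pieces2 (Fin (n * d)))
    (hB : Big d n) (h : Lst (PP d hd) d n l) (ht : LateT.Mq d + 2 * l.length ≤ n * d)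
    (hv : (main (PP d hd) d).val n l ≤ 0) :
    ∃ x y : Fin (n * d), Gp (PP d hd) d n l x y ∧
      (main (PP d hd) d).val n (((x : ℕ), (y : ℕ)) :: l) ≤ -(1 / ((n : ℝ) + 2) ^ 4) := by
  have hc := h.card
  have hlen := h.len
  set ρ : ℕ := (Fs n d l).card with hρ
  have hρ0 : (0 : ℝ) < (ρ : ℝ) := by
    have : 0 < ρ := by omega
    exact_mod_cast this
  have hρnd : (ρ : ℝ) ≤ (n : ℝ) * d := by
    have : ρ ≤ n * d := by omega
    exact_mod_cast this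
  have hmar := hB.margin hρ0 hρnd
  have hbar := hB.bar_le (t := l.length) (by omega)
  have hm0 := hB.m0
  have hmρ : 0 < (mm n : ℝ) ^ 2 * (ρ : ℝ) := by positivity
  have hb1 : barR d n (l.length + 1) = barR d n l.length + 39 / ((mm n : ℝ) ^ 2 * (ρ : ℝ)) :=
    barR_succ hc
  have hdiv : 38 / ((mm n : ℝ) ^ 2 * (ρ : ℝ)) - 39 / ((mm n : ℝ) ^ 2 * (ρ : ℝ))
      = -(1 / ((mm n : ℝ) ^ 2 * (ρ : ℝ))) := by
    rw [← sub_div]; norm_num [neg_div]
  have hnew : ∀ x y : Fin (n * d), Gp (PP d hd) d n l x y →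
      (Fs n d (((x : ℕ), (y : ℕ)) :: l)).card + 2 * (((x : ℕ), (y : ℕ)) :: l).length = n * d ∧
      ((Fs n d (((x : ℕ), (y : ℕ)) :: l)).card : ℝ) = (ρ : ℝ) - 2 := fun x y hg =>
    ⟨card_cons hc (mem_Sg.2 hg), card_Fs_cons' (mem_Sg.2 hg)⟩
  by_cases hA : (mm n : ℝ) ^ 800 + 2 ≤ (ρ : ℝ)
  · -- stage 1
    rw [main_val1 hc (by linarith)] at hv
    obtain ⟨x, y, hg, h1⟩ := step1_real Q1 hB.prm h (by linarith) hA
    refine ⟨x, y, hg, ?_⟩
    obtain ⟨e1, e2⟩ := hnew x y hg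
    rw [main_val1 e1 (by rw [e2]; linarith), List.length_cons, hb1]
    linarith [hmar.1]
  · have hA' : (ρ : ℝ) ≤ (mm n : ℝ) ^ 800 + 1 := by
      rw [not_le] at hA
      have h2 : ρ < mm n ^ 800 + 2 := by exact_mod_cast hA
      have h3 : ρ ≤ mm n ^ 800 + 1 := by omega
      exact_mod_cast h3
    have hx := hB.x0r_le
    by_cases hC : LateT.x0q d * r1 d n (mm n) + 2 ≤ (ρ : ℝ)
    · -- stage 2
      have hP2 : Phi2R (PP d hd) d n (mm n) l ≤ barR d n l.length := by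
        by_cases hs : (mm n : ℝ) ^ 800 ≤ (ρ : ℝ)
        · rw [main_val1 hc hs] at hv
          have h2 : Phi2 d n (mm n) (Fs n d l) (fun b => KR (PP d hd) d n b l) ≤ 3 / (mm n : ℝ) :=
            Box.handover12 hB.prm (fun b => KR_symm b) (fun b i j hi => KR_dead (Or.inl hi))
              (show Phi1R (PP d hd) d n (mm n) l ≤ 1 by linarith) (by rw [← hρ]; linarith)
          have h3 : 3 / (mm n : ℝ) ≤ 1 / 2 := by
            rw [div_le_div_iff₀ hm0 (by norm_num)]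
            have := hB.mg
            have : (6 : ℝ) ≤ 10 ^ 10 := by norm_num
            linarith
          exact (h2.trans h3).trans (Big.bar_ge _)
        · rw [main_val2 hc hB.mne hs (by linarith)] at hv
          linarith
      obtain ⟨x, y, hg, h1⟩ := step2_real (x0 := LateT.x0q d) Q2 hB.prm h (hP2.trans hbar)
        (LateT.x0q_pos d) (LateT.x0q_le_one d) (LateT.x0q_m hB.hz) hC hA'
      refine ⟨x, y, hg, ?_⟩
      obtain ⟨e1, e2⟩ := hnew x y hg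
      rw [main_val2 e1 hB.mne (by rw [e2]; linarith) (by rw [e2]; linarith), List.length_cons, hb1]
      linarith [hmar.1]
    · -- stage 3
      rw [not_le] at hC
      have hs : ¬ (mm n : ℝ) ^ 800 ≤ (ρ : ℝ) := by intro h'; linarith
      have hP3 : (Late.psi3 (PP d hd) d (LateT.zq d)).val n l ≤ 1 := by
        by_cases h2 : LateT.x0q d * r1 d n (mm n) ≤ (ρ : ℝ)
        · rw [main_val2 hc hB.mne hs h2] at hv
          have h3 := LateT.psi_of_Phi2 (F := Fs n d l) (K := fun b => KR (PP d hd) d n b l)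
            hB.prm (fun b => KR_symm b)
            (show Phi2R (PP d hd) d n (mm n) l ≤ 1 by linarith) hB.hz (by rw [← hρ]; exact h2)
            (by rw [← hρ]; linarith)
          rw [Late.psi3_val, ← Late.card_real h]
          have e3 : Late.gl n d l = LateCst.g (n * d + 1) (Fs n d l).card := by
            unfold Late.gl
            congr 1
            omega
          rw [e3]
          linarith
        · rw [main_val3 hc hs h2] at hv
          linarith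
      obtain ⟨x, y, hg, h1⟩ := Late.psi3_step h (z := LateT.zq d)
        (by have := LateT.zq_ge d; omega) ht hP3
      refine ⟨x, y, hg, ?_⟩
      obtain ⟨e1, e2⟩ := hnew x y hg
      rw [main_val3 e1 (by rw [e2]; intro h'; linarith) (by rw [e2]; intro h'; linarith)]
      rw [← rho_real hc] at h1
      linarith [hmar.2]

/-- the bound of `Tr K²` -/
theorem bnd {hd : 3 ≤ d} (hB : Big d n) (h : Lst (PP d hd) d n l)
    (hv : (main (PP d hd) d).val n l ≤ 0) (b : Bool) :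
    (KR (PP d hd) d n b l ^ 2).trace ≤ ((n : ℝ) + 2) ^ 4 := by
  have hc := h.card
  have hlen := h.len
  set ρ : ℕ := (Fs n d l).card with hρ
  have hρ0 : (0 : ℝ) < (ρ : ℝ) := by
    have : 0 < ρ := by omega
    exact_mod_cast this
  have hρnd : (ρ : ℝ) ≤ (n : ℝ) * d := by
    have : ρ ≤ n * d := by omega
    exact_mod_cast this
  have hbar := hB.bar_le (t := l.length) (by omega)
  have hm0 := hB.m0
  have hn : (0 : ℝ) < n := Box.n_pos hB.prm
  have hd0 : (0 : ℝ) ≤ d := Nat.cast_nonneg d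
  have hr : 0 < r1 d n (mm n) := Box.r1_pos hB.prm
  have hnd : (n : ℝ) * d ≤ (n : ℝ) ^ 2 := by
    have := hB.d_le_n
    nlinarith
  have hn1 : (1 : ℝ) ≤ n := by exact_mod_cast hB.npos
  have hfin : ∀ X : ℝ, X ≤ (n : ℝ) ^ 2 + n + 1 → X ≤ ((n : ℝ) + 2) ^ 4 := by
    intro X hX
    refine hX.trans ?_
    have h1 : (n : ℝ) ^ 2 + n + 1 ≤ ((n : ℝ) + 2) ^ 2 := by nlinarith
    exact h1.trans (pow_le_pow_right₀ (by linarith) (by norm_num))
  apply hfin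
  by_cases hs : (mm n : ℝ) ^ 800 ≤ (ρ : ℝ)
  · rw [main_val1 hc hs] at hv
    have h1 := (Box.B1_of_Phi1 (K := fun b => KR (PP d hd) d n b l) hB.prm (fun b => KR_symm b)
      (show Phi1R (PP d hd) d n (mm n) l ≤ 1 by linarith)).X2u b
    rw [← hρ] at h1
    change (KR (PP d hd) d n b l ^ 2).trace ≤ _ at h1
    nlinarith
  · by_cases h2 : LateT.x0q d * r1 d n (mm n) ≤ (ρ : ℝ)
    · rw [main_val2 hc hB.mne hs h2] at hv
      have h1 := Box.part2_le (K := fun b => KR (PP d hd) d n b l) (fun b => KR_symm b)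
        (show Phi2R (PP d hd) d n (mm n) l ≤ 1 by linarith) b
      change Box.part2 d n (mm n) (Fs n d l) (KR (PP d hd) d n b l) ≤ 1 at h1
      have h3 : p2X2 (mm n) (r1 d n (mm n)) (Fs n d l).card (KR (PP d hd) d n b l ^ 2).trace ≤ 1 := by
        unfold Box.part2 at h1
        have e1 : 0 ≤ p2X1 (mm n) (KR (PP d hd) d n b l).trace := by unfold p2X1; positivity
        have e3 := Box.p2X2l_nonneg (r1 d n (mm n)) (Fs n d l).card
          (KR (PP d hd) d n b l ^ 2).trace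
        have e4 := Box.p2X3_nonneg (d := d) (n := n) (KR (PP d hd) d n b l ^ 3).trace
        have e5 := Box.p2X4_nonneg (m := mm n) (Nat.cast_nonneg (α := ℝ) (Fs n d l).card)
          (Box.X4_nonneg (KR_symm (P := PP d hd) (d := d) (n := n) (l := l) b))
        have e6 := Box.p2V_nonneg (m := mm n) (LateT.Vf_nonneg (KR (PP d hd) d n b l))
        have e7 := Box.p2W_nonneg (m := mm n) (Wf_nonneg (Fs n d l) (KR (PP d hd) d n b l))
        linarith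
      have h4 := Box.pos_le (w := (mm n : ℝ) ^ 670) (by positivity) (by ring) h3
      rw [← hρ] at h4
      have h5 : phi2 (r1 d n (mm n)) (ρ : ℝ) ≤ (ρ : ℝ) := by
        unfold phi2
        rw [div_le_iff₀ (by positivity)]
        nlinarith
      have h6 : (mm n : ℝ) ^ 670 ≤ (mm n : ℝ) ^ 1000 := pow_le_pow_right₀ hB.m1 (by norm_num)
      have h7 := hB.prm.hn1
      linarith
    · rw [main_val3 hc hs h2] at hv
      have h1 := Late.psi3_X2 h (LateT.zq_pos d) (by linarith) b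
      rw [← rho_real hc] at h1
      have h3 : ((Fs n d l).card : ℝ) / (LateT.zq d : ℝ) ^ 2 ≤ ρ := by
        rw [← hρ]
        refine div_le_self hρ0.le (one_le_pow₀ ?_)
        have := LateT.zq_real_ge d
        linarith [show (1 : ℝ) ≤ 10 ^ 13 by norm_num]
      linarith

/-- the end -/
theorem end_lt {hd : 3 ≤ d} (hB : Big d n) (h : Lst (PP d hd) d n l)
    (ht : n * d < LateT.Mq d + 2 * l.length)
    (hv : (main (PP d hd) d).val n l ≤ 0) (b : Bool) :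
    (KR (PP d hd) d n b l ^ 2).trace < 2 := by
  have hc := h.card
  have h1 : (((Fs n d l).card : ℕ) : ℝ) < (LateT.zq d : ℝ) ^ 2 := by
    rw [← LateT.Mq_cast]
    have : (Fs n d l).card < LateT.Mq d := by omega
    exact_mod_cast this
  have h2 := hB.z_le
  have h3 := hB.x0r_le
  rw [main_val3 hc (by intro h'; linarith) (by intro h'; linarith)] at hv
  exact Late.psi3_end h (LateT.zq_pos d) ht (by linarith) b

end

open Classical in
/-- **S0084 from the pieces** -/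
theorem assemble {d : ℕ} (hd : 3 ≤ d) (Q1 : ∀ N : ℕ, Pieces1 (Fin N))
    (Q2 : ∀ N : ℕ, Pieces2 (Fin N))
    (hstart : ∀ n, Prm d n (mm n) → Phi1R (PP d hd) d n (mm n) [] ≤ 1 / 2) :
    ∃ n₀ : ℕ, ∃ F : List Bool → List Bool, Crest.Complexity.PolyTime F ∧
      ∀ n : ℕ, n₀ ≤ n → Even n →
        (Crest.CombinatoricsR.GraphCode.adjGraph n
            (F (Crest.CombinatoricsR.GraphCode.unary n))).IsRegularOfDegree d ∧
        ∀ x : Fin n → ℝ, ∑ i, x i = 0 → x ≠ 0 →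
          |x ⬝ᵥ ((Crest.CombinatoricsR.GraphCode.adjGraph n
              (F (Crest.CombinatoricsR.GraphCode.unary n))).adjMatrix ℝ *ᵥ x)| <
            2 * Real.sqrt ((d : ℝ) - 1) * (x ⬝ᵥ x) := by
  obtain ⟨n0, hn0, hbig⟩ := big_ev d hd
  refine SpecOf.final hd (PP d hd) [main (PP d hd) d] (LateT.Tq d) (LateT.Tq_ptf d)
    (LateT.Tq_le d) 4 n0 hn0 (by norm_num)
    (fun S => ⟨S.n0, Mach.machine S (by omega)⟩) (fun n hn _ => parOf_ok hd dl n (dl_lt (hbig n hn)))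
    (fun n _ _ => parOf_mu d hd dl n) (fun n hn hev => LateT.Tq_thr (hbig n hn).Mq_le hev)
    ?_ ?_ ?_ ?_
  · intro n hn hev f hf
    rw [List.mem_singleton] at hf
    subst hf
    have hB := hbig n hn
    have hc : (Fs n d []).card + 2 * ([] : List (ℕ × ℕ)).length = n * d := by
      have h1 : Fs n d [] = Finset.univ := by
        ext i
        simp [mem_Fs, Mach.unused]
      rw [h1]
      simp
    have h1 : (mm n : ℝ) ^ 800 ≤ ((Fs n d []).card : ℝ) := by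
      rw [rho_real hc]
      have := hB.m800_le
      simpa using this
    rw [main_val1 hc h1, List.length_nil, Big.bar_zero]
    have := hstart n hB.prm
    linarith
  · intro n hn hev l hst hlen
    have hB := hbig n hn
    have h1 := LateT.Mq_le_of_lt hB.Mq_le hev hlen
    have h2 := LateT.four_le_Mq d
    have hL := lst hB hev hst (by omega)
    obtain ⟨x, y, hg, h3⟩ := step (Q1 _) (Q2 _) hB hL (by omega)
      (hst.pot _ (List.mem_singleton_self _))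
    refine ⟨x, y, hg.1, hg.2.1, hg.2.2, ?_⟩
    intro f hf
    rw [List.mem_singleton] at hf
    subst hf
    exact h3
  · intro n hn hev l hst hlen b
    have hB := hbig n hn
    have h1 := LateT.Mq_le_of_lt hB.Mq_le hev hlen
    have h2 := LateT.four_le_Mq d
    exact bnd hB (lst hB hev hst (by omega)) (hst.pot _ (List.mem_singleton_self _)) b
  · intro n hn hev l hst hlen b
    have hB := hbig n hn
    have h1 := LateT.Tq_eq hB.Mq_le hev
    have h2 := LateT.four_le_Mq d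
    have h3 := hB.Mq_le
    exact end_lt hB (lst hB hev hst (by omega)) (by omega)
      (hst.pot _ (List.mem_singleton_self _)) b

end Crest.Agent.R62.MainPot
end

-- ▼ part R62/StartPhi
section

/-!
R62 (helper644): the stage 1 potential at the start.
-/

set_option autoImplicit false
set_option linter.unusedSectionVars false
set_option linter.unusedVariables false

open Matrix Finset

namespace Crest.Agent.R62.StartPhi

open Crest.Agent.R62.Step Crest.Agent.R62.Start Crest.Agent.R062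
open Crest.Agent.R62.AvX1 (Vf Wf)

lemma sg_sq (b : Bool) : (Mach.sg b : ℝ) ^ 2 = 1 := by cases b <;> simp [Mach.sg]
lemma sg_le (b : Bool) : (Mach.sg b : ℝ) ≤ 1 := by cases b <;> simp [Mach.sg]
lemma le_sg (b : Bool) : -1 ≤ (Mach.sg b : ℝ) := by cases b <;> simp [Mach.sg]

/-- numerical facts -/
structure Q (d n m : ℕ) (δ : ℝ) : Prop where
  hd : 3 ≤ d
  D3 : (3 : ℝ) ≤ d
  M3 : (10 : ℝ) ^ 10 * (d : ℝ) ^ 3 ≤ m
  Mb : (10 : ℝ) ^ 11 ≤ m
  n0 : 0 < n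
  n1 : (m : ℝ) ^ 1000 ≤ n
  n2 : (n : ℝ) ≤ 2 * (m : ℝ) ^ 1000
  nM : (m : ℝ) ≤ n
  δ0 : 0 < δ
  δ1 : δ ≤ 1 / 100
  /-- `δ n ≥ m` -/
  δn : (m : ℝ) ≤ δ * n
  /-- `δ² n = n / m^640` -/
  δ2 : (m : ℝ) ≤ δ ^ 2 * n
  δ2' : δ ^ 2 * n ≤ 2 * (m : ℝ) ^ 360
  r1_eq : r1 d n m = δ * (n * d)

lemma q_of {d n m : ℕ} (h : Prm d n m) : Q d n m (1 / (m : ℝ) ^ 320) := by
  have hd := h.hd
  have D3 : (3 : ℝ) ≤ d := by exact_mod_cast hd
  have hm := h.hm
  have h3 : (d : ℝ) ^ 3 ≤ (d : ℝ) ^ 10 := pow_le_pow_right₀ (by linarith) (by norm_num)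
  have M3 : (10 : ℝ) ^ 10 * (d : ℝ) ^ 3 ≤ m := by linarith
  have h27 : (27 : ℝ) ≤ (d : ℝ) ^ 3 := by
    calc (27 : ℝ) = 3 ^ 3 := by norm_num
      _ ≤ _ := pow_le_pow_left₀ (by norm_num) D3 3
  have Mb : (10 : ℝ) ^ 11 ≤ m := by linarith
  have M1 : (1 : ℝ) ≤ m := by linarith
  have M0 : (0 : ℝ) < m := by linarith
  have hp : ∀ k : ℕ, (0 : ℝ) < (m : ℝ) ^ k := fun k => pow_pos M0 k
  have hn1 := h.hn1
  have nM : (m : ℝ) ≤ n := le_trans (by
    calc (m : ℝ) = (m : ℝ) ^ 1 := (pow_one _).symm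
      _ ≤ _ := pow_le_pow_right₀ M1 (by norm_num)) hn1
  have n0 : 0 < n := by
    have : (0 : ℝ) < n := by linarith
    exact_mod_cast this
  have δ1 : 1 / (m : ℝ) ^ 320 ≤ 1 / 100 := by
    refine div_le_div_of_nonneg_left (by norm_num) (by norm_num) ?_
    calc (100 : ℝ) ≤ m := by linarith
      _ = (m : ℝ) ^ 1 := (pow_one _).symm
      _ ≤ _ := pow_le_pow_right₀ M1 (by norm_num)
  have e2 : (1 / (m : ℝ) ^ 320) ^ 2 = 1 / (m : ℝ) ^ 640 := by
    rw [div_pow, one_pow, ← pow_mul]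
  refine ⟨hd, D3, M3, Mb, n0, hn1, h.hn2, nM, by have := hp 320; positivity, δ1, ?_, ?_, ?_, ?_⟩
  · rw [one_div_mul_eq_div, le_div_iff₀ (hp 320)]
    calc (m : ℝ) * (m : ℝ) ^ 320 = (m : ℝ) ^ 321 := by rw [← pow_succ']
      _ ≤ (m : ℝ) ^ 1000 := pow_le_pow_right₀ M1 (by norm_num)
      _ ≤ n := hn1
  · rw [e2, one_div_mul_eq_div, le_div_iff₀ (hp 640)]
    calc (m : ℝ) * (m : ℝ) ^ 640 = (m : ℝ) ^ 641 := by rw [← pow_succ']
      _ ≤ (m : ℝ) ^ 1000 := pow_le_pow_right₀ M1 (by norm_num)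
      _ ≤ n := hn1
  · rw [e2, one_div_mul_eq_div, div_le_iff₀ (hp 640), mul_assoc, ← pow_add]
    exact h.hn2
  · unfold r1
    ring

section
variable {d n m : ℕ} {δ : ℝ} (q : Q d n m δ)
include q

lemma Q.M1 : (1 : ℝ) ≤ m := by have := q.Mb; linarith
lemma Q.M0 : (0 : ℝ) < m := by have := q.Mb; linarith
lemma Q.D2 : (d : ℝ) ^ 2 ≤ (d : ℝ) ^ 3 := pow_le_pow_right₀ (by have := q.D3; linarith) (by norm_num)
lemma Q.D1 : (d : ℝ) ≤ (d : ℝ) ^ 3 := by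
  calc (d : ℝ) = (d : ℝ) ^ 1 := (pow_one _).symm
    _ ≤ _ := pow_le_pow_right₀ (by have := q.D3; linarith) (by norm_num)

lemma Q.sqrt_le : Real.sqrt ((d : ℝ) - 1) ≤ d := by
  have h3 := q.D3
  exact Real.sqrt_le_iff.2 ⟨by linarith, by nlinarith⟩
lemma Q.le_sqrt : 1 ≤ Real.sqrt ((d : ℝ) - 1) := by
  have h3 := q.D3
  exact Real.one_le_sqrt.2 (by linarith)

lemma Q.X1u (b : Bool) : (KS d δ n (Mach.sg b)).trace ≤ (m : ℝ) ^ 361 := by
  have h := X1_le d q.hd δ q.δ0.le (by have := q.δ1; linarith) n q.n0 _ (sg_le b)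
  have h1 := q.sqrt_le
  have h2 := q.δ2'
  have h3 := q.M3
  have h4 := q.D1
  have hD := q.D3
  have h5 : 0 ≤ δ ^ 2 * n := le_trans q.M0.le q.δ2
  have h6 : Real.sqrt ((d : ℝ) - 1) * (δ ^ 2 * n) ≤ d * (2 * (m : ℝ) ^ 360) :=
    mul_le_mul h1 h2 h5 (by linarith)
  have h7 : (m : ℝ) ^ 361 = m * (m : ℝ) ^ 360 := pow_succ' _ _
  have h8 : (1 : ℝ) ≤ (m : ℝ) ^ 360 := one_le_pow₀ q.M1
  have h9 : (1 + 6 * (d : ℝ)) * (m : ℝ) ^ 360 ≤ m * (m : ℝ) ^ 360 :=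
    mul_le_mul_of_nonneg_right (by linarith) (by linarith)
  rw [h7]
  linarith

lemma Q.X1l (b : Bool) : 0 ≤ (KS d δ n (Mach.sg b)).trace := by
  have h := le_X1 d q.hd δ q.δ0.le (by have := q.δ1; linarith) n q.n0 _ (le_sg b)
  have h1 := q.le_sqrt
  have h2 := q.δ2
  have h3 := q.Mb
  have h4 : Real.sqrt ((d : ℝ) - 1) * 4 ≤ Real.sqrt ((d : ℝ) - 1) * (δ ^ 2 * n) :=
    mul_le_mul_of_nonneg_left (by linarith) (by linarith)
  linarith

lemma Q.X2u (b : Bool) : (KS d δ n (Mach.sg b) ^ 2).trace ≤ n * d - r1 d n m := by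
  have h := X2_le d q.hd δ q.δ0.le (by have := q.δ1; linarith) n q.n0 _ (sg_sq b)
  rw [q.r1_eq]
  have h1 := q.δ1
  have h2 := q.δn
  have h3 := q.D3
  have h4 := q.Mb
  have h5 : (1000 : ℝ) ≤ δ * (n * d) := by nlinarith
  have h6 : δ * (δ * (n * d)) ≤ 1 / 100 * (δ * (n * d)) :=
    mul_le_mul_of_nonneg_right h1 (by linarith)
  nlinarith

lemma Q.X2l (b : Bool) : n * d - 3 * r1 d n m ≤ (KS d δ n (Mach.sg b) ^ 2).trace := by
  have h := le_X2 d q.hd δ q.δ0.le (by have := q.δ1; linarith) n q.n0 _ (sg_sq b)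
  rw [q.r1_eq]
  have h2 := q.δn
  have h3 := q.D3
  have h4 := q.Mb
  have h5 : (d : ℝ) ≤ δ * (n * d) := by nlinarith
  nlinarith

lemma Q.X3l (b : Bool) : 3 / 2 * (n : ℝ) ≤ (KS d δ n (Mach.sg b) ^ 3).trace := by
  have h := le_X3 d q.hd δ q.δ0.le (by have := q.δ1; linarith) n q.n0 _ (sg_le b) (le_sg b)
  have h1 := q.δ1
  have h0 := q.δ0
  have h3 := q.D3
  have h4 := q.M3
  have h5 := q.D2
  have h6 := q.nM
  have e1 : 97 / 100 ≤ (1 - δ) ^ 3 := by nlinarith [sq_nonneg δ]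
  have hn : (0 : ℝ) < n := by exact_mod_cast q.n0
  have e2 : 2 * (97 / 100) * (n : ℝ) ≤ 2 * (1 - δ) ^ 3 * n :=
    mul_le_mul_of_nonneg_right (by linarith) hn.le
  nlinarith

lemma Q.X3u (b : Bool) : (KS d δ n (Mach.sg b) ^ 3).trace ≤ 2 * ((d : ℝ) - 1) ^ 2 * n := by
  have h := X3_le d q.hd δ q.δ0.le (by have := q.δ1; linarith) n q.n0 _ (sg_le b) (le_sg b)
  have h3 := q.D3
  have h6 := q.nM
  have h7 := q.Mb
  have h8 : (1 : ℝ) ≤ ((d : ℝ) - 1) ^ 2 := by nlinarith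
  nlinarith

lemma Q.nD : (1 : ℝ) + n * (((d : ℝ) - 1) ^ 2 + 1) ≤ n * (d : ℝ) ^ 2 := by
  have h3 := q.D3
  have h6 := q.nM
  have h7 := q.Mb
  nlinarith

lemma Q.X4u (b : Bool) : (KS d δ n (Mach.sg b) ^ 4).trace * (n * d) / (m : ℝ) ^ 2003
    ≤ 1 / (m : ℝ) ^ 2 := by
  have h := (X4_le d q.hd δ q.δ0.le (by have := q.δ1; linarith) n q.n0 _ (sg_sq b)).trans q.nD
  have h3 := q.D3
  have hM := q.M0
  have hn : (0 : ℝ) < n := by exact_mod_cast q.n0
  rw [div_le_div_iff₀ (pow_pos hM _) (pow_pos hM _), one_mul]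
  have e1 : (KS d δ n (Mach.sg b) ^ 4).trace * (n * d) ≤ (n * (d : ℝ) ^ 2) * (n * d) :=
    mul_le_mul_of_nonneg_right h (by positivity)
  have e2 : (n * (d : ℝ) ^ 2) * (n * d) ≤ (2 * (m : ℝ) ^ 1000) * (2 * (m : ℝ) ^ 1000) * (d : ℝ) ^ 3 := by
    have := mul_le_mul q.n2 q.n2 hn.le (by positivity)
    have h5 : (0 : ℝ) ≤ (d : ℝ) ^ 3 := by positivity
    calc (n * (d : ℝ) ^ 2) * (n * d) = ((n : ℝ) * n) * (d : ℝ) ^ 3 := by ring
      _ ≤ _ := mul_le_mul_of_nonneg_right this h5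
  have e3 : (d : ℝ) ^ 3 * 4 ≤ m := by
    have := q.M3
    have h5 : (0 : ℝ) ≤ (d : ℝ) ^ 3 := by positivity
    linarith
  have e4 : (m : ℝ) ^ 2003 = (m : ℝ) ^ 1000 * (m : ℝ) ^ 1000 * m * (m : ℝ) ^ 2 := by
    rw [← pow_add, ← pow_succ, ← pow_add]
  rw [e4]
  have e5 : (0 : ℝ) ≤ (m : ℝ) ^ 1000 * (m : ℝ) ^ 1000 := by positivity
  refine mul_le_mul_of_nonneg_right ?_ (by positivity)
  calc _ ≤ _ := e1
    _ ≤ _ := e2
    _ = ((m : ℝ) ^ 1000 * (m : ℝ) ^ 1000) * ((d : ℝ) ^ 3 * 4) := by ring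
    _ ≤ _ := mul_le_mul_of_nonneg_left e3 e5

lemma Q.Mu : (KS d δ n (Mach.sg true) ^ 2 * KS d δ n (Mach.sg false) ^ 2).trace / (m : ℝ) ^ 1010
    ≤ 1 / (m : ℝ) ^ 2 := by
  have h := (M22_le d q.hd δ q.δ0.le (by have := q.δ1; linarith) n q.n0 _ _ (sg_sq true)
    (sg_sq false)).trans q.nD
  have h3 := q.D3
  have hM := q.M0
  rw [div_le_div_iff₀ (pow_pos hM _) (pow_pos hM _), one_mul]
  have e3 : (d : ℝ) ^ 2 * 2 ≤ m := by
    have := q.M3
    have h5 : (0 : ℝ) ≤ (d : ℝ) ^ 3 := by positivity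
    have := q.D2
    linarith
  have e4 : (m : ℝ) ^ 1010 = (m : ℝ) ^ 1000 * m * (m : ℝ) ^ 7 * (m : ℝ) ^ 2 := by
    rw [← pow_succ, ← pow_add, ← pow_add]
  rw [e4]
  have h7 : (1 : ℝ) ≤ (m : ℝ) ^ 7 := one_le_pow₀ q.M1
  have e5 : (0 : ℝ) ≤ (m : ℝ) ^ 1000 := by positivity
  refine mul_le_mul_of_nonneg_right ?_ (by positivity)
  calc _ ≤ n * (d : ℝ) ^ 2 := h
    _ ≤ (2 * (m : ℝ) ^ 1000) * (d : ℝ) ^ 2 := mul_le_mul_of_nonneg_right q.n2 (by positivity)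
    _ = (m : ℝ) ^ 1000 * ((d : ℝ) ^ 2 * 2) := by ring
    _ ≤ (m : ℝ) ^ 1000 * m := mul_le_mul_of_nonneg_left e3 e5
    _ ≤ _ := le_mul_of_one_le_right (by positivity) h7

lemma Q.Vu (b : Bool) : Vf (KS d δ n (Mach.sg b)) / (m : ℝ) ^ 6 ≤ 1 / (m : ℝ) ^ 2 := by
  have h1 : Vf (KS d δ n (Mach.sg b)) = (KS d δ n (Mach.sg b)).trace ^ 2 / (n * d) :=
    V_eq d q.hd δ q.δ0.le (by have := q.δ1; linarith) n q.n0 _
  have hM := q.M0
  have h3 := q.D3
  have hn : (0 : ℝ) < n := by exact_mod_cast q.n0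
  have h2 : Vf (KS d δ n (Mach.sg b)) ≤ 1 := by
    rw [h1, div_le_one (by positivity)]
    have h4 := pow_le_pow_left₀ (q.X1l b) (q.X1u b) 2
    rw [← pow_mul] at h4
    have h5 : (m : ℝ) ^ (361 * 2) ≤ (m : ℝ) ^ 1000 := pow_le_pow_right₀ q.M1 (by norm_num)
    have h6 := q.n1
    have h7 : (n : ℝ) * 1 ≤ n * d := mul_le_mul_of_nonneg_left (by linarith) hn.le
    linarith
  rw [div_le_div_iff₀ (pow_pos hM _) (pow_pos hM _)]
  have h8 : (m : ℝ) ^ 2 ≤ (m : ℝ) ^ 6 := pow_le_pow_right₀ q.M1 (by norm_num)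
  exact mul_le_mul h2 h8 (by positivity) (by norm_num)

lemma Q.W_eq (b : Bool) : Wf univ (KS d δ n (Mach.sg b))
    = ((KS d δ n (Mach.sg b) ^ 2).trace - n * d) ^ 2 / (n * d) := by
  have hn : (0 : ℝ) < n := by exact_mod_cast q.n0
  have h3 := q.D3
  have hd : (0 : ℝ) < d := by linarith
  unfold Wf
  rw [Finset.sum_congr rfl fun i _ => by rw [KS_diag d q.hd δ n q.n0 (Mach.sg b) 2 i],
    Finset.sum_const, Finset.card_univ, Fintype.card_fin, nsmul_eq_mul]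
  push_cast
  field_simp

lemma Q.Wu (b : Bool) : Wf univ (KS d δ n (Mach.sg b)) / (m : ℝ) ^ 610 ≤ 1 / (m : ℝ) ^ 2 := by
  have hM := q.M0
  have h3 := q.D3
  have hn : (0 : ℝ) < n := by exact_mod_cast q.n0
  have hd : (0 : ℝ) < d := by linarith
  have h1 := q.X2u b
  have h2 := q.X2l b
  have hr : 0 ≤ r1 d n m := by rw [q.r1_eq]; have := q.δ0; positivity
  have h4 : ((KS d δ n (Mach.sg b) ^ 2).trace - n * d) ^ 2 ≤ (3 * r1 d n m) ^ 2 :=
    sq_le_sq' (by linarith) (by linarith)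
  have h5 : Wf univ (KS d δ n (Mach.sg b)) ≤ 18 * d * (m : ℝ) ^ 360 := by
    rw [q.W_eq b, div_le_iff₀ (by positivity)]
    refine h4.trans ?_
    rw [q.r1_eq]
    have h6 := q.δ2'
    calc (3 * (δ * (n * d))) ^ 2 = 9 * d * (δ ^ 2 * n) * (n * d) := by ring
      _ ≤ 9 * d * (2 * (m : ℝ) ^ 360) * (n * d) := by gcongr
      _ = _ := by ring
  rw [div_le_div_iff₀ (pow_pos hM _) (pow_pos hM _), one_mul]
  have e3 : 18 * (d : ℝ) ≤ m := by
    have := q.M3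
    have := q.D1
    linarith
  calc Wf univ (KS d δ n (Mach.sg b)) * (m : ℝ) ^ 2 ≤ 18 * d * (m : ℝ) ^ 360 * (m : ℝ) ^ 2 :=
        mul_le_mul_of_nonneg_right h5 (by positivity)
    _ ≤ m * (m : ℝ) ^ 360 * (m : ℝ) ^ 2 := by gcongr
    _ = (m : ℝ) ^ 363 := by rw [← pow_succ', ← pow_add]
    _ ≤ _ := pow_le_pow_right₀ q.M1 (by norm_num)

/-- **the potential at the start** -/
theorem Q.phi1 : Phi1 d n m univ (fun b => KS d δ n (Mach.sg b)) ≤ 1 / m := by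
  have hM := q.M0
  have h3 := q.D3
  have hn : (0 : ℝ) < n := by exact_mod_cast q.n0
  have hc : ((univ : Finset (Fin (n * d))).card : ℝ) = n * d := by simp
  have hnd : 2 * (m : ℝ) ^ 800 ≤ n * d := by
    have h1 : (m : ℝ) ^ 800 ≤ (m : ℝ) ^ 1000 := pow_le_pow_right₀ q.M1 (by norm_num)
    have h2 := q.n1
    nlinarith
  have hU : U m (n * d) = (m : ℝ) ^ 361 := by
    unfold U
    have h8 : (0 : ℝ) < (m : ℝ) ^ 800 := pow_pos hM _
    have h9 : (1 : ℝ) ≤ ((n : ℝ) * d - (m : ℝ) ^ 800) / (m : ℝ) ^ 800 := by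
      rw [le_div_iff₀ h8]; linarith
    rw [min_eq_left h9, max_eq_right zero_le_one, mul_one]
  have hpiece : ∀ b : Bool, p1X1u m (n * d) (KS d δ n (Mach.sg b)).trace
      + p1X1l m (KS d δ n (Mach.sg b)).trace
      + p1X2u (r1 d n m) (n * d) (KS d δ n (Mach.sg b) ^ 2).trace
      + p1X2l (r1 d n m) (n * d) (KS d δ n (Mach.sg b) ^ 2).trace
      + p1X3l n (KS d δ n (Mach.sg b) ^ 3).trace + p1X3u d n (KS d δ n (Mach.sg b) ^ 3).trace
      + p1X4 m (n * d) (KS d δ n (Mach.sg b) ^ 4).trace + p1V m (Vf (KS d δ n (Mach.sg b)))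
      + p1W m (Wf univ (KS d δ n (Mach.sg b))) ≤ 3 / (m : ℝ) ^ 2 := by
    intro b
    have a1 : p1X1u m (n * d) (KS d δ n (Mach.sg b)).trace = 0 := by
      unfold p1X1u
      rw [hU, max_eq_right (by have := q.X1u b; linarith)]; simp
    have a2 : p1X1l m (KS d δ n (Mach.sg b)).trace = 0 := by
      unfold p1X1l
      rw [max_eq_right (by have := q.X1l b; linarith)]; simp
    have a3 : p1X2u (r1 d n m) (n * d) (KS d δ n (Mach.sg b) ^ 2).trace = 0 := by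
      unfold p1X2u
      rw [max_eq_right (by have := q.X2u b; linarith)]; simp
    have a4 : p1X2l (r1 d n m) (n * d) (KS d δ n (Mach.sg b) ^ 2).trace = 0 := by
      unfold p1X2l
      rw [max_eq_right (by have := q.X2l b; linarith)]; simp
    have a5 : p1X3l n (KS d δ n (Mach.sg b) ^ 3).trace = 0 := by
      unfold p1X3l
      rw [max_eq_right (by have := q.X3l b; linarith)]; simp
    have a6 : p1X3u d n (KS d δ n (Mach.sg b) ^ 3).trace = 0 := by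
      unfold p1X3u
      rw [max_eq_right (by have := q.X3u b; linarith)]; simp
    have a7 : p1X4 m (n * d) (KS d δ n (Mach.sg b) ^ 4).trace ≤ 1 / (m : ℝ) ^ 2 := q.X4u b
    have a8 : p1V m (Vf (KS d δ n (Mach.sg b))) ≤ 1 / (m : ℝ) ^ 2 := q.Vu b
    have a9 : p1W m (Wf univ (KS d δ n (Mach.sg b))) ≤ 1 / (m : ℝ) ^ 2 := q.Wu b
    rw [a1, a2, a3, a4, a5, a6]
    have : 3 / (m : ℝ) ^ 2 = 1 / (m : ℝ) ^ 2 + 1 / (m : ℝ) ^ 2 + 1 / (m : ℝ) ^ 2 := by ring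
    rw [this]
    linarith
  have hMM : p1M m (Mf (fun b => KS d δ n (Mach.sg b))) ≤ 1 / (m : ℝ) ^ 2 := q.Mu
  unfold Phi1
  rw [hc]
  have h1 := hpiece true
  have h2 := hpiece false
  rw [Fintype.sum_bool]
  have h7 : 7 / (m : ℝ) ^ 2 ≤ 1 / m := by
    rw [div_le_div_iff₀ (by positivity) hM]
    have := q.Mb
    nlinarith
  have : 7 / (m : ℝ) ^ 2 = 3 / (m : ℝ) ^ 2 + 3 / (m : ℝ) ^ 2 + 1 / (m : ℝ) ^ 2 := by ring
  linarith

end

/-- real form -/
theorem phi1R_start {P : Mach.Par} {d n m : ℕ} (h : Prm d n m)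
    (hγ : P.gam.v n = Start.gam d (1 / (m : ℝ) ^ 320))
    (hμ : P.mu.v n = Start.muOf d (P.gam.v n)) :
    CtxReal.Phi1R P d n m [] ≤ 1 / m := by
  have q := q_of h
  have hK : ∀ b, EvalKit.KR P d n b [] = KS d (1 / (m : ℝ) ^ 320) n (Mach.sg b) := by
    intro b
    unfold EvalKit.KR
    rw [hμ, hγ]
    rfl
  have hF : GoodPairs.Fs n d [] = univ := by
    ext i
    simp [GoodPairs.mem_Fs, Mach.unused]
  unfold CtxReal.Phi1R
  simp only [hK, hF]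
  exact q.phi1

/-- for the machine parameters of the final assembly (any lower bound `3 ≤ d` proof) -/
theorem phi1R_root {d n : ℕ} (hd : 3 ≤ d) (h : Prm d n (Nat.nthRoot 1000 n))
    (hk : (1000 : ℕ) ≠ 0) :
    CtxReal.Phi1R (Mach.parOf d hd (Mach.Delta.root 1000 hk 320)) d n (Nat.nthRoot 1000 n) []
      ≤ 1 / (Nat.nthRoot 1000 n : ℝ) := by
  refine phi1R_start h ?_ (Mach.parOf_mu d hd _ n)
  rw [Mach.parOf_gam, Mach.Delta.root_f]
  push_cast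
  rw [one_div]


lemma inv_m_le {d n m : ℕ} (h : Prm d n m) : 1 / (m : ℝ) ≤ 1 / 4 := by
  have q := q_of h
  exact div_le_div_of_nonneg_left (by norm_num) (by norm_num) (by have := q.Mb; linarith)


end Crest.Agent.R62.StartPhi
end

-- ▼ part R62/AvX4
section

/-!
R62 (helper486): averaged one-step inequality for `X₄ = Tr K⁴`.
-/

set_option autoImplicit false
set_option linter.unusedSectionVars false
set_option linter.unusedVariables false

open scoped Matrix BigOperators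

namespace Crest.Agent.R62.AvX4

open Crest.Agent.R62.AvBase Crest.Agent.R62.L2P

/-! ### the scalar (pointwise) inequality -/

/-- `Δ₀` -/
def d0 (s c w : ℝ) : ℝ := (1 - s * c) ^ 2 - w
def d1 (s c C1 P1 : ℝ) : ℝ := -2 * s * (1 - s * c) * C1 - P1
def d2 (s c C1 C2 P2 : ℝ) : ℝ := C1 ^ 2 - 2 * s * (1 - s * c) * C2 - P2
def d3 (s c C1 C2 C3 P3 : ℝ) : ℝ := -2 * s * (1 - s * c) * C3 + 2 * C1 * C2 - P3
def d4 (s c C1 C2 C3 C4 P4 : ℝ) : ℝ :=
  -2 * s * (1 - s * c) * C4 + 2 * C1 * C3 + C2 ^ 2 - P4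

/-- `X₄' - X₄ = -2 - 4e₄ + 4e₁e₃ + 2e₂² - 4e₁²e₂ + e₁⁴` -/
noncomputable def inc4 (e1 e2 e3 e4 : ℝ) : ℝ :=
  -2 - 4 * e4 + 4 * e1 * e3 + 2 * e2 ^ 2 - 4 * e1 ^ 2 * e2 + e1 ^ 4

/-- the sum of the twelve remainder monomials -/
def mono12 (c w C1 C2 C3 C4 P1 P2 P3 P4 : ℝ) : ℝ :=
  |C4| * |c| + |C4| * |w| + |C1| * |C3| + C2 ^ 2 + |P4| * |c| + |P4| * |w| + C1 ^ 4 + P2 ^ 2
    + P1 ^ 4 + |C1| * |P3| + |P1| * |C3| + |P1| * |P3|

lemma mono12_nonneg (c w C1 C2 C3 C4 P1 P2 P3 P4 : ℝ) :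
    0 ≤ mono12 c w C1 C2 C3 C4 P1 P2 P3 P4 := by
  unfold mono12; positivity

section scalar
variable {s c w : ℝ}

lemma p_bounds (hs : s ^ 2 = 1) (hc : |c| ≤ 1 / 4) :
    3 / 4 ≤ 1 - s * c ∧ 1 - s * c ≤ 5 / 4 := by
  have h1 : |s| = 1 := by
    have : |s| ^ 2 = 1 := by rw [sq_abs]; exact hs
    exact (pow_eq_one_iff_of_nonneg (abs_nonneg s) two_ne_zero).mp this
  have h2 : |s * c| ≤ 1 / 4 := by rw [abs_mul, h1, one_mul]; exact hc
  rw [abs_le] at h2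
  constructor <;> linarith [h2.1, h2.2]

lemma abs_s (hs : s ^ 2 = 1) : |s| = 1 := by
  have : |s| ^ 2 = 1 := by rw [sq_abs]; exact hs
  exact (pow_eq_one_iff_of_nonneg (abs_nonneg s) two_ne_zero).mp this

lemma d0_lower (hs : s ^ 2 = 1) (hc : |c| ≤ 1 / 4) (hw : |w| ≤ 1 / 8) : 7 / 16 ≤ d0 s c w := by
  obtain ⟨h1, h2⟩ := p_bounds hs hc
  have h3 := (abs_le.mp hw).2
  unfold d0
  nlinarith

lemma abs_d1_le (hs : s ^ 2 = 1) (hc : |c| ≤ 1 / 4) (C1 P1 : ℝ) :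
    |d1 s c C1 P1| ≤ 5 / 2 * |C1| + |P1| := by
  obtain ⟨h1, h2⟩ := p_bounds hs hc
  unfold d1
  have e : |-2 * s * (1 - s * c) * C1| = 2 * (1 - s * c) * |C1| := by
    rw [abs_mul, abs_mul, abs_mul, abs_s hs, abs_of_nonneg (by linarith : 0 ≤ 1 - s * c)]
    norm_num
  calc _ ≤ |-2 * s * (1 - s * c) * C1| + |P1| := abs_sub _ _
    _ ≤ _ := by rw [e]; nlinarith [abs_nonneg C1]

lemma abs_d2_le (hs : s ^ 2 = 1) (hc : |c| ≤ 1 / 4) (C1 C2 P2 : ℝ) :
    |d2 s c C1 C2 P2| ≤ 5 / 2 * |C2| + C1 ^ 2 + |P2| := by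
  obtain ⟨h1, h2⟩ := p_bounds hs hc
  unfold d2
  have e : |2 * s * (1 - s * c) * C2| = 2 * (1 - s * c) * |C2| := by
    rw [abs_mul, abs_mul, abs_mul, abs_s hs, abs_of_nonneg (by linarith : 0 ≤ 1 - s * c)]
    norm_num
  calc _ ≤ |C1 ^ 2 - 2 * s * (1 - s * c) * C2| + |P2| := abs_sub _ _
    _ ≤ |C1 ^ 2| + |2 * s * (1 - s * c) * C2| + |P2| := by
        gcongr; exact abs_sub _ _
    _ ≤ _ := by rw [e, abs_of_nonneg (sq_nonneg C1)]; nlinarith [abs_nonneg C2]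

lemma abs_d3_le (hs : s ^ 2 = 1) (hc : |c| ≤ 1 / 4) (C1 C2 C3 P3 : ℝ) :
    |d3 s c C1 C2 C3 P3| ≤ 5 / 2 * |C3| + 2 * (|C1| * |C2|) + |P3| := by
  obtain ⟨h1, h2⟩ := p_bounds hs hc
  unfold d3
  have e : |-2 * s * (1 - s * c) * C3| = 2 * (1 - s * c) * |C3| := by
    rw [abs_mul, abs_mul, abs_mul, abs_s hs, abs_of_nonneg (by linarith : 0 ≤ 1 - s * c)]
    norm_num
  have e2 : |2 * C1 * C2| = 2 * (|C1| * |C2|) := by
    rw [abs_mul, abs_mul]; norm_num; ring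
  calc _ ≤ |-2 * s * (1 - s * c) * C3 + 2 * C1 * C2| + |P3| := abs_sub _ _
    _ ≤ |-2 * s * (1 - s * c) * C3| + |2 * C1 * C2| + |P3| := by
        gcongr; exact abs_add_le _ _
    _ ≤ _ := by rw [e, e2]; nlinarith [abs_nonneg C3]

lemma div_bound {D0 x y : ℝ} (h0 : 7 / 16 ≤ D0) (hx : |x| ≤ y) : |x / D0| ≤ 16 / 7 * y := by
  have hD : 0 < D0 := by linarith
  rw [abs_div, abs_of_pos hD, div_le_iff₀ hD]
  have hy : 0 ≤ y := (abs_nonneg x).trans hx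
  nlinarith

/-- the first and second order part of `e₄` -/
lemma e4_bound (hs : s ^ 2 = 1) (hc : |c| ≤ 1 / 4) (hw : |w| ≤ 1 / 8)
    (C1 C2 C3 C4 P4 : ℝ) :
    |d4 s c C1 C2 C3 C4 P4 / d0 s c w + 2 * s * C4 + P4| ≤
      6 * (|C4| * |c|) + 5 * (|C4| * |w|) + 5 * (|C1| * |C3|) + 3 * C2 ^ 2
        + 6 * (|P4| * |c|) + 3 * (|P4| * |w|) := by
  have h0 := d0_lower hs hc hw
  have hD : d0 s c w ≠ 0 := by linarith
  obtain ⟨hp1, hp2⟩ := p_bounds hs hc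
  have e : d4 s c C1 C2 C3 C4 P4 / d0 s c w + 2 * s * C4 + P4
      = (-2 * s * C4 * ((1 - s * c) * (s * c) + w) + (2 * C1 * C3 + C2 ^ 2)
          - P4 * (2 * s * c - c ^ 2 + w)) / d0 s c w := by
    field_simp
    unfold d0 d4
    linear_combination (P4 * c ^ 2) * hs
  rw [e]
  have hsc : |s * c| = |c| := by rw [abs_mul, abs_s hs, one_mul]
  have t1 : |(1 - s * c) * (s * c) + w| ≤ 5 / 4 * |c| + |w| := by
    calc _ ≤ |(1 - s * c) * (s * c)| + |w| := abs_add_le _ _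
      _ ≤ _ := by
        rw [abs_mul, hsc, abs_of_nonneg (by linarith : 0 ≤ 1 - s * c)]
        nlinarith [abs_nonneg c]
  have t2 : |2 * s * c - c ^ 2 + w| ≤ 9 / 4 * |c| + |w| := by
    have e2 : |2 * s * c| = 2 * |c| := by
      rw [mul_assoc, abs_mul, hsc]; norm_num
    calc _ ≤ |2 * s * c - c ^ 2| + |w| := abs_add_le _ _
      _ ≤ |2 * s * c| + |c ^ 2| + |w| := by gcongr; exact abs_sub _ _
      _ ≤ _ := by
        rw [e2, abs_pow]
        nlinarith [abs_nonneg c]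
  have e3 : |-2 * s * C4 * ((1 - s * c) * (s * c) + w)|
      = 2 * |C4| * |(1 - s * c) * (s * c) + w| := by
    rw [abs_mul, abs_mul, abs_mul, abs_s hs]; norm_num
  have e4 : |2 * C1 * C3 + C2 ^ 2| ≤ 2 * (|C1| * |C3|) + C2 ^ 2 := by
    calc _ ≤ |2 * C1 * C3| + |C2 ^ 2| := abs_add_le _ _
      _ = _ := by
        rw [abs_of_nonneg (sq_nonneg C2), abs_mul, abs_mul]; norm_num; ring
  have hnum : |-2 * s * C4 * ((1 - s * c) * (s * c) + w) + (2 * C1 * C3 + C2 ^ 2)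
          - P4 * (2 * s * c - c ^ 2 + w)| ≤
      2 * |C4| * (5 / 4 * |c| + |w|) + (2 * (|C1| * |C3|) + C2 ^ 2)
        + |P4| * (9 / 4 * |c| + |w|) := by
    calc _ ≤ |-2 * s * C4 * ((1 - s * c) * (s * c) + w) + (2 * C1 * C3 + C2 ^ 2)|
            + |P4 * (2 * s * c - c ^ 2 + w)| := abs_sub _ _
      _ ≤ |-2 * s * C4 * ((1 - s * c) * (s * c) + w)| + |2 * C1 * C3 + C2 ^ 2|
            + |P4 * (2 * s * c - c ^ 2 + w)| := by gcongr; exact abs_add_le _ _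
      _ ≤ _ := by
        rw [e3, abs_mul P4]
        gcongr
  refine (div_bound h0 hnum).trans ?_
  nlinarith [mul_nonneg (abs_nonneg C4) (abs_nonneg c), mul_nonneg (abs_nonneg C4) (abs_nonneg w),
    mul_nonneg (abs_nonneg C1) (abs_nonneg C3), mul_nonneg (abs_nonneg P4) (abs_nonneg c),
    mul_nonneg (abs_nonneg P4) (abs_nonneg w), sq_nonneg C2]

lemma quad_bound {x1 x2 x3 : ℝ} {a1 a2 a3 p1 p2 p3 : ℝ}
    (ha1 : 0 ≤ a1) (ha2 : 0 ≤ a2) (ha3 : 0 ≤ a3) (hp1 : 0 ≤ p1) (hp2 : 0 ≤ p2) (hp3 : 0 ≤ p3)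
    (h1 : |x1| ≤ 6 * a1 + 3 * p1) (h2 : |x2| ≤ 6 * a2 + 3 * a1 ^ 2 + 3 * p2)
    (h3 : |x3| ≤ 6 * a3 + 5 * (a1 * a2) + 3 * p3) :
    |4 * x1 * x3 + 2 * x2 ^ 2 - 4 * x1 ^ 2 * x2 + x1 ^ 4| ≤
      144 * (a1 * a3) + 72 * (a1 * p3) + 72 * (p1 * a3) + 36 * (p1 * p3)
        + 522 * a2 ^ 2 + 31287 * a1 ^ 4 + 1959 * p1 ^ 4 + 108 * p2 ^ 2 := by
  have b1 : |4 * x1 * x3| ≤ 4 * ((6 * a1 + 3 * p1) * (6 * a3 + 5 * (a1 * a2) + 3 * p3)) := by
    rw [mul_assoc, abs_mul, abs_mul, abs_of_pos (by norm_num : (0:ℝ) < 4)]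
    gcongr
  have b2 : |4 * x1 ^ 2 * x2| ≤ 2 * x1 ^ 4 + 2 * x2 ^ 2 := by
    rw [abs_le]; constructor <;> nlinarith [sq_nonneg (x1 ^ 2 - x2), sq_nonneg (x1 ^ 2 + x2)]
  have b3 : x2 ^ 2 ≤ 3 * (36 * a2 ^ 2 + 9 * a1 ^ 4 + 9 * p2 ^ 2) := by
    have h : x2 ^ 2 ≤ (6 * a2 + 3 * a1 ^ 2 + 3 * p2) ^ 2 :=
      sq_le_sq.mpr (h2.trans (le_abs_self _))
    nlinarith [sq_nonneg (6 * a2 - 3 * a1 ^ 2), sq_nonneg (6 * a2 - 3 * p2),
      sq_nonneg (3 * a1 ^ 2 - 3 * p2)]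
  have b4 : x1 ^ 4 ≤ 8 * (1296 * a1 ^ 4 + 81 * p1 ^ 4) := by
    have h : x1 ^ 2 ≤ (6 * a1 + 3 * p1) ^ 2 := sq_le_sq.mpr (h1.trans (le_abs_self _))
    have h' : x1 ^ 2 ≤ 2 * (36 * a1 ^ 2 + 9 * p1 ^ 2) := by
      nlinarith [sq_nonneg (6 * a1 - 3 * p1)]
    have h'' : (x1 ^ 2) ^ 2 ≤ (2 * (36 * a1 ^ 2 + 9 * p1 ^ 2)) ^ 2 :=
      pow_le_pow_left₀ (sq_nonneg _) h' 2
    nlinarith [sq_nonneg (36 * a1 ^ 2 - 9 * p1 ^ 2)]
  have b5 : a1 ^ 2 * a2 ≤ (a1 ^ 4 + a2 ^ 2) / 2 := by nlinarith [sq_nonneg (a1 ^ 2 - a2)]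
  have b6 : p1 * (a1 * a2) ≤ a2 ^ 2 / 2 + p1 ^ 4 / 4 + a1 ^ 4 / 4 := by
    nlinarith [sq_nonneg (p1 * a1 - a2), sq_nonneg (p1 ^ 2 - a1 ^ 2)]
  have b0 : |4 * x1 * x3 + 2 * x2 ^ 2 - 4 * x1 ^ 2 * x2 + x1 ^ 4|
      ≤ |4 * x1 * x3| + 2 * x2 ^ 2 + |4 * x1 ^ 2 * x2| + x1 ^ 4 := by
    have i1 := le_abs_self (4 * x1 * x3)
    have i2 := neg_abs_le (4 * x1 * x3)
    have i3 := le_abs_self (4 * x1 ^ 2 * x2)
    have i4 := neg_abs_le (4 * x1 ^ 2 * x2)
    have i5 := sq_nonneg x2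
    have i6 : 0 ≤ x1 ^ 4 := by positivity
    rw [abs_le]; constructor <;> linarith
  refine b0.trans ?_
  have e1 : 4 * ((6 * a1 + 3 * p1) * (6 * a3 + 5 * (a1 * a2) + 3 * p3))
      = 144 * (a1 * a3) + 120 * (a1 ^ 2 * a2) + 72 * (a1 * p3) + 72 * (p1 * a3)
        + 60 * (p1 * (a1 * a2)) + 36 * (p1 * p3) := by ring
  rw [e1] at b1
  linarith

/-- **pointwise expansion** of the increment of `X₄` on a good pair. -/
theorem inc4_bound (hs : s ^ 2 = 1) (hc : |c| ≤ 1 / 4) (hw : |w| ≤ 1 / 8)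
    (C1 C2 C3 C4 P1 P2 P3 P4 : ℝ) :
    |inc4 (d1 s c C1 P1 / d0 s c w) (d2 s c C1 C2 P2 / d0 s c w)
        (d3 s c C1 C2 C3 P3 / d0 s c w) (d4 s c C1 C2 C3 C4 P4 / d0 s c w)
      - (-2 + 8 * s * C4 + 4 * P4)| ≤ 32000 * mono12 c w C1 C2 C3 C4 P1 P2 P3 P4 := by
  have h0 := d0_lower hs hc hw
  have n1 := div_bound h0 (abs_d1_le hs hc C1 P1)
  have n2 := div_bound h0 (abs_d2_le hs hc C1 C2 P2)
  have n3 := div_bound h0 (abs_d3_le hs hc C1 C2 C3 P3)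
  have n4 := e4_bound hs hc hw C1 C2 C3 C4 P4
  have p1 := abs_nonneg C1
  have p2 := abs_nonneg C2
  have p3 := abs_nonneg C3
  have q1 := abs_nonneg P1
  have q2 := abs_nonneg P2
  have q3 := abs_nonneg P3
  have m12 := mul_nonneg p1 p2
  have s1 := sq_abs C1
  have s2 := sq_abs C2
  have s3 := sq_abs P2
  have f1 : |C1| ^ 4 = C1 ^ 4 := by
    rw [show |C1| ^ 4 = (|C1| ^ 2) ^ 2 by ring, s1]; ring
  have f2 : |P1| ^ 4 = P1 ^ 4 := by
    rw [show |P1| ^ 4 = (|P1| ^ 2) ^ 2 by ring, sq_abs]; ring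
  have hq := quad_bound (x1 := d1 s c C1 P1 / d0 s c w) (x2 := d2 s c C1 C2 P2 / d0 s c w)
    (x3 := d3 s c C1 C2 C3 P3 / d0 s c w) p1 p2 p3 q1 q2 q3 (by linarith)
    (by rw [s1]; nlinarith [sq_nonneg C1]) (by linarith)
  rw [f1, f2, s2, s3] at hq
  set x1 := d1 s c C1 P1 / d0 s c w
  set x2 := d2 s c C1 C2 P2 / d0 s c w
  set x3 := d3 s c C1 C2 C3 P3 / d0 s c w
  set x4 := d4 s c C1 C2 C3 C4 P4 / d0 s c w
  have e : inc4 x1 x2 x3 x4 - (-2 + 8 * s * C4 + 4 * P4)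
      = (4 * x1 * x3 + 2 * x2 ^ 2 - 4 * x1 ^ 2 * x2 + x1 ^ 4)
        - 4 * (x4 + 2 * s * C4 + P4) := by
    unfold inc4; ring
  rw [e]
  have e' : |4 * (x4 + 2 * s * C4 + P4)| = 4 * |x4 + 2 * s * C4 + P4| := by
    rw [abs_mul]; norm_num
  have g1 := mul_nonneg p1 p3
  have g2 := mul_nonneg p1 q3
  have g3 := mul_nonneg q1 p3
  have g4 := mul_nonneg q1 q3
  have g5 := mul_nonneg (abs_nonneg C4) (abs_nonneg c)
  have g6 := mul_nonneg (abs_nonneg C4) (abs_nonneg w)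
  have g7 := mul_nonneg (abs_nonneg P4) (abs_nonneg c)
  have g8 := mul_nonneg (abs_nonneg P4) (abs_nonneg w)
  have g9 := sq_nonneg C2
  have g10 := sq_nonneg P2
  have g11 : 0 ≤ C1 ^ 4 := by positivity
  have g12 : 0 ≤ P1 ^ 4 := by positivity
  calc _ ≤ |4 * x1 * x3 + 2 * x2 ^ 2 - 4 * x1 ^ 2 * x2 + x1 ^ 4|
        + |4 * (x4 + 2 * s * C4 + P4)| := abs_sub _ _
    _ ≤ _ := by
      rw [e']
      unfold mono12
      linarith

end scalar


/-! ### the matrix quantities -/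

variable {ι : Type*} [Fintype ι] [DecidableEq ι]

def A0 (K : Matrix ι ι ℝ) (x : ι) : ℝ := K x x
def A1 (K : Matrix ι ι ℝ) (x : ι) : ℝ := (K ^ 2) x x - 1
def A2 (K : Matrix ι ι ℝ) (x : ι) : ℝ := (K ^ 3) x x - K x x
def A3 (K : Matrix ι ι ℝ) (x : ι) : ℝ := (K ^ 4) x x - (K ^ 2) x x
def A4 (K : Matrix ι ι ℝ) (x : ι) : ℝ := (K ^ 5) x x - (K ^ 3) x x

def C0 (K : Matrix ι ι ℝ) (p : ι × ι) : ℝ := K p.1 p.2
def C1 (K : Matrix ι ι ℝ) (p : ι × ι) : ℝ := (K ^ 2) p.1 p.2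
def C2 (K : Matrix ι ι ℝ) (p : ι × ι) : ℝ := (K ^ 3) p.1 p.2 - K p.1 p.2
def C3 (K : Matrix ι ι ℝ) (p : ι × ι) : ℝ := (K ^ 4) p.1 p.2 - (K ^ 2) p.1 p.2
def C4 (K : Matrix ι ι ℝ) (p : ι × ι) : ℝ := (K ^ 5) p.1 p.2 - (K ^ 3) p.1 p.2

def W0 (K : Matrix ι ι ℝ) (p : ι × ι) : ℝ := A0 K p.1 * A0 K p.2
def P1 (K : Matrix ι ι ℝ) (p : ι × ι) : ℝ := A0 K p.1 * A1 K p.2 + A1 K p.1 * A0 K p.2
def P2 (K : Matrix ι ι ℝ) (p : ι × ι) : ℝ :=
  A0 K p.1 * A2 K p.2 + A1 K p.1 * A1 K p.2 + A2 K p.1 * A0 K p.2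
def P3 (K : Matrix ι ι ℝ) (p : ι × ι) : ℝ :=
  A0 K p.1 * A3 K p.2 + A1 K p.1 * A2 K p.2 + A2 K p.1 * A1 K p.2 + A3 K p.1 * A0 K p.2
def P4 (K : Matrix ι ι ℝ) (p : ι × ι) : ℝ :=
  A0 K p.1 * A4 K p.2 + A1 K p.1 * A3 K p.2 + A2 K p.1 * A2 K p.2 + A3 K p.1 * A1 K p.2
    + A4 K p.1 * A0 K p.2

/-- the increment of `X₄` in the step `(p.1, p.2)`. -/
noncomputable def dX4 (s : ℝ) (K : Matrix ι ι ℝ) (p : ι × ι) : ℝ :=
  inc4 (d1 s (C0 K p) (C1 K p) (P1 K p) / d0 s (C0 K p) (W0 K p))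
    (d2 s (C0 K p) (C1 K p) (C2 K p) (P2 K p) / d0 s (C0 K p) (W0 K p))
    (d3 s (C0 K p) (C1 K p) (C2 K p) (C3 K p) (P3 K p) / d0 s (C0 K p) (W0 K p))
    (d4 s (C0 K p) (C1 K p) (C2 K p) (C3 K p) (C4 K p) (P4 K p) / d0 s (C0 K p) (W0 K p))

/-- remainder monomials at `p`. -/
def mono (K : Matrix ι ι ℝ) (p : ι × ι) : ℝ :=
  mono12 (C0 K p) (W0 K p) (C1 K p) (C2 K p) (C3 K p) (C4 K p) (P1 K p) (P2 K p) (P3 K p) (P4 K p)

lemma mono_nonneg (K : Matrix ι ι ℝ) (p : ι × ι) : 0 ≤ mono K p := mono12_nonneg _ _ _ _ _ _ _ _ _ _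

/-- a good pair -/
def Good (K : Matrix ι ι ℝ) (p : ι × ι) : Prop :=
  |K p.1 p.2| ≤ 1 / 4 ∧ |K p.1 p.1 * K p.2 p.2| ≤ 1 / 8

lemma dX4_bound {s : ℝ} (hs : s ^ 2 = 1) (K : Matrix ι ι ℝ) {p : ι × ι} (hp : Good K p) :
    |dX4 s K p - (-2 + 8 * s * C4 K p + 4 * P4 K p)| ≤ 32000 * mono K p :=
  inc4_bound hs hp.1 hp.2 _ _ _ _ _ _ _ _

/-- the numbers controlling all the error terms -/
structure Bnd (K : Matrix ι ι ℝ) (F : Finset ι) (n0 n1 n2 n3 n4 h0 h1 h2 h3 h4 q4 : ℝ) :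
    Prop where
  a0 : L2 F (A0 K) n0
  a1 : L2 F (A1 K) n1
  a2 : L2 F (A2 K) n2
  a3 : L2 F (A3 K) n3
  a4 : L2 F (A4 K) n4
  c0 : L2 (F ×ˢ F) (C0 K) h0
  c1 : L2 (F ×ˢ F) (C1 K) h1
  c2 : L2 (F ×ˢ F) (C2 K) h2
  c3 : L2 (F ×ˢ F) (C3 K) h3
  c4 : L2 (F ×ˢ F) (C4 K) h4
  cq : ∑ p ∈ F ×ˢ F, C1 K p ^ 4 ≤ q4

def m1 (n0 n1 : ℝ) : ℝ := 2 * (n0 * n1)
def m2 (n0 n1 n2 : ℝ) : ℝ := 2 * (n0 * n2) + n1 ^ 2
def m3 (n0 n1 n2 n3 : ℝ) : ℝ := 2 * (n0 * n3) + 2 * (n1 * n2)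
def m4 (n0 n1 n2 n3 n4 : ℝ) : ℝ := 2 * (n0 * n4) + 2 * (n1 * n3) + n2 ^ 2

/-- the total of the remainder monomials -/
def errTot (n0 n1 n2 n3 n4 h0 h1 h2 h3 h4 q4 : ℝ) : ℝ :=
  h4 * h0 + h4 * n0 ^ 2 + h1 * h3 + h2 ^ 2 + m4 n0 n1 n2 n3 n4 * h0
    + m4 n0 n1 n2 n3 n4 * n0 ^ 2 + q4 + m2 n0 n1 n2 ^ 2 + m1 n0 n1 ^ 4
    + h1 * m3 n0 n1 n2 n3 + m1 n0 n1 * h3 + m1 n0 n1 * m3 n0 n1 n2 n3

section bounds
variable {K : Matrix ι ι ℝ} {F : Finset ι} {n0 n1 n2 n3 n4 h0 h1 h2 h3 h4 q4 : ℝ}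

lemma Bnd.w0 (B : Bnd K F n0 n1 n2 n3 n4 h0 h1 h2 h3 h4 q4) : L2 (F ×ˢ F) (W0 K) (n0 ^ 2) := by
  rw [pow_two]; exact B.a0.tensor B.a0 subset_rfl

lemma Bnd.p1 (B : Bnd K F n0 n1 n2 n3 n4 h0 h1 h2 h3 h4 q4) :
    L2 (F ×ˢ F) (P1 K) (m1 n0 n1) :=
  ((B.a0.tensor B.a1 subset_rfl).add (B.a1.tensor B.a0 subset_rfl)).mono
    (by unfold m1; linarith [mul_comm n0 n1])

lemma Bnd.p2 (B : Bnd K F n0 n1 n2 n3 n4 h0 h1 h2 h3 h4 q4) :
    L2 (F ×ˢ F) (P2 K) (m2 n0 n1 n2) :=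
  (((B.a0.tensor B.a2 subset_rfl).add (B.a1.tensor B.a1 subset_rfl)).add
    (B.a2.tensor B.a0 subset_rfl)).mono (by unfold m2; nlinarith)

lemma Bnd.p3 (B : Bnd K F n0 n1 n2 n3 n4 h0 h1 h2 h3 h4 q4) :
    L2 (F ×ˢ F) (P3 K) (m3 n0 n1 n2 n3) :=
  ((((B.a0.tensor B.a3 subset_rfl).add (B.a1.tensor B.a2 subset_rfl)).add
    (B.a2.tensor B.a1 subset_rfl)).add (B.a3.tensor B.a0 subset_rfl)).mono
      (by unfold m3; nlinarith)

lemma Bnd.p4 (B : Bnd K F n0 n1 n2 n3 n4 h0 h1 h2 h3 h4 q4) :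
    L2 (F ×ˢ F) (P4 K) (m4 n0 n1 n2 n3 n4) :=
  (((((B.a0.tensor B.a4 subset_rfl).add (B.a1.tensor B.a3 subset_rfl)).add
    (B.a2.tensor B.a2 subset_rfl)).add (B.a3.tensor B.a1 subset_rfl)).add
      (B.a4.tensor B.a0 subset_rfl)).mono (by unfold m4; nlinarith)

/-- the sum of all remainder monomials over any set of pairs -/
lemma Bnd.sum_mono_le (B : Bnd K F n0 n1 n2 n3 n4 h0 h1 h2 h3 h4 q4) {S : Finset (ι × ι)}
    (hS : S ⊆ F ×ˢ F) :
    ∑ p ∈ S, mono K p ≤ errTot n0 n1 n2 n3 n4 h0 h1 h2 h3 h4 q4 := by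
  have b0 := B.c0.subset hS
  have b1 := B.c1.subset hS
  have b2 := B.c2.subset hS
  have b3 := B.c3.subset hS
  have b4 := B.c4.subset hS
  have w0 := B.w0.subset hS
  have p1 := B.p1.subset hS
  have p2 := B.p2.subset hS
  have p3 := B.p3.subset hS
  have p4 := B.p4.subset hS
  have e1 := b4.sum_mul b0
  have e2 := b4.sum_mul w0
  have e3 := b1.sum_mul b3
  have e4 := b2.sum_sq
  have e5 := p4.sum_mul b0
  have e6 := p4.sum_mul w0
  have e7 : ∑ p ∈ S, C1 K p ^ 4 ≤ q4 :=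
    (Finset.sum_le_sum_of_subset_of_nonneg hS fun _ _ _ => by positivity).trans B.cq
  have e8 := p2.sum_sq
  have e9 := p1.sum_pow_four
  have e10 := b1.sum_mul p3
  have e11 := p1.sum_mul b3
  have e12 := p1.sum_mul p3
  unfold mono mono12 errTot
  simp only [Finset.sum_add_distrib]
  linarith

/-- **Unweighted average** of the increment of `X₄` over a set `S` of good pairs. -/
theorem Bnd.sum_dX4 (B : Bnd K F n0 n1 n2 n3 n4 h0 h1 h2 h3 h4 q4) {s : ℝ} (hs : s ^ 2 = 1)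
    {S : Finset (ι × ι)} (hS : S ⊆ F ×ˢ F) (hgood : ∀ p ∈ S, Good K p) {β : ℝ}
    (hβ : ((F ×ˢ F \ S).card : ℝ) ≤ β) (hC4 : ∑ p ∈ F ×ˢ F, C4 K p = 0) :
    |∑ p ∈ S, dX4 s K p - (-2 * (S.card : ℝ) + 4 * ∑ p ∈ F ×ˢ F, P4 K p)| ≤
      Real.sqrt β * (8 * h4 + 4 * m4 n0 n1 n2 n3 n4)
        + 32000 * errTot n0 n1 n2 n3 n4 h0 h1 h2 h3 h4 q4 := by
  have e1 : |∑ p ∈ S, (dX4 s K p - (-2 + 8 * s * C4 K p + 4 * P4 K p))|
      ≤ 32000 * errTot n0 n1 n2 n3 n4 h0 h1 h2 h3 h4 q4 :=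
    calc _ ≤ ∑ p ∈ S, |dX4 s K p - (-2 + 8 * s * C4 K p + 4 * P4 K p)| :=
          Finset.abs_sum_le_sum_abs _ _
      _ ≤ ∑ p ∈ S, 32000 * mono K p :=
          Finset.sum_le_sum fun p hp => dX4_bound hs K (hgood p hp)
      _ = 32000 * ∑ p ∈ S, mono K p := by rw [Finset.mul_sum]
      _ ≤ _ := by gcongr; exact B.sum_mono_le hS
  have e2 := abs_sum_sub_le hS B.c4 hβ
  have e3 := abs_sum_sub_le hS B.p4 hβ
  rw [hC4, sub_zero] at e2
  have e4 : ∑ p ∈ S, dX4 s K p - (-2 * (S.card : ℝ) + 4 * ∑ p ∈ F ×ˢ F, P4 K p)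
      = ∑ p ∈ S, (dX4 s K p - (-2 + 8 * s * C4 K p + 4 * P4 K p))
        + 8 * s * ∑ p ∈ S, C4 K p
        + 4 * (∑ p ∈ S, P4 K p - ∑ p ∈ F ×ˢ F, P4 K p) := by
    simp only [Finset.sum_sub_distrib, Finset.sum_add_distrib, Finset.mul_sum, Finset.sum_const,
      nsmul_eq_mul, mul_sub]
    ring
  rw [e4]
  have e5 : |8 * s * ∑ p ∈ S, C4 K p| ≤ 8 * (Real.sqrt β * h4) := by
    rw [abs_mul, abs_mul, abs_s hs, mul_one]
    have : |(8:ℝ)| = 8 := by norm_num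
    rw [this]; gcongr
  have e6 : |4 * (∑ p ∈ S, P4 K p - ∑ p ∈ F ×ˢ F, P4 K p)|
      ≤ 4 * (Real.sqrt β * m4 n0 n1 n2 n3 n4) := by
    rw [abs_mul]
    have : |(4:ℝ)| = 4 := by norm_num
    rw [this]; gcongr
  calc _ ≤ |∑ p ∈ S, (dX4 s K p - (-2 + 8 * s * C4 K p + 4 * P4 K p))
        + 8 * s * ∑ p ∈ S, C4 K p| + |4 * (∑ p ∈ S, P4 K p - ∑ p ∈ F ×ˢ F, P4 K p)| :=
        abs_add_le _ _
    _ ≤ |∑ p ∈ S, (dX4 s K p - (-2 + 8 * s * C4 K p + 4 * P4 K p))|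
        + |8 * s * ∑ p ∈ S, C4 K p| + |4 * (∑ p ∈ S, P4 K p - ∑ p ∈ F ×ˢ F, P4 K p)| := by
        gcongr; exact abs_add_le _ _
    _ ≤ _ := by linarith


/-- effect of bounded weights (Frobenius norm `t` for the diagonal products), apart from the
first order term `8 s C₄` -/
theorem Bnd.sum_weight' (B : Bnd K F n0 n1 n2 n3 n4 h0 h1 h2 h3 h4 q4) {s : ℝ} (hs : s ^ 2 = 1)
    {S : Finset (ι × ι)} (hS : S ⊆ F ×ˢ F) (hgood : ∀ p ∈ S, Good K p)
    {θ : ι × ι → ℝ} {η t : ℝ} (hη : 0 ≤ η) (hθ : ∀ p ∈ S, |θ p| ≤ η) (ht : L2 S θ t) :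
    |∑ p ∈ S, θ p * dX4 s K p - 8 * s * ∑ p ∈ S, θ p * C4 K p| ≤
      η * (2 * (S.card : ℝ) + 32000 * errTot n0 n1 n2 n3 n4 h0 h1 h2 h3 h4 q4)
        + 4 * (t * m4 n0 n1 n2 n3 n4) := by
  have e0 : ∑ p ∈ S, θ p * dX4 s K p - 8 * s * ∑ p ∈ S, θ p * C4 K p
      = ∑ p ∈ S, θ p * (dX4 s K p - 8 * s * C4 K p - 4 * P4 K p)
        + 4 * ∑ p ∈ S, θ p * P4 K p := by
    rw [Finset.mul_sum, Finset.mul_sum, ← Finset.sum_sub_distrib, ← Finset.sum_add_distrib]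
    exact Finset.sum_congr rfl fun p _ => by ring
  rw [e0]
  have e1 : ∀ p ∈ S, |θ p * (dX4 s K p - 8 * s * C4 K p - 4 * P4 K p)|
      ≤ η * (2 + 32000 * mono K p) := fun p hp => by
    rw [abs_mul]
    refine mul_le_mul (hθ p hp) ?_ (abs_nonneg _) hη
    have h := dX4_bound hs K (hgood p hp)
    have e : dX4 s K p - 8 * s * C4 K p - 4 * P4 K p
        = (dX4 s K p - (-2 + 8 * s * C4 K p + 4 * P4 K p)) + (-2) := by ring
    rw [e]
    calc _ ≤ |dX4 s K p - (-2 + 8 * s * C4 K p + 4 * P4 K p)| + |(-2 : ℝ)| :=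
          abs_add_le _ _
      _ ≤ 32000 * mono K p + |(-2 : ℝ)| := by gcongr
      _ = _ := by norm_num; ring
  have e2 : |∑ p ∈ S, θ p * (dX4 s K p - 8 * s * C4 K p - 4 * P4 K p)| ≤
      η * (2 * (S.card : ℝ) + 32000 * errTot n0 n1 n2 n3 n4 h0 h1 h2 h3 h4 q4) :=
    calc _ ≤ ∑ p ∈ S, |θ p * (dX4 s K p - 8 * s * C4 K p - 4 * P4 K p)| :=
          Finset.abs_sum_le_sum_abs _ _
      _ ≤ ∑ p ∈ S, η * (2 + 32000 * mono K p) := Finset.sum_le_sum e1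
      _ = η * (2 * (S.card : ℝ) + 32000 * ∑ p ∈ S, mono K p) := by
          rw [← Finset.mul_sum]
          simp only [Finset.sum_add_distrib, Finset.mul_sum, Finset.sum_const, nsmul_eq_mul]
          ring
      _ ≤ _ := by
          have h2 := B.sum_mono_le hS
          gcongr
  have e3 : |4 * ∑ p ∈ S, θ p * P4 K p| ≤ 4 * (t * m4 n0 n1 n2 n3 n4) := by
    rw [abs_mul]
    have : |(4:ℝ)| = 4 := by norm_num
    rw [this]
    exact mul_le_mul_of_nonneg_left (ht.abs_sum_mul (B.p4.subset hS)) (by norm_num)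
  exact (abs_add_le _ _).trans (add_le_add e2 e3)

end bounds


/-! ### instantiation of the bounds -/

/-- the indicator of the live set -/
def ind (F : Finset ι) : ι → ℝ := fun i => if i ∈ F then 1 else 0

/-- `Y = ∑ (K²)_xx (K⁴)_xx` -/
def Yv (K : Matrix ι ι ℝ) : ℝ := ∑ x, (K ^ 2) x x * (K ^ 4) x x
/-- `R₂ = ∑ ((K²)_xx)²` -/
def R2v (K : Matrix ι ι ℝ) : ℝ := ∑ x, ((K ^ 2) x x) ^ 2
/-- `V = ∑ (K_xx)²` -/
def Vv (K : Matrix ι ι ℝ) : ℝ := ∑ x, (K x x) ^ 2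
/-- `W = ∑_F ((K²)_xx - 1)²` -/
def Wv (K : Matrix ι ι ℝ) (F : Finset ι) : ℝ := ∑ x ∈ F, ((K ^ 2) x x - 1) ^ 2

section inst
variable {K : Matrix ι ι ℝ} {F : Finset ι} {L : ℝ}

lemma dead_pow (hF : ∀ i j, i ∉ F → K i j = 0) {n : ℕ} (hn : n ≠ 0) {i : ι} (hi : i ∉ F)
    (j : ι) : (K ^ n) i j = 0 := by
  obtain ⟨m, rfl⟩ := Nat.exists_eq_succ_of_ne_zero hn
  rw [pow_succ', Matrix.mul_apply]
  exact Finset.sum_eq_zero fun k _ => by rw [hF i k hi, zero_mul]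

lemma sum_F_diag (hF : ∀ i j, i ∉ F → K i j = 0) {n : ℕ} (hn : n ≠ 0) :
    ∑ x ∈ F, (K ^ n) x x = (K ^ n).trace := by
  rw [Matrix.trace]
  exact Finset.sum_subset (Finset.subset_univ F) fun x _ hx => dead_pow hF hn hx x

lemma sum_F_diag_one (hF : ∀ i j, i ∉ F → K i j = 0) : ∑ x ∈ F, K x x = K.trace := by
  simpa using sum_F_diag hF (n := 1) one_ne_zero

/-- `∑_{F×F} C₄ = 0` -/
lemma sum_C4 {s : ℝ} (hs : s ^ 2 = 1) (hF : ∀ i j, i ∉ F → K i j = 0)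
    (hrow : K *ᵥ ind F = s • ind F) : ∑ p ∈ F ×ˢ F, C4 K p = 0 := by
  have key : ∀ n : ℕ, ∑ p ∈ F ×ˢ F, (K ^ n) p.1 p.2 = s ^ n * (F.card : ℝ) := fun n => by
    rw [Finset.sum_product]
    have h := row_pow hrow n
    have h1 : ∀ x, ∑ y ∈ F, (K ^ n) x y = s ^ n * ind F x := fun x => by
      have h2 := congrFun h x
      simp only [Matrix.mulVec, dotProduct, Pi.smul_apply, smul_eq_mul] at h2
      rw [← h2]
      simp [ind, Finset.sum_ite_mem]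
    simp only [h1, ← Finset.mul_sum]
    congr 1
    simp [ind, Finset.sum_ite_mem]
  unfold C4
  rw [Finset.sum_sub_distrib, key 5, key 3]
  have : s ^ 5 = s ^ 3 := by rw [show s ^ 5 = s ^ 3 * s ^ 2 by ring, hs, mul_one]
  rw [this]; ring

lemma sum_P4 (hF : ∀ i j, i ∉ F → K i j = 0) :
    ∑ p ∈ F ×ˢ F, P4 K p = 2 * (K.trace * ((K ^ 5).trace - (K ^ 3).trace))
      + 2 * (((K ^ 2).trace - (F.card : ℝ)) * ((K ^ 4).trace - (K ^ 2).trace))
      + ((K ^ 3).trace - K.trace) ^ 2 := by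
  have s0 : ∑ x ∈ F, A0 K x = K.trace := by
    unfold A0; exact sum_F_diag_one hF
  have s1 : ∑ x ∈ F, A1 K x = (K ^ 2).trace - (F.card : ℝ) := by
    unfold A1
    rw [Finset.sum_sub_distrib, sum_F_diag hF two_ne_zero]; simp
  have s2 : ∑ x ∈ F, A2 K x = (K ^ 3).trace - K.trace := by
    unfold A2
    rw [Finset.sum_sub_distrib, sum_F_diag hF three_ne_zero, sum_F_diag_one hF]
  have s3 : ∑ x ∈ F, A3 K x = (K ^ 4).trace - (K ^ 2).trace := by
    unfold A3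
    rw [Finset.sum_sub_distrib, sum_F_diag hF four_ne_zero, sum_F_diag hF two_ne_zero]
  have s4 : ∑ x ∈ F, A4 K x = (K ^ 5).trace - (K ^ 3).trace := by
    unfold A4
    rw [Finset.sum_sub_distrib, sum_F_diag hF (by norm_num), sum_F_diag hF three_ne_zero]
  unfold P4
  simp only [Finset.sum_add_distrib]
  rw [sum_tensor F F (A0 K) (A4 K), sum_tensor F F (A1 K) (A3 K), sum_tensor F F (A2 K) (A2 K),
    sum_tensor F F (A3 K) (A1 K), sum_tensor F F (A4 K) (A0 K), s0, s1, s2, s3, s4]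
  ring

lemma Yv_nonneg (hK : Kᵀ = K) : 0 ≤ Yv K :=
  Finset.sum_nonneg fun x _ => mul_nonneg (diag_sq_nonneg hK x) (diag_four_nonneg hK x)

lemma R2v_nonneg : 0 ≤ R2v K := Finset.sum_nonneg fun x _ => sq_nonneg _

lemma four_le (hK : Kᵀ = K) (hL : OpB K L) (x : ι) : (K ^ 4) x x ≤ L ^ 2 * (K ^ 2) x x := by
  simpa using diag_even_le hK hL 1 1 x

lemma Yv_le (hK : Kᵀ = K) (hL : OpB K L) : Yv K ≤ L ^ 2 * R2v K := by
  unfold Yv R2v
  rw [Finset.mul_sum]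
  refine Finset.sum_le_sum fun x _ => ?_
  have := mul_le_mul_of_nonneg_left (four_le hK hL x) (diag_sq_nonneg hK x)
  calc _ ≤ _ := this
    _ = _ := by ring

lemma Yv_le' (hK : Kᵀ = K) (hL : OpB K L) (hF : ∀ i j, i ∉ F → K i j = 0) :
    Yv K ≤ (K ^ 4).trace + L ^ 2 * (Real.sqrt (R2v K) * Real.sqrt (Wv K F)) := by
  have e1 : Yv K = (K ^ 4).trace + ∑ x ∈ F, (K ^ 4) x x * ((K ^ 2) x x - 1) := by
    rw [← sum_F_diag hF four_ne_zero, ← Finset.sum_add_distrib, Yv]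
    rw [← Finset.sum_subset (Finset.subset_univ F) fun x _ hx => by
      rw [dead_pow hF two_ne_zero hx, zero_mul]]
    exact Finset.sum_congr rfl fun x _ => by ring
  have a : L2 F (fun x => (K ^ 4) x x) (L ^ 2 * Real.sqrt (R2v K)) := by
    refine ⟨mul_nonneg (sq_nonneg L) (Real.sqrt_nonneg _), ?_⟩
    rw [mul_pow, Real.sq_sqrt R2v_nonneg]
    calc _ ≤ ∑ x, ((K ^ 4) x x) ^ 2 :=
          Finset.sum_le_sum_of_subset_of_nonneg (Finset.subset_univ F) fun _ _ _ => sq_nonneg _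
      _ ≤ ∑ x, (L ^ 2) ^ 2 * ((K ^ 2) x x) ^ 2 := Finset.sum_le_sum fun x _ => by
          rw [← mul_pow]
          exact pow_le_pow_left₀ (diag_four_nonneg hK x) (four_le hK hL x) 2
      _ = _ := by rw [← Finset.mul_sum]; rfl
  have b : L2 F (fun x => (K ^ 2) x x - 1) (Real.sqrt (Wv K F)) := L2.of_le le_rfl
  have h := (abs_le.mp (a.abs_sum_mul b)).2
  rw [e1]
  linarith [h, mul_assoc (L ^ 2) (Real.sqrt (R2v K)) (Real.sqrt (Wv K F))]

lemma sq_add_le (a b : ℝ) : (a - b) ^ 2 ≤ 2 * a ^ 2 + 2 * b ^ 2 := by nlinarith [sq_nonneg (a + b)]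

lemma l2_A2 (hK : Kᵀ = K) : L2 F (A2 K) (Real.sqrt (2 * Yv K + 2 * Vv K)) := by
  refine L2.of_le ?_
  calc _ ≤ ∑ x, (A2 K x) ^ 2 :=
        Finset.sum_le_sum_of_subset_of_nonneg (Finset.subset_univ F) fun _ _ _ => sq_nonneg _
    _ ≤ ∑ x, (2 * ((K ^ 2) x x * (K ^ 4) x x) + 2 * (K x x) ^ 2) :=
        Finset.sum_le_sum fun x _ => by
          have h := entry_sq_le hK 1 2 x x
          simp only [Nat.reduceAdd, Nat.reduceMul] at h
          have := sq_add_le ((K ^ 3) x x) (K x x)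
          unfold A2
          linarith
    _ = _ := by
        rw [Finset.sum_add_distrib, ← Finset.mul_sum, ← Finset.mul_sum]; rfl

lemma l2_diag_aux {f : ι → ℝ} {M : ℝ} (hM : 0 ≤ M) (hf : ∀ x, |f x| ≤ M * (K ^ 2) x x) :
    L2 F f (M * Real.sqrt (R2v K)) := by
  refine ⟨mul_nonneg hM (Real.sqrt_nonneg _), ?_⟩
  rw [mul_pow, Real.sq_sqrt R2v_nonneg]
  calc _ ≤ ∑ x, (f x) ^ 2 :=
        Finset.sum_le_sum_of_subset_of_nonneg (Finset.subset_univ F) fun _ _ _ => sq_nonneg _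
    _ ≤ ∑ x, M ^ 2 * ((K ^ 2) x x) ^ 2 := Finset.sum_le_sum fun x _ => by
        rw [← mul_pow, ← sq_abs (f x)]
        exact pow_le_pow_left₀ (abs_nonneg _) (hf x) 2
    _ = _ := by rw [← Finset.mul_sum]; rfl

lemma l2_A3 (hK : Kᵀ = K) (hL : OpB K L) (h1 : 1 ≤ L) :
    L2 F (A3 K) (2 * L ^ 2 * Real.sqrt (R2v K)) := by
  refine l2_diag_aux (by positivity) fun x => ?_
  have a := abs_diag_le hK hL 2 x
  have b := diag_sq_nonneg hK x
  have c : 1 ≤ L ^ 2 := one_le_pow₀ h1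
  simp only [Nat.reduceAdd] at a
  unfold A3
  calc _ ≤ |(K ^ 4) x x| + |(K ^ 2) x x| := abs_sub _ _
    _ ≤ _ := by rw [abs_of_nonneg b]; nlinarith

lemma l2_A4 (hK : Kᵀ = K) (hL : OpB K L) (h1 : 1 ≤ L) :
    L2 F (A4 K) (2 * L ^ 3 * Real.sqrt (R2v K)) := by
  have h0 : 0 ≤ L := zero_le_one.trans h1
  refine l2_diag_aux (by positivity) fun x => ?_
  have a := abs_diag_le hK hL 3 x
  have a' := abs_diag_le hK hL 1 x
  have b := diag_sq_nonneg hK x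
  have c : L ^ 1 ≤ L ^ 3 := pow_le_pow_right₀ h1 (by norm_num)
  simp only [Nat.reduceAdd] at a a'
  unfold A4
  calc _ ≤ |(K ^ 5) x x| + |(K ^ 3) x x| := abs_sub _ _
    _ ≤ _ := by nlinarith

lemma l2_mat {f : ι → ι → ℝ} {M : ℝ} (H : ∑ x, ∑ y, f x y ^ 2 ≤ M) (S : Finset (ι × ι)) :
    L2 S (fun p => f p.1 p.2) (Real.sqrt M) := by
  have h0 : 0 ≤ ∑ x, ∑ y, f x y ^ 2 :=
    Finset.sum_nonneg fun _ _ => Finset.sum_nonneg fun _ _ => sq_nonneg _
  exact L2.ofMatrix (Real.sqrt_nonneg _) (by rw [Real.sq_sqrt (h0.trans H)]; exact H) S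

lemma l2_C0 (hK : Kᵀ = K) (S : Finset (ι × ι)) :
    L2 S (C0 K) (Real.sqrt ((K ^ 2).trace)) := by
  refine l2_mat (f := fun x y => K x y) ?_ S
  have := frob_pow hK 1
  simp only [pow_one, mul_one] at this
  exact this.le

lemma l2_C1 (hK : Kᵀ = K) (S : Finset (ι × ι)) :
    L2 S (C1 K) (Real.sqrt ((K ^ 4).trace)) := by
  refine l2_mat (f := fun x y => (K ^ 2) x y) ?_ S
  have := frob_pow hK 2
  simp only [Nat.reduceMul] at this
  exact this.le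

lemma frob_sub_le (hK : Kᵀ = K) (i j : ℕ) :
    ∑ x, ∑ y, ((K ^ i) x y - (K ^ j) x y) ^ 2 ≤
      2 * (K ^ (2 * i)).trace + 2 * (K ^ (2 * j)).trace := by
  rw [← frob_pow hK i, ← frob_pow hK j, Finset.mul_sum, Finset.mul_sum, ← Finset.sum_add_distrib]
  refine Finset.sum_le_sum fun x _ => ?_
  rw [Finset.mul_sum, Finset.mul_sum, ← Finset.sum_add_distrib]
  exact Finset.sum_le_sum fun y _ => sq_add_le _ _

lemma l2_C2 (hK : Kᵀ = K) (hL : OpB K L) (S : Finset (ι × ι)) :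
    L2 S (C2 K) (Real.sqrt (2 * (L ^ 2 * (K ^ 4).trace + (K ^ 2).trace))) := by
  refine l2_mat (f := fun x y => (K ^ 3) x y - K x y) ?_ S
  have h := frob_sub_le hK 3 1
  simp only [pow_one, Nat.reduceMul] at h
  have h2 := trace_six_le hK hL
  linarith

lemma tr4_nonneg (hK : Kᵀ = K) : 0 ≤ (K ^ 4).trace := by
  simpa using trace_even_nonneg hK 2

lemma tr2_nonneg (hK : Kᵀ = K) : 0 ≤ (K ^ 2).trace := by
  simpa using trace_even_nonneg hK 1

lemma l2_C3 (hK : Kᵀ = K) (hL : OpB K L) (h1 : 1 ≤ L) (S : Finset (ι × ι)) :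
    L2 S (C3 K) (2 * L ^ 2 * Real.sqrt ((K ^ 4).trace)) := by
  have t := tr4_nonneg hK
  have h : ∑ x, ∑ y, ((K ^ 4) x y - (K ^ 2) x y) ^ 2 ≤ (2 * L ^ 2) ^ 2 * (K ^ 4).trace := by
    have h := frob_sub_le hK 4 2
    simp only [Nat.reduceMul] at h
    have h2 := trace_eight_le hK hL
    have h3 : 1 ≤ L ^ 4 := one_le_pow₀ h1
    nlinarith
  have := l2_mat (f := fun x y => (K ^ 4) x y - (K ^ 2) x y) h S
  rwa [Real.sqrt_mul (sq_nonneg _), Real.sqrt_sq (by positivity)] at this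

lemma l2_C4 (hK : Kᵀ = K) (hL : OpB K L) (h1 : 1 ≤ L) (S : Finset (ι × ι)) :
    L2 S (C4 K) (2 * L ^ 3 * Real.sqrt ((K ^ 4).trace)) := by
  have h0 : 0 ≤ L := zero_le_one.trans h1
  have t := tr4_nonneg hK
  have h : ∑ x, ∑ y, ((K ^ 5) x y - (K ^ 3) x y) ^ 2 ≤ (2 * L ^ 3) ^ 2 * (K ^ 4).trace := by
    have h := frob_sub_le hK 5 3
    simp only [Nat.reduceMul] at h
    have h2 := trace_ten_le hK hL
    have h2' := trace_six_le hK hL
    have h3 : L ^ 2 ≤ L ^ 6 := pow_le_pow_right₀ h1 (by norm_num)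
    nlinarith
  have := l2_mat (f := fun x y => (K ^ 5) x y - (K ^ 3) x y) h S
  rwa [Real.sqrt_mul (sq_nonneg _), Real.sqrt_sq (by positivity)] at this

/-- `∑ Q_xy⁴ ≤ √R₂ · Y` -/
lemma sum_C1_four (hK : Kᵀ = K) :
    ∑ p ∈ F ×ˢ F, C1 K p ^ 4 ≤ Real.sqrt (R2v K) * Yv K := by
  have q0 : ∀ x, 0 ≤ (K ^ 2) x x := diag_sq_nonneg hK
  have e1 : ∀ x y, (K ^ 2) x y ^ 2 ≤ (K ^ 2) x x * (K ^ 2) y y := fun x y => by
    have := entry_sq_le hK 1 1 x y
    simpa using this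
  have e2 : ∀ x y, ((K ^ 2) x y) ^ 4 ≤
      ((K ^ 2) x y) ^ 2 * ((K ^ 2) x x) ^ 2 / 2 + ((K ^ 2) x y) ^ 2 * ((K ^ 2) y y) ^ 2 / 2 := by
    intro x y
    have h1 := mul_le_mul_of_nonneg_left (e1 x y) (sq_nonneg ((K ^ 2) x y))
    have h2 : (K ^ 2) x x * (K ^ 2) y y ≤ ((K ^ 2) x x) ^ 2 / 2 + ((K ^ 2) y y) ^ 2 / 2 := by
      nlinarith [sq_nonneg ((K ^ 2) x x - (K ^ 2) y y)]
    have h3 := mul_le_mul_of_nonneg_left h2 (sq_nonneg ((K ^ 2) x y))
    calc _ = (K ^ 2) x y ^ 2 * (K ^ 2) x y ^ 2 := by ring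
      _ ≤ _ := h1.trans h3
      _ = _ := by ring
  have e3 : ∀ x, ∑ y, ((K ^ 2) x y) ^ 2 = (K ^ 4) x x := fun x => by
    have := pow_add_apply hK 2 2 x x
    simp only [Nat.reduceAdd, dotProduct] at this
    rw [this]
    exact Finset.sum_congr rfl fun y _ => by rw [pow_apply_comm hK 2 x y]; ring
  have e4 : ∀ y, ∑ x, ((K ^ 2) x y) ^ 2 = (K ^ 4) y y := fun y => by
    rw [← e3 y]
    exact Finset.sum_congr rfl fun x _ => by rw [pow_apply_comm hK 2 x y]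
  have qle : ∀ x, (K ^ 2) x x ≤ Real.sqrt (R2v K) := fun x => by
    apply Real.le_sqrt_of_sq_le
    exact Finset.single_le_sum (f := fun x => ((K ^ 2) x x) ^ 2) (fun _ _ => sq_nonneg _)
      (Finset.mem_univ x)
  calc _ ≤ ∑ p : ι × ι, C1 K p ^ 4 :=
        Finset.sum_le_sum_of_subset_of_nonneg (Finset.subset_univ _) fun _ _ _ => by positivity
    _ = ∑ x, ∑ y, ((K ^ 2) x y) ^ 4 := by rw [← Finset.univ_product_univ, Finset.sum_product]; rfl
    _ ≤ ∑ x, ∑ y, (((K ^ 2) x y) ^ 2 * ((K ^ 2) x x) ^ 2 / 2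
          + ((K ^ 2) x y) ^ 2 * ((K ^ 2) y y) ^ 2 / 2) :=
        Finset.sum_le_sum fun x _ => Finset.sum_le_sum fun y _ => e2 x y
    _ = ∑ x, ((K ^ 2) x x) ^ 2 * (K ^ 4) x x := by
        simp only [Finset.sum_add_distrib]
        have a1 : ∑ x, ∑ y, ((K ^ 2) x y) ^ 2 * ((K ^ 2) x x) ^ 2 / 2
            = ∑ x, ((K ^ 2) x x) ^ 2 * (K ^ 4) x x / 2 :=
          Finset.sum_congr rfl fun x _ => by
            rw [← Finset.sum_div, ← Finset.sum_mul, e3 x]; ring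
        have a2 : ∑ x, ∑ y, ((K ^ 2) x y) ^ 2 * ((K ^ 2) y y) ^ 2 / 2
            = ∑ x, ((K ^ 2) x x) ^ 2 * (K ^ 4) x x / 2 := by
          rw [Finset.sum_comm]
          exact Finset.sum_congr rfl fun y _ => by
            rw [← Finset.sum_div, ← Finset.sum_mul, e4 y]; ring
        rw [a1, a2, ← Finset.sum_add_distrib]
        exact Finset.sum_congr rfl fun x _ => by ring
    _ ≤ ∑ x, Real.sqrt (R2v K) * ((K ^ 2) x x * (K ^ 4) x x) := by
        refine Finset.sum_le_sum fun x _ => ?_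
        have h := mul_nonneg (q0 x) (diag_four_nonneg hK x)
        calc _ = (K ^ 2) x x * ((K ^ 2) x x * (K ^ 4) x x) := by ring
          _ ≤ _ := mul_le_mul_of_nonneg_right (qle x) h
    _ = _ := by rw [← Finset.mul_sum]; rfl

/-- all the bounds with the explicit norms -/
theorem bnd (hK : Kᵀ = K) (hL : OpB K L) (h1 : 1 ≤ L) (F : Finset ι) :
    Bnd K F (Real.sqrt (Vv K)) (Real.sqrt (Wv K F)) (Real.sqrt (2 * Yv K + 2 * Vv K))
      (2 * L ^ 2 * Real.sqrt (R2v K)) (2 * L ^ 3 * Real.sqrt (R2v K))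
      (Real.sqrt ((K ^ 2).trace)) (Real.sqrt ((K ^ 4).trace))
      (Real.sqrt (2 * (L ^ 2 * (K ^ 4).trace + (K ^ 2).trace)))
      (2 * L ^ 2 * Real.sqrt ((K ^ 4).trace)) (2 * L ^ 3 * Real.sqrt ((K ^ 4).trace))
      (Real.sqrt (R2v K) * Yv K) where
  a0 := L2.of_le (Finset.sum_le_sum_of_subset_of_nonneg (Finset.subset_univ F)
    fun _ _ _ => sq_nonneg _)
  a1 := L2.of_le le_rfl
  a2 := l2_A2 hK
  a3 := l2_A3 hK hL h1
  a4 := l2_A4 hK hL h1
  c0 := l2_C0 hK _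
  c1 := l2_C1 hK _
  c2 := l2_C2 hK hL _
  c3 := l2_C3 hK hL h1 _
  c4 := l2_C4 hK hL h1 _
  cq := sum_C1_four hK

end inst

end Crest.Agent.R62.AvX4
end

-- ▼ part R62/X4Drift
section

/-!
R62 (helper486): one step of the normalised functional `X₄ ρ / L₄` under weights `1 - Θ`.
-/

set_option autoImplicit false
set_option linter.unusedSectionVars false
set_option linter.unusedVariables false

open scoped Matrix BigOperators

namespace Crest.Agent.R62.X4Drift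

open Crest.Agent.R62.AvBase Crest.Agent.R62.L2P Crest.Agent.R62.AvX4

variable {ι : Type*} [Fintype ι] [DecidableEq ι]

/-- the exact step in the notation of `AvX4`. -/
theorem X4_step {s : ℝ} (hs : s = 1 ∨ s = -1) {K : Matrix ι ι ℝ} (hK : K.IsSymm) {p : ι × ι}
    (hxy : p.1 ≠ p.2) (hD : Upd.Dl s K p.1 p.2 ≠ 0) :
    ((Upd.upd s K p.1 p.2) ^ 4).trace = (K ^ 4).trace + dX4 s K p := by
  rw [UpdX.X4_upd hs hK hxy hD]
  have e0 : d0 s (C0 K p) (W0 K p) = Upd.Dl s K p.1 p.2 := rfl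
  have e1 : d1 s (C0 K p) (C1 K p) (P1 K p) = UpdX.D1 s K p.1 p.2 := by
    unfold d1 UpdX.D1 C0 C1 P1 A0 A1; ring
  have e2 : d2 s (C0 K p) (C1 K p) (C2 K p) (P2 K p) = UpdX.D2 s K p.1 p.2 := by
    unfold d2 UpdX.D2 C0 C1 C2 P2 A0 A1 A2; ring
  have e3 : d3 s (C0 K p) (C1 K p) (C2 K p) (C3 K p) (P3 K p) = UpdX.D3 s K p.1 p.2 := by
    unfold d3 UpdX.D3 C0 C1 C2 C3 P3 A0 A1 A2 A3; ring
  have e4 : d4 s (C0 K p) (C1 K p) (C2 K p) (C3 K p) (C4 K p) (P4 K p)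
      = UpdX.D4 s K p.1 p.2 := by
    unfold d4 UpdX.D4 C0 C1 C2 C3 C4 P4 A0 A1 A2 A3 A4; ring
  unfold dX4 inc4
  rw [e0, e1, e2, e3, e4]
  ring


/-! ### absolute sums of the diagonal quantities -/

section abs
variable {K : Matrix ι ι ℝ} {F : Finset ι} {L : ℝ}





end abs


/-! ### the numerical hypotheses -/

/-- state, pair set `A`, tilt `Θ` (weights `1 - Θ`) and the numerical bounds for one sign -/
structure Hyp (K : Matrix ι ι ℝ) (F : Finset ι) (s : ℝ) (A : Finset (ι × ι))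
    (Θ : ι → ι → ℝ) (x1 yp x2 x3 x4 v om q y L be η t T1 ρ : ℝ) : Prop where
  symm : K.IsSymm
  sgn : s = 1 ∨ s = -1
  dead : ∀ i j, i ∉ F → K i j = 0
  row : K *ᵥ ind F = s • ind F
  sub : A ⊆ F ×ˢ F
  ne : ∀ p ∈ A, p.1 ≠ p.2
  good1 : ∀ p ∈ A, |K p.1 p.2| ≤ 1 / 4
  good2 : ∀ p ∈ A, |K p.1 p.1 * K p.2 p.2| ≤ 1 / 8
  opb : OpB K L
  L1 : 1 ≤ L
  x2n : 0 ≤ x2
  x4n : 0 ≤ x4
  vn : 0 ≤ v
  omn : 0 ≤ om
  qn : 0 ≤ q
  yn : 0 ≤ y
  ypn : 0 ≤ yp
  tn : 0 ≤ t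
  ben : 0 ≤ be
  etan : 0 ≤ η
  X1 : |K.trace| ≤ x1
  Yp : (K ^ 2).trace - ρ ≤ yp
  X2 : (K ^ 2).trace ≤ x2 ^ 2
  X3 : |(K ^ 3).trace| ≤ x3
  X4 : (K ^ 4).trace ≤ x4 ^ 2
  V : ∑ x, (K x x) ^ 2 ≤ v ^ 2
  Om : ∑ x ∈ F, ((K ^ 2) x x - 1) ^ 2 ≤ om ^ 2
  Q : ∑ x, ((K ^ 2) x x) ^ 2 ≤ q ^ 2
  Y : ∑ x, (K ^ 2) x x * (K ^ 4) x x ≤ y ^ 2
  card : (((F ×ˢ F) \ A).card : ℝ) ≤ be ^ 2
  th : ∀ p ∈ A, |Θ p.1 p.2| ≤ η
  frob : ∑ p ∈ A, Θ p.1 p.2 ^ 2 ≤ t ^ 2
  tilt : |8 * s * ∑ p ∈ A, Θ p.1 p.2 * C4 K p| ≤ T1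
  rho : ρ = F.card
  rho2 : 2 ≤ ρ

/-- total of the remainder monomials in terms of the numerical bounds -/
noncomputable def eTot (x2 x4 v om q y L : ℝ) : ℝ :=
  errTot v om (2 * (y + v)) (2 * L ^ 2 * q) (2 * L ^ 3 * q) x2 x4 (2 * (L * x4 + x2))
    (2 * L ^ 2 * x4) (2 * L ^ 3 * x4) (q * y ^ 2)

/-- bound for the Frobenius norm of `P₄` -/
noncomputable def mm4 (v om q y L : ℝ) : ℝ :=
  m4 v om (2 * (y + v)) (2 * L ^ 2 * q) (2 * L ^ 3 * q)

/-- total upper bound for `∑_A (1 - Θ) (X₄' - X₄)` -/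
noncomputable def UU (x1 yp x2 x3 x4 v om q y L be η t T1 ρ : ℝ) : ℝ :=
  8 * (yp * x4 ^ 2) + 8 * (ρ * x2 ^ 2) + 8 * x3 ^ 2 + 8 * x1 ^ 2
    + 8 * (x1 * (L * x4 ^ 2 + x3))
    + be * (8 * (2 * L ^ 3 * x4) + 4 * mm4 v om q y L)
    + (1 + η) * (32000 * eTot x2 x4 v om q y L)
    + η * (2 * ρ ^ 2) + 4 * (t * mm4 v om q y L) + T1

section main
variable {K : Matrix ι ι ℝ} {F : Finset ι} {s : ℝ} {A : Finset (ι × ι)} {Θ : ι → ι → ℝ}
  {x1 yp x2 x3 x4 v om q y L be η t T1 ρ : ℝ}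

theorem Hyp.bnd (h : Hyp K F s A Θ x1 yp x2 x3 x4 v om q y L be η t T1 ρ) :
    Bnd K F v om (2 * (y + v)) (2 * L ^ 2 * q) (2 * L ^ 3 * q) x2 x4 (2 * (L * x4 + x2))
      (2 * L ^ 2 * x4) (2 * L ^ 3 * x4) (q * y ^ 2) := by
  have hK : Kᵀ = K := h.symm
  have hL0 : 0 ≤ L := zero_le_one.trans h.L1
  have B := AvX4.bnd hK h.opb h.L1 F
  have sv : Real.sqrt (Vv K) ≤ v := (Real.sqrt_le_left h.vn).mpr h.V
  have so : Real.sqrt (Wv K F) ≤ om := (Real.sqrt_le_left h.omn).mpr h.Om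
  have sq : Real.sqrt (R2v K) ≤ q := (Real.sqrt_le_left h.qn).mpr h.Q
  have s2 : Real.sqrt ((K ^ 2).trace) ≤ x2 := (Real.sqrt_le_left h.x2n).mpr h.X2
  have s4 : Real.sqrt ((K ^ 4).trace) ≤ x4 := (Real.sqrt_le_left h.x4n).mpr h.X4
  refine ⟨B.a0.mono sv, B.a1.mono so, B.a2.mono ?_, B.a3.mono ?_, B.a4.mono ?_, B.c0.mono s2,
    B.c1.mono s4, B.c2.mono ?_, B.c3.mono ?_, B.c4.mono ?_, B.cq.trans ?_⟩
  · have hyv : 0 ≤ 2 * (y + v) := by have := h.yn; have := h.vn; positivity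
    rw [Real.sqrt_le_left hyv]
    have a : Yv K ≤ y ^ 2 := h.Y
    have b : Vv K ≤ v ^ 2 := h.V
    nlinarith [mul_nonneg h.yn h.vn, sq_nonneg y, sq_nonneg v]
  · exact mul_le_mul_of_nonneg_left sq (by positivity)
  · exact mul_le_mul_of_nonneg_left sq (by positivity)
  · have hh : 0 ≤ 2 * (L * x4 + x2) := by have := h.x4n; have := h.x2n; positivity
    rw [Real.sqrt_le_left hh]
    have a := mul_le_mul_of_nonneg_left h.X4 (sq_nonneg L)
    nlinarith [h.X2, mul_nonneg (mul_nonneg hL0 h.x4n) h.x2n, sq_nonneg (L * x4), sq_nonneg x2]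
  · exact mul_le_mul_of_nonneg_left s4 (by positivity)
  · exact mul_le_mul_of_nonneg_left s4 (by positivity)
  · exact mul_le_mul sq h.Y (Yv_nonneg hK) h.qn

lemma eTot_nonneg (h : Hyp K F s A Θ x1 yp x2 x3 x4 v om q y L be η t T1 ρ) :
    0 ≤ eTot x2 x4 v om q y L :=
  (Finset.sum_nonneg fun p _ => mono_nonneg K p).trans (h.bnd.sum_mono_le (S := ∅) (by simp))

lemma mm4_nonneg (h : Hyp K F s A Θ x1 yp x2 x3 x4 v om q y L be η t T1 ρ) :
    0 ≤ mm4 v om q y L := h.bnd.p4.nonneg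

/-- **upper bound for the weighted sum of the increments of `X₄`** -/
theorem Hyp.sum_dX4 (h : Hyp K F s A Θ x1 yp x2 x3 x4 v om q y L be η t T1 ρ) :
    ∑ p ∈ A, (1 - Θ p.1 p.2) * dX4 s K p ≤ UU x1 yp x2 x3 x4 v om q y L be η t T1 ρ := by
  have hK : Kᵀ = K := h.symm
  have hL0 : 0 ≤ L := zero_le_one.trans h.L1
  have hs2 : s ^ 2 = 1 := by rcases h.sgn with rfl | rfl <;> norm_num
  have hgood : ∀ p ∈ A, Good K p := fun p hp => ⟨h.good1 p hp, h.good2 p hp⟩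
  have hC4 := sum_C4 hs2 h.dead h.row
  have B := h.bnd
  have e1 := B.sum_dX4 hs2 h.sub hgood h.card hC4
  have e2 := B.sum_weight' hs2 h.sub hgood (θ := fun p => Θ p.1 p.2) h.etan h.th ⟨h.tn, h.frob⟩
  rw [Real.sqrt_sq h.ben] at e1
  have e3 : ∑ p ∈ A, (1 - Θ p.1 p.2) * dX4 s K p
      = ∑ p ∈ A, dX4 s K p - (∑ p ∈ A, Θ p.1 p.2 * dX4 s K p
          - 8 * s * ∑ p ∈ A, Θ p.1 p.2 * C4 K p) - 8 * s * ∑ p ∈ A, Θ p.1 p.2 * C4 K p := by
    rw [sub_sub, sub_add_cancel, ← Finset.sum_sub_distrib]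
    exact Finset.sum_congr rfl fun p _ => by ring
  have hcardA : (A.card : ℝ) ≤ ρ ^ 2 := by
    have : A.card ≤ (F ×ˢ F).card := Finset.card_le_card h.sub
    rw [Finset.card_product] at this
    rw [h.rho, pow_two]; exact_mod_cast this
  have hP4 := sum_P4 (K := K) h.dead
  rw [← h.rho] at hP4
  have i1 := (abs_le.mp e1).2
  have i2 := (abs_le.mp e2).1
  have i3 := (abs_le.mp h.tilt).1
  have hη := h.etan
  have hX4n := tr4_nonneg hK
  have hX2n := tr2_nonneg hK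
  have hρ0 : 0 ≤ ρ := by linarith [h.rho2]
  -- the main terms
  have g1 : ((K ^ 2).trace - ρ) * ((K ^ 4).trace - (K ^ 2).trace) ≤ yp * x4 ^ 2 + ρ * x2 ^ 2 := by
    have t1 : ((K ^ 2).trace - ρ) * (K ^ 4).trace ≤ yp * x4 ^ 2 :=
      (mul_le_mul_of_nonneg_right h.Yp hX4n).trans (mul_le_mul_of_nonneg_left h.X4 h.ypn)
    have t2 : -(((K ^ 2).trace - ρ) * (K ^ 2).trace) ≤ ρ * x2 ^ 2 := by
      have := mul_le_mul_of_nonneg_left h.X2 hρ0
      nlinarith [mul_nonneg hX2n hX2n]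
    linarith
  have g2 : ((K ^ 3).trace - K.trace) ^ 2 ≤ 2 * x3 ^ 2 + 2 * x1 ^ 2 := by
    have t1 : (K ^ 3).trace ^ 2 ≤ x3 ^ 2 := by
      rw [← sq_abs]; exact pow_le_pow_left₀ (abs_nonneg _) h.X3 2
    have t2 : K.trace ^ 2 ≤ x1 ^ 2 := by
      rw [← sq_abs]; exact pow_le_pow_left₀ (abs_nonneg _) h.X1 2
    have := sq_add_le ((K ^ 3).trace) (K.trace)
    linarith
  have g3 : K.trace * ((K ^ 5).trace - (K ^ 3).trace) ≤ x1 * (L * x4 ^ 2 + x3) := by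
    have t1 := abs_trace_five_le hK h.opb
    have t2 : |(K ^ 5).trace - (K ^ 3).trace| ≤ L * x4 ^ 2 + x3 :=
      (abs_sub _ _).trans (add_le_add (t1.trans (mul_le_mul_of_nonneg_left h.X4 hL0)) h.X3)
    calc _ ≤ |K.trace * ((K ^ 5).trace - (K ^ 3).trace)| := le_abs_self _
      _ = |K.trace| * |(K ^ 5).trace - (K ^ 3).trace| := abs_mul _ _
      _ ≤ _ := mul_le_mul h.X1 t2 (abs_nonneg _) ((abs_nonneg _).trans h.X1)
  have hP4' : 4 * ∑ p ∈ F ×ˢ F, P4 K p ≤ 8 * (yp * x4 ^ 2) + 8 * (ρ * x2 ^ 2) + 8 * x3 ^ 2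
      + 8 * x1 ^ 2 + 8 * (x1 * (L * x4 ^ 2 + x3)) := by
    rw [hP4]; linarith
  have hE : errTot v om (2 * (y + v)) (2 * L ^ 2 * q) (2 * L ^ 3 * q) x2 x4
            (2 * (L * x4 + x2)) (2 * L ^ 2 * x4) (2 * L ^ 3 * x4) (q * y ^ 2)
      = eTot x2 x4 v om q y L := rfl
  have hM : m4 v om (2 * (y + v)) (2 * L ^ 2 * q) (2 * L ^ 3 * q) = mm4 v om q y L := rfl
  rw [hE, hM] at i1 i2
  have hw : η * (2 * (A.card : ℝ) + 32000 * eTot x2 x4 v om q y L)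
      ≤ η * (2 * ρ ^ 2 + 32000 * eTot x2 x4 v om q y L) :=
    mul_le_mul_of_nonneg_left (by linarith) hη
  have hA0 : (0 : ℝ) ≤ (A.card : ℝ) := Nat.cast_nonneg _
  rw [e3]
  unfold UU
  nlinarith [i1, i2, i3, hw, hP4']

lemma Hyp.nn (h : Hyp K F s A Θ x1 yp x2 x3 x4 v om q y L be η t T1 ρ) :
    0 ≤ UU x1 yp x2 x3 x4 v om q y L be η t T1 ρ := by
  have hL0 : 0 ≤ L := zero_le_one.trans h.L1
  have a1 : 0 ≤ x1 := (abs_nonneg _).trans h.X1
  have a3 : 0 ≤ x3 := (abs_nonneg _).trans h.X3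
  have aT : 0 ≤ T1 := (abs_nonneg _).trans h.tilt
  have hρ0 : 0 ≤ ρ := by linarith [h.rho2]
  have e0 := eTot_nonneg h
  have e1 := mm4_nonneg h
  have hη := h.etan
  have := h.x2n
  have := h.x4n
  have := h.vn
  have := h.omn
  have := h.qn
  have := h.yn
  have := h.ypn
  have := h.tn
  have := h.ben
  unfold UU
  positivity

/-- **one step of `X₄ ρ / L₄`** (increment form) -/
theorem Hyp.inc_le (h : Hyp K F s A Θ x1 yp x2 x3 x4 v om q y L be η t T1 ρ) {L4 : ℝ}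
    (hL4 : 0 < L4) (hη1 : η ≤ 1) :
    ∑ p ∈ A, (1 - Θ p.1 p.2) * (((Upd.upd s K p.1 p.2) ^ 4).trace * (ρ - 2) / L4
        - (K ^ 4).trace * ρ / L4)
      ≤ ρ / L4 * UU x1 yp x2 x3 x4 v om q y L be η t T1 ρ := by
  have hs2 : s ^ 2 = 1 := by rcases h.sgn with rfl | rfl <;> norm_num
  have hρ0 : 0 < ρ := by linarith [h.rho2]
  have hρ2 := h.rho2
  have hD : ∀ p ∈ A, Upd.Dl s K p.1 p.2 ≠ 0 := fun p hp => by
    have h0 := d0_lower hs2 (h.good1 p hp) (h.good2 p hp)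
    have : d0 s (K p.1 p.2) (K p.1 p.1 * K p.2 p.2) = Upd.Dl s K p.1 p.2 := rfl
    rw [← this]; linarith
  have hX4n := tr4_nonneg (K := K) h.symm
  have e1 : ∑ p ∈ A, (1 - Θ p.1 p.2) * (((Upd.upd s K p.1 p.2) ^ 4).trace * (ρ - 2) / L4
        - (K ^ 4).trace * ρ / L4)
      = -(2 * (K ^ 4).trace / L4 * ∑ p ∈ A, (1 - Θ p.1 p.2))
        + (ρ - 2) / L4 * ∑ p ∈ A, (1 - Θ p.1 p.2) * dX4 s K p := by
    rw [Finset.mul_sum, Finset.mul_sum, ← Finset.sum_neg_distrib, ← Finset.sum_add_distrib]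
    refine Finset.sum_congr rfl fun p hp => ?_
    rw [X4_step h.sgn h.symm (h.ne p hp) (hD p hp)]
    ring
  have hS := h.sum_dX4
  have hU := h.nn
  set U := UU x1 yp x2 x3 x4 v om q y L be η t T1 ρ with hUdef
  rw [e1]
  have i1 : (ρ - 2) / L4 * ∑ p ∈ A, (1 - Θ p.1 p.2) * dX4 s K p ≤ ρ / L4 * U :=
    calc _ ≤ (ρ - 2) / L4 * U :=
          mul_le_mul_of_nonneg_left hS (div_nonneg (by linarith) hL4.le)
      _ ≤ _ := mul_le_mul_of_nonneg_right (div_le_div_of_nonneg_right (by linarith) hL4.le) hU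
  have i2 : 0 ≤ 2 * (K ^ 4).trace / L4 * ∑ p ∈ A, (1 - Θ p.1 p.2) := by
    refine mul_nonneg (div_nonneg (by positivity) hL4.le) (Finset.sum_nonneg fun p hp => ?_)
    have := (abs_le.mp (h.th p hp)).2
    linarith
  linarith

end main

end Crest.Agent.R62.X4Drift
end

-- ▼ part R62/MainX4

/-!
R62 (helper486): the targets `S1X4`, `S2X4` of `StepDefs`.
-/

set_option autoImplicit false
set_option linter.unusedSectionVars false
set_option linter.unusedVariables false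

open scoped Matrix BigOperators

namespace Crest.Agent.R62.MainX4

open Crest.Agent.R62.AvBase Crest.Agent.R62.L2P Crest.Agent.R62.AvX4 Crest.Agent.R62.X4Drift
open Crest.Agent.R62.Step Crest.Agent.R62.Expo Crest.Agent.R062 Crest.Agent.R62.Nums

/-! ### numerical closure -/

section num
variable {m x : ℝ}

/-- stage 1, everything except the two largest terms -/
lemma num1 (hm : 1 ≤ m) (hb : (10 : ℝ) ^ 14 ≤ m) (hx : 800 ≤ x) (hx' : x ≤ 1000 + 1 / 10)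
    {x1 x2 x3 x4 v om q y L be η t ρ : ℝ}
    (hρ : O m 1 x ρ) (h1 : O m 2 361 x1) (h2 : O m 1 (x / 2) x2) (h3 : O m 1 (1000 + 1 / 5) x3)
    (h4 : O m 1 ((2003 - x) / 2) x4) (hv : O m 1 3 v) (hom : O m 1 305 om)
    (hq : O m 2 (x / 2) q) (hy : O m 2 (653 + 1 / 4) y) (hL : O m 1 ((2003 - x) / 4) L)
    (hbe : O m 1 (x / 2 + 1 / 10) be) (hη : O m 1 (-1) η) (ht : O m 1 ((1928 - x) / 2) t) :
    8 * x1 ^ 2 + 8 * (x1 * (L * x4 ^ 2 + x3))
      + be * (8 * (2 * L ^ 3 * x4) + 4 * (2 * (v * (2 * L ^ 3 * q)) + 2 * (om * (2 * L ^ 2 * q))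
          + (2 * (y + v)) ^ 2))
      + η * (2 * ρ ^ 2)
      + 4 * (t * (2 * (v * (2 * L ^ 3 * q)) + 2 * (om * (2 * L ^ 2 * q)) + (2 * (y + v)) ^ 2))
      + 8 * (m ^ 371 * (x4 * (2 * (L * x4 + x2)))) ≤ E m (2000 + 1 / 2) := by
  expo

/-- stage 1, the two largest terms -/
lemma num1' (hm : 1 ≤ m) (hb : (10 : ℝ) ^ 14 ≤ m) (hx' : x ≤ 1000 + 1 / 10)
    {x2 x3 ρ : ℝ} (hρ : O m 1 x ρ) (h2 : O m 1 (x / 2) x2) (h3 : O m 1 (1000 + 1 / 5) x3) :
    8 * (ρ * x2 ^ 2) + 8 * x3 ^ 2 ≤ E m 2001 / 2 := by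
  have h0 : 0 < m := by linarith
  have e : O m (8 * (1 * 1 ^ 2) + 8 * 1 ^ 2) (2000 + 2 / 5) (8 * (ρ * x2 ^ 2) + 8 * x3 ^ 2) := by
    have a := ((O.const (m := m) (c := 8) (by norm_num)).mul hm (hρ.mul hm (h2.sq hm))).add hm
      ((O.const (m := m) (c := 8) (by norm_num)).mul hm (h3.sq hm))
    refine a.mono hm le_rfl ?_
    apply max_le <;> linarith
  refine e.2.trans ?_
  have h1 : E m 2001 = E m (3 / 5) * E m (2000 + 2 / 5) := by
    rw [E_mul h0]; norm_num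
  have h2 : (32 : ℝ) ≤ E m (3 / 5) := by
    have h3 : (10 : ℝ) ^ 5 ≤ m := le_trans (by norm_num) hb
    have h4 : E (10 ^ 5) (3 / 5) ≤ E m (3 / 5) := E_mono_base (by norm_num) h3 (by norm_num)
    have h5 : E ((10 : ℝ) ^ 5) (3 / 5) = 1000 := by
      unfold E
      rw [← Real.rpow_natCast, ← Real.rpow_mul (by norm_num)]
      norm_num
    linarith
  rw [h1]
  have h6 := E_pos h0 (2000 + 2 / 5)
  nlinarith

/-- stage 1, remainder monomials -/
lemma num1e (hm : 1 ≤ m) (hb : (10 : ℝ) ^ 14 ≤ m) (hx : 800 ≤ x) (hx' : x ≤ 1000 + 1 / 10)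
    {x2 x4 v om q y L η : ℝ}
    (h2 : O m 1 (x / 2) x2)
    (h4 : O m 1 ((2003 - x) / 2) x4) (hv : O m 1 3 v) (hom : O m 1 305 om)
    (hq : O m 2 (x / 2) q) (hy : O m 2 (653 + 1 / 4) y) (hL : O m 1 ((2003 - x) / 4) L)
    (hη : O m 1 (-1) η) :
    (1 + η) * (32000 * eTot x2 x4 v om q y L) ≤ E m 2000 := by
  unfold eTot errTot m1 m2 m3 m4
  expo

/-- stage 2, everything except the remainder monomials -/
lemma num2 (hm : 1 ≤ m) (hb : (10 : ℝ) ^ 14 ≤ m) (hx : 679 + 3 / 4 ≤ x) (hx' : x ≤ 800 + 1 / 10)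
    {x1 yp x2 x3 x4 v om q L be ρ : ℝ}
    (hρ : O m 1 x ρ) (h1 : O m 1 336 x1) (hyp : O m 1 670 yp) (h2 : O m 2 (x / 2) x2)
    (h3 : O m 1 (1000 + 1 / 5) x3)
    (h4 : O m 1 ((2004 - x) / 2) x4) (hv : O m 1 4 v) (hom : O m 1 (341 + 1 / 2) om)
    (hq : O m 4 (x / 2 + 7 / 4) q) (hL : O m 1 ((2004 - x) / 4) L)
    (hbe : O m 1 (x / 2 + 1 / 10) be) :
    8 * (yp * x4 ^ 2) + 8 * (ρ * x2 ^ 2) + 8 * x3 ^ 2 + 8 * x1 ^ 2
      + 8 * (x1 * (L * x4 ^ 2 + x3))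
      + be * (8 * (2 * L ^ 3 * x4) + 4 * (2 * (v * (2 * L ^ 3 * q)) + 2 * (om * (2 * L ^ 2 * q))
          + (2 * (L * q + v)) ^ 2)) ≤ E m 2002 / 2 := by
  expo_div

set_option maxHeartbeats 1000000 in
lemma num2e (hm : 1 ≤ m) (hb : (10 : ℝ) ^ 14 ≤ m) (hx : 679 + 3 / 4 ≤ x) (hx' : x ≤ 800 + 1 / 10)
    {x2 x4 v om q L : ℝ} (h2 : O m 2 (x / 2) x2)
    (h4 : O m 1 ((2004 - x) / 2) x4) (hv : O m 1 4 v) (hom : O m 1 (341 + 1 / 2) om)
    (hq : O m 4 (x / 2 + 7 / 4) q) (hL : O m 1 ((2004 - x) / 4) L) :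
    (1 + 0) * (32000 * eTot x2 x4 v om q (L * q) L) ≤ E m 2002 / 2 := by
  unfold eTot errTot m1 m2 m3 m4
  expo_div

end num


/-! ### the first order tilt term -/

lemma tilt_bound {ι : Type*} [Fintype ι] [DecidableEq ι] {K : Matrix ι ι ℝ} {L N s : ℝ}
    (hK : Kᵀ = K) (hL : OpB K L) (hs : s ^ 2 = 1) {Θ : ι → ι → ℝ} (hN : OpB (Matrix.of Θ) N)
    {S : Finset (ι × ι)} (hS : ∀ x y, (x, y) ∉ S → Θ x y = 0) {x2 x4 : ℝ} (h2 : 0 ≤ x2)
    (h4 : 0 ≤ x4) (X2 : (K ^ 2).trace ≤ x2 ^ 2) (X4 : (K ^ 4).trace ≤ x4 ^ 2) :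
    |8 * s * ∑ p ∈ S, Θ p.1 p.2 * C4 K p| ≤ 8 * (N * (x4 * (2 * (L * x4 + x2)))) := by
  have hN0 := hN.1
  have hL0 := hL.1
  have e1 : ∑ p ∈ S, Θ p.1 p.2 * C4 K p
      = ∑ x, ∑ y, (Matrix.of Θ) x y * (K ^ 2 * (K ^ 3 - K)) x y := by
    rw [← Finset.sum_product', Finset.univ_product_univ]
    rw [← Finset.sum_subset (Finset.subset_univ S) fun p _ hp => by
      rw [Matrix.of_apply, hS p.1 p.2 hp, zero_mul]]
    refine Finset.sum_congr rfl fun p _ => ?_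
    rw [Matrix.of_apply]
    congr 1
    have : K ^ 2 * (K ^ 3 - K) = K ^ 5 - K ^ 3 := by
      rw [mul_sub, ← pow_add, ← pow_succ]
    rw [this]; rfl
  have h := TiltK.ip_mul_le hN (K ^ 2) (K ^ 3 - K)
  rw [← e1] at h
  have a : Real.sqrt (∑ x, ∑ y, ((K ^ 2) x y) ^ 2) ≤ x4 := by
    rw [Real.sqrt_le_left h4, frob_pow hK 2]; exact X4
  have b : Real.sqrt (∑ x, ∑ y, ((K ^ 3 - K) x y) ^ 2) ≤ 2 * (L * x4 + x2) := by
    rw [Real.sqrt_le_left (by positivity)]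
    have h5 := frob_sub_le hK 3 1
    simp only [pow_one, Nat.reduceMul] at h5
    have h6 := trace_six_le hK hL
    have h7 := mul_le_mul_of_nonneg_left X4 (sq_nonneg L)
    have e : ∑ x, ∑ y, ((K ^ 3 - K) x y) ^ 2 = ∑ x, ∑ y, ((K ^ 3) x y - K x y) ^ 2 := rfl
    rw [e]
    nlinarith [mul_nonneg (mul_nonneg hL0 h4) h2, sq_nonneg (L * x4), sq_nonneg x2]
  rw [abs_mul, abs_mul, abs_s hs, mul_one]
  have e8 : |(8 : ℝ)| = 8 := by norm_num
  rw [e8]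
  refine mul_le_mul_of_nonneg_left (h.trans ?_) (by norm_num)
  exact mul_le_mul_of_nonneg_left (mul_le_mul a b (Real.sqrt_nonneg _) h4) hN0


lemma sg_or (b : Bool) : (Mach.sg b : ℝ) = 1 ∨ (Mach.sg b : ℝ) = -1 := by
  cases b <;> norm_num [Mach.sg]

lemma sg_sq (b : Bool) : (Mach.sg b : ℝ) ^ 2 = 1 := by cases b <;> norm_num [Mach.sg]

section
variable {ι : Type} [Fintype ι] [DecidableEq ι]

/-- the numerical hypotheses in stage 1 -/
theorem hyp1 {d n m : ℕ} {γ : ℝ} {F : Finset ι} {K : Bool → Matrix ι ι ℝ}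
    {S : Finset (ι × ι)} {Θ : ι → ι → ℝ} (h : Prm d n m) (c : Ctx d m γ F K S)
    (B : Box1 d n m F K) (T : Tilt1 d n m F K S Θ) (b : Bool) :
    Hyp (K b) F (Mach.sg b : ℝ) S Θ (2 * E m 361) 0 (E m (ex m F.card / 2))
      (3 * ((d : ℝ) - 1) ^ 2 * n) (E m ((2003 - ex m F.card) / 2)) (E m 3) (E m 305)
      (2 * E m (ex m F.card / 2)) (2 * E m (653 + 1 / 4)) (E m ((2003 - ex m F.card) / 4))
      (E m (ex m F.card / 2 + 1 / 10)) (E m (-1)) (E m ((1928 - ex m F.card) / 2))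
      (8 * ((m : ℝ) ^ 371 * (E m ((2003 - ex m F.card) / 2) *
        (2 * (E m ((2003 - ex m F.card) / 4) * E m ((2003 - ex m F.card) / 2)
          + E m (ex m F.card / 2)))))) (F.card : ℝ) := by
  have P := par h
  have R := rho1 h B
  have hm0 := P.m0
  have hm1 := P.m1
  obtain ⟨hX4, hop⟩ := opB1 h c B b
  set x := ex (m : ℝ) (F.card : ℝ) with hx
  have hlo := R.lo
  have hhi := R.hi
  have hX2 := X2_le1 P B b
  have e2 : E (m : ℝ) (x / 2) ^ 2 = F.card := by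
    rw [E_pow hm0, R.eq]; congr 1; push_cast; ring
  have e4 : E (m : ℝ) ((2003 - x) / 2) ^ 2 = E m (2003 - x) := by
    rw [E_pow hm0]; congr 1; push_cast; ring
  have hK : (K b)ᵀ = K b := c.symm b
  have hX2' : (K b ^ 2).trace ≤ E (m : ℝ) (x / 2) ^ 2 := by rw [e2]; exact hX2
  have hX4' : (K b ^ 4).trace ≤ E (m : ℝ) ((2003 - x) / 2) ^ 2 := by rw [e4]; exact hX4
  have hR : R2v (K b) ≤ (2 * E (m : ℝ) (x / 2)) ^ 2 := by
    have h1 : R2v (K b) ≤ 2 * F.card := Rf_le1 h c B b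
    rw [mul_pow, e2]; linarith [R.pos]
  have hW : Wv (K b) F ≤ E (m : ℝ) 305 ^ 2 := by
    have h1 : Wv (K b) F ≤ (m : ℝ) ^ 610 := B.Wu b
    rw [E_pow hm0]
    have : E (m : ℝ) (305 * ((2 : ℕ) : ℝ)) = (m : ℝ) ^ 610 := by
      rw [← E_natCast]; norm_num
    rw [this]; exact h1
  exact
    { symm := c.symm b
      sgn := sg_or b
      dead := c.dead b
      row := c.row b
      sub := c.sub
      ne := c.ne
      good1 := fun p hp => (c.good1 p hp b).trans (by norm_num)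
      good2 := fun p hp => (c.good2 p hp b).trans (by norm_num)
      opb := hop
      L1 := one_le_E hm1 (by linarith)
      x2n := (E_pos hm0 _).le
      x4n := (E_pos hm0 _).le
      vn := (E_pos hm0 _).le
      omn := (E_pos hm0 _).le
      qn := by have := (E_pos hm0 (x / 2)).le; positivity
      yn := by have := (E_pos hm0 (653 + 1 / 4)).le; positivity
      ypn := le_rfl
      tn := (E_pos hm0 _).le
      ben := (E_pos hm0 _).le
      etan := (E_pos hm0 _).le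
      X1 := by
        have h1 := B.X1u b
        have h2 := B.X1l b
        have hU : U m F.card ≤ (m : ℝ) ^ 361 := by
          unfold U
          have h3 : max 0 (min 1 (((F.card : ℝ) - (m : ℝ) ^ 800) / (m : ℝ) ^ 800)) ≤ (1 : ℝ) :=
            max_le zero_le_one (min_le_left _ _)
          have h4 : (0 : ℝ) ≤ (m : ℝ) ^ 361 := by positivity
          nlinarith
        have h5 : (m : ℝ) ^ 335 ≤ (m : ℝ) ^ 361 := pow_le_pow_right₀ hm1 (by norm_num)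
        have h6 : E (m : ℝ) 361 = (m : ℝ) ^ 361 := by
          have := E_natCast (m : ℝ) 361
          simpa using this
        rw [h6, abs_le]
        have h7 : (0 : ℝ) ≤ (m : ℝ) ^ 361 := by positivity
        constructor <;> linarith
      Yp := by linarith
      X2 := hX2'
      X3 := by
        have h1 := B.X3l b
        have h2 := B.X3u b
        have h3 : (0 : ℝ) ≤ n := Nat.cast_nonneg n
        have h4 : (0 : ℝ) ≤ (K b ^ 3).trace := by linarith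
        rw [abs_of_nonneg h4]; exact h2
      X4 := hX4'
      V := by
        have h1 : Vv (K b) ≤ (m : ℝ) ^ 6 := B.Vu b
        rw [E_pow hm0]
        have : E (m : ℝ) (3 * ((2 : ℕ) : ℝ)) = (m : ℝ) ^ 6 := by
          rw [← E_natCast]; norm_num
        rw [this]; exact h1
      Om := hW
      Q := hR
      Y := by
        have h1 : Yv (K b) ≤ (K b ^ 4).trace + E m ((2003 - x) / 4) ^ 2
            * (Real.sqrt (R2v (K b)) * Real.sqrt (Wv (K b) F)) := Yv_le' hK hop (c.dead b)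
        have h2 : Real.sqrt (R2v (K b)) ≤ 2 * E (m : ℝ) (x / 2) :=
          (Real.sqrt_le_left (by have := (E_pos hm0 (x / 2)).le; positivity)).mpr hR
        have h3 : Real.sqrt (Wv (K b) F) ≤ E (m : ℝ) 305 :=
          (Real.sqrt_le_left (E_pos hm0 _).le).mpr hW
        have h4 : E (m : ℝ) ((2003 - x) / 4) ^ 2
            * (Real.sqrt (R2v (K b)) * Real.sqrt (Wv (K b) F))
            ≤ E (m : ℝ) ((2003 - x) / 4) ^ 2 * ((2 * E (m : ℝ) (x / 2)) * E (m : ℝ) 305) := by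
          refine mul_le_mul_of_nonneg_left ?_ (sq_nonneg _)
          exact mul_le_mul h2 h3 (Real.sqrt_nonneg _)
            (by have := (E_pos hm0 (x / 2)).le; positivity)
        have h5 : E (m : ℝ) ((2003 - x) / 4) ^ 2 * ((2 * E (m : ℝ) (x / 2)) * E (m : ℝ) 305)
            = 2 * E (m : ℝ) (2 * (653 + 1 / 4)) := by
          rw [E_pow hm0]
          have : E (m : ℝ) ((2003 - x) / 4 * ((2 : ℕ) : ℝ)) * (2 * E (m : ℝ) (x / 2) * E m 305)
              = 2 * (E (m : ℝ) ((2003 - x) / 4 * ((2 : ℕ) : ℝ)) * (E (m : ℝ) (x / 2) * E m 305)) := by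
            ring
          rw [this, E_mul hm0, E_mul hm0]
          congr 2; push_cast; ring
        have h6 : (2 * E (m : ℝ) (653 + 1 / 4)) ^ 2 = 4 * E (m : ℝ) (2 * (653 + 1 / 4)) := by
          rw [mul_pow, E_sq hm0]; norm_num
        have h7 : (K b ^ 4).trace ≤ E (m : ℝ) (2 * (653 + 1 / 4)) :=
          hX4.trans (E_mono hm1 (by linarith))
        have h8 := (E_pos hm0 (2 * (653 + 1 / 4))).le
        rw [h6]
        have h9 : Yv (K b) ≤ E (m : ℝ) (2 * (653 + 1 / 4)) + 2 * E (m : ℝ) (2 * (653 + 1 / 4)) :=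
          h1.trans (add_le_add h7 (h4.trans h5.le))
        exact h9.trans (by linarith)
      card := by
        have h1 := bad1 h c B
        rw [E_pow hm0]
        refine h1.trans (le_of_eq ?_)
        congr 1; push_cast; ring
      th := fun p _ => by
        have h1 := T.abs_le p.1 p.2
        rw [E_neg hm0, E_one]; simpa using h1
      frob := by
        have h1 := T.frob
        have h2 : ∑ p ∈ S, Θ p.1 p.2 ^ 2 ≤ ∑ x, ∑ y, Θ x y ^ 2 := by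
          rw [← Finset.sum_product' (f := fun x y => Θ x y ^ 2)]
          exact Finset.sum_le_sum_of_subset_of_nonneg (by intro p _; simp) fun p _ _ => sq_nonneg _
        refine h2.trans ?_
        rw [E_pow hm0]
        have h3 : E (m : ℝ) ((1928 - x) / 2 * ((2 : ℕ) : ℝ)) = (m : ℝ) ^ 1928 / F.card := by
          have : (1928 - x) / 2 * ((2 : ℕ) : ℝ) = 1928 - x := by push_cast; ring
          rw [this, E_sub hm0, R.eq, ← E_natCast]; norm_num
        rw [h3, le_div_iff₀ R.pos]; exact h1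
      tilt := tilt_bound hK hop (sg_sq b) T.opB T.supp (E_pos hm0 _).le (E_pos hm0 _).le hX2' hX4'
      rho := rfl
      rho2 := by
        have h1 := B.rho_ge
        have : (0 : ℝ) ≤ (m : ℝ) ^ 800 := by positivity
        linarith }

theorem s1x4 : S1X4 ι := by
  intro d n m γ F K S Θ h c B T b
  have P := par h
  have R := rho1 h B
  have hm0 := P.m0
  have hm1 := P.m1
  have hyp := hyp1 h c B T b
  have hL4 : (0 : ℝ) < (m : ℝ) ^ 2003 := by positivity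
  have hη1 : E (m : ℝ) (-1) ≤ 1 := E_le_one hm1 (by norm_num)
  have main := hyp.inc_le hL4 hη1
  have hb : (10 : ℝ) ^ 14 ≤ m := by have := P.mbig; linarith
  set x := ex (m : ℝ) (F.card : ℝ) with hx
  have hlo := R.lo
  have hhi := R.hi
  have OE : ∀ a : ℝ, O (m : ℝ) 1 a (E m a) := fun a => O.E hm0 a
  have O2E : ∀ a : ℝ, O (m : ℝ) 2 a (2 * E m a) := fun a =>
    ⟨by have := (E_pos hm0 a).le; positivity, le_rfl⟩
  have hx3 : O (m : ℝ) 1 (1000 + 1 / 5) (3 * ((d : ℝ) - 1) ^ 2 * n) := by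
    have hd := P.d10
    have hd3 := P.d3
    have h1 : (n : ℝ) ≤ 2 * E m 1000 := by
      have := h.hn2
      have e : E (m : ℝ) 1000 = (m : ℝ) ^ 1000 := by
        have := E_natCast (m : ℝ) 1000
        simpa using this
      rw [e]; exact this
    have h2 : (10 * (d : ℝ)) ^ 2 ≤ E m (1 / 10) ^ 2 := pow_le_pow_left₀ (by linarith) hd 2
    rw [E_sq hm0] at h2
    have h3 := (E_pos hm0 1000).le
    have h4 : (0 : ℝ) ≤ n := Nat.cast_nonneg n
    refine ⟨by positivity, ?_⟩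
    rw [one_mul, show (1000 : ℝ) + 1 / 5 = 2 * (1 / 10) + 1000 by norm_num, E_add hm0]
    calc 3 * ((d : ℝ) - 1) ^ 2 * n ≤ 3 * (d : ℝ) ^ 2 * (2 * E m 1000) := by
          refine mul_le_mul ?_ h1 h4 (by positivity)
          nlinarith
      _ ≤ (10 * (d : ℝ)) ^ 2 * E m 1000 := by nlinarith [sq_nonneg (d : ℝ)]
      _ ≤ _ := mul_le_mul_of_nonneg_right h2 h3
  have n1 := num1 hm1 hb hlo hhi R.O (O2E 361) (OE (x / 2)) hx3 (OE ((2003 - x) / 2)) (OE 3)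
    (OE 305) (O2E (x / 2)) (O2E (653 + 1 / 4)) (OE ((2003 - x) / 4)) (OE (x / 2 + 1 / 10))
    (OE (-1)) (OE ((1928 - x) / 2))
  have n2 := num1' hm1 hb hhi R.O (OE (x / 2)) hx3
  have n3 := num1e hm1 hb hlo hhi (OE (x / 2)) (OE ((2003 - x) / 2)) (OE 3)
    (OE 305) (O2E (x / 2)) (O2E (653 + 1 / 4)) (OE ((2003 - x) / 4)) (OE (-1))
  have hUU : UU (2 * E m 361) 0 (E m (x / 2))
      (3 * ((d : ℝ) - 1) ^ 2 * n) (E m ((2003 - x) / 2)) (E m 3) (E m 305)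
      (2 * E m (x / 2)) (2 * E m (653 + 1 / 4)) (E m ((2003 - x) / 4))
      (E m (x / 2 + 1 / 10)) (E m (-1)) (E m ((1928 - x) / 2))
      (8 * ((m : ℝ) ^ 371 * (E m ((2003 - x) / 2) *
        (2 * (E m ((2003 - x) / 4) * E m ((2003 - x) / 2)
          + E m (x / 2)))))) (F.card : ℝ) ≤ (m : ℝ) ^ 2001 := by
    have e1 : E (m : ℝ) 2001 = (m : ℝ) ^ 2001 := by
      have := E_natCast (m : ℝ) 2001
      simpa using this
    have e2 : E (m : ℝ) 2001 = E m (1 / 2) * E m (2000 + 1 / 2) := by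
      rw [E_mul hm0]; norm_num
    have e3 : E (m : ℝ) (2000 + 1 / 2) = E m (1 / 2) * E m 2000 := by
      rw [E_mul hm0]; norm_num
    have e4 : (4 : ℝ) ≤ E m (1 / 2) := by
      have h3 : (16 : ℝ) ≤ m := le_trans (by norm_num) hb
      have h4 : E 16 (1 / 2) ≤ E (m : ℝ) (1 / 2) := E_mono_base (by norm_num) h3 (by norm_num)
      have h5 : E (16 : ℝ) (1 / 2) = 4 := by
        unfold E
        rw [show (16 : ℝ) = 4 ^ (2 : ℝ) by norm_num, ← Real.rpow_mul (by norm_num)]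
        norm_num
      linarith
    have e5 := (E_pos hm0 2000).le
    have e6 := (E_pos hm0 (2000 + 1 / 2)).le
    rw [← e1]
    unfold UU mm4 m4
    nlinarith [n1, n2, n3, mul_le_mul_of_nonneg_right e4 e5, mul_le_mul_of_nonneg_right e4 e6]
  have hρ := R.pos
  have fin : (F.card : ℝ) / (m : ℝ) ^ 2003 * (m : ℝ) ^ 2001 = F.card / (m : ℝ) ^ 2 := by
    have : (m : ℝ) ^ 2003 = (m : ℝ) ^ 2 * (m : ℝ) ^ 2001 := by rw [← pow_add]
    rw [this]
    field_simp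
  unfold inc p1X4 nx
  refine main.trans ?_
  rw [← fin]
  exact mul_le_mul_of_nonneg_left hUU (by positivity)

/-- the numerical hypotheses in stage 2 -/
theorem hyp2 {d n m : ℕ} {γ x0 : ℝ} {F : Finset ι} {K : Bool → Matrix ι ι ℝ}
    {S : Finset (ι × ι)} (h : Prm d n m) (c : Ctx d m γ F K S)
    (B : Box2 d n m x0 F K) (b : Bool) :
    Hyp (K b) F (Mach.sg b : ℝ) S (fun _ _ => 0) (E m 336) (E m 670)
      (2 * E m (ex m F.card / 2))
      (E m (1000 + 1 / 5)) (E m ((2004 - ex m F.card) / 2)) (E m 4) (E m (341 + 1 / 2))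
      (2 * E m (ex m F.card / 2 + 7 / 4))
      (E m ((2004 - ex m F.card) / 4) * (2 * E m (ex m F.card / 2 + 7 / 4)))
      (E m ((2004 - ex m F.card) / 4))
      (E m (ex m F.card / 2 + 1 / 10)) 0 0 0 (F.card : ℝ) := by
  have P := par h
  have R := rho2 h B
  have hm0 := P.m0
  have hm1 := P.m1
  obtain ⟨hX4, hop⟩ := opB2 h c B b
  set x := ex (m : ℝ) (F.card : ℝ) with hx
  have hlo := R.lo
  have hhi := R.hi
  have hX2 := X2_le2 h B b
  have e2 : E (m : ℝ) (x / 2) ^ 2 = F.card := by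
    rw [E_pow hm0, R.eq]; congr 1; push_cast; ring
  have e4 : E (m : ℝ) ((2004 - x) / 2) ^ 2 = E m (2004 - x) := by
    rw [E_pow hm0]; congr 1; push_cast; ring
  have hK : (K b)ᵀ = K b := c.symm b
  have hρ := R.pos
  have hphi : phi2 (r1 d n m) F.card ≤ F.card := by
    unfold phi2
    rw [div_le_iff₀ (by have := P.r1_pos; linarith)]
    nlinarith [P.r1_pos]
  have h670 : (m : ℝ) ^ 670 = E m 670 := by
    have := (E_natCast (m : ℝ) 670).symm
    simpa using this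
  have hX2' : (K b ^ 2).trace ≤ (2 * E (m : ℝ) (x / 2)) ^ 2 := by
    rw [mul_pow, e2]; linarith
  have hX4' : (K b ^ 4).trace ≤ E (m : ℝ) ((2004 - x) / 2) ^ 2 := by rw [e4]; exact hX4
  have hWu : AvX1.Wf F (K b) ≤ E (m : ℝ) 683 := by
    have := (E_natCast (m : ℝ) 683)
    have e : E (m : ℝ) 683 = (m : ℝ) ^ 683 := by simpa using this
    rw [e]; exact B.Wu b
  have hR : R2v (K b) ≤ (2 * E (m : ℝ) (x / 2 + 7 / 4)) ^ 2 := by
    have h1 : R2v (K b) = AvX1.Wf F (K b) + 2 * (K b ^ 2).trace - F.card :=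
      Rf_eq (c.symm b) (c.dead b)
    have h2 : (2 * E (m : ℝ) (x / 2 + 7 / 4)) ^ 2 = 4 * E (m : ℝ) (x + 7 / 2) := by
      rw [mul_pow, E_sq hm0]
      have : 2 * (x / 2 + 7 / 4) = x + 7 / 2 := by ring
      rw [this]; norm_num
    have h3 : E (m : ℝ) 683 ≤ E m (x + 7 / 2) := E_mono hm1 (by linarith)
    have h4 : (F.card : ℝ) ≤ E m (x + 7 / 2) := by rw [R.eq]; exact E_mono hm1 (by linarith)
    rw [h1, h2]
    linarith
  exact
    { symm := c.symm b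
      sgn := sg_or b
      dead := c.dead b
      row := c.row b
      sub := c.sub
      ne := c.ne
      good1 := fun p hp => (c.good1 p hp b).trans (by norm_num)
      good2 := fun p hp => (c.good2 p hp b).trans (by norm_num)
      opb := hop
      L1 := one_le_E hm1 (by linarith)
      x2n := by have := (E_pos hm0 (x / 2)).le; positivity
      x4n := (E_pos hm0 _).le
      vn := (E_pos hm0 _).le
      omn := (E_pos hm0 _).le
      qn := by have := (E_pos hm0 (x / 2 + 7 / 4)).le; positivity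
      yn := by
        have := (E_pos hm0 (x / 2 + 7 / 4)).le
        have := (E_pos hm0 ((2004 - x) / 4)).le
        positivity
      ypn := (E_pos hm0 _).le
      tn := le_rfl
      ben := (E_pos hm0 _).le
      etan := le_rfl
      X1 := by
        have h1 := B.X1 b
        have e : E (m : ℝ) 336 = (m : ℝ) ^ 336 := by
          have := E_natCast (m : ℝ) 336
          simpa using this
        rw [e]; exact h1
      Yp := by
        have h1 := B.X2u b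
        rw [h670] at h1
        linarith
      X2 := hX2'
      X3 := by
        have h1 := B.X3u b
        have h2 := X3Low.ctx_X3_ge' c b
        have h3 : (0 : ℝ) ≤ n := Nat.cast_nonneg n
        have hd := P.d10
        have hd3 := P.d3
        have h4 : (n : ℝ) ≤ 2 * E m 1000 := by
          have := h.hn2
          have e : E (m : ℝ) 1000 = (m : ℝ) ^ 1000 := by
            have := E_natCast (m : ℝ) 1000
            simpa using this
          rw [e]; exact this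
        have h5 : (10 * (d : ℝ)) ^ 2 ≤ E m (1 / 10) ^ 2 := pow_le_pow_left₀ (by linarith) hd 2
        rw [E_sq hm0] at h5
        have h6 := (E_pos hm0 1000).le
        have h7 : 5 * ((d : ℝ) - 1) ^ 2 * n ≤ E m (1000 + 1 / 5) := by
          rw [show (1000 : ℝ) + 1 / 5 = 2 * (1 / 10) + 1000 by norm_num, E_add hm0]
          calc 5 * ((d : ℝ) - 1) ^ 2 * n ≤ 5 * (d : ℝ) ^ 2 * (2 * E m 1000) := by
                refine mul_le_mul ?_ h4 h3 (by positivity)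
                nlinarith
            _ ≤ (10 * (d : ℝ)) ^ 2 * E m 1000 := by nlinarith [sq_nonneg (d : ℝ)]
            _ ≤ _ := mul_le_mul_of_nonneg_right h5 h6
        have h8 : 2 * (F.card : ℝ) + 1 ≤ E m (1000 + 1 / 5) := by
          have h9 : (F.card : ℝ) ≤ E m (800 + 1 / 10) := by rw [R.eq]; exact E_mono hm1 hhi
          have h10 : E (m : ℝ) (1000 + 1 / 5) = E m (199 + 1 / 10) * E m 1 * E m (800 + 1 / 10) := by
            rw [E_mul hm0, E_mul hm0]; norm_num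
          have h11 : (1 : ℝ) ≤ E m (199 + 1 / 10) := one_le_E hm1 (by norm_num)
          have h12 : (1 : ℝ) ≤ E m (800 + 1 / 10) := one_le_E hm1 (by norm_num)
          have h13 : (3 : ℝ) ≤ E m 1 := by
            rw [E_one]; have := P.mbig; linarith
          rw [h10]
          have h14 : (3 : ℝ) ≤ E m (199 + 1 / 10) * E m 1 := by nlinarith
          nlinarith
        rw [abs_le]
        constructor <;> linarith
      X4 := hX4'
      V := by
        have h1 : Vv (K b) ≤ (m : ℝ) ^ 8 := B.Vu b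
        rw [E_pow hm0]
        have : E (m : ℝ) (4 * ((2 : ℕ) : ℝ)) = (m : ℝ) ^ 8 := by
          rw [← E_natCast]; norm_num
        rw [this]; exact h1
      Om := by
        have h1 : Wv (K b) F ≤ E (m : ℝ) 683 := hWu
        rw [E_pow hm0]
        have : (341 + 1 / 2 : ℝ) * ((2 : ℕ) : ℝ) = 683 := by norm_num
        rw [this]; exact h1
      Q := hR
      Y := by
        have h1 : Yv (K b) ≤ E m ((2004 - x) / 4) ^ 2 * R2v (K b) := Yv_le hK hop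
        rw [mul_pow]
        exact h1.trans (mul_le_mul_of_nonneg_left hR (sq_nonneg _))
      card := by
        have h1 := bad2 h c B
        rw [E_pow hm0]
        refine h1.trans (le_of_eq ?_)
        congr 1; push_cast; ring
      th := fun p _ => by simp
      frob := by simp
      tilt := by simp
      rho := rfl
      rho2 := by
        have h1 := B.rho_ge
        have h2 := mul_pos B.x0_pos P.r1_pos
        linarith }

theorem s2x4 : S2X4 ι := by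
  intro d n m γ x0 F K S h c B b
  have P := par h
  have R := rho2 h B
  have hm0 := P.m0
  have hm1 := P.m1
  have hyp := hyp2 h c B b
  have hL4 : (0 : ℝ) < (m : ℝ) ^ 2004 := by positivity
  have main := hyp.inc_le hL4 zero_le_one
  have hb : (10 : ℝ) ^ 14 ≤ m := by have := P.mbig; linarith
  set x := ex (m : ℝ) (F.card : ℝ) with hx
  have hlo : 679 + 3 / 4 ≤ x := by have := R.lo; linarith
  have hhi := R.hi
  have OE : ∀ a : ℝ, O (m : ℝ) 1 a (E m a) := fun a => O.E hm0 a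
  have O2E : ∀ a : ℝ, O (m : ℝ) 2 a (2 * E m a) := fun a =>
    ⟨by have := (E_pos hm0 a).le; positivity, le_rfl⟩
  have O4E : O (m : ℝ) 4 (x / 2 + 7 / 4) (2 * E m (x / 2 + 7 / 4)) :=
    (O2E _).mono hm1 (by norm_num) le_rfl
  have n1 := num2 hm1 hb hlo hhi R.O (OE 336) (OE 670) (O2E (x / 2)) (OE (1000 + 1 / 5))
    (OE ((2004 - x) / 2)) (OE 4) (OE (341 + 1 / 2)) O4E (OE ((2004 - x) / 4))
    (OE (x / 2 + 1 / 10))
  have n2 := num2e hm1 hb hlo hhi (O2E (x / 2)) (OE ((2004 - x) / 2)) (OE 4)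
    (OE (341 + 1 / 2)) O4E (OE ((2004 - x) / 4))
  have hUU : UU (E m 336) (E m 670)
      (2 * E m (x / 2))
      (E m (1000 + 1 / 5)) (E m ((2004 - x) / 2)) (E m 4) (E m (341 + 1 / 2))
      (2 * E m (x / 2 + 7 / 4))
      (E m ((2004 - x) / 4) * (2 * E m (x / 2 + 7 / 4)))
      (E m ((2004 - x) / 4))
      (E m (x / 2 + 1 / 10)) 0 0 0 (F.card : ℝ) ≤ (m : ℝ) ^ 2002 := by
    have e1 : E (m : ℝ) 2002 = (m : ℝ) ^ 2002 := by
      have := E_natCast (m : ℝ) 2002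
      simpa using this
    rw [← e1]
    unfold UU mm4 m4
    nlinarith [n1, n2]
  have hρ := R.pos
  have fin : (F.card : ℝ) / (m : ℝ) ^ 2004 * (m : ℝ) ^ 2002 = F.card / (m : ℝ) ^ 2 := by
    have : (m : ℝ) ^ 2004 = (m : ℝ) ^ 2 * (m : ℝ) ^ 2002 := by rw [← pow_add]
    rw [this]
    field_simp
  unfold inc p2X4 nx
  refine main.trans ?_
  rw [← fin]
  exact mul_le_mul_of_nonneg_left hUU (by positivity)

end

end Crest.Agent.R62.MainX4
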