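import Mathlib
import Crest.Agent.R62.CrossL
import Crest.Agent.R62.StepDefs
import Crest.Agent.R62.DiagAv
import Crest.Agent.R62.AvV
import Crest.Agent.R62.WtOf
import Crest.Agent.R62.KapB
import Crest.Agent.R62.MainX2
import Crest.Agent.R62.MainWNum
import Crest.Agent.R62.MainX4_Mg
import Crest.Agent.R62.MainX3_Mg
import Crest.Agent.R62.Main_X1

-- ▼ part R62/CrossN
section

/-!
R62 (helper214): the cross functional — numbers.
-/

set_option autoImplicit false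
set_option linter.unusedSectionVars false
set_option linter.unusedVariables false

open Matrix Finset

namespace Crest.Agent.R62.Cross

section
variable {a G μ : ℝ}

lemma mon_aux (ha : 1 ≤ a) (μ0 : 0 ≤ μ) (hμ : μ ≤ a ^ 505) (k i n : ℕ)
    (h : k + 505 * i ≤ n) : a ^ k * μ ^ i ≤ a ^ n := by
  have a0 : 0 ≤ a := by linarith
  calc a ^ k * μ ^ i ≤ a ^ k * (a ^ 505) ^ i :=
        mul_le_mul_of_nonneg_left (pow_le_pow_left₀ μ0 hμ i) (pow_nonneg a0 k)
    _ = a ^ (k + 505 * i) := by rw [← pow_mul, ← pow_add]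
    _ ≤ a ^ n := pow_le_pow_right₀ ha h

lemma mon0 (ha : 1 ≤ a) (hG : a ^ 400 ≤ G) (μ0 : 0 ≤ μ) (hμ : μ ≤ a ^ 505) (k i : ℕ)
    (h : k + 505 * i ≤ 1801) : a ^ k * μ ^ i ≤ a ^ 1001 * G ^ 2 := by
  have a0 : 0 ≤ a := by linarith
  refine (mon_aux ha μ0 hμ k i 1801 h).trans ?_
  calc a ^ 1801 = a ^ 1001 * (a ^ 400) ^ 2 := by rw [← pow_mul, ← pow_add]
    _ ≤ _ := mul_le_mul_of_nonneg_left (pow_le_pow_left₀ (pow_nonneg a0 _) hG 2)
        (pow_nonneg a0 _)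

lemma mon1 (ha : 1 ≤ a) (hG : a ^ 400 ≤ G) (μ0 : 0 ≤ μ) (hμ : μ ≤ a ^ 505) (k i : ℕ)
    (h : k + 505 * i ≤ 1401) : a ^ k * μ ^ i * G ≤ a ^ 1001 * G ^ 2 := by
  have a0 : 0 ≤ a := by linarith
  have G0 : 0 ≤ G := (pow_nonneg a0 _).trans hG
  calc a ^ k * μ ^ i * G ≤ a ^ 1401 * G :=
        mul_le_mul_of_nonneg_right (mon_aux ha μ0 hμ k i 1401 h) G0
    _ = a ^ 1001 * a ^ 400 * G := by rw [← pow_add]
    _ ≤ a ^ 1001 * G * G := mul_le_mul_of_nonneg_right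
        (mul_le_mul_of_nonneg_left hG (pow_nonneg a0 _)) G0
    _ = _ := by ring

lemma mon2 (ha : 1 ≤ a) (μ0 : 0 ≤ μ) (hμ : μ ≤ a ^ 505) (k i : ℕ)
    (h : k + 505 * i ≤ 1001) : a ^ k * μ ^ i * G ^ 2 ≤ a ^ 1001 * G ^ 2 :=
  mul_le_mul_of_nonneg_right (mon_aux ha μ0 hμ k i 1001 h) (sq_nonneg _)

theorem num {g ρ : ℝ} (ha : 10 ^ 10 ≤ a) (hG : a ^ 400 ≤ G) (hG2 : G ^ 2 = 2 * ρ)
    (hG3 : G ^ 2 ≤ a ^ 1001) (μ0 : 0 ≤ μ) (hμ : μ ≤ a ^ 505) (hg : g ^ 2 = G) :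
    8 * ρ + 41 * (ρ * g ^ 4) + 9 * (a ^ 301 * μ) ^ 2
      + 8 * ((a * G + a ^ 371) * (a ^ 301 * μ ^ 2)
        + 24 * (g ^ 2 * (a ^ 3) ^ 2 * (a ^ 301 * μ ^ 2)))
      + 4 * ((a * G + a ^ 371) * (2 * g ^ 2 * (a ^ 153 * (a ^ 301 * μ)))
        + 32 * b2 g (a ^ 153) μ (a ^ 301) (a ^ 3))
      + 264 * (8 * b3 g (a ^ 153) μ (a ^ 3) + 4 * b4 g (a ^ 153) μ (a ^ 3))
      + 4 * (g ^ 8 + μ ^ 2) + 256 * b5 g (a ^ 153) μ (a ^ 3)
      ≤ a ^ 1008 * ρ := by
  have a1 : 1 ≤ a := by linarith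
  have a0 : 0 ≤ a := by linarith
  have hg4 : g ^ 4 = G ^ 2 := by rw [← hg]; ring
  have hg8 : g ^ 8 = G ^ 4 := by rw [← hg]; ring
  have hρ : ρ = G ^ 2 / 2 := by linarith
  set E : ℝ := a ^ 1001 * G ^ 2 with hE
  have E0 : 0 ≤ E := mul_nonneg (pow_nonneg a0 _) (sq_nonneg _)
  have m0 := fun k i h => mon0 (G := G) a1 hG μ0 hμ k i h
  have m1 := fun k i h => mon1 (G := G) a1 hG μ0 hμ k i h
  have m2 := fun k i h => mon2 (G := G) a1 μ0 hμ k i h
  rw [← hE] at m0 m1 m2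
  have m4 : G ^ 4 ≤ E := by
    calc G ^ 4 = G ^ 2 * G ^ 2 := by ring
      _ ≤ a ^ 1001 * G ^ 2 := mul_le_mul_of_nonneg_right hG3 (sq_nonneg _)
  have T0 : 8 * ρ ≤ 4 * E := by
    have := m2 0 0 (by norm_num)
    simp only [pow_zero, one_mul] at this
    rw [hρ]; linarith
  have T1 : 41 * (ρ * g ^ 4) ≤ 41 * E := by
    rw [hg4, hρ]
    have : G ^ 2 / 2 * G ^ 2 = G ^ 4 / 2 := by ring
    rw [this]; linarith
  have T2 : 9 * (a ^ 301 * μ) ^ 2 ≤ 9 * E := by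
    have := m0 602 2 (by norm_num)
    calc 9 * (a ^ 301 * μ) ^ 2 = 9 * (a ^ 602 * μ ^ 2) := by ring
      _ ≤ _ := by linarith
  have T3 : 8 * ((a * G + a ^ 371) * (a ^ 301 * μ ^ 2)
        + 24 * (g ^ 2 * (a ^ 3) ^ 2 * (a ^ 301 * μ ^ 2))) ≤ 208 * E := by
    have c1 := m1 302 2 (by norm_num)
    have c2 := m0 672 2 (by norm_num)
    have c3 := m1 307 2 (by norm_num)
    rw [hg]
    calc 8 * ((a * G + a ^ 371) * (a ^ 301 * μ ^ 2)
        + 24 * (G * (a ^ 3) ^ 2 * (a ^ 301 * μ ^ 2)))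
        = 8 * (a ^ 302 * μ ^ 2 * G) + 8 * (a ^ 672 * μ ^ 2) + 192 * (a ^ 307 * μ ^ 2 * G) := by
          ring
      _ ≤ _ := by linarith
  have T5 : 4 * ((a * G + a ^ 371) * (2 * g ^ 2 * (a ^ 153 * (a ^ 301 * μ)))
        + 32 * b2 g (a ^ 153) μ (a ^ 301) (a ^ 3)) ≤ 2320 * E := by
    have c1 := m2 455 1 (by norm_num)
    have c2 := m1 825 1 (by norm_num)
    have c3 := m2 304 1 (by norm_num)
    have c4 := m1 460 1 (by norm_num)
    have c5 := m1 307 2 (by norm_num)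
    have c6 := m0 457 2 (by norm_num)
    rw [b2, hg4, hg]
    calc 4 * ((a * G + a ^ 371) * (2 * G * (a ^ 153 * (a ^ 301 * μ)))
        + 32 * (8 * (G ^ 2 * a ^ 3 * (a ^ 301 * μ)) + 6 * (G * a ^ 153 * (a ^ 3) ^ 2
          * (a ^ 301 * μ)) + 2 * (G * (a ^ 3) ^ 2 * (a ^ 301 * μ ^ 2))
          + 2 * (a ^ 153 * a ^ 3 * (a ^ 301 * μ ^ 2))))
        = 8 * (a ^ 455 * μ ^ 1 * G ^ 2) + 8 * (a ^ 825 * μ ^ 1 * G)
          + 1024 * (a ^ 304 * μ ^ 1 * G ^ 2) + 768 * (a ^ 460 * μ ^ 1 * G)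
          + 256 * (a ^ 307 * μ ^ 2 * G) + 256 * (a ^ 457 * μ ^ 2) := by ring
      _ ≤ _ := by linarith
  have T7 : b3 g (a ^ 153) μ (a ^ 3) ≤ 192 * E := by
    have c1 := m0 312 2 (by norm_num)
    have c2 := m1 153 2 (by norm_num)
    have c3 := m1 6 2 (by norm_num)
    rw [b3, hg]
    calc 64 * ((a ^ 153 * μ * a ^ 3) ^ 2 + a ^ 153 * μ * (μ * G)
          + μ * a ^ 3 * (a ^ 3 * μ * G))
        = 64 * (a ^ 312 * μ ^ 2 + a ^ 153 * μ ^ 2 * G + a ^ 6 * μ ^ 2 * G) := by ring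
      _ ≤ _ := by linarith
  have T8 : b4 g (a ^ 153) μ (a ^ 3) ≤ 20480 * E := by
    have c1 := m2 624 0 (by norm_num)
    have c2 := m2 618 0 (by norm_num)
    have c3 := m1 618 1 (by norm_num)
    have c4 := m2 306 1 (by norm_num)
    have c5 := m0 930 1 (by norm_num)
    rw [b4, hg]
    calc 1024 * ((a ^ 153 * (a ^ 153 * (2 * G)) * (a ^ 3 * a ^ 3)) ^ 2
          + (a ^ 153 * (2 * G) * (a ^ 153 * a ^ 3)) ^ 2
          + (a ^ 153 * (2 * G) * (a ^ 153 * a ^ 3)) ^ 2 + (2 * G * G) ^ 2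
          + μ * (a ^ 153 * (a ^ 153 * (a ^ 153 * G)) * (a ^ 3 * (a ^ 153 * a ^ 3)))
          + μ * (a ^ 153 * G * (a ^ 153 * G))
          + μ * (a ^ 153 * (a ^ 153 * (a ^ 153 * (a ^ 3 * a ^ 3)))
            * (a ^ 153 * (a ^ 153 * (a ^ 153 * (a ^ 3 * a ^ 3)))))
          + μ * (a ^ 153 * (a ^ 3 * a ^ 3) * (a ^ 153 * (a ^ 153 * (a ^ 153 * G)))))
        = 1024 * (4 * (a ^ 624 * μ ^ 0 * G ^ 2) + 8 * (a ^ 618 * μ ^ 0 * G ^ 2) + 4 * G ^ 4
          + 2 * (a ^ 618 * μ ^ 1 * G) + a ^ 306 * μ ^ 1 * G ^ 2 + a ^ 930 * μ ^ 1) := by ring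
      _ ≤ _ := by linarith
  have T9 : 4 * (g ^ 8 + μ ^ 2) ≤ 8 * E := by
    have c1 := m0 0 2 (by norm_num)
    rw [pow_zero, one_mul] at c1
    rw [hg8]; linarith
  have T10 : b5 g (a ^ 153) μ (a ^ 3) ≤ 80000 * E := by
    have c1 := m0 306 2 (by norm_num)
    have c2 := m0 12 2 (by norm_num)
    have c3 := m0 6 2 (by norm_num)
    have c4 := m2 312 0 (by norm_num)
    have c5 := m0 312 2 (by norm_num)
    have c6 := m0 318 2 (by norm_num)
    have c7 := m2 318 0 (by norm_num)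
    rw [b5, hg]
    calc 6 * (32 * ((a ^ 153 * μ) ^ 2 + ((a ^ 3 * μ) * a ^ 3) ^ 2) + 16 * (a ^ 3 * μ) ^ 2
        + 288 * (((a ^ 153 * (2 * G)) * a ^ 3) ^ 2 + ((2 * G) * G) ^ 2)
        + 288 * ((a ^ 153 * μ) ^ 2 + (a ^ 3 * (a ^ 153 * μ)) ^ 2)
        + 1024 * ((a ^ 3 * (a ^ 3 * (a ^ 153 * μ))) ^ 2 + (a ^ 3 * (a ^ 153 * μ)) ^ 2)
        + 1024 * (((a ^ 153 * a ^ 3) * (2 * G)) ^ 2
          + ((a ^ 3 * a ^ 3) * (a ^ 153 * (2 * G))) ^ 2))
        = 6 * (320 * (a ^ 306 * μ ^ 2) + 32 * (a ^ 12 * μ ^ 2) + 16 * (a ^ 6 * μ ^ 2)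
          + 5248 * (a ^ 312 * μ ^ 0 * G ^ 2) + 1152 * G ^ 4 + 1312 * (a ^ 312 * μ ^ 2)
          + 1024 * (a ^ 318 * μ ^ 2) + 4096 * (a ^ 318 * μ ^ 0 * G ^ 2)) := by ring
      _ ≤ _ := by linarith
  have hfin : 10 ^ 9 * E ≤ a ^ 1008 * ρ := by
    have h1 : (2 * 10 ^ 9 : ℝ) ≤ a ^ 7 := by
      have := pow_le_pow_right₀ a1 (by norm_num : 1 ≤ 7)
      rw [pow_one] at this
      linarith
    have h2 := mul_le_mul_of_nonneg_left h1 (mul_nonneg (pow_nonneg a0 1001)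
      (sq_nonneg G))
    rw [hρ, hE]
    calc 10 ^ 9 * (a ^ 1001 * G ^ 2) = (a ^ 1001 * G ^ 2 * (2 * 10 ^ 9)) / 2 := by ring
      _ ≤ (a ^ 1001 * G ^ 2 * a ^ 7) / 2 := by linarith
      _ = _ := by ring
  linarith

end

end Crest.Agent.R62.Cross
end

-- ▼ part R62/MainM
section

/-!
R62 (helper214): the cross functional: `theorem s1m : S1M ι`.
-/

set_option autoImplicit false
set_option linter.unusedSectionVars false
set_option linter.unusedVariables false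

open Matrix Finset

namespace Crest.Agent.R62.MainM

open Crest.Agent.R62.Upd Crest.Agent.R62.AvX1 Crest.Agent.R62.L2P Crest.Agent.R62.AvBase
open Crest.Agent.R62.Cross Crest.Agent.R62.Step Crest.Agent.R062

section gen
variable {ι : Type*} [Fintype ι] [DecidableEq ι]

lemma rn_eq {K : Matrix ι ι ℝ} (hK : K.IsSymm) (x : ι) : rn K x = (K ^ 2) x x := by
  rw [pow_two, Matrix.mul_apply]
  unfold rn
  exact Finset.sum_congr rfl fun j _ => by rw [hK.apply x j]; ring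

lemma fr_eq {K : Matrix ι ι ℝ} (hK : K.IsSymm) : fr K = (K ^ 2).trace := by
  rw [← sum_rn]
  exact Finset.sum_congr rfl fun x _ => rn_eq hK x

lemma fr_opB {K : Matrix ι ι ℝ} {l : ℝ} (h : OpB K l) (A : Matrix ι ι ℝ) :
    fr (K * A) ≤ l ^ 2 * fr A := by
  have e : ∀ B : Matrix ι ι ℝ, fr B = ∑ j, (fun i => B i j) ⬝ᵥ (fun i => B i j) := by
    intro B
    unfold fr
    rw [Finset.sum_comm]
    refine Finset.sum_congr rfl fun j _ => ?_
    simp only [dotProduct]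
    exact Finset.sum_congr rfl fun i _ => by ring
  rw [e, e, Finset.mul_sum]
  refine Finset.sum_le_sum fun j _ => ?_
  have h2 : (fun i => (K * A) i j) = K *ᵥ (fun i => A i j) := by
    funext i
    rw [Matrix.mul_apply]; rfl
  rw [h2]
  exact h.2 _

lemma sum_q {F : Finset ι} {K : Matrix ι ι ℝ} (hK : K.IsSymm)
    (hd : ∀ i j, i ∉ F → K i j = 0) : ∑ x ∈ F, rn K x = (K ^ 2).trace := by
  rw [sum_F_rn hd, fr_eq hK]

lemma sum_q2 {F : Finset ι} {K : Matrix ι ι ℝ} (hK : K.IsSymm)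
    (hd : ∀ i j, i ∉ F → K i j = 0) :
    ∑ x ∈ F, rn K x ^ 2 = Wf F K + 2 * (K ^ 2).trace - F.card := by
  have e : ∀ x ∈ F, rn K x ^ 2 = ((K ^ 2) x x - 1) ^ 2 + 2 * rn K x - 1 := fun x _ => by
    rw [rn_eq hK]; ring
  rw [Finset.sum_congr rfl e, Finset.sum_sub_distrib, Finset.sum_add_distrib, ← Finset.mul_sum,
    sum_q hK hd]
  simp [Wf]

end gen

variable {ι : Type} [Fintype ι] [DecidableEq ι]

lemma Mf_fr {K : Bool → Matrix ι ι ℝ} (hs : ∀ b, (K b).IsSymm) :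
    Mf K = fr (K true * K false) := by
  unfold Mf
  rw [← trace_KXL (hs true) (hs false)]
  simp only [pow_two, Matrix.mul_assoc]

lemma a_ge {d n m : ℕ} (h : Prm d n m) : (10 : ℝ) ^ 10 * d ≤ m := by
  have hd : (1 : ℝ) ≤ d := by exact_mod_cast le_trans (by norm_num) h.hd
  refine le_trans ?_ h.hm
  refine mul_le_mul_of_nonneg_left ?_ (by norm_num)
  calc (d : ℝ) = (d : ℝ) ^ 1 := (pow_one _).symm
    _ ≤ (d : ℝ) ^ 10 := pow_le_pow_right₀ hd (by norm_num)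

lemma a_ge2 {d n m : ℕ} (h : Prm d n m) : (10 : ℝ) ^ 10 * (d : ℝ) ^ 2 ≤ m := by
  have hd : (1 : ℝ) ≤ d := by exact_mod_cast le_trans (by norm_num) h.hd
  refine le_trans ?_ h.hm
  exact mul_le_mul_of_nonneg_left (pow_le_pow_right₀ hd (by norm_num)) (by norm_num)

lemma a_big {d n m : ℕ} (h : Prm d n m) : (10 : ℝ) ^ 10 ≤ m := by
  have hd : (1 : ℝ) ≤ d := by exact_mod_cast le_trans (by norm_num) h.hd
  have := a_ge h
  linarith

lemma U_le {m : ℕ} (ρ : ℝ) : U m ρ ≤ (m : ℝ) ^ 361 := by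
  unfold U
  have h : max 0 (min 1 ((ρ - (m : ℝ) ^ 800) / (m : ℝ) ^ 800)) ≤ 1 :=
    max_le zero_le_one (min_le_left _ _)
  calc _ ≤ (m : ℝ) ^ 361 * 1 := mul_le_mul_of_nonneg_left h (by positivity)
    _ = _ := mul_one _

section box
variable {d n m : ℕ} {γ : ℝ} {F : Finset ι} {K : Bool → Matrix ι ι ℝ} {S : Finset (ι × ι)}
  {Θ : ι → ι → ℝ}

lemma X4_le (hp : Prm d n m) (hc : Ctx d m γ F K S) (hb : Box1 d n m F K) (b : Bool) :
    (K b ^ 4).trace ≤ (m : ℝ) ^ 1203 := by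
  have ha := a_big hp
  have h0 : 0 ≤ (K b ^ 4).trace := by simpa using trace_even_nonneg (hc.symm b).eq 2
  have h1 : (m : ℝ) ^ 800 ≤ F.card := by linarith [hb.rho_ge]
  have h2 := mul_le_mul_of_nonneg_left h1 h0
  have h3 : (K b ^ 4).trace * (m : ℝ) ^ 800 ≤ (m : ℝ) ^ 1203 * (m : ℝ) ^ 800 := by
    rw [← pow_add]; exact h2.trans (hb.X4u b)
  exact le_of_mul_le_mul_right h3 (by positivity)

lemma q_le (hp : Prm d n m) (hc : Ctx d m γ F K S) (hb : Box1 d n m F K) (b : Bool) {x : ι}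
    (hx : x ∈ F) : (K b ^ 2) x x ≤ (m : ℝ) ^ 306 := by
  have ha := a_big hp
  have ha1 : (1 : ℝ) ≤ m := by linarith
  have h1 : ((K b ^ 2) x x - 1) ^ 2 ≤ ((m : ℝ) ^ 305) ^ 2 := by
    rw [← pow_mul]
    exact (Finset.single_le_sum (f := fun x => ((K b ^ 2) x x - 1) ^ 2)
      (fun _ _ => sq_nonneg _) hx).trans (hb.Wu b)
  have h2 := (abs_le_of_sq_le_sq' h1 (by positivity)).2
  have h3 : (1 : ℝ) ≤ (m : ℝ) ^ 305 := one_le_pow₀ ha1
  have h4 : 2 * (m : ℝ) ^ 305 ≤ (m : ℝ) ^ 306 := by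
    rw [pow_succ (m : ℝ) 305, mul_comm]
    exact mul_le_mul_of_nonneg_left (by linarith) (by positivity)
  linarith

/-- the number of removed pairs in a row -/
lemma row_le (hp : Prm d n m) (hc : Ctx d m γ F K S) (hb : Box1 d n m F K) {x : ι}
    (hx : x ∈ F) : ((F.filter fun y => (x, y) ∉ S).card : ℝ) ≤ (m : ℝ) ^ 704 := by
  have ha := a_big hp
  have ha1 : (1 : ℝ) ≤ m := by linarith
  have ha0 : (0 : ℝ) < m := by linarith
  have h := hc.badrow x hx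
  have pm : ∀ k, k ≤ 703 → (m : ℝ) ^ k ≤ (m : ℝ) ^ 703 := fun k hk => pow_le_pow_right₀ ha1 hk
  have hterm : ∀ b : Bool, 25 * (K b ^ 2) x x + 100 * (K b x x ^ 2 * Vf (K b))
      + (K b ^ 4) x x / (m : ℝ) ^ 500 + K b x x ^ 2 * Wf F (K b) / (m : ℝ) ^ 400
      + ((K b ^ 2) x x - 1) ^ 2 * Vf (K b) / (m : ℝ) ^ 400 ≤ 128 * (m : ℝ) ^ 703 := by
    intro b
    have hV := hb.Vu b
    have hV0 := Vf_nonneg (K b)
    have hW := hb.Wu b
    have hW0 := Wf_nonneg F (K b)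
    have c1 : 25 * (K b ^ 2) x x ≤ 25 * (m : ℝ) ^ 703 := by
      have := q_le hp hc hb b hx
      have := pm 306 (by norm_num)
      linarith
    have k2 : K b x x ^ 2 ≤ (m : ℝ) ^ 6 :=
      (Finset.single_le_sum (f := fun x => K b x x ^ 2) (fun _ _ => sq_nonneg _)
        (Finset.mem_univ x)).trans hV
    have c2 : 100 * (K b x x ^ 2 * Vf (K b)) ≤ 100 * (m : ℝ) ^ 703 := by
      have h1 := mul_le_mul k2 hV hV0 (by positivity)
      rw [← pow_add] at h1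
      have := pm 12 (by norm_num)
      norm_num at h1
      linarith
    have c3 : (K b ^ 4) x x / (m : ℝ) ^ 500 ≤ (m : ℝ) ^ 703 := by
      rw [div_le_iff₀ (by positivity), ← pow_add]
      refine le_trans ?_ (X4_le hp hc hb b)
      exact Finset.single_le_sum (f := fun x => (K b ^ 4) x x)
        (fun z _ => diag_four_nonneg (hc.symm b).eq z) (Finset.mem_univ x)
    have c4 : K b x x ^ 2 * Wf F (K b) / (m : ℝ) ^ 400 ≤ (m : ℝ) ^ 703 := by
      rw [div_le_iff₀ (by positivity), ← pow_add]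
      have h1 := mul_le_mul k2 hW hW0 (by positivity)
      rw [← pow_add] at h1
      exact h1.trans (pow_le_pow_right₀ ha1 (by norm_num))
    have c5 : ((K b ^ 2) x x - 1) ^ 2 * Vf (K b) / (m : ℝ) ^ 400 ≤ (m : ℝ) ^ 703 := by
      rw [div_le_iff₀ (by positivity), ← pow_add]
      have w2 : ((K b ^ 2) x x - 1) ^ 2 ≤ (m : ℝ) ^ 610 :=
        (Finset.single_le_sum (f := fun x => ((K b ^ 2) x x - 1) ^ 2)
          (fun _ _ => sq_nonneg _) hx).trans hW
      have h1 := mul_le_mul w2 hV hV0 (by positivity)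
      rw [← pow_add] at h1
      exact h1.trans (pow_le_pow_right₀ ha1 (by norm_num))
    linarith
  have ht := hterm true
  have hf := hterm false
  rw [Fintype.sum_bool] at h
  have hd : ((d : ℝ) + 1) * d ≤ (m : ℝ) ^ 703 := by
    have h1 := a_ge2 hp
    have hd1 : (1 : ℝ) ≤ d := by exact_mod_cast le_trans (by norm_num) hp.hd
    have h2 := pm 1 (by norm_num)
    rw [pow_one] at h2
    nlinarith
  have h704 : 257 * (m : ℝ) ^ 703 ≤ (m : ℝ) ^ 704 := by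
    rw [pow_succ (m : ℝ) 703, mul_comm]
    exact mul_le_mul_of_nonneg_left (by linarith) (by positivity)
  linarith

end box

theorem s1m : S1M ι := by
  intro d n m γ F K S Θ hp hc hb ht
  have ha := a_big hp
  have ha1 : (1 : ℝ) ≤ m := by linarith
  have ha0 : (0 : ℝ) < m := by linarith
  set a : ℝ := (m : ℝ) with hadef
  have hρ800 : a ^ 800 ≤ F.card := by linarith [hb.rho_ge]
  have hρ1 : (1 : ℝ) ≤ F.card := le_trans (one_le_pow₀ ha1) hρ800
  have hF : F.Nonempty := by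
    rw [← Finset.card_pos]
    have : (0 : ℝ) < F.card := by linarith
    exact_mod_cast this
  set G : ℝ := Real.sqrt (2 * F.card) with hG
  set g : ℝ := Real.sqrt G with hgdef
  set μ : ℝ := Real.sqrt (Mf K) with hμdef
  have hG2 : G ^ 2 = 2 * F.card := Real.sq_sqrt (by linarith)
  have hg2 : g ^ 2 = G := Real.sq_sqrt (Real.sqrt_nonneg _)
  have hg4 : g ^ 4 = 2 * F.card := by rw [← hG2, ← hg2]; ring
  have hG400 : a ^ 400 ≤ G := by
    refine Real.le_sqrt_of_sq_le ?_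
    have e : (a ^ 400) ^ 2 = a ^ 800 := by rw [← pow_mul]
    rw [e]; linarith
  have hG1 : 1 ≤ G := le_trans (one_le_pow₀ ha1) hG400
  have hg1 : 1 ≤ g := by
    rw [hgdef, ← Real.sqrt_one]; exact Real.sqrt_le_sqrt hG1
  have hdead := hc.dead
  have hM0 : 0 ≤ Mf K := by rw [Mf_fr hc.symm]; exact fr_nonneg _
  have hμ2 : μ ^ 2 = Mf K := Real.sq_sqrt hM0
  have hμ0 : 0 ≤ μ := Real.sqrt_nonneg _
  have hμ : μ ≤ a ^ 505 := by
    refine Real.sqrt_le_iff.mpr ⟨by positivity, ?_⟩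
    rw [← pow_mul]; exact hb.Mu
  have hMfr : fr (K true * K false) = μ ^ 2 := by rw [hμ2, Mf_fr hc.symm]
  have hG3 : G ^ 2 ≤ a ^ 1001 := by
    rw [hG2]
    have h1 := hb.rho_le
    have h2 := hp.hn2
    have h3 := a_ge hp
    have hd1 : (0 : ℝ) ≤ d := Nat.cast_nonneg d
    have h4 := mul_le_mul_of_nonneg_right h2 hd1
    calc 2 * (F.card : ℝ) ≤ 2 * (2 * a ^ 1000 * d) := by linarith
      _ = a ^ 1000 * (4 * d) := by ring
      _ ≤ a ^ 1000 * a := mul_le_mul_of_nonneg_left (by linarith) (by positivity)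
      _ = _ := by rw [← pow_succ]
  -- one-sided facts
  have hr1 : 0 ≤ r1 d n m := by unfold r1; positivity
  have hX2 : ∀ b, (K b ^ 2).trace ≤ F.card := fun b => by linarith [hb.X2u b]
  have hp2 : ∀ b, ∑ x ∈ F, rn (K b) x ^ 2 ≤ g ^ 4 := by
    intro b
    rw [sum_q2 (hc.symm b) (hdead b), hg4]
    have h1 := hb.Wu b
    have h2 := hX2 b
    have h3 : a ^ 610 ≤ a ^ 800 := pow_le_pow_right₀ ha1 (by norm_num)
    linarith
  have hps : ∀ b, ∀ x ∈ F, rn (K b) x ≤ (a ^ 153) ^ 2 := by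
    intro b x hx
    rw [rn_eq (hc.symm b), ← pow_mul]
    exact q_le hp hc hb b hx
  have hv : ∀ b, ∑ x ∈ F, K b x x ^ 2 ≤ (a ^ 3) ^ 2 := by
    intro b
    rw [← pow_mul]
    exact (Finset.sum_le_sum_of_subset_of_nonneg (Finset.subset_univ F)
      fun _ _ _ => sq_nonneg _).trans (hb.Vu b)
  have hop : ∀ b, OpB (K b) (a ^ 301) := by
    intro b
    refine opB_of_trace_four (hc.symm b).eq (by positivity) ?_
    rw [← pow_mul]
    exact (X4_le hp hc hb b).trans (pow_le_pow_right₀ ha1 (by norm_num))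
  have hMfr' : fr (K false * K true) = μ ^ 2 := by
    rw [fr_comm (hc.symm true) (hc.symm false), hMfr]
  have H : Hy F (K true) (K false) g (a ^ 153) μ (a ^ 301) (a ^ 3) :=
    { hK := hc.symm true
      hL := hc.symm false
      g1 := hg1
      σ1 := one_le_pow₀ ha1
      v1 := one_le_pow₀ ha1
      m0 := hμ0
      l0 := by positivity
      card := by rw [hg4]; linarith
      p2 := hp2 true
      q2 := hp2 false
      ps := hps true
      qs := hps false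
      vK := hv true
      vL := hv false
      mX := hMfr.le
      zK := by
        refine (fr_opB (hop true) _).trans ?_
        rw [hMfr, mul_pow]
      zL := by
        refine (fr_opB (hop false) _).trans ?_
        rw [hMfr', mul_pow] }
  have A : Av F S Θ (1 / a) (a ^ 371) (a * G) (a ^ 704) :=
    { sub := hc.sub
      symS := hc.symS
      symm := ht.symm
      supp := ht.supp
      η0 := by positivity
      η1 := by rw [div_le_one ha0]; exact ha1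
      absΘ := ht.abs_le
      op := ht.opB
      nb0 := by positivity
      bad := by
        refine hc.bad.trans ?_
        rw [mul_pow, hG2]
        have h1 := a_ge2 hp
        have h2 : 100 * (d : ℝ) ^ 2 ≤ a ^ 2 * 2 := by
          have : (0 : ℝ) ≤ (d : ℝ) ^ 2 := by positivity
          nlinarith
        calc 100 * (d : ℝ) ^ 2 * F.card ≤ a ^ 2 * 2 * F.card :=
              mul_le_mul_of_nonneg_right h2 (by linarith)
          _ = _ := by ring
      row := fun x hx => row_le hp hc hb hx }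
  have sgt : (Mach.sg true : ℝ) = 1 := by simp [Mach.sg]
  have sgf : (Mach.sg false : ℝ) = -1 := by simp [Mach.sg]
  have DK : Dr F (K true) (Mach.sg true : ℝ) :=
    ⟨hc.symm true, hdead true, hc.row true, by rw [sgt]; norm_num⟩
  have DL : Dr F (K false) (Mach.sg false : ℝ) :=
    ⟨hc.symm false, hdead false, hc.row false, by rw [sgf]; norm_num⟩
  have hg : GP2 (K true) (K false) S := by
    intro p hp'
    have e1 := hc.good1 p hp'
    have e2 := hc.good2 p hp'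
    exact ⟨⟨hc.ne p hp', (e1 true).trans (by norm_num), (e2 true).trans (by norm_num)⟩,
      ⟨hc.ne p hp', (e1 false).trans (by norm_num), (e2 false).trans (by norm_num)⟩⟩
  have hη : 1 / a ≤ 1 / 64 := one_div_le_one_div_of_le (by norm_num) (by linarith)
  have hγ1 : γ ≤ 1 := by nlinarith [hc.γ1]
  have hτ : γ * ((K true).trace + (K false).trace) ≤ 2 * (a ^ 361 + a ^ 335) := by
    have h1 := hb.X1u true
    have h2 := hb.X1u false
    have h3 := U_le (m := m) (F.card : ℝ)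
    have h4 : (K true).trace + (K false).trace ≤ 2 * (a ^ 361 + a ^ 335) := by linarith
    have h5 : (0 : ℝ) ≤ 2 * (a ^ 361 + a ^ 335) := by positivity
    calc _ ≤ γ * (2 * (a ^ 361 + a ^ 335)) := mul_le_mul_of_nonneg_left h4 hc.γ0.le
      _ ≤ 1 * (2 * (a ^ 361 + a ^ 335)) := mul_le_mul_of_nonneg_right hγ1 h5
      _ = _ := one_mul _
  have hD : 8 * (1 + 2 * (a ^ 361 + a ^ 335) + a ^ 704) ≤ (F.card : ℝ) := by
    have h1 : a ^ 361 ≤ a ^ 704 := pow_le_pow_right₀ ha1 (by norm_num)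
    have h2 : a ^ 335 ≤ a ^ 704 := pow_le_pow_right₀ ha1 (by norm_num)
    have h3 : 1 ≤ a ^ 704 := one_le_pow₀ ha1
    have h4 : 48 * a ^ 704 ≤ a ^ 705 := by
      rw [pow_succ a 704, mul_comm]
      exact mul_le_mul_of_nonneg_left (by linarith) (by positivity)
    have h5 : a ^ 705 ≤ a ^ 800 := pow_le_pow_right₀ ha1 (by norm_num)
    linarith
  have key := cross_fin H A DK DL hg (by rw [sgt, sgf]; norm_num) (by rw [sgt, sgf]; norm_num)
    (hc.low true) (hc.low false) hc.γ0.le hc.γ1 hη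
    (by rw [fr_eq (hc.symm true)]; exact hX2 true)
    (by rw [fr_eq (hc.symm false)]; exact hX2 false) hMfr hτ hD hF
  have hnum := num (a := a) (G := G) (μ := μ) (g := g) ha hG400 hG2 hG3 hμ0 hμ hg2
  have hfin := key.trans hnum
  -- conclusion
  have e1 : inc S Θ (fun x y => p1M m (Mf (fun b => nx b K x y))) (p1M m (Mf K))
      = (∑ p ∈ S, (1 - Θ p.1 p.2) * (fr (upd (Mach.sg true : ℝ) (K true) p.1 p.2
          * upd (Mach.sg false : ℝ) (K false) p.1 p.2) - fr (K true * K false))) / a ^ 1010 := by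
    unfold inc p1M
    rw [Finset.sum_div]
    refine Finset.sum_congr rfl fun p _ => ?_
    have hM1 := Mf_fr (K := fun b => nx b K p.1 p.2) (fun b => upd_symm _ (hc.symm b) _ _)
    beta_reduce
    rw [Mf_fr hc.symm, hM1]
    simp only [nx]
    ring
  rw [e1, div_le_div_iff₀ (by positivity) (by positivity)]
  have h5 := mul_le_mul_of_nonneg_right hfin (by positivity : (0 : ℝ) ≤ a ^ 2)
  refine h5.trans (le_of_eq ?_)
  ring

end Crest.Agent.R62.MainM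
end

-- ▼ part R62/AvR
section

/-!
R62 (helper758): the centred diagonal functional `∑_{z ∈ F} ((K²)_zz - t)²`, pointwise part.
-/

set_option autoImplicit false
set_option linter.unusedSectionVars false
set_option linter.unusedVariables false

open Matrix Finset

namespace Crest.Agent.R62.AvR

open Crest.Agent.R62.AvBase (OpB)
open Crest.Agent.R62.DiagAv
open Crest.Agent.R62.AvV (dg kk kk_nonneg Vf Vf_nonneg n2_dg_sq Cf cf_good)

variable {ι : Type*} [Fintype ι] [DecidableEq ι]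

/-- the functional -/
def Wc (K : Matrix ι ι ℝ) (F : Finset ι) (t : ℝ) : ℝ := ∑ z ∈ F, ((K ^ 2) z z - t) ^ 2

/-- centred diagonal of `K²` on the live set -/
def qf (K : Matrix ι ι ℝ) (F : Finset ι) (t : ℝ) (z : ι) : ℝ :=
  if z ∈ F then (K ^ 2) z z - t else 0

lemma n2_qf_sq (K : Matrix ι ι ℝ) (F : Finset ι) (t : ℝ) : n2 (qf K F t) ^ 2 = Wc K F t := by
  rw [n2_sq, Wc]
  have : ∀ z, qf K F t z ^ 2 = if z ∈ F then ((K ^ 2) z z - t) ^ 2 else 0 := by
    intro z; unfold qf; split_ifs <;> simp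
  simp_rw [this]
  simp [Finset.sum_ite_mem]

/-- `α` -/
noncomputable def al (s : ℝ) (K : Matrix ι ι ℝ) (x y z : ι) : ℝ :=
  Upd.Bxx s K x y * K z x + Upd.Bxy s K x y * K z y
/-- `β` -/
noncomputable def be (s : ℝ) (K : Matrix ι ι ℝ) (x y z : ι) : ℝ :=
  Upd.Bxy s K x y * K z x + Upd.Byy s K x y * K z y

/-- change of `(K²)_zz` -/
noncomputable def dq (s : ℝ) (K : Matrix ι ι ℝ) (x y z : ι) : ℝ :=
  2 * (al s K x y z * (K ^ 2) z x + be s K x y z * (K ^ 2) z y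
      + al s K x y z * be s K x y z * (K ^ 2) x y)
    + (al s K x y z ^ 2 * ((K ^ 2) x x - 1) + be s K x y z ^ 2 * ((K ^ 2) y y - 1))

lemma Qhat_diag (s : ℝ) (K : Matrix ι ι ℝ) (x y z : ι) :
    Upd.Qhat s K x y z z = (K ^ 2) z z + dq s K x y z := by
  rw [Upd.Qhat_apply, dq, al, be, Upd.Exx, Upd.Exy, Upd.Eyy]
  ring

lemma sum_erase2 {F : Finset ι} {x y : ι} (hx : x ∈ F) (hy : y ∈ F) (hxy : x ≠ y)
    (f : ι → ℝ) : ∑ z ∈ (F.erase x).erase y, f z = ∑ z ∈ F, f z - f x - f y := by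
  have h1 : y ∈ F.erase x := Finset.mem_erase.2 ⟨hxy.symm, hy⟩
  rw [Finset.sum_erase_eq_sub h1, Finset.sum_erase_eq_sub hx]

lemma dq_dead {K : Matrix ι ι ℝ} {F : Finset ι} (hF : ∀ i, i ∉ F → ∀ j, K i j = 0)
    (s : ℝ) (x y : ι) {z : ι} (hz : z ∉ F) : dq s K x y z = 0 := by
  rw [dq, al, be, hF z hz x, hF z hz y]; ring

/-- change of the centred functional: upper bound -/
lemma W_upd {s : ℝ} (hs : s ^ 2 = 1) {K : Matrix ι ι ℝ} (hK : K.IsSymm) {F : Finset ι}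
    (hF : ∀ i, i ∉ F → ∀ j, K i j = 0) (t : ℝ) {x y : ι} (hx : x ∈ F) (hy : y ∈ F)
    (hxy : x ≠ y) (hD : Upd.Dl s K x y ≠ 0) :
    Wc (Upd.upd s K x y) ((F.erase x).erase y) t - Wc K F t
      ≤ -(qf K F t x ^ 2 + qf K F t y ^ 2) + 2 * ∑ z, qf K F t z * dq s K x y z
        + ∑ z, dq s K x y z ^ 2
        - 2 * (qf K F t x * dq s K x y x) - 2 * (qf K F t y * dq s K x y y) := by
  have h1 : Wc (Upd.upd s K x y) ((F.erase x).erase y) t
      = ∑ z ∈ (F.erase x).erase y, ((K ^ 2) z z - t + dq s K x y z) ^ 2 := by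
    unfold Wc
    refine Finset.sum_congr rfl fun z hz => ?_
    have hz1 := Finset.mem_erase.1 hz
    have hz2 := Finset.mem_erase.1 hz1.2
    rw [Upd.upd_sq hs hK hxy hD, Upd.Pi2_apply_of_ne _ hz2.1 hz1.1 hz2.1 hz1.1, Qhat_diag]
    ring
  have h2 : ∑ z ∈ F, ((K ^ 2) z z - t + dq s K x y z) ^ 2
      = Wc K F t + 2 * ∑ z, qf K F t z * dq s K x y z + ∑ z, dq s K x y z ^ 2 := by
    have e1 : ∑ z, qf K F t z * dq s K x y z
        = ∑ z ∈ F, ((K ^ 2) z z - t) * dq s K x y z := by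
      symm
      rw [← Finset.sum_subset (Finset.subset_univ F)
        (fun z _ hz => by rw [dq_dead hF s x y hz, mul_zero])]
      exact Finset.sum_congr rfl fun z hz => by rw [qf, if_pos hz]
    have e2 : ∑ z, dq s K x y z ^ 2 = ∑ z ∈ F, dq s K x y z ^ 2 := by
      symm
      exact Finset.sum_subset (Finset.subset_univ F)
        (fun z _ hz => by rw [dq_dead hF s x y hz]; norm_num)
    rw [e1, e2, Wc, Finset.mul_sum, ← Finset.sum_add_distrib, ← Finset.sum_add_distrib]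
    exact Finset.sum_congr rfl fun z _ => by ring
  rw [h1, sum_erase2 hx hy hxy, h2]
  have hqx : qf K F t x = (K ^ 2) x x - t := by rw [qf, if_pos hx]
  have hqy : qf K F t y = (K ^ 2) y y - t := by rw [qf, if_pos hy]
  rw [hqx, hqy]
  nlinarith [sq_nonneg (dq s K x y x), sq_nonneg (dq s K x y y)]

/-- `(K² diag(q) K)_xy` -/
def Mf (K : Matrix ι ι ℝ) (q : ι → ℝ) (x y : ι) : ℝ := ∑ z, q z * ((K ^ 2) z x * K z y)

/-- the linear sum, exactly -/
lemma sum_q_dq (s : ℝ) {K : Matrix ι ι ℝ} (hK : K.IsSymm) (q : ι → ℝ) (x y : ι) :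
    2 * ∑ z, q z * dq s K x y z =
      4 * (Upd.Bxy s K x y * (Mf K q x y + Mf K q y x))
      + 4 * (Upd.Bxx s K x y * Mf K q x x + Upd.Byy s K x y * Mf K q y y)
      + 4 * ((K ^ 2) x y * (Upd.Bxx s K x y * Upd.Bxy s K x y * Nf K q x x
          + (Upd.Bxx s K x y * Upd.Byy s K x y + Upd.Bxy s K x y ^ 2) * Nf K q x y
          + Upd.Bxy s K x y * Upd.Byy s K x y * Nf K q y y))
      + 2 * (((K ^ 2) x x - 1) * (Upd.Bxx s K x y ^ 2 * Nf K q x x
          + 2 * (Upd.Bxx s K x y * Upd.Bxy s K x y) * Nf K q x y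
          + Upd.Bxy s K x y ^ 2 * Nf K q y y))
      + 2 * (((K ^ 2) y y - 1) * (Upd.Bxy s K x y ^ 2 * Nf K q x x
          + 2 * (Upd.Bxy s K x y * Upd.Byy s K x y) * Nf K q x y
          + Upd.Byy s K x y ^ 2 * Nf K q y y)) := by
  simp only [dq, al, be, Nf, Mf, Finset.mul_sum, ← Finset.sum_add_distrib]
  exact Finset.sum_congr rfl fun z _ => by ring

lemma four_le (A B : ℝ) : (A + B) ^ 4 ≤ 9 / 8 * A ^ 4 + 20700 * B ^ 4 := by
  have h1 : (A + B) ^ 2 ≤ 33 / 32 * A ^ 2 + 33 * B ^ 2 := by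
    nlinarith [sq_nonneg (A - 32 * B)]
  have h2 : (A + B) ^ 4 ≤ (33 / 32 * A ^ 2 + 33 * B ^ 2) ^ 2 := by
    have : (A + B) ^ 4 = ((A + B) ^ 2) ^ 2 := by ring
    rw [this]
    exact pow_le_pow_left₀ (sq_nonneg _) h1 2
  refine h2.trans ?_
  nlinarith [sq_nonneg (33 / 32 * A ^ 2 - 18 * (33 * B ^ 2)), sq_nonneg (A ^ 2),
    sq_nonneg (B ^ 2)]

/-- scalar facts used below, in a convenient form; `e = |c| + |ab|`. -/
structure Cg (s a b c g hx hy : ℝ) : Prop extends Cf s a b c g hx hy where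
  e_le : |c| + |a * b| ≤ 1 / 2
  g2 : |g ^ 2 - 1| ≤ 20 * (|c| + |a * b|)
  g4 : g ^ 4 ≤ 1 + 340 * (|c| + |a * b|)
  ghx : |g * hx| ≤ 13 * |a|
  ghy : |g * hy| ≤ 13 * |b|
  mid : |hx * hy + g ^ 2| ≤ 19

lemma cg_of {s a b c g hx hy : ℝ} (hs : s ^ 2 = 1) (hc : |c| ≤ 1 / 4) (hab : |a * b| ≤ 1 / 4)
    (h : Cf s a b c g hx hy) : Cg s a b c g hx hy := by
  set e := |c| + |a * b| with he
  have he0 : 0 ≤ e := by positivity
  have he1 : e ≤ 1 / 2 := by rw [he]; linarith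
  have hg2 : |g ^ 2 - 1| ≤ 20 * e := by
    have : g ^ 2 - 1 = (g - s) * (g + s) := by rw [← hs]; ring
    rw [this, abs_mul]
    have h1 : |g + s| ≤ 5 := by
      refine (abs_add_le _ _).trans ?_
      rw [abs_s hs]; linarith [h.g_le]
    calc |g - s| * |g + s| ≤ (4 * e) * 5 :=
          mul_le_mul h.g_sub h1 (abs_nonneg _) (by positivity)
      _ = _ := by ring
  have hg16 : g ^ 2 ≤ 16 := by
    have := sq_le_sq.2 (show |g| ≤ |(4 : ℝ)| by
      rw [abs_of_pos (by norm_num : (0:ℝ) < 4)]; exact h.g_le)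
    linarith
  refine ⟨h, he1, hg2, ?_, ?_, ?_, ?_⟩
  · have h1 : g ^ 4 = 1 + (g ^ 2 - 1) * (g ^ 2 + 1) := by ring
    rw [h1]
    have h2 : (g ^ 2 - 1) * (g ^ 2 + 1) ≤ (20 * e) * 17 := by
      calc (g ^ 2 - 1) * (g ^ 2 + 1) ≤ |g ^ 2 - 1| * (g ^ 2 + 1) :=
            mul_le_mul_of_nonneg_right (le_abs_self _) (by positivity)
        _ ≤ (20 * e) * 17 := mul_le_mul hg2 (by linarith) (by positivity) (by positivity)
    linarith
  · rw [abs_mul]
    calc |g| * |hx| ≤ 4 * (16 / 5 * |a|) :=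
          mul_le_mul h.g_le h.hx_le (abs_nonneg _) (by norm_num)
      _ ≤ _ := by linarith [abs_nonneg a]
  · rw [abs_mul]
    calc |g| * |hy| ≤ 4 * (16 / 5 * |b|) :=
          mul_le_mul h.g_le h.hy_le (abs_nonneg _) (by norm_num)
      _ ≤ _ := by linarith [abs_nonneg b]
  · refine (abs_add_le _ _).trans ?_
    rw [abs_of_nonneg (sq_nonneg g)]
    linarith [h.hxy]

/-- bound of `(αβ)²` -/
lemma ab_sq {s a b c g hx hy u v : ℝ} (h : Cg s a b c g hx hy) :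
    ((hy * u + g * v) * (g * u + hx * v)) ^ 2
      ≤ 3 * (170 * (b ^ 2 * u ^ 4) + 361 * (u ^ 2 * v ^ 2) + 170 * (a ^ 2 * v ^ 4)) := by
  have e : (hy * u + g * v) * (g * u + hx * v)
      = (g * hy) * u ^ 2 + (hx * hy + g ^ 2) * (u * v) + (g * hx) * v ^ 2 := by ring
  rw [e]
  set A := (g * hy) * u ^ 2
  set B := (hx * hy + g ^ 2) * (u * v)
  set C := (g * hx) * v ^ 2
  have h0 : (A + B + C) ^ 2 ≤ 3 * (A ^ 2 + B ^ 2 + C ^ 2) := by
    nlinarith [sq_nonneg (A - B), sq_nonneg (A - C), sq_nonneg (B - C)]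
  have sqb : ∀ {t r : ℝ}, 0 ≤ r → |t| ≤ r → t ^ 2 ≤ r ^ 2 := fun {t r} hr ht => by
    rw [← sq_abs t]; exact pow_le_pow_left₀ (abs_nonneg _) ht 2
  have hA : A ^ 2 ≤ 170 * (b ^ 2 * u ^ 4) := by
    have h1 := sqb (by positivity) h.ghy
    have h2 : A ^ 2 = (g * hy) ^ 2 * u ^ 4 := by ring
    have h3 : (13 * |b|) ^ 2 = 169 * b ^ 2 := by rw [mul_pow, sq_abs]; norm_num
    rw [h2]
    rw [h3] at h1
    have h4 := mul_le_mul_of_nonneg_right h1 (show (0:ℝ) ≤ u ^ 4 by positivity)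
    have h5 : 0 ≤ b ^ 2 * u ^ 4 := by positivity
    linarith
  have hC : C ^ 2 ≤ 170 * (a ^ 2 * v ^ 4) := by
    have h1 := sqb (by positivity) h.ghx
    have h2 : C ^ 2 = (g * hx) ^ 2 * v ^ 4 := by ring
    have h3 : (13 * |a|) ^ 2 = 169 * a ^ 2 := by rw [mul_pow, sq_abs]; norm_num
    rw [h2]
    rw [h3] at h1
    have h4 := mul_le_mul_of_nonneg_right h1 (show (0:ℝ) ≤ v ^ 4 by positivity)
    have h5 : 0 ≤ a ^ 2 * v ^ 4 := by positivity
    linarith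
  have hB : B ^ 2 ≤ 361 * (u ^ 2 * v ^ 2) := by
    have h1 := sqb (by norm_num) h.mid
    have h2 : B ^ 2 = (hx * hy + g ^ 2) ^ 2 * (u ^ 2 * v ^ 2) := by ring
    rw [h2]
    have h4 := mul_le_mul_of_nonneg_right h1 (show (0:ℝ) ≤ u ^ 2 * v ^ 2 by positivity)
    linarith
  linarith

/-- bound of `α²` -/
lemma al_sq {s a b c g hx hy u v : ℝ} (h : Cg s a b c g hx hy) :
    (hy * u + g * v) ^ 2 ≤ 21 * (b ^ 2 * u ^ 2) + 32 * v ^ 2 := by
  have h0 : (hy * u + g * v) ^ 2 ≤ 2 * (hy ^ 2 * u ^ 2) + 2 * (g ^ 2 * v ^ 2) := by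
    nlinarith [sq_nonneg (hy * u - g * v)]
  have h1 : hy ^ 2 ≤ 256 / 25 * b ^ 2 := by
    have := pow_le_pow_left₀ (abs_nonneg _) h.hy_le 2
    rw [mul_pow, sq_abs, sq_abs] at this
    linarith
  have h2 : g ^ 2 ≤ 16 := by
    rw [← sq_abs g]
    have := pow_le_pow_left₀ (abs_nonneg _) h.g_le 2
    linarith
  have h3 := mul_le_mul_of_nonneg_right h1 (sq_nonneg u)
  have h4 := mul_le_mul_of_nonneg_right h2 (sq_nonneg v)
  have h5 : 0 ≤ b ^ 2 * u ^ 2 := by positivity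
  linarith

/-- bound of `α⁴` -/
lemma al_four {s a b c g hx hy u v : ℝ} (h : Cg s a b c g hx hy) :
    (hy * u + g * v) ^ 4 ≤ 9 / 8 * ((1 + 340 * (|c| + |a * b|)) * v ^ 4)
      + 2173500 * (b ^ 4 * u ^ 4) := by
  have h0 := four_le (g * v) (hy * u)
  have e : hy * u + g * v = g * v + hy * u := by ring
  rw [e]
  refine h0.trans ?_
  have h1 : hy ^ 4 ≤ 105 * b ^ 4 := by
    have h2 : |hy| ^ 4 ≤ (16 / 5 * |b|) ^ 4 := pow_le_pow_left₀ (abs_nonneg _) h.hy_le 4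
    have h3 : |hy| ^ 4 = hy ^ 4 := by
      rw [show |hy| ^ 4 = (|hy| ^ 2) ^ 2 by ring, sq_abs]; ring
    have h4 : (16 / 5 * |b|) ^ 4 = (16 / 5) ^ 4 * b ^ 4 := by
      rw [mul_pow, show |b| ^ 4 = (|b| ^ 2) ^ 2 by ring, sq_abs]; ring
    rw [h3, h4] at h2
    have h5 : 0 ≤ b ^ 4 := by positivity
    nlinarith
  have h2 := mul_le_mul_of_nonneg_right h1 (show (0:ℝ) ≤ u ^ 4 by positivity)
  have h3 := mul_le_mul_of_nonneg_right h.g4 (show (0:ℝ) ≤ v ^ 4 by positivity)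
  have e1 : (g * v) ^ 4 = g ^ 4 * v ^ 4 := by ring
  have e2 : (hy * u) ^ 4 = hy ^ 4 * u ^ 4 := by ring
  rw [e1, e2]
  linarith

lemma be_sq {s a b c g hx hy u v : ℝ} (h : Cg s a b c g hx hy) :
    (g * u + hx * v) ^ 2 ≤ 21 * (a ^ 2 * v ^ 2) + 32 * u ^ 2 := by
  have h0 : (g * u + hx * v) ^ 2 ≤ 2 * (hx ^ 2 * v ^ 2) + 2 * (g ^ 2 * u ^ 2) := by
    nlinarith [sq_nonneg (hx * v - g * u)]
  have h1 : hx ^ 2 ≤ 256 / 25 * a ^ 2 := by
    have := pow_le_pow_left₀ (abs_nonneg _) h.hx_le 2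
    rw [mul_pow, sq_abs, sq_abs] at this
    linarith
  have h2 : g ^ 2 ≤ 16 := by
    have := pow_le_pow_left₀ (abs_nonneg _) h.g_le 2
    rw [sq_abs] at this
    linarith
  have h3 := mul_le_mul_of_nonneg_right h1 (sq_nonneg v)
  have h4 := mul_le_mul_of_nonneg_right h2 (sq_nonneg u)
  have h5 : 0 ≤ a ^ 2 * v ^ 2 := by positivity
  linarith

lemma be_four {s a b c g hx hy u v : ℝ} (h : Cg s a b c g hx hy) :
    (g * u + hx * v) ^ 4 ≤ 9 / 8 * ((1 + 340 * (|c| + |a * b|)) * u ^ 4)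
      + 2173500 * (a ^ 4 * v ^ 4) := by
  have h0 := four_le (g * u) (hx * v)
  refine h0.trans ?_
  have h1 : hx ^ 4 ≤ 105 * a ^ 4 := by
    have h2 : |hx| ^ 4 ≤ (16 / 5 * |a|) ^ 4 := pow_le_pow_left₀ (abs_nonneg _) h.hx_le 4
    have h3 : |hx| ^ 4 = hx ^ 4 := by
      rw [show |hx| ^ 4 = (|hx| ^ 2) ^ 2 by ring, sq_abs]; ring
    have h4 : (16 / 5 * |a|) ^ 4 = (16 / 5) ^ 4 * a ^ 4 := by
      rw [mul_pow, show |a| ^ 4 = (|a| ^ 2) ^ 2 by ring, sq_abs]; ring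
    rw [h3, h4] at h2
    have h5 : 0 ≤ a ^ 4 := by positivity
    nlinarith
  have h2 := mul_le_mul_of_nonneg_right h1 (show (0:ℝ) ≤ v ^ 4 by positivity)
  have h3 := mul_le_mul_of_nonneg_right h.g4 (show (0:ℝ) ≤ u ^ 4 by positivity)
  have e1 : (g * u) ^ 4 = g ^ 4 * u ^ 4 := by ring
  have e2 : (hx * v) ^ 4 = hx ^ 4 * v ^ 4 := by ring
  rw [e1, e2]
  linarith

lemma sq3 (p q r : ℝ) : (2 * (p + q + r)) ^ 2 ≤ 12 * (p ^ 2 + q ^ 2 + r ^ 2) := by
  nlinarith [sq_nonneg (p - q), sq_nonneg (p - r), sq_nonneg (q - r)]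

lemma sq2 (A B : ℝ) : (A + B) ^ 2 ≤ 9 * A ^ 2 + 9 / 8 * B ^ 2 := by
  nlinarith [sq_nonneg (8 * A - B)]

/-- bound of the square of the change of `(K²)_zz`. Here `P1 = (K²)_zx`, `P2 = (K²)_zy`,
`P3 = (K²)_xy`, `px, py` the diagonal entries of `K²`. -/
lemma dq_sq_le {s a b c g hx hy u v P1 P2 P3 px py : ℝ} (h : Cg s a b c g hx hy) :
    (2 * ((hy * u + g * v) * P1 + (g * u + hx * v) * P2
        + (hy * u + g * v) * (g * u + hx * v) * P3)
      + ((hy * u + g * v) ^ 2 * (px - 1) + (g * u + hx * v) ^ 2 * (py - 1))) ^ 2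
    ≤ 108 * ((21 * (b ^ 2 * u ^ 2) + 32 * v ^ 2) * P1 ^ 2
        + (21 * (a ^ 2 * v ^ 2) + 32 * u ^ 2) * P2 ^ 2)
      + 324 * ((170 * (b ^ 2 * u ^ 4) + 361 * (u ^ 2 * v ^ 2) + 170 * (a ^ 2 * v ^ 4)) * P3 ^ 2)
      + 81 / 64 * ((1 + 340 * (|c| + |a * b|))
          * (v ^ 4 * (px - 1) ^ 2 + u ^ 4 * (py - 1) ^ 2))
      + 2445188 * (b ^ 4 * u ^ 4 * (px - 1) ^ 2 + a ^ 4 * v ^ 4 * (py - 1) ^ 2)
      + 27 / 4 * ((170 * (b ^ 2 * u ^ 4) + 361 * (u ^ 2 * v ^ 2) + 170 * (a ^ 2 * v ^ 4))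
          * (|px - 1| * |py - 1|)) := by
  have q1 := al_sq (u := u) (v := v) h
  have q2 := be_sq (u := u) (v := v) h
  have q3 := ab_sq (u := u) (v := v) h
  have q4 := al_four (u := u) (v := v) h
  have q5 := be_four (u := u) (v := v) h
  generalize hy * u + g * v = α at *
  generalize g * u + hx * v = β at *
  have h0 := sq2 (2 * (α * P1 + β * P2 + α * β * P3)) (α ^ 2 * (px - 1) + β ^ 2 * (py - 1))
  have hA2 := sq3 (α * P1) (β * P2) (α * β * P3)
  have e1 : (α * P1) ^ 2 = α ^ 2 * P1 ^ 2 := by ring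
  have e2 : (β * P2) ^ 2 = β ^ 2 * P2 ^ 2 := by ring
  have e3 : (α * β * P3) ^ 2 = (α * β) ^ 2 * P3 ^ 2 := by ring
  rw [e1, e2, e3] at hA2
  have k1 : α ^ 2 * P1 ^ 2 ≤ (21 * (b ^ 2 * u ^ 2) + 32 * v ^ 2) * P1 ^ 2 :=
    mul_le_mul_of_nonneg_right q1 (sq_nonneg _)
  have k2 : β ^ 2 * P2 ^ 2 ≤ (21 * (a ^ 2 * v ^ 2) + 32 * u ^ 2) * P2 ^ 2 :=
    mul_le_mul_of_nonneg_right q2 (sq_nonneg _)
  have k3 : (α * β) ^ 2 * P3 ^ 2 ≤ 3 * (170 * (b ^ 2 * u ^ 4) + 361 * (u ^ 2 * v ^ 2)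
      + 170 * (a ^ 2 * v ^ 4)) * P3 ^ 2 :=
    mul_le_mul_of_nonneg_right q3 (sq_nonneg _)
  have k4 : α ^ 4 * (px - 1) ^ 2 ≤ (9 / 8 * ((1 + 340 * (|c| + |a * b|)) * v ^ 4)
      + 2173500 * (b ^ 4 * u ^ 4)) * (px - 1) ^ 2 :=
    mul_le_mul_of_nonneg_right q4 (sq_nonneg _)
  have k5 : β ^ 4 * (py - 1) ^ 2 ≤ (9 / 8 * ((1 + 340 * (|c| + |a * b|)) * u ^ 4)
      + 2173500 * (a ^ 4 * v ^ 4)) * (py - 1) ^ 2 :=
    mul_le_mul_of_nonneg_right q5 (sq_nonneg _)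
  have k6 : (α * β) ^ 2 * ((px - 1) * (py - 1)) ≤ 3 * (170 * (b ^ 2 * u ^ 4)
      + 361 * (u ^ 2 * v ^ 2) + 170 * (a ^ 2 * v ^ 4)) * (|px - 1| * |py - 1|) := by
    have h1 : (α * β) ^ 2 * ((px - 1) * (py - 1)) ≤ (α * β) ^ 2 * (|px - 1| * |py - 1|) := by
      rw [← abs_mul]
      exact mul_le_mul_of_nonneg_left (le_abs_self _) (sq_nonneg _)
    exact h1.trans (mul_le_mul_of_nonneg_right q3 (by positivity))
  have hB2 : (α ^ 2 * (px - 1) + β ^ 2 * (py - 1)) ^ 2 = α ^ 4 * (px - 1) ^ 2 + β ^ 4 * (py - 1) ^ 2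
      + 2 * ((α * β) ^ 2 * ((px - 1) * (py - 1))) := by ring
  have p1 : 0 ≤ b ^ 4 * u ^ 4 * (px - 1) ^ 2 := by positivity
  have p2 : 0 ≤ a ^ 4 * v ^ 4 * (py - 1) ^ 2 := by positivity
  rw [hB2] at h0
  refine h0.trans ?_
  linarith

lemma dx_le {α β e a p P3 p1 p2 : ℝ} (he : 0 ≤ e) (he1 : e ≤ 1 / 2) (hp : 0 ≤ p)
    (hα : |α| ≤ 4 * e) (hβ : |β| ≤ 5 * |a|) :
    |2 * (α * p + β * P3 + α * β * P3) + (α ^ 2 * p1 + β ^ 2 * p2)|
      ≤ 8 * (e * p) + 30 * (|a| * |P3|) + 8 * (e * |p1|) + 25 * (a ^ 2 * |p2|) := by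
  have h1 : |α * p| ≤ 4 * e * p := by
    rw [abs_mul, abs_of_nonneg hp]; exact mul_le_mul_of_nonneg_right hα hp
  have h2 : |β * P3| ≤ 5 * |a| * |P3| := by
    rw [abs_mul]; exact mul_le_mul_of_nonneg_right hβ (abs_nonneg _)
  have h3 : |α * β * P3| ≤ 10 * |a| * |P3| := by
    rw [abs_mul, abs_mul]
    refine mul_le_mul_of_nonneg_right ?_ (abs_nonneg _)
    calc |α| * |β| ≤ (4 * e) * (5 * |a|) := mul_le_mul hα hβ (abs_nonneg _) (by positivity)
      _ ≤ 2 * (5 * |a|) := mul_le_mul_of_nonneg_right (by linarith) (by positivity)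
      _ = _ := by ring
  have h4 : |α ^ 2 * p1| ≤ 8 * e * |p1| := by
    rw [abs_mul, abs_of_nonneg (sq_nonneg α)]
    refine mul_le_mul_of_nonneg_right ?_ (abs_nonneg _)
    rw [← sq_abs]
    have h5 := pow_le_pow_left₀ (abs_nonneg _) hα 2
    nlinarith
  have h5 : |β ^ 2 * p2| ≤ 25 * a ^ 2 * |p2| := by
    rw [abs_mul, abs_of_nonneg (sq_nonneg β)]
    refine mul_le_mul_of_nonneg_right ?_ (abs_nonneg _)
    rw [← sq_abs]
    have h6 := pow_le_pow_left₀ (abs_nonneg _) hβ 2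
    rw [mul_pow, sq_abs a] at h6
    linarith
  have h6 := abs_le.1 h1
  have h7 := abs_le.1 h2
  have h8 := abs_le.1 h3
  have h9 := abs_le.1 h4
  have h10 := abs_le.1 h5
  rw [abs_le]
  constructor <;> linarith

lemma lin_a {g s M1 M2 e : ℝ} (h : |g - s| ≤ 4 * e) :
    4 * (g * (M1 + M2)) ≤ 4 * (s * (M1 + M2)) + 16 * (e * (|M1| + |M2|)) := by
  have h1 : (g - s) * (M1 + M2) ≤ |g - s| * |M1 + M2| := by
    rw [← abs_mul]; exact le_abs_self _
  have h2 : |g - s| * |M1 + M2| ≤ (4 * e) * (|M1| + |M2|) :=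
    mul_le_mul h (abs_add_le _ _) (abs_nonneg _) ((abs_nonneg _).trans h)
  have h3 : g * (M1 + M2) = s * (M1 + M2) + (g - s) * (M1 + M2) := by ring
  rw [h3]; linarith


lemma lin_c {a b g hx hy P N1 N2 N3 : ℝ} (h1 : |g * hx| ≤ 13 * |a|) (h2 : |g * hy| ≤ 13 * |b|)
    (h3 : |hx * hy + g ^ 2| ≤ 19) :
    4 * (P * (hy * g * N1 + (hy * hx + g ^ 2) * N2 + g * hx * N3))
      ≤ 4 * (|P| * (13 * (|b| * |N1|) + 19 * |N2| + 13 * (|a| * |N3|))) := by
  have e1 : |hy * g * N1| ≤ 13 * |b| * |N1| := by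
    rw [mul_comm hy g, abs_mul]; exact mul_le_mul_of_nonneg_right h2 (abs_nonneg _)
  have e2 : |(hy * hx + g ^ 2) * N2| ≤ 19 * |N2| := by
    rw [mul_comm hy hx, abs_mul]; exact mul_le_mul_of_nonneg_right h3 (abs_nonneg _)
  have e3 : |g * hx * N3| ≤ 13 * |a| * |N3| := by
    rw [abs_mul]; exact mul_le_mul_of_nonneg_right h1 (abs_nonneg _)
  have e4 : |hy * g * N1 + (hy * hx + g ^ 2) * N2 + g * hx * N3|
      ≤ 13 * (|b| * |N1|) + 19 * |N2| + 13 * (|a| * |N3|) := by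
    have f1 := abs_add_le (hy * g * N1 + (hy * hx + g ^ 2) * N2) (g * hx * N3)
    have f2 := abs_add_le (hy * g * N1) ((hy * hx + g ^ 2) * N2)
    linarith
  have e5 : P * (hy * g * N1 + (hy * hx + g ^ 2) * N2 + g * hx * N3)
      ≤ |P| * (13 * (|b| * |N1|) + 19 * |N2| + 13 * (|a| * |N3|)) := by
    refine (le_abs_self _).trans ?_
    rw [abs_mul]
    exact mul_le_mul_of_nonneg_left e4 (abs_nonneg _)
  linarith

/-- the `α²` part -/
lemma lin_d {b g hy p N1 N2 N3 e : ℝ} (h1 : |hy| ≤ 16 / 5 * |b|) (h2 : |g * hy| ≤ 13 * |b|)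
    (h3 : |g ^ 2 - 1| ≤ 20 * e) :
    2 * (p * (hy ^ 2 * N1 + 2 * (hy * g) * N2 + g ^ 2 * N3))
      ≤ 2 * (p * N3) + 40 * (e * (|p| * |N3|)) + 52 * (|b| * |p| * |N2|)
        + 21 * (b ^ 2 * |p| * |N1|) := by
  have e1 : p * (hy ^ 2 * N1) ≤ 256 / 25 * b ^ 2 * |p| * |N1| := by
    refine (le_abs_self _).trans ?_
    rw [abs_mul, abs_mul, abs_of_nonneg (sq_nonneg hy)]
    have := pow_le_pow_left₀ (abs_nonneg _) h1 2
    rw [mul_pow, sq_abs, sq_abs] at this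
    have h4 : hy ^ 2 * |N1| ≤ 256 / 25 * b ^ 2 * |N1| :=
      mul_le_mul_of_nonneg_right (by linarith) (abs_nonneg _)
    calc |p| * (hy ^ 2 * |N1|) ≤ |p| * (256 / 25 * b ^ 2 * |N1|) :=
          mul_le_mul_of_nonneg_left h4 (abs_nonneg _)
      _ = _ := by ring
  have e2 : p * (2 * (hy * g) * N2) ≤ 26 * |b| * |p| * |N2| := by
    refine (le_abs_self _).trans ?_
    rw [abs_mul, abs_mul, abs_mul, abs_two, mul_comm hy g]
    have h4 : 2 * |g * hy| * |N2| ≤ 2 * (13 * |b|) * |N2| :=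
      mul_le_mul_of_nonneg_right (by linarith) (abs_nonneg _)
    calc |p| * (2 * |g * hy| * |N2|) ≤ |p| * (2 * (13 * |b|) * |N2|) :=
          mul_le_mul_of_nonneg_left h4 (abs_nonneg _)
      _ = _ := by ring
  have e3 : p * (g ^ 2 * N3) ≤ p * N3 + 20 * e * |p| * |N3| := by
    have h4 : p * (g ^ 2 * N3) = p * N3 + (g ^ 2 - 1) * (p * N3) := by ring
    rw [h4]
    have h5 : (g ^ 2 - 1) * (p * N3) ≤ |g ^ 2 - 1| * |p * N3| := by
      rw [← abs_mul]; exact le_abs_self _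
    have h6 := mul_le_mul_of_nonneg_right h3 (abs_nonneg (p * N3))
    rw [abs_mul p N3] at h5 h6
    linarith
  have h7 : 0 ≤ b ^ 2 * |p| * |N1| := by positivity
  have h8 : p * (hy ^ 2 * N1 + 2 * (hy * g) * N2 + g ^ 2 * N3)
      = p * (hy ^ 2 * N1) + p * (2 * (hy * g) * N2) + p * (g ^ 2 * N3) := by ring
  rw [h8]
  linarith

/-- centred diagonal of `K²` (centre 1) -/
def p1 (K : Matrix ι ι ℝ) (x : ι) : ℝ := (K ^ 2) x x - 1


/-- sum of the squares of the changes -/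
lemma sum_dq_sq {s : ℝ} {K : Matrix ι ι ℝ} {x y : ι}
    (h : Cg s (K x x) (K y y) (K x y) (Upd.Bxy s K x y) (Upd.Byy s K x y) (Upd.Bxx s K x y)) :
    ∑ z, dq s K x y z ^ 2 ≤
      108 * ∑ z, ((21 * (K y y ^ 2 * K z x ^ 2) + 32 * K z y ^ 2) * (K ^ 2) z x ^ 2
      + (21 * (K x x ^ 2 * K z y ^ 2) + 32 * K z x ^ 2) * (K ^ 2) z y ^ 2)
  + 324 * ((170 * (K y y ^ 2 * kk K x) + 361 * (∑ z, K z x ^ 2 * K z y ^ 2)
      + 170 * (K x x ^ 2 * kk K y)) * (K ^ 2) x y ^ 2)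
  + 81 / 64 * ((1 + 340 * (|K x y| + |K x x * K y y|))
      * (kk K y * p1 K x ^ 2 + kk K x * p1 K y ^ 2))
  + 2445188 * (K y y ^ 4 * kk K x * p1 K x ^ 2 + K x x ^ 4 * kk K y * p1 K y ^ 2)
  + 27 / 4 * ((170 * (K y y ^ 2 * kk K x) + 361 * (∑ z, K z x ^ 2 * K z y ^ 2)
      + 170 * (K x x ^ 2 * kk K y)) * (|p1 K x| * |p1 K y|)) := by
  refine (Finset.sum_le_sum fun z _ => dq_sq_le (u := K z x) (v := K z y) (P1 := (K ^ 2) z x)
    (P2 := (K ^ 2) z y) (P3 := (K ^ 2) x y) (px := (K ^ 2) x x) (py := (K ^ 2) y y) h).trans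
    (le_of_eq ?_)
  simp only [Finset.sum_add_distrib, ← Finset.mul_sum, ← Finset.sum_mul, kk, p1]

lemma gx_le {s a b c g hx hy : ℝ} (h : Cf s a b c g hx hy) :
    |hy * a + g * c| ≤ 4 * (|c| + |a * b|) := by
  have e1 : |hy * a| ≤ 16 / 5 * |a * b| := by
    rw [abs_mul, abs_mul]
    have := mul_le_mul_of_nonneg_right h.hy_le (abs_nonneg a)
    linarith
  have e2 : |g * c| ≤ 4 * |c| := by
    rw [abs_mul]; exact mul_le_mul_of_nonneg_right h.g_le (abs_nonneg _)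
  have e3 := abs_add_le (hy * a) (g * c)
  have e4 : 0 ≤ |a * b| := abs_nonneg _
  linarith

lemma gx_le' {s a b c g hx hy : ℝ} (h : Cf s a b c g hx hy) (hc : |c| ≤ 1 / 4) :
    |g * a + hx * c| ≤ 5 * |a| := by
  have e1 : |g * a| ≤ 4 * |a| := by
    rw [abs_mul]; exact mul_le_mul_of_nonneg_right h.g_le (abs_nonneg _)
  have e2 : |hx * c| ≤ 4 / 5 * |a| := by
    rw [abs_mul]
    calc |hx| * |c| ≤ (16 / 5 * |a|) * (1 / 4) :=
          mul_le_mul h.hx_le hc (abs_nonneg _) (by positivity)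
      _ = _ := by ring
  have e3 := abs_add_le (g * a) (hx * c)
  have e4 : 0 ≤ |a| := abs_nonneg _
  linarith

lemma gy_le {s a b c g hx hy : ℝ} (h : Cf s a b c g hx hy) :
    |g * c + hx * b| ≤ 4 * (|c| + |a * b|) := by
  have e1 : |hx * b| ≤ 16 / 5 * |a * b| := by
    rw [abs_mul, abs_mul]
    have := mul_le_mul_of_nonneg_right h.hx_le (abs_nonneg b)
    linarith
  have e2 : |g * c| ≤ 4 * |c| := by
    rw [abs_mul]; exact mul_le_mul_of_nonneg_right h.g_le (abs_nonneg _)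
  have e3 := abs_add_le (g * c) (hx * b)
  have e4 : 0 ≤ |a * b| := abs_nonneg _
  linarith

lemma gy_le' {s a b c g hx hy : ℝ} (h : Cf s a b c g hx hy) (hc : |c| ≤ 1 / 4) :
    |hy * c + g * b| ≤ 5 * |b| := by
  have e1 : |g * b| ≤ 4 * |b| := by
    rw [abs_mul]; exact mul_le_mul_of_nonneg_right h.g_le (abs_nonneg _)
  have e2 : |hy * c| ≤ 4 / 5 * |b| := by
    rw [abs_mul]
    calc |hy| * |c| ≤ (16 / 5 * |b|) * (1 / 4) :=
          mul_le_mul h.hy_le hc (abs_nonneg _) (by positivity)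
      _ = _ := by ring
  have e3 := abs_add_le (hy * c) (g * b)
  have e4 : 0 ≤ |b| := abs_nonneg _
  linarith



end Crest.Agent.R62.AvR
end

-- ▼ part R62/AvR2
section

/-!
R62 (helper758): the centred diagonal functional `∑_{z ∈ F} ((K²)_zz - t)²`, averages.
-/

set_option autoImplicit false
set_option linter.unusedSectionVars false
set_option linter.unusedVariables false

open Matrix Finset

namespace Crest.Agent.R62.AvR

open Crest.Agent.R62.AvBase (OpB)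
open Crest.Agent.R62.DiagAv
open Crest.Agent.R62.AvV (dg kk kk_nonneg Vf Vf_nonneg n2_dg_sq Cf cf_good)

variable {ι : Type*} [Fintype ι] [DecidableEq ι]

/-- diagonal of `K²` -/
def pd (K : Matrix ι ι ℝ) (z : ι) : ℝ := (K ^ 2) z z

lemma fro_Mf {K : Matrix ι ι ℝ} (hK : K.IsSymm) {Λ : ℝ} (hΛ : OpB K Λ) (q : ι → ℝ) :
    fro (Mf K q) ≤ Λ * Sq K q := by
  refine (fro_rank_sum q (fun z x => (K ^ 2) z x) (fun z y => K z y)).trans ?_
  unfold Sq
  rw [Finset.mul_sum]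
  refine Finset.sum_le_sum fun z _ => ?_
  have h1 := n2_sq_row hK hΛ z
  calc |q z| * (n2 (fun x => (K ^ 2) z x) * n2 fun y => K z y)
      ≤ |q z| * ((Λ * rr K z) * rr K z) := by
        refine mul_le_mul_of_nonneg_left ?_ (abs_nonneg _)
        exact mul_le_mul_of_nonneg_right h1 (rr_nonneg K z)
    _ = _ := by ring

/-- `∑_x |M_xx| ≤ Λ ∑ |q| p` -/
lemma sum_Mf_diag {K : Matrix ι ι ℝ} (hK : K.IsSymm) {Λ : ℝ} (hΛ : OpB K Λ) (q : ι → ℝ) :
    ∑ x, |Mf K q x x| ≤ Λ * Sq K q := by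
  have h1 : ∀ x, |Mf K q x x| ≤ ∑ z, |q z| * (|(K ^ 2) z x| * |K z x|) := by
    intro x
    refine (Finset.abs_sum_le_sum_abs _ _).trans (le_of_eq ?_)
    exact Finset.sum_congr rfl fun z _ => by rw [abs_mul, abs_mul]
  refine (Finset.sum_le_sum fun x _ => h1 x).trans ?_
  rw [Finset.sum_comm]
  unfold Sq
  rw [Finset.mul_sum]
  refine Finset.sum_le_sum fun z _ => ?_
  rw [← Finset.mul_sum]
  have h2 := cs (fun x => (K ^ 2) z x) (fun x => K z x)
  have h3 := n2_sq_row hK hΛ z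
  calc |q z| * ∑ x, |(K ^ 2) z x| * |K z x|
      ≤ |q z| * ((Λ * rr K z) * rr K z) := by
        refine mul_le_mul_of_nonneg_left (h2.trans ?_) (abs_nonneg _)
        exact mul_le_mul_of_nonneg_right h3 (rr_nonneg K z)
    _ = _ := by ring

lemma sum_Nf_diag_abs {K : Matrix ι ι ℝ} (hK : K.IsSymm) (q : ι → ℝ) :
    ∑ x, |Nf K q x x| ≤ Sq K q := by
  have h1 : ∀ x, |Nf K q x x| ≤ ∑ z, |q z| * K z x ^ 2 := by
    intro x
    refine (Finset.abs_sum_le_sum_abs _ _).trans (le_of_eq ?_)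
    exact Finset.sum_congr rfl fun z _ => by
      rw [abs_mul, ← pow_two, abs_of_nonneg (sq_nonneg (K z x))]
  refine (Finset.sum_le_sum fun x _ => h1 x).trans (le_of_eq ?_)
  rw [Finset.sum_comm]
  unfold Sq
  refine Finset.sum_congr rfl fun z _ => ?_
  rw [← Finset.mul_sum, rr_sq hK, sq_diag_eq hK]

lemma fro_P {K : Matrix ι ι ℝ} (hK : K.IsSymm) {Λ : ℝ} (hΛ : OpB K Λ) :
    fro (fun x y => (K ^ 2) x y) ≤ Λ * frK K := by
  refine fro_le_of (mul_nonneg hΛ.1 (frK_nonneg K)) ?_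
  rw [mul_pow, fro_eq_rr, Finset.mul_sum]
  refine Finset.sum_le_sum fun x _ => ?_
  have h1 := n2_sq_row hK hΛ x
  have h2 := pow_le_pow_left₀ (n2_nonneg _) h1 2
  rw [n2_sq, mul_pow] at h2
  exact h2

lemma abs_P_sq_le {K : Matrix ι ι ℝ} (hK : K.IsSymm) (x y : ι) :
    (K ^ 2) x y ^ 2 ≤ pd K x * pd K y := by
  have h := AvBase.entry_sq_le (K := K) hK 1 1 x y
  simpa [pd] using h

lemma pd_nonneg {K : Matrix ι ι ℝ} (hK : K.IsSymm) (x : ι) : 0 ≤ pd K x := p_nonneg hK x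

lemma pd_row {K : Matrix ι ι ℝ} {F : Finset ι} (hK : K.IsSymm)
    (hF : ∀ i, i ∉ F → ∀ j, K i j = 0) {Λ : ℝ} (hΛ : OpB K Λ) (x : ι) :
    ∑ y, |(K ^ 2) x y| ≤ Real.sqrt F.card * (Λ * rr K x) := by
  refine (l1_le (F := F) (f := fun y => (K ^ 2) x y) ?_).trans ?_
  · intro y hy
    rw [← Upd.sum_KK hK]
    exact Finset.sum_eq_zero fun v _ => by rw [hF y hy v, mul_zero]
  · exact mul_le_mul_of_nonneg_left (n2_sq_row hK hΛ x) (Real.sqrt_nonneg _)

lemma abs_diag_le_rr {K : Matrix ι ι ℝ} (x : ι) : |K x x| ≤ rr K x := abs_entry_le_rr x x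

/-- `∑_xy x_x (K∘K)_xy y_y ≤ L2 |x||y|` -/
lemma Ksq_form {K : Matrix ι ι ℝ} {L2 : ℝ} (hL2 : OpB (Ksq K) L2) (f g : ι → ℝ) :
    |∑ x, ∑ y, K x y ^ 2 * (f x * g y)| ≤ L2 * (n2 f * n2 g) :=
  opB_form hL2 f g

lemma Ksq_sq {K : Matrix ι ι ℝ} (hK : K.IsSymm) {L2 : ℝ} (hL2 : OpB (Ksq K) L2) (f : ι → ℝ) :
    ∑ z, (∑ x, K z x ^ 2 * f x) ^ 2 ≤ L2 ^ 2 * n2 f ^ 2 := by
  have h := opB_mulVec hL2 f
  have h1 := pow_le_pow_left₀ (n2_nonneg _) h 2
  rw [n2_sq, mul_pow] at h1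
  exact h1

/-- `∑_xy ∑_z K_zx² K_zy² f_x f_y = ∑_z (∑_x K_zx² f_x)²` -/
lemma sum_uv {K : Matrix ι ι ℝ} (f : ι → ℝ) :
    ∑ x, ∑ y, (∑ z, K z x ^ 2 * K z y ^ 2) * (f x * f y)
      = ∑ z, (∑ x, K z x ^ 2 * f x) ^ 2 := by
  have h1 : ∀ x y, (∑ z, K z x ^ 2 * K z y ^ 2) * (f x * f y)
      = ∑ z, (K z x ^ 2 * f x) * (K z y ^ 2 * f y) := by
    intro x y
    rw [Finset.sum_mul]
    exact Finset.sum_congr rfl fun z _ => by ring
  simp_rw [h1]
  rw [Finset.sum_congr rfl fun x _ => Finset.sum_comm, Finset.sum_comm]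
  refine Finset.sum_congr rfl fun z _ => ?_
  rw [sum_mul_sum_eq, pow_two]

section avg

variable {K E : Matrix ι ι ℝ} {F : Finset ι} {w : ι → ι → ℝ} {s Λ L2 η ξ ω : ℝ} {q p : ι → ℝ}

/-- symmetrisation -/
lemma SW_sym (hw : Wt K F w E η ξ ω) (f : ι → ι → ℝ) :
    SW w (fun x y => f x y + f y x) = 2 * SW w f := by
  rw [SW_add, SW_swap hw.symm f]; ring

lemma SW_congr {f g : ι → ι → ℝ} (h : ∀ x y, f x y = g x y) : SW w f = SW w g := by
  unfold SW
  exact Finset.sum_congr rfl fun x _ => Finset.sum_congr rfl fun y _ => by rw [h]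

lemma s1 (hw : Wt K F w E η ξ ω) (hq : ∀ z, z ∉ F → q z = 0) :
    SW w (fun x y => -(q x ^ 2 + q y ^ 2)) ≤ -(2 * (F.card - ξ) * n2 q ^ 2) := by
  have h1 := SW_row hw (f := fun x => q x ^ 2) (fun x => sq_nonneg _)
    (fun x hx => by rw [hq x hx]; norm_num)
  have h2 := SW_sym hw (fun x y => q x ^ 2)
  have h3 : SW w (fun x y => -(q x ^ 2 + q y ^ 2)) = -(SW w (fun x y => q x ^ 2 + q y ^ 2)) := by
    simp only [SW, mul_neg, Finset.sum_neg_distrib]
  rw [h3, h2, n2_sq]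
  linarith

/-- sum over `F × F` of `M` -/
lemma sum_F_Mf (hK : K.IsSymm) (hF : ∀ i, i ∉ F → ∀ j, K i j = 0) (hs : s ^ 2 = 1)
    (hrow : ∀ i ∈ F, ∑ j, K i j = s) (hq : ∀ z, z ∉ F → q z = 0) :
    ∑ x ∈ F, ∑ y ∈ F, Mf K q x y = s * ∑ z, q z := by
  have h1 : ∀ z, ∑ x ∈ F, K z x = ∑ x, K z x := by
    intro z
    refine Finset.sum_subset (Finset.subset_univ _) fun x _ hx => ?_
    rw [← hK.apply z x]; exact hF x hx z
  have h1' : ∀ z, z ∈ F → ∑ x ∈ F, (K ^ 2) z x = 1 := by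
    intro z hz
    have e1 : ∑ x ∈ F, (K ^ 2) z x = ∑ v, K z v * ∑ x ∈ F, K v x := by
      simp_rw [← Upd.sum_KK hK, Finset.mul_sum]
      rw [Finset.sum_comm]
      exact Finset.sum_congr rfl fun v _ => Finset.sum_congr rfl fun x _ => by
        rw [hK.apply v x]
    have e2 : ∀ v, K z v * ∑ x ∈ F, K v x = K z v * s := by
      intro v
      by_cases hv : v ∈ F
      · rw [h1, hrow v hv]
      · rw [← hK.apply z v, hF v hv z]; ring
    rw [e1]
    simp_rw [e2]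
    rw [← Finset.sum_mul, hrow z hz, ← pow_two, hs]
  have h2 : ∑ x ∈ F, ∑ y ∈ F, Mf K q x y
      = ∑ z, q z * ((∑ x ∈ F, (K ^ 2) z x) * (∑ y ∈ F, K z y)) := by
    unfold Mf
    rw [Finset.sum_congr rfl fun x _ => Finset.sum_comm, Finset.sum_comm]
    refine Finset.sum_congr rfl fun z _ => ?_
    rw [Finset.sum_mul_sum, Finset.mul_sum]
    exact Finset.sum_congr rfl fun x _ => by rw [Finset.mul_sum]
  rw [h2, Finset.mul_sum]
  refine Finset.sum_congr rfl fun z _ => ?_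
  by_cases hz : z ∈ F
  · rw [h1, h1' z hz, hrow z hz]; ring
  · rw [hq z hz]; ring

lemma s2 {h2 : ℝ} (hK : K.IsSymm) (hF : ∀ i, i ∉ F → ∀ j, K i j = 0) (hs : s ^ 2 = 1)
    (hrow : ∀ i ∈ F, ∑ j, K i j = s) (hw : Wt K F w E η ξ ω) (hq : ∀ z, z ∉ F → q z = 0)
    (hE : |∑ x, ∑ y, E x y * Mf K q x y| ≤ h2) :
    SW w (fun x y => 4 * (s * (Mf K q x y + Mf K q y x))) ≤ 8 * (|∑ z, q z| + h2) := by
  have e1 : SW w (fun x y => 4 * (s * (Mf K q x y + Mf K q y x))) = 8 * (s * SW w (Mf K q)) := by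
    rw [SW_smul w (fun x y => s * (Mf K q x y + Mf K q y x)),
      SW_smul w (fun x y => (Mf K q x y + Mf K q y x)), SW_sym hw]
    ring
  have e2 := SW_eq hw (Mf K q)
  rw [sum_F_Mf hK hF hs hrow hq] at e2
  have h4 : |SW w (Mf K q)| ≤ |∑ z, q z| + h2 := by
    rw [e2]
    refine (abs_sub _ _).trans (add_le_add (le_of_eq ?_) hE)
    rw [abs_mul, abs_s hs, one_mul]
  rw [e1]
  have h5 : s * SW w (Mf K q) ≤ |SW w (Mf K q)| := by
    refine (le_abs_self _).trans ?_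
    rw [abs_mul, abs_s hs, one_mul]
  linarith

lemma sum_e_le (f : ι → ι → ℝ) :
    ∑ x, ∑ y, (|K x y| + |K x x * K y y|) * |f x y| ≤ (frK K + Vf K) * fro f := by
  have h2 : ∑ x, ∑ y, (|K x y| + |K x x * K y y|) * |f x y|
      = ∑ x, ∑ y, |K x y| * |f x y| + ∑ x, ∑ y, |K x x * K y y| * |f x y| := by
    simp only [add_mul, Finset.sum_add_distrib]
  have h3 := fcs (fun x y => K x y) f
  have h4 := fcs (fun x y => K x x * K y y) f
  have h5 : fro (fun x y => K x x * K y y) = Vf K := by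
    rw [fro_outer (fun x => K x x) (fun x => K x x), ← pow_two]; exact n2_sq _
  rw [h5] at h4
  rw [h2, add_mul]
  exact add_le_add h3 h4

lemma s3 (hK : K.IsSymm) (hΛ : OpB K Λ) (hw : Wt K F w E η ξ ω) :
    SW w (fun x y => 16 * ((|K x y| + |K x x * K y y|) * (|Mf K q x y| + |Mf K q y x|)))
      ≤ 64 * ((frK K + Vf K) * (Λ * Sq K q)) := by
  set f : ι → ι → ℝ := fun x y => (|K x y| + |K x x * K y y|) * |Mf K q x y| with hf
  have h0 : SW w (fun x y => 16 * ((|K x y| + |K x x * K y y|)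
      * (|Mf K q x y| + |Mf K q y x|))) = 32 * SW w f := by
    have h1 : ∀ x y, 16 * ((|K x y| + |K x x * K y y|) * (|Mf K q x y| + |Mf K q y x|))
        = 16 * (f x y + f y x) := by
      intro x y
      simp only [hf]
      rw [hK.apply x y, mul_comm (K y y) (K x x)]
      ring
    rw [SW_congr h1, SW_smul w (fun x y => f x y + f y x), SW_sym hw]
    ring
  have h1 := SW_le_sum hw.le_two (f := f)
    (fun x y => mul_nonneg (add_nonneg (abs_nonneg _) (abs_nonneg _)) (abs_nonneg _))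
  have h2 := sum_e_le (K := K) (Mf K q)
  have h3 := mul_le_mul_of_nonneg_left (fro_Mf hK hΛ q)
    (add_nonneg (frK_nonneg K) (Vf_nonneg K))
  rw [h0]
  linarith

lemma s4 (hK : K.IsSymm) (hF : ∀ i, i ∉ F → ∀ j, K i j = 0) (hΛ : OpB K Λ)
    (hw : Wt K F w E η ξ ω) :
    SW w (fun x y => 13 * (|K y y| * |Mf K q x x| + |K x x| * |Mf K q y y|))
      ≤ 52 * (Real.sqrt F.card * n2 (dg K) * (Λ * Sq K q)) := by
  set f : ι → ι → ℝ := fun x y => |Mf K q x x| * |K y y| with hf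
  have h0 : SW w (fun x y => 13 * (|K y y| * |Mf K q x x| + |K x x| * |Mf K q y y|))
      = 26 * SW w f := by
    have h1 : ∀ x y, 13 * (|K y y| * |Mf K q x x| + |K x x| * |Mf K q y y|)
        = 13 * (f x y + f y x) := by
      intro x y; simp only [hf]; ring
    rw [SW_congr h1, SW_smul w (fun x y => f x y + f y x), SW_sym hw]
    ring
  have h1 := SW_le_sum hw.le_two (f := f) (fun x y => mul_nonneg (abs_nonneg _) (abs_nonneg _))
  have h2 : ∑ x, ∑ y, f x y = (∑ x, |Mf K q x x|) * ∑ y, |K y y| := sum_mul_sum_eq _ _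
  have h3 := sum_Mf_diag hK hΛ q
  have h4 := l1_le (F := F) (f := dg K) (fun y hy => hF y hy y)
  have h5 : (∑ x, |Mf K q x x|) * ∑ y, |K y y|
      ≤ (Λ * Sq K q) * (Real.sqrt F.card * n2 (dg K)) :=
    mul_le_mul h3 h4 (Finset.sum_nonneg fun _ _ => abs_nonneg _)
      (mul_nonneg hΛ.1 (Sq_nonneg K q))
  rw [h0]
  rw [h2] at h1
  linarith

lemma s5 (hK : K.IsSymm) (hΛ : OpB K Λ) (hw : Wt K F w E η ξ ω) :
    SW w (fun x y => 4 * (|(K ^ 2) x y| * (13 * (|K y y| * |Nf K q x x|) + 19 * |Nf K q x y|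
      + 13 * (|K x x| * |Nf K q y y|))))
      ≤ (152 + 208 * n2 (dg K)) * (Λ * frK K * Sq K q) := by
  set f : ι → ι → ℝ := fun x y => |(K ^ 2) x y| * (|Nf K q x x| * |K y y|) with hf
  set g : ι → ι → ℝ := fun x y => |(K ^ 2) x y| * |Nf K q x y| with hg
  have h0 : SW w (fun x y => 4 * (|(K ^ 2) x y| * (13 * (|K y y| * |Nf K q x x|)
      + 19 * |Nf K q x y| + 13 * (|K x x| * |Nf K q y y|)))) = 104 * SW w f + 76 * SW w g := by
    have h1 : ∀ x y, 4 * (|(K ^ 2) x y| * (13 * (|K y y| * |Nf K q x x|)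
      + 19 * |Nf K q x y| + 13 * (|K x x| * |Nf K q y y|)))
        = 52 * (f x y + f y x) + 76 * g x y := by
      intro x y; simp only [hf, hg]
      rw [(hK.pow 2).apply x y]
      ring
    rw [SW_congr h1, SW_add w (fun x y => 52 * (f x y + f y x)) (fun x y => 76 * g x y),
      SW_smul w (fun x y => f x y + f y x), SW_sym hw, SW_smul]
    ring
  have h1 := SW_le_sum hw.le_two (f := f) (fun x y =>
    mul_nonneg (abs_nonneg _) (mul_nonneg (abs_nonneg _) (abs_nonneg _)))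
  have h2 := SW_le_sum hw.le_two (f := g) (fun x y => mul_nonneg (abs_nonneg _) (abs_nonneg _))
  have hP := fro_P hK hΛ
  have h3 : ∑ x, ∑ y, g x y ≤ Λ * frK K * Sq K q :=
    (fcs (fun x y => (K ^ 2) x y) (Nf K q)).trans
      (mul_le_mul hP (fro_Nf K hK q) (fro_nonneg _) (mul_nonneg hΛ.1 (frK_nonneg K)))
  have h4 : ∑ x, ∑ y, f x y ≤ Λ * frK K * (Sq K q * n2 (dg K)) := by
    have e1 := fcs (fun x y => (K ^ 2) x y) (fun x y => Nf K q x x * K y y)
    have e2 : ∑ x, ∑ y, f x y = ∑ x, ∑ y, |(K ^ 2) x y| * |Nf K q x x * K y y| :=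
      Finset.sum_congr rfl fun x _ => Finset.sum_congr rfl fun y _ => by
        simp only [hf]; rw [abs_mul]
    have e3 : fro (fun x y => Nf K q x x * K y y) = n2 (fun x => Nf K q x x) * n2 (dg K) :=
      fro_outer _ _
    have e4 : n2 (fun x => Nf K q x x) ≤ Sq K q :=
      (n2_le_l1 _).trans (sum_Nf_diag_abs hK q)
    rw [e2]
    refine e1.trans ?_
    rw [e3]
    exact mul_le_mul hP (mul_le_mul_of_nonneg_right e4 (n2_nonneg _))
      (mul_nonneg (n2_nonneg _) (n2_nonneg _)) (mul_nonneg hΛ.1 (frK_nonneg K))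
  rw [h0]
  linarith

lemma s6 (hK : K.IsSymm) (hF : ∀ i, i ∉ F → ∀ j, K i j = 0) (hL2 : OpB (Ksq K) L2)
    (hw : Wt K F w E η ξ ω) (hp : ∀ z, z ∉ F → p z = 0) :
    SW w (fun x y => 2 * (p x * Nf K q y y + p y * Nf K q x x))
      ≤ 4 * ((∑ z, p z) * ∑ z, q z * (K ^ 2) z z) + 4 * (η * (n2 p * (L2 * n2 q))) := by
  set f : ι → ι → ℝ := fun x y => p x * Nf K q y y with hf
  have h0 : SW w (fun x y => 2 * (p x * Nf K q y y + p y * Nf K q x x)) = 4 * SW w f := by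
    rw [SW_smul w (fun x y => f x y + f y x), SW_sym hw]; ring
  have h4 := SW_eq hw f
  have h5 : ∑ x ∈ F, ∑ y ∈ F, f x y = (∑ z, p z) * ∑ z, q z * (K ^ 2) z z := by
    rw [hf, ← Finset.sum_mul_sum, ← sum_Nf_diag hK]
    congr 1
    · exact Finset.sum_subset (Finset.subset_univ _) fun x _ hx => hp x hx
    · refine Finset.sum_subset (Finset.subset_univ _) fun x _ hx => ?_
      unfold Nf
      refine Finset.sum_eq_zero fun z _ => ?_
      rw [← hK.apply z x, hF x hx z]; ring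
  have h7 := opB_form hw.opb p (fun x => Nf K q x x)
  have h8 : |∑ x, ∑ y, E x y * f x y| ≤ η * (n2 p * (L2 * n2 q)) := by
    refine h7.trans (mul_le_mul_of_nonneg_left ?_ hw.opb.1)
    exact mul_le_mul_of_nonneg_left (n2_Nf_diag hK hL2 q) (n2_nonneg _)
  have h10 := neg_abs_le (∑ x, ∑ y, E x y * f x y)
  rw [h0, h4, h5]
  linarith

lemma s7 (hK : K.IsSymm) (hL2 : OpB (Ksq K) L2) (hw : Wt K F w E η ξ ω) :
    SW w (fun x y => 40 * ((|K x y| + |K x x * K y y|)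
      * (|p x| * |Nf K q y y| + |p y| * |Nf K q x x|)))
      ≤ 160 * ((frK K + Vf K) * (n2 p * (L2 * n2 q))) := by
  set f : ι → ι → ℝ := fun x y => (|K x y| + |K x x * K y y|) * |p x * Nf K q y y| with hf
  have h0 : SW w (fun x y => 40 * ((|K x y| + |K x x * K y y|)
      * (|p x| * |Nf K q y y| + |p y| * |Nf K q x x|))) = 80 * SW w f := by
    have h1 : ∀ x y, 40 * ((|K x y| + |K x x * K y y|)
      * (|p x| * |Nf K q y y| + |p y| * |Nf K q x x|)) = 40 * (f x y + f y x) := by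
      intro x y; simp only [hf]
      rw [hK.apply x y, mul_comm (K y y) (K x x), abs_mul (p x), abs_mul (p y)]
      ring
    rw [SW_congr h1, SW_smul w (fun x y => f x y + f y x), SW_sym hw]
    ring
  have h1 := SW_le_sum hw.le_two (f := f) (fun x y =>
    mul_nonneg (add_nonneg (abs_nonneg _) (abs_nonneg _)) (abs_nonneg _))
  have h2 := sum_e_le (K := K) (fun x y => p x * Nf K q y y)
  rw [fro_outer p (fun y => Nf K q y y)] at h2
  have h3 : (frK K + Vf K) * (n2 p * n2 (fun y => Nf K q y y))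
      ≤ (frK K + Vf K) * (n2 p * (L2 * n2 q)) :=
    mul_le_mul_of_nonneg_left (mul_le_mul_of_nonneg_left (n2_Nf_diag hK hL2 q) (n2_nonneg _))
      (add_nonneg (frK_nonneg K) (Vf_nonneg K))
  rw [h0]
  linarith

lemma s8 (hK : K.IsSymm) (hw : Wt K F w E η ξ ω) :
    SW w (fun x y => 52 * ((|K y y| * |p x| + |K x x| * |p y|) * |Nf K q x y|))
      ≤ 208 * (n2 p * n2 (dg K) * Sq K q) := by
  set f : ι → ι → ℝ := fun x y => |p x * K y y| * |Nf K q x y| with hf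
  have h0 : SW w (fun x y => 52 * ((|K y y| * |p x| + |K x x| * |p y|) * |Nf K q x y|))
      = 104 * SW w f := by
    have h1 : ∀ x y, 52 * ((|K y y| * |p x| + |K x x| * |p y|) * |Nf K q x y|)
        = 52 * (f x y + f y x) := by
      intro x y; simp only [hf]
      rw [Nf_symm K q y x, abs_mul (p x), abs_mul (p y)]
      ring
    rw [SW_congr h1, SW_smul w (fun x y => f x y + f y x), SW_sym hw]
    ring
  have h1 := SW_le_sum hw.le_two (f := f) (fun x y => mul_nonneg (abs_nonneg _) (abs_nonneg _))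
  have h2 := fcs (fun x y => p x * K y y) (Nf K q)
  have h3 : fro (fun x y => p x * K y y) = n2 p * n2 (dg K) := fro_outer _ _
  rw [h3] at h2
  have h4 := mul_le_mul_of_nonneg_left (fro_Nf K hK q)
    (mul_nonneg (n2_nonneg p) (n2_nonneg (dg K)))
  rw [h0]
  linarith

lemma s9 (hK : K.IsSymm) (hL2 : OpB (Ksq K) L2) (hw : Wt K F w E η ξ ω) :
    SW w (fun x y => 21 * (K y y ^ 2 * |p x| * |Nf K q x x| + K x x ^ 2 * |p y| * |Nf K q y y|))
      ≤ 84 * (Vf K * (n2 p * (L2 * n2 q))) := by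
  set f : ι → ι → ℝ := fun x y => (|p x| * |Nf K q x x|) * K y y ^ 2 with hf
  have h0 : SW w (fun x y => 21 * (K y y ^ 2 * |p x| * |Nf K q x x|
      + K x x ^ 2 * |p y| * |Nf K q y y|)) = 42 * SW w f := by
    have h1 : ∀ x y, 21 * (K y y ^ 2 * |p x| * |Nf K q x x| + K x x ^ 2 * |p y| * |Nf K q y y|)
        = 21 * (f x y + f y x) := by
      intro x y; simp only [hf]; ring
    rw [SW_congr h1, SW_smul w (fun x y => f x y + f y x), SW_sym hw]
    ring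
  have h1 := SW_le_sum hw.le_two (f := f) (fun x y =>
    mul_nonneg (mul_nonneg (abs_nonneg _) (abs_nonneg _)) (sq_nonneg _))
  have h2 : ∑ x, ∑ y, f x y = (∑ x, |p x| * |Nf K q x x|) * Vf K := sum_mul_sum_eq _ _
  have h3 := (cs p (fun x => Nf K q x x)).trans
    (mul_le_mul_of_nonneg_left (n2_Nf_diag hK hL2 q) (n2_nonneg _))
  have h4 := mul_le_mul_of_nonneg_right h3 (Vf_nonneg K)
  rw [h0]
  rw [h2] at h1
  linarith



lemma two_sum (A B C D : ι → ℝ) :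
    ∑ x, ∑ y, (21 * (A x * B y) + 32 * (C x * D y))
      = 21 * ((∑ x, A x) * ∑ y, B y) + 32 * ((∑ x, C x) * ∑ y, D y) := by
  rw [← sum_mul_sum_eq, ← sum_mul_sum_eq]
  simp only [Finset.mul_sum, ← Finset.sum_add_distrib]

lemma s11 (hK : K.IsSymm) (hΛ : OpB K Λ) (hL2 : OpB (Ksq K) L2) (hw : Wt K F w E η ξ ω) :
    SW w (fun x y => 108 * ∑ z, ((21 * (K y y ^ 2 * K z x ^ 2) + 32 * K z y ^ 2)
        * (K ^ 2) z x ^ 2
      + (21 * (K x x ^ 2 * K z y ^ 2) + 32 * K z x ^ 2) * (K ^ 2) z y ^ 2))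
      ≤ 432 * (21 * (Vf K * L2) + 32 * Λ ^ 2) * n2 (pd K) ^ 2 := by
  set f : ι → ι → ℝ := fun x y => ∑ z, (21 * (K y y ^ 2 * K z x ^ 2) + 32 * K z y ^ 2)
    * (K ^ 2) z x ^ 2 with hf
  have h0 : SW w (fun x y => 108 * ∑ z, ((21 * (K y y ^ 2 * K z x ^ 2) + 32 * K z y ^ 2)
        * (K ^ 2) z x ^ 2
      + (21 * (K x x ^ 2 * K z y ^ 2) + 32 * K z x ^ 2) * (K ^ 2) z y ^ 2)) = 216 * SW w f := by
    have h1 : ∀ x y, 108 * ∑ z, ((21 * (K y y ^ 2 * K z x ^ 2) + 32 * K z y ^ 2)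
        * (K ^ 2) z x ^ 2
      + (21 * (K x x ^ 2 * K z y ^ 2) + 32 * K z x ^ 2) * (K ^ 2) z y ^ 2)
        = 108 * (f x y + f y x) := by
      intro x y; simp only [hf]; rw [Finset.sum_add_distrib]
    rw [SW_congr h1, SW_smul w (fun x y => f x y + f y x), SW_sym hw]
    ring
  have h1 := SW_le_sum hw.le_two (f := f) (fun x y => Finset.sum_nonneg fun z _ => by positivity)
  have h2 : ∑ x, ∑ y, f x y = 21 * ((∑ z, ∑ x, K z x ^ 2 * (K ^ 2) z x ^ 2) * Vf K)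
      + 32 * ∑ z, (∑ y, K z y ^ 2) * ∑ x, (K ^ 2) z x ^ 2 := by
    have e1 : ∀ x y, f x y = ∑ z, (21 * (K z x ^ 2 * (K ^ 2) z x ^ 2 * K y y ^ 2)
        + 32 * ((K ^ 2) z x ^ 2 * K z y ^ 2)) := by
      intro x y; simp only [hf]
      exact Finset.sum_congr rfl fun z _ => by ring
    simp_rw [e1]
    rw [Finset.sum_congr rfl fun x _ => Finset.sum_comm, Finset.sum_comm]
    unfold Vf
    rw [Finset.sum_mul, Finset.mul_sum, Finset.mul_sum, ← Finset.sum_add_distrib]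
    refine Finset.sum_congr rfl fun z _ => ?_
    rw [two_sum (fun x => K z x ^ 2 * (K ^ 2) z x ^ 2) (fun y => K y y ^ 2)
      (fun x => (K ^ 2) z x ^ 2) (fun y => K z y ^ 2)]
    ring
  have hP2 : n2 (pd K) ^ 2 = ∑ z, pd K z ^ 2 := n2_sq _
  have h3 : ∑ z, ∑ x, K z x ^ 2 * (K ^ 2) z x ^ 2 ≤ L2 * n2 (pd K) ^ 2 := by
    have e1 : ∑ z, ∑ x, K z x ^ 2 * (K ^ 2) z x ^ 2
        ≤ ∑ z, ∑ x, K z x ^ 2 * (pd K z * pd K x) :=
      Finset.sum_le_sum fun z _ => Finset.sum_le_sum fun x _ =>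
        mul_le_mul_of_nonneg_left (abs_P_sq_le hK z x) (sq_nonneg _)
    refine e1.trans ((le_abs_self _).trans ((Ksq_form hL2 (pd K) (pd K)).trans (le_of_eq ?_)))
    ring
  have h4 : ∑ z, (∑ y, K z y ^ 2) * ∑ x, (K ^ 2) z x ^ 2 ≤ Λ ^ 2 * n2 (pd K) ^ 2 := by
    rw [hP2, Finset.mul_sum]
    refine Finset.sum_le_sum fun z _ => ?_
    have e1 : ∑ y, K z y ^ 2 = pd K z := (sq_diag_eq hK z).symm
    have e2 : ∑ x, (K ^ 2) z x ^ 2 ≤ Λ ^ 2 * pd K z := by
      have g1 := pow_le_pow_left₀ (n2_nonneg _) (n2_sq_row hK hΛ z) 2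
      rw [n2_sq, mul_pow, rr_sq hK] at g1
      exact g1
    rw [e1]
    calc pd K z * ∑ x, (K ^ 2) z x ^ 2 ≤ pd K z * (Λ ^ 2 * pd K z) :=
          mul_le_mul_of_nonneg_left e2 (pd_nonneg hK z)
      _ = _ := by ring
  have h5 := mul_le_mul_of_nonneg_right h3 (Vf_nonneg K)
  rw [h0]
  rw [h2] at h1
  nlinarith

lemma sum_a2_pd (hK : K.IsSymm) (f : ι → ℝ) (hf : ∀ x, 0 ≤ f x) :
    ∑ y, K y y ^ 2 * f y ≤ Vf K * n2 f := by
  unfold Vf
  rw [Finset.sum_mul]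
  exact Finset.sum_le_sum fun x _ => mul_le_mul_of_nonneg_left
    ((le_abs_self _).trans (abs_le_n2 f x)) (sq_nonneg _)

/-- generic bound: `∑ (170 b² k_x + 361 ∑u²v² + 170 a² k_y) f_x f_y` -/
lemma sum_quart (hK : K.IsSymm) (hL2 : OpB (Ksq K) L2) (f : ι → ℝ) (hf : ∀ x, 0 ≤ f x) :
    ∑ x, ∑ y, (170 * (K y y ^ 2 * kk K x) + 361 * (∑ z, K z x ^ 2 * K z y ^ 2)
      + 170 * (K x x ^ 2 * kk K y)) * (f x * f y)
      ≤ (340 * (n2 (kk K) * Vf K) + 361 * L2 ^ 2) * n2 f ^ 2 := by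
  have e1 : ∑ x, ∑ y, (170 * (K y y ^ 2 * kk K x) + 361 * (∑ z, K z x ^ 2 * K z y ^ 2)
      + 170 * (K x x ^ 2 * kk K y)) * (f x * f y)
      = 340 * ((∑ x, kk K x * f x) * ∑ y, K y y ^ 2 * f y)
        + 361 * ∑ x, ∑ y, (∑ z, K z x ^ 2 * K z y ^ 2) * (f x * f y) := by
    have g1 : (∑ x, kk K x * f x) * ∑ y, K y y ^ 2 * f y
        = ∑ x, ∑ y, (kk K x * f x) * (K y y ^ 2 * f y) := (sum_mul_sum_eq _ _).symm
    have g2 : (∑ x, kk K x * f x) * ∑ y, K y y ^ 2 * f y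
        = ∑ x, ∑ y, (K x x ^ 2 * f x) * (kk K y * f y) := by
      rw [sum_mul_sum_eq, mul_comm]
    have g3 : 340 * ((∑ x, kk K x * f x) * ∑ y, K y y ^ 2 * f y)
        = 170 * (∑ x, ∑ y, (kk K x * f x) * (K y y ^ 2 * f y))
          + 170 * (∑ x, ∑ y, (K x x ^ 2 * f x) * (kk K y * f y)) := by
      rw [← g1, ← g2]; ring
    rw [g3]
    simp only [Finset.mul_sum, ← Finset.sum_add_distrib]
    exact Finset.sum_congr rfl fun x _ => Finset.sum_congr rfl fun y _ => by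
      simp only [Finset.sum_mul, Finset.mul_sum, Finset.sum_add_distrib, add_mul]
      ring_nf
  rw [e1, sum_uv]
  have h1 : ∑ x, kk K x * f x ≤ n2 (kk K) * n2 f := by
    refine le_trans (le_of_eq ?_) (cs (kk K) f)
    exact Finset.sum_congr rfl fun x _ => by
      rw [abs_of_nonneg (kk_nonneg K x), abs_of_nonneg (hf x)]
  have h2 := sum_a2_pd hK f hf
  have h3 := Ksq_sq hK hL2 f
  have h4 : (∑ x, kk K x * f x) * ∑ y, K y y ^ 2 * f y
      ≤ (n2 (kk K) * n2 f) * (Vf K * n2 f) :=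
    mul_le_mul h1 h2 (Finset.sum_nonneg fun y _ => mul_nonneg (sq_nonneg _) (hf y))
      (mul_nonneg (n2_nonneg _) (n2_nonneg _))
  have h5 : (n2 (kk K) * n2 f) * (Vf K * n2 f) = (n2 (kk K) * Vf K) * n2 f ^ 2 := by ring
  rw [h5] at h4
  linarith

lemma s12 (hK : K.IsSymm) (hL2 : OpB (Ksq K) L2) (hw : Wt K F w E η ξ ω) :
    SW w (fun x y => 324 * ((170 * (K y y ^ 2 * kk K x) + 361 * (∑ z, K z x ^ 2 * K z y ^ 2)
      + 170 * (K x x ^ 2 * kk K y)) * (K ^ 2) x y ^ 2))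
      ≤ 648 * ((340 * (n2 (kk K) * Vf K) + 361 * L2 ^ 2) * n2 (pd K) ^ 2) := by
  set g : ι → ι → ℝ := fun x y => (170 * (K y y ^ 2 * kk K x)
    + 361 * (∑ z, K z x ^ 2 * K z y ^ 2) + 170 * (K x x ^ 2 * kk K y)) with hg
  have hg0 : ∀ x y, 0 ≤ g x y := by
    intro x y
    have h1 := kk_nonneg K x
    have h2 := kk_nonneg K y
    have h3 : 0 ≤ ∑ z, K z x ^ 2 * K z y ^ 2 := Finset.sum_nonneg fun z _ => by positivity
    simp only [hg]; positivity
  rw [SW_smul w (fun x y => g x y * (K ^ 2) x y ^ 2)]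
  have h1 : SW w (fun x y => g x y * (K ^ 2) x y ^ 2)
      ≤ SW w (fun x y => g x y * (pd K x * pd K y)) :=
    SW_mono hw.nonneg fun x y _ => mul_le_mul_of_nonneg_left (abs_P_sq_le hK x y) (hg0 x y)
  have h2 := SW_le_sum hw.le_two (f := fun x y => g x y * (pd K x * pd K y)) (fun x y =>
    mul_nonneg (hg0 x y) (mul_nonneg (pd_nonneg hK x) (pd_nonneg hK y)))
  have h3 := sum_quart hK hL2 (pd K) (pd_nonneg hK)
  linarith

lemma s15 (hK : K.IsSymm) (hL2 : OpB (Ksq K) L2) (hw : Wt K F w E η ξ ω) :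
    SW w (fun x y => 27 / 4 * ((170 * (K y y ^ 2 * kk K x) + 361 * (∑ z, K z x ^ 2 * K z y ^ 2)
      + 170 * (K x x ^ 2 * kk K y)) * (|p x| * |p y|)))
      ≤ 27 / 2 * ((340 * (n2 (kk K) * Vf K) + 361 * L2 ^ 2) * n2 p ^ 2) := by
  set g : ι → ι → ℝ := fun x y => (170 * (K y y ^ 2 * kk K x)
    + 361 * (∑ z, K z x ^ 2 * K z y ^ 2) + 170 * (K x x ^ 2 * kk K y)) with hg
  have hg0 : ∀ x y, 0 ≤ g x y := by
    intro x y
    have h1 := kk_nonneg K x
    have h2 := kk_nonneg K y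
    have h3 : 0 ≤ ∑ z, K z x ^ 2 * K z y ^ 2 := Finset.sum_nonneg fun z _ => by positivity
    simp only [hg]; positivity
  rw [SW_smul w (fun x y => g x y * (|p x| * |p y|))]
  have h2 := SW_le_sum hw.le_two (f := fun x y => g x y * (|p x| * |p y|)) (fun x y =>
    mul_nonneg (hg0 x y) (mul_nonneg (abs_nonneg _) (abs_nonneg _)))
  have h3 := sum_quart hK hL2 (fun x => |p x|) (fun x => abs_nonneg _)
  rw [n2_abs] at h3
  linarith


lemma s14 {kM : ℝ} (hkM : ∀ x, kk K x ≤ kM) (hw : Wt K F w E η ξ ω) :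
    SW w (fun x y => 2445188 * (K y y ^ 4 * kk K x * p x ^ 2 + K x x ^ 4 * kk K y * p y ^ 2))
      ≤ 9780752 * (Vf K ^ 2 * kM * n2 p ^ 2) := by
  set f : ι → ι → ℝ := fun x y => (kk K x * p x ^ 2) * K y y ^ 4 with hf
  have h0 : SW w (fun x y => 2445188 * (K y y ^ 4 * kk K x * p x ^ 2
      + K x x ^ 4 * kk K y * p y ^ 2)) = 4890376 * SW w f := by
    have h1 : ∀ x y, 2445188 * (K y y ^ 4 * kk K x * p x ^ 2 + K x x ^ 4 * kk K y * p y ^ 2)
        = 2445188 * (f x y + f y x) := by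
      intro x y; simp only [hf]; ring
    rw [SW_congr h1, SW_smul w (fun x y => f x y + f y x), SW_sym hw]
    ring
  have h1 := SW_le_sum hw.le_two (f := f) (fun x y => by
    have := kk_nonneg K x
    simp only [hf]; positivity)
  have h2 : ∑ x, ∑ y, f x y = (∑ x, kk K x * p x ^ 2) * ∑ y, K y y ^ 4 := sum_mul_sum_eq _ _
  have h3 : ∑ x, kk K x * p x ^ 2 ≤ kM * n2 p ^ 2 := by
    rw [n2_sq, Finset.mul_sum]
    exact Finset.sum_le_sum fun x _ => mul_le_mul_of_nonneg_right (hkM x) (sq_nonneg _)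
  have h4 : ∑ y, K y y ^ 4 ≤ Vf K ^ 2 := by
    have e1 : ∀ y, K y y ^ 2 ≤ Vf K := fun y =>
      Finset.single_le_sum (f := fun y => K y y ^ 2) (fun _ _ => sq_nonneg _) (Finset.mem_univ y)
    rw [pow_two (Vf K)]
    nth_rewrite 1 [Vf]
    rw [Finset.sum_mul]
    refine Finset.sum_le_sum fun y _ => ?_
    calc K y y ^ 4 = K y y ^ 2 * K y y ^ 2 := by ring
      _ ≤ _ := mul_le_mul_of_nonneg_left (e1 y) (sq_nonneg _)
  have h5 : (∑ x, kk K x * p x ^ 2) * ∑ y, K y y ^ 4 ≤ (kM * n2 p ^ 2) * Vf K ^ 2 := by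
    refine mul_le_mul h3 h4 (Finset.sum_nonneg fun y _ => by positivity) ?_
    exact (Finset.sum_nonneg fun x _ => mul_nonneg (kk_nonneg K x) (sq_nonneg _)).trans h3
  rw [h0]
  rw [h2] at h1
  linarith


end avg

end Crest.Agent.R62.AvR
end

-- ▼ part R62/AvR3
section

/-!
R62 (helper758): refined averaged inequality for `∑_{z ∈ F} ((K²)_zz - t)²`
(row-norm parameter `rM`, exact main term for `K_yy (K² diag(q) K)_xx`).
-/

set_option autoImplicit false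
set_option linter.unusedSectionVars false
set_option linter.unusedVariables false

open Matrix Finset

namespace Crest.Agent.R62.AvR

open Crest.Agent.R62.AvBase (OpB)
open Crest.Agent.R62.DiagAv
open Crest.Agent.R62.AvV (dg kk kk_nonneg Vf Vf_nonneg n2_dg_sq Cf cf_good)

variable {ι : Type*} [Fintype ι] [DecidableEq ι]

lemma lin_b2 {a b hx hy M1 M2 e : ℝ} (h1 : |hx - a| ≤ 8 * e * |a|) (h2 : |hy - b| ≤ 8 * e * |b|) :
    4 * (hy * M1 + hx * M2) ≤ 4 * (b * M1 + a * M2) + 32 * (e * (|b| * |M1| + |a| * |M2|)) := by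
  have h3 := AvV.lin_aux' (N := M1) h2
  have h4 := AvV.lin_aux' (N := M2) h1
  linarith

/-- right-hand side of the refined pointwise inequality -/
noncomputable def WR2 (s : ℝ) (K : Matrix ι ι ℝ) (q p : ι → ℝ) (x y : ι) : ℝ :=
  -(q x ^ 2 + q y ^ 2)
  + 4 * (s * (Mf K q x y + Mf K q y x))
  + 16 * ((|K x y| + |K x x * K y y|) * (|Mf K q x y| + |Mf K q y x|))
  + 4 * (K y y * Mf K q x x + K x x * Mf K q y y)
  + 32 * ((|K x y| + |K x x * K y y|)
      * (|K y y| * |Mf K q x x| + |K x x| * |Mf K q y y|))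
  + 4 * (|(K ^ 2) x y| * (13 * (|K y y| * |Nf K q x x|) + 19 * |Nf K q x y|
      + 13 * (|K x x| * |Nf K q y y|)))
  + 2 * (p x * Nf K q y y + p y * Nf K q x x)
  + 40 * ((|K x y| + |K x x * K y y|)
      * (|p x| * |Nf K q y y| + |p y| * |Nf K q x x|))
  + 52 * ((|K y y| * |p x| + |K x x| * |p y|) * |Nf K q x y|)
  + 21 * (K y y ^ 2 * |p x| * |Nf K q x x| + K x x ^ 2 * |p y| * |Nf K q y y|)
  + (|q x| * (16 * ((|K x y| + |K x x * K y y|) * ((K ^ 2) x x + |p x|))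
        + 60 * (|K x x| * |(K ^ 2) x y|) + 50 * (K x x ^ 2 * |p y|))
     + |q y| * (16 * ((|K x y| + |K x x * K y y|) * ((K ^ 2) y y + |p y|))
        + 60 * (|K y y| * |(K ^ 2) x y|) + 50 * (K y y ^ 2 * |p x|)))
  + 108 * ∑ z, ((21 * (K y y ^ 2 * K z x ^ 2) + 32 * K z y ^ 2) * (K ^ 2) z x ^ 2
      + (21 * (K x x ^ 2 * K z y ^ 2) + 32 * K z x ^ 2) * (K ^ 2) z y ^ 2)
  + 324 * ((170 * (K y y ^ 2 * kk K x) + 361 * (∑ z, K z x ^ 2 * K z y ^ 2)
      + 170 * (K x x ^ 2 * kk K y)) * (K ^ 2) x y ^ 2)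
  + 81 / 64 * ((1 + 340 * (|K x y| + |K x x * K y y|))
      * (kk K y * p x ^ 2 + kk K x * p y ^ 2))
  + 2445188 * (K y y ^ 4 * kk K x * p x ^ 2 + K x x ^ 4 * kk K y * p y ^ 2)
  + 27 / 4 * ((170 * (K y y ^ 2 * kk K x) + 361 * (∑ z, K z x ^ 2 * K z y ^ 2)
      + 170 * (K x x ^ 2 * kk K y)) * (|p x| * |p y|))

/-- pointwise bound of the change of the centred functional on a good pair -/
theorem W_point2 {s : ℝ} (hs : s ^ 2 = 1) {K : Matrix ι ι ℝ} (hK : K.IsSymm) {F : Finset ι}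
    (hF : ∀ i, i ∉ F → ∀ j, K i j = 0) (t : ℝ) {x y : ι} (hx : x ∈ F) (hy : y ∈ F)
    (hxy : x ≠ y) (hc : |K x y| ≤ 1 / 4) (hab : |K x x * K y y| ≤ 1 / 4) :
    Wc (Upd.upd s K x y) ((F.erase x).erase y) t - Wc K F t ≤ WR2 s K (qf K F t) (p1 K) x y := by
  have hyx : K y x = K x y := hK.apply x y
  have hPyx : (K ^ 2) y x = (K ^ 2) x y := (hK.pow 2).apply x y
  have H := cf_good hs hc hab
  have G := cg_of hs hc hab H
  have hD : Upd.Dl s K x y ≠ 0 := by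
    have := (coef hs hc hab rfl).1
    have h2 : 0 < Upd.Dl s K x y := by
      unfold Upd.Dl; linarith
    exact h2.ne'
  have h0 := W_upd hs hK hF t hx hy hxy hD
  have hsum := sum_q_dq s hK (qf K F t) x y
  have hsq := sum_dq_sq G
  rw [hsum] at h0
  have l1 := lin_a (M1 := Mf K (qf K F t) x y) (M2 := Mf K (qf K F t) y x) H.g_sub
  have l2 := lin_b2 (M1 := Mf K (qf K F t) x x) (M2 := Mf K (qf K F t) y y) H.hx_sub H.hy_sub
  have l3 := lin_c (P := (K ^ 2) x y) (N1 := Nf K (qf K F t) x x) (N2 := Nf K (qf K F t) x y)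
    (N3 := Nf K (qf K F t) y y) G.ghx G.ghy G.mid
  have l4 := lin_d (p := p1 K x) (N1 := Nf K (qf K F t) x x) (N2 := Nf K (qf K F t) x y)
    (N3 := Nf K (qf K F t) y y) H.hy_le G.ghy G.g2
  have l5 := lin_d (p := p1 K y) (N1 := Nf K (qf K F t) y y) (N2 := Nf K (qf K F t) x y)
    (N3 := Nf K (qf K F t) x x) H.hx_le G.ghx G.g2
  have e0 : 0 ≤ |K x y| + |K x x * K y y| := add_nonneg (abs_nonneg _) (abs_nonneg _)
  have d1 : |dq s K x y x| ≤ 8 * ((|K x y| + |K x x * K y y|) * (K ^ 2) x x)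
      + 30 * (|K x x| * |(K ^ 2) x y|) + 8 * ((|K x y| + |K x x * K y y|) * |p1 K x|)
      + 25 * (K x x ^ 2 * |p1 K y|) := by
    have h1 := dx_le (α := al s K x y x) (β := be s K x y x) (a := K x x)
      (p := (K ^ 2) x x) (P3 := (K ^ 2) x y) (p1 := p1 K x) (p2 := p1 K y)
      e0 G.e_le (p_nonneg hK x) (gx_le H) (gx_le' H hc)
    exact h1
  have d2 : |dq s K x y y| ≤ 8 * ((|K x y| + |K x x * K y y|) * (K ^ 2) y y)
      + 30 * (|K y y| * |(K ^ 2) x y|) + 8 * ((|K x y| + |K x x * K y y|) * |p1 K y|)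
      + 25 * (K y y ^ 2 * |p1 K x|) := by
    have h1 := dx_le (α := be s K x y y) (β := al s K x y y) (a := K y y)
      (p := (K ^ 2) y y) (P3 := (K ^ 2) x y) (p1 := p1 K y) (p2 := p1 K x)
      e0 G.e_le (p_nonneg hK y)
      (by rw [be, hyx]; exact gy_le H) (by rw [al, hyx]; exact gy_le' H hc)
    have h2 : dq s K x y y = 2 * (be s K x y y * (K ^ 2) y y + al s K x y y * (K ^ 2) x y
        + be s K x y y * al s K x y y * (K ^ 2) x y)
        + (be s K x y y ^ 2 * p1 K y + al s K x y y ^ 2 * p1 K x) := by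
      rw [dq, hPyx, p1, p1]; ring
    rw [h2]
    exact h1
  have d1' : -(qf K F t x * dq s K x y x) ≤ |qf K F t x| * |dq s K x y x| := by
    rw [← abs_mul]; exact neg_le_abs _
  have d2' : -(qf K F t y * dq s K x y y) ≤ |qf K F t y| * |dq s K x y y| := by
    rw [← abs_mul]; exact neg_le_abs _
  have d3 := mul_le_mul_of_nonneg_left d1 (abs_nonneg (qf K F t x))
  have d4 := mul_le_mul_of_nonneg_left d2 (abs_nonneg (qf K F t y))
  have q1 : (K ^ 2) x x - 1 = p1 K x := rfl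
  have q2 : (K ^ 2) y y - 1 = p1 K y := rfl
  rw [q1, q2] at h0
  unfold WR2

  generalize Upd.Bxx s K x y = B1 at *
  generalize Upd.Bxy s K x y = B2 at *
  generalize Upd.Byy s K x y = B3 at *
  generalize dq s K x y x = D1 at *
  generalize dq s K x y y = D2 at *
  linarith

lemma WR2_congr {s : ℝ} {K : Matrix ι ι ℝ} {q p p' : ι → ℝ} {x y : ι} (h1 : p x = p' x)
    (h2 : p y = p' y) : WR2 s K q p x y = WR2 s K q p' x y := by
  unfold WR2; rw [h1, h2]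

section avg

variable {K E : Matrix ι ι ℝ} {F : Finset ι} {w : ι → ι → ℝ} {s Λ L2 η ξ ω rM mD : ℝ}
  {q p : ι → ℝ}

/-- `|diag (K² diag(q) K)|₂ ≤ Λ rM² |q|` -/
lemma n2_Mf_diag (hK : K.IsSymm) (hΛ : OpB K Λ) (hr : ∀ x, rr K x ≤ rM) (q : ι → ℝ) :
    n2 (fun x => Mf K q x x) ≤ Λ * rM ^ 2 * n2 q := by
  have hΛ0 := hΛ.1
  refine n2_le_of (mul_nonneg (mul_nonneg hΛ0 (sq_nonneg _)) (n2_nonneg _)) ?_
  have hr2 : ∀ x, rr K x ^ 2 ≤ rM ^ 2 := fun x => pow_le_pow_left₀ (rr_nonneg K x) (hr x) 2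
  have h1 : ∀ x, Mf K q x x ^ 2 ≤ (∑ z, q z ^ 2 * K z x ^ 2) * (Λ ^ 2 * rM ^ 2) := by
    intro x
    have e1 := Finset.sum_mul_sq_le_sq_mul_sq Finset.univ (fun z => q z * K z x)
      (fun z => (K ^ 2) z x)
    have e2 : Mf K q x x = ∑ z, (q z * K z x) * (K ^ 2) z x := by
      unfold Mf
      exact Finset.sum_congr rfl fun z _ => by ring
    have e3 : ∑ z, (K ^ 2) z x ^ 2 ≤ Λ ^ 2 * rM ^ 2 := by
      have g1 := pow_le_pow_left₀ (n2_nonneg _) (n2_sq_row hK hΛ x) 2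
      rw [n2_sq, mul_pow] at g1
      have g2 : ∑ z, (K ^ 2) z x ^ 2 = ∑ z, (K ^ 2) x z ^ 2 :=
        Finset.sum_congr rfl fun z _ => by rw [(hK.pow 2).apply x z]
      rw [g2]
      exact g1.trans (mul_le_mul_of_nonneg_left (hr2 x) (sq_nonneg _))
    rw [e2]
    refine e1.trans ?_
    simp only [mul_pow]
    exact mul_le_mul_of_nonneg_left e3 (Finset.sum_nonneg fun z _ => by positivity)
  refine (Finset.sum_le_sum fun x _ => h1 x).trans ?_
  rw [← Finset.sum_mul, Finset.sum_comm]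
  have h2 : ∑ z, ∑ x, q z ^ 2 * K z x ^ 2 ≤ rM ^ 2 * n2 q ^ 2 := by
    rw [n2_sq, Finset.mul_sum]
    refine Finset.sum_le_sum fun z _ => ?_
    rw [← Finset.mul_sum]
    have g3 : ∑ x, K z x ^ 2 = rr K z ^ 2 := by rw [rr, n2_sq]
    rw [g3, mul_comm]
    exact mul_le_mul_of_nonneg_right (hr2 z) (sq_nonneg _)
  have h3 := mul_le_mul_of_nonneg_right h2 (show (0:ℝ) ≤ Λ ^ 2 * rM ^ 2 by positivity)
  refine h3.trans (le_of_eq ?_)
  ring

lemma s4a (hK : K.IsSymm) (hF : ∀ i, i ∉ F → ∀ j, K i j = 0) (hΛ : OpB K Λ)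
    (hw : Wt K F w E η ξ ω) (hmD : n2 (fun x => Mf K q x x) ≤ mD) :
    SW w (fun x y => 4 * (K y y * Mf K q x x + K x x * Mf K q y y))
      ≤ 8 * (|K.trace| * (Λ * Sq K q)) + 8 * (η * (mD * n2 (dg K))) := by
  set f : ι → ι → ℝ := fun x y => Mf K q x x * K y y with hf
  have h0 : SW w (fun x y => 4 * (K y y * Mf K q x x + K x x * Mf K q y y)) = 8 * SW w f := by
    have h1 : ∀ x y, 4 * (K y y * Mf K q x x + K x x * Mf K q y y)
        = 4 * (f x y + f y x) := by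
      intro x y; simp only [hf]; ring
    rw [SW_congr h1, SW_smul w (fun x y => f x y + f y x), SW_sym hw]
    ring
  have h4 := SW_eq hw f
  have h5 : ∑ x ∈ F, ∑ y ∈ F, f x y = (∑ x ∈ F, Mf K q x x) * K.trace := by
    rw [hf, ← Finset.sum_mul_sum]
    congr 1
    refine Finset.sum_subset (Finset.subset_univ _) fun x _ hx => ?_
    exact hF x hx x
  have h6 : |∑ x ∈ F, Mf K q x x| ≤ Λ * Sq K q := by
    refine (Finset.abs_sum_le_sum_abs _ _).trans (le_trans ?_ (sum_Mf_diag hK hΛ q))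
    exact Finset.sum_le_sum_of_subset_of_nonneg (Finset.subset_univ _) fun x _ _ => abs_nonneg _
  have h7 := opB_form hw.opb (fun x => Mf K q x x) (dg K)
  have h8 : |∑ x, ∑ y, E x y * f x y| ≤ η * (mD * n2 (dg K)) :=
    h7.trans (mul_le_mul_of_nonneg_left (mul_le_mul_of_nonneg_right hmD (n2_nonneg _)) hw.opb.1)
  have h9 : (∑ x ∈ F, Mf K q x x) * K.trace ≤ |K.trace| * (Λ * Sq K q) := by
    refine (le_abs_self _).trans ?_
    rw [abs_mul, mul_comm]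
    exact mul_le_mul_of_nonneg_left h6 (abs_nonneg _)
  have h10 := neg_abs_le (∑ x, ∑ y, E x y * f x y)
  rw [h0, h4, h5]
  linarith

lemma s4b (hK : K.IsSymm) (hw : Wt K F w E η ξ ω) (hmD : n2 (fun x => Mf K q x x) ≤ mD) :
    SW w (fun x y => 32 * ((|K x y| + |K x x * K y y|)
      * (|K y y| * |Mf K q x x| + |K x x| * |Mf K q y y|)))
      ≤ 128 * ((frK K + Vf K) * (mD * n2 (dg K))) := by
  set f : ι → ι → ℝ := fun x y => (|K x y| + |K x x * K y y|) * |Mf K q x x * K y y| with hf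
  have h0 : SW w (fun x y => 32 * ((|K x y| + |K x x * K y y|)
      * (|K y y| * |Mf K q x x| + |K x x| * |Mf K q y y|))) = 64 * SW w f := by
    have h1 : ∀ x y, 32 * ((|K x y| + |K x x * K y y|)
      * (|K y y| * |Mf K q x x| + |K x x| * |Mf K q y y|)) = 32 * (f x y + f y x) := by
      intro x y; simp only [hf]
      rw [hK.apply x y, mul_comm (K y y) (K x x), abs_mul (Mf K q x x), abs_mul (Mf K q y y)]
      ring
    rw [SW_congr h1, SW_smul w (fun x y => f x y + f y x), SW_sym hw]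
    ring
  have h1 := SW_le_sum hw.le_two (f := f) (fun x y =>
    mul_nonneg (add_nonneg (abs_nonneg _) (abs_nonneg _)) (abs_nonneg _))
  have h2 := sum_e_le (K := K) (fun x y => Mf K q x x * K y y)
  have h3' : fro (fun x y => Mf K q x x * K y y) = n2 (fun x => Mf K q x x) * n2 (dg K) :=
    fro_outer (fun x => Mf K q x x) (dg K)
  rw [h3'] at h2
  have h3 : (frK K + Vf K) * (n2 (fun x => Mf K q x x) * n2 (dg K))
      ≤ (frK K + Vf K) * (mD * n2 (dg K)) :=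
    mul_le_mul_of_nonneg_left (mul_le_mul_of_nonneg_right hmD (n2_nonneg _))
      (add_nonneg (frK_nonneg K) (Vf_nonneg K))
  rw [h0]
  linarith

lemma s5' (hK : K.IsSymm) (hΛ : OpB K Λ) (hL2 : OpB (Ksq K) L2) (hw : Wt K F w E η ξ ω) :
    SW w (fun x y => 4 * (|(K ^ 2) x y| * (13 * (|K y y| * |Nf K q x x|) + 19 * |Nf K q x y|
      + 13 * (|K x x| * |Nf K q y y|))))
      ≤ 152 * (Λ * frK K * Sq K q) + 208 * (Λ * frK K * (L2 * n2 q * n2 (dg K))) := by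
  set f : ι → ι → ℝ := fun x y => |(K ^ 2) x y| * (|Nf K q x x| * |K y y|) with hf
  set g : ι → ι → ℝ := fun x y => |(K ^ 2) x y| * |Nf K q x y| with hg
  have h0 : SW w (fun x y => 4 * (|(K ^ 2) x y| * (13 * (|K y y| * |Nf K q x x|)
      + 19 * |Nf K q x y| + 13 * (|K x x| * |Nf K q y y|)))) = 104 * SW w f + 76 * SW w g := by
    have h1 : ∀ x y, 4 * (|(K ^ 2) x y| * (13 * (|K y y| * |Nf K q x x|)
      + 19 * |Nf K q x y| + 13 * (|K x x| * |Nf K q y y|)))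
        = 52 * (f x y + f y x) + 76 * g x y := by
      intro x y; simp only [hf, hg]
      rw [(hK.pow 2).apply x y]
      ring
    rw [SW_congr h1, SW_add w (fun x y => 52 * (f x y + f y x)) (fun x y => 76 * g x y),
      SW_smul w (fun x y => f x y + f y x), SW_sym hw, SW_smul]
    ring
  have h1 := SW_le_sum hw.le_two (f := f) (fun x y =>
    mul_nonneg (abs_nonneg _) (mul_nonneg (abs_nonneg _) (abs_nonneg _)))
  have h2 := SW_le_sum hw.le_two (f := g) (fun x y => mul_nonneg (abs_nonneg _) (abs_nonneg _))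
  have hP := fro_P hK hΛ
  have h3 : ∑ x, ∑ y, g x y ≤ Λ * frK K * Sq K q :=
    (fcs (fun x y => (K ^ 2) x y) (Nf K q)).trans
      (mul_le_mul hP (fro_Nf K hK q) (fro_nonneg _) (mul_nonneg hΛ.1 (frK_nonneg K)))
  have h4 : ∑ x, ∑ y, f x y ≤ Λ * frK K * (L2 * n2 q * n2 (dg K)) := by
    have e1 := fcs (fun x y => (K ^ 2) x y) (fun x y => Nf K q x x * K y y)
    have e2 : ∑ x, ∑ y, f x y = ∑ x, ∑ y, |(K ^ 2) x y| * |Nf K q x x * K y y| :=
      Finset.sum_congr rfl fun x _ => Finset.sum_congr rfl fun y _ => by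
        simp only [hf]; rw [abs_mul]
    have e3 : fro (fun x y => Nf K q x x * K y y) = n2 (fun x => Nf K q x x) * n2 (dg K) :=
      fro_outer _ _
    have e4 := n2_Nf_diag hK hL2 q
    rw [e2]
    refine e1.trans ?_
    rw [e3]
    exact mul_le_mul hP (mul_le_mul_of_nonneg_right e4 (n2_nonneg _))
      (mul_nonneg (n2_nonneg _) (n2_nonneg _)) (mul_nonneg hΛ.1 (frK_nonneg K))
  rw [h0]
  linarith

/-- `∑_y (|K_xy| + |K_xx K_yy|) ≤ sqrt ρ (rM + V)` -/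
lemma row_e' (hK : K.IsSymm) (hF : ∀ i, i ∉ F → ∀ j, K i j = 0) (hr : ∀ x, rr K x ≤ rM)
    (x : ι) : ∑ y, (|K x y| + |K x x * K y y|) ≤ Real.sqrt F.card * (rM + Vf K) := by
  rw [Finset.sum_add_distrib]
  have h1 := (row_l1 hK hF x).trans
    (mul_le_mul_of_nonneg_left (hr x) (Real.sqrt_nonneg (F.card : ℝ)))
  have h2 : ∑ y, |K x x * K y y| ≤ Real.sqrt F.card * Vf K := by
    have e1 : ∑ y, |K x x * K y y| = |K x x| * ∑ y, |K y y| := by
      rw [Finset.mul_sum]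
      exact Finset.sum_congr rfl fun y _ => abs_mul _ _
    have e2 : |K x x| ≤ n2 (dg K) := abs_le_n2 (dg K) x
    have e3 := l1_le (F := F) (f := dg K) (fun y hy => hF y hy y)
    rw [e1]
    refine (mul_le_mul e2 e3 (Finset.sum_nonneg fun _ _ => abs_nonneg _)
      (n2_nonneg _)).trans (le_of_eq ?_)
    rw [← n2_dg_sq]; ring
  linarith

lemma s10' (hK : K.IsSymm) (hF : ∀ i, i ∉ F → ∀ j, K i j = 0) (hΛ : OpB K Λ)
    (hrM : 0 ≤ rM) (hr : ∀ x, rr K x ≤ rM)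
    (hw : Wt K F w E η ξ ω) (hp : ∀ z, z ∉ F → p z = 0) :
    SW w (fun x y => |q x| * (16 * ((|K x y| + |K x x * K y y|) * ((K ^ 2) x x + |p x|))
        + 60 * (|K x x| * |(K ^ 2) x y|) + 50 * (K x x ^ 2 * |p y|))
     + |q y| * (16 * ((|K x y| + |K x x * K y y|) * ((K ^ 2) y y + |p y|))
        + 60 * (|K y y| * |(K ^ 2) x y|) + 50 * (K y y ^ 2 * |p x|)))
      ≤ 64 * (Real.sqrt F.card * (rM + Vf K) * (Sq K q + n2 q * n2 p))
        + 240 * (Real.sqrt F.card * (Λ * Sq K q))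
        + 200 * (Real.sqrt F.card * Vf K * (n2 q * n2 p)) := by
  set f : ι → ι → ℝ := fun x y => |q x| * (16 * ((|K x y| + |K x x * K y y|)
      * ((K ^ 2) x x + |p x|)) + 60 * (|K x x| * |(K ^ 2) x y|) + 50 * (K x x ^ 2 * |p y|))
    with hf
  have hsr : 0 ≤ Real.sqrt (F.card : ℝ) := Real.sqrt_nonneg _
  have hfn : ∀ x y, 0 ≤ f x y := by
    intro x y
    have := p_nonneg hK x
    simp only [hf]
    positivity
  have h0 : SW w (fun x y => |q x| * (16 * ((|K x y| + |K x x * K y y|)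
        * ((K ^ 2) x x + |p x|)) + 60 * (|K x x| * |(K ^ 2) x y|) + 50 * (K x x ^ 2 * |p y|))
     + |q y| * (16 * ((|K x y| + |K x x * K y y|) * ((K ^ 2) y y + |p y|))
        + 60 * (|K y y| * |(K ^ 2) x y|) + 50 * (K y y ^ 2 * |p x|))) = 2 * SW w f := by
    have h1 : ∀ x y, |q x| * (16 * ((|K x y| + |K x x * K y y|)
        * ((K ^ 2) x x + |p x|)) + 60 * (|K x x| * |(K ^ 2) x y|) + 50 * (K x x ^ 2 * |p y|))
     + |q y| * (16 * ((|K x y| + |K x x * K y y|) * ((K ^ 2) y y + |p y|))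
        + 60 * (|K y y| * |(K ^ 2) x y|) + 50 * (K y y ^ 2 * |p x|)) = f x y + f y x := by
      intro x y; simp only [hf]
      rw [hK.apply x y, (hK.pow 2).apply x y, mul_comm (K y y) (K x x)]
    rw [SW_congr h1, SW_sym hw]
  have h1 := SW_le_sum hw.le_two (f := f) hfn
  -- the three sums
  have hx : ∀ x, ∑ y, f x y ≤ 16 * (|q x| * ((K ^ 2) x x + |p x|)
        * (Real.sqrt F.card * (rM + Vf K)))
      + 60 * (|q x| * rr K x ^ 2 * (Real.sqrt F.card * Λ))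
      + 50 * (K x x ^ 2 * |q x| * ∑ y, |p y|) := by
    intro x
    have e1 : ∑ y, f x y = 16 * (|q x| * ((K ^ 2) x x + |p x|)
          * ∑ y, (|K x y| + |K x x * K y y|))
        + 60 * (|q x| * |K x x| * ∑ y, |(K ^ 2) x y|)
        + 50 * (K x x ^ 2 * |q x| * ∑ y, |p y|) := by
      simp only [hf, Finset.mul_sum, ← Finset.sum_add_distrib]
      exact Finset.sum_congr rfl fun y _ => by ring
    rw [e1]
    have e2 := mul_le_mul_of_nonneg_left (row_e' hK hF hr x)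
      (mul_nonneg (abs_nonneg (q x)) (add_nonneg (p_nonneg hK x) (abs_nonneg (p x))))
    have e3 : |q x| * |K x x| * ∑ y, |(K ^ 2) x y|
        ≤ |q x| * rr K x ^ 2 * (Real.sqrt F.card * Λ) := by
      have g1 := pd_row hK hF hΛ x
      have g2 : |q x| * |K x x| ≤ |q x| * rr K x :=
        mul_le_mul_of_nonneg_left (abs_diag_le_rr x) (abs_nonneg _)
      refine (mul_le_mul g2 g1 (Finset.sum_nonneg fun _ _ => abs_nonneg _)
        (mul_nonneg (abs_nonneg _) (rr_nonneg K x))).trans (le_of_eq ?_)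
      ring
    linarith
  have hsum : ∑ x, ∑ y, f x y ≤ 16 * ((Sq K q + n2 q * n2 p) * (Real.sqrt F.card * (rM + Vf K)))
      + 60 * (Sq K q * (Real.sqrt F.card * Λ))
      + 50 * ((Vf K * n2 q) * (Real.sqrt F.card * n2 p)) := by
    refine (Finset.sum_le_sum fun x _ => hx x).trans ?_
    rw [Finset.sum_add_distrib, Finset.sum_add_distrib, ← Finset.mul_sum, ← Finset.mul_sum,
      ← Finset.mul_sum, ← Finset.sum_mul, ← Finset.sum_mul, ← Finset.sum_mul]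
    have g1 : ∑ x, |q x| * ((K ^ 2) x x + |p x|) ≤ Sq K q + n2 q * n2 p := by
      have : ∑ x, |q x| * ((K ^ 2) x x + |p x|) = Sq K q + ∑ x, |q x| * |p x| := by
        unfold Sq
        rw [← Finset.sum_add_distrib]
        exact Finset.sum_congr rfl fun x _ => by rw [rr_sq hK]; ring
      rw [this]
      exact add_le_add le_rfl (cs q p)
    have g2 : ∑ x, |q x| * rr K x ^ 2 = Sq K q := rfl
    have g3 : ∑ x, K x x ^ 2 * |q x| ≤ Vf K * n2 q := by
      unfold Vf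
      rw [Finset.sum_mul]
      exact Finset.sum_le_sum fun x _ => mul_le_mul_of_nonneg_left (abs_le_n2 q x) (sq_nonneg _)
    have g4 := l1_le (F := F) (f := p) hp
    have g5 : 0 ≤ Real.sqrt (F.card : ℝ) * (rM + Vf K) :=
      mul_nonneg hsr (add_nonneg hrM (Vf_nonneg K))
    have g6 := mul_le_mul_of_nonneg_right g1 g5
    have g7 : (∑ x, K x x ^ 2 * |q x|) * ∑ y, |p y| ≤ (Vf K * n2 q) * (Real.sqrt F.card * n2 p) :=
      mul_le_mul g3 g4 (Finset.sum_nonneg fun _ _ => abs_nonneg _)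
        (mul_nonneg (Vf_nonneg K) (n2_nonneg _))
    rw [g2]
    linarith
  rw [h0]
  nlinarith

lemma s13' (hK : K.IsSymm) (hrM : 0 ≤ rM) (hr : ∀ x, rr K x ≤ rM) (hw : Wt K F w E η ξ ω) :
    SW w (fun x y => 81 / 64 * ((1 + 340 * (|K x y| + |K x x * K y y|))
      * (kk K y * p x ^ 2 + kk K x * p y ^ 2)))
      ≤ 81 / 32 * (1 + ω) * ((∑ x, kk K x) * n2 p ^ 2)
        + 1722 * ((rM + Vf K) * n2 (kk K) * n2 p ^ 2) := by
  set f1 : ι → ι → ℝ := fun x y => p x ^ 2 * kk K y with hf1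
  set f2 : ι → ι → ℝ := fun x y => (|K x y| + |K x x * K y y|) * (p x ^ 2 * kk K y) with hf2
  have h0 : SW w (fun x y => 81 / 64 * ((1 + 340 * (|K x y| + |K x x * K y y|))
      * (kk K y * p x ^ 2 + kk K x * p y ^ 2)))
      = 81 / 32 * SW w f1 + 27540 / 32 * SW w f2 := by
    have h1 : ∀ x y, 81 / 64 * ((1 + 340 * (|K x y| + |K x x * K y y|))
      * (kk K y * p x ^ 2 + kk K x * p y ^ 2))
        = 81 / 64 * (f1 x y + f1 y x) + 27540 / 64 * (f2 x y + f2 y x) := by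
      intro x y; simp only [hf1, hf2]
      rw [hK.apply x y, mul_comm (K y y) (K x x)]
      ring
    rw [SW_congr h1, SW_add w (fun x y => 81 / 64 * (f1 x y + f1 y x))
        (fun x y => 27540 / 64 * (f2 x y + f2 y x)),
      SW_smul w (fun x y => f1 x y + f1 y x), SW_sym hw,
      SW_smul w (fun x y => f2 x y + f2 y x), SW_sym hw]
    ring
  have h1 := SW_le_sum hw.le (f := f1) (fun x y => mul_nonneg (sq_nonneg _) (kk_nonneg K y))
  have h1' : ∑ x, ∑ y, f1 x y = (∑ x, kk K x) * n2 p ^ 2 := by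
    rw [n2_sq, mul_comm, ← sum_mul_sum_eq]
  have h2 := SW_le_sum hw.le_two (f := f2) (fun x y =>
    mul_nonneg (add_nonneg (abs_nonneg _) (abs_nonneg _))
      (mul_nonneg (sq_nonneg _) (kk_nonneg K y)))
  have h3 : ∑ x, ∑ y, f2 x y ≤ (rM + Vf K) * n2 (kk K) * n2 p ^ 2 := by
    rw [n2_sq, Finset.mul_sum]
    refine Finset.sum_le_sum fun x _ => ?_
    have e1 : ∑ y, f2 x y = (∑ y, |K x y| * |kk K y| + |K x x| * ∑ y, |dg K y| * |kk K y|)
        * p x ^ 2 := by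
      simp only [hf2]
      rw [Finset.mul_sum, ← Finset.sum_add_distrib, Finset.sum_mul]
      refine Finset.sum_congr rfl fun y _ => ?_
      rw [abs_of_nonneg (kk_nonneg K y), abs_mul, dg]; ring
    rw [e1]
    refine mul_le_mul_of_nonneg_right ?_ (sq_nonneg _)
    have e2 := (cs (fun y => K x y) (kk K)).trans
      (mul_le_mul_of_nonneg_right (hr x) (n2_nonneg _))
    have e3 : |K x x| * ∑ y, |dg K y| * |kk K y| ≤ n2 (dg K) * (n2 (dg K) * n2 (kk K)) :=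
      mul_le_mul (abs_le_n2 (dg K) x) (cs _ _)
        (Finset.sum_nonneg fun _ _ => mul_nonneg (abs_nonneg _) (abs_nonneg _)) (n2_nonneg _)
    have e4 : n2 (dg K) * (n2 (dg K) * n2 (kk K)) = Vf K * n2 (kk K) := by
      rw [← n2_dg_sq]; ring
    rw [e4] at e3
    linarith
  have h4 : 0 ≤ (rM + Vf K) * n2 (kk K) * n2 p ^ 2 :=
    mul_nonneg (mul_nonneg (add_nonneg hrM (Vf_nonneg K)) (n2_nonneg _)) (sq_nonneg _)
  rw [h0]
  rw [h1'] at h1
  nlinarith

/-- **Averaged one-step inequality for `∑_F ((K²)_zz - t)²`**, refined. -/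
theorem W_avg2 {t h2 kM : ℝ} (hK : K.IsSymm) (hF : ∀ i, i ∉ F → ∀ j, K i j = 0)
    (hs : s ^ 2 = 1) (hrow : ∀ i ∈ F, ∑ j, K i j = s) (hΛ : OpB K Λ)
    (hL2 : OpB (Ksq K) L2) (hrM : 0 ≤ rM) (hr : ∀ x, rr K x ≤ rM) (hkM : ∀ x, kk K x ≤ kM)
    (hmD : n2 (fun x => Mf K (qf K F t) x x) ≤ mD) (hw : Wt K F w E η ξ ω)
    (hE : |∑ x, ∑ y, E x y * Mf K (qf K F t) x y| ≤ h2) :
    SW w (fun x y => Wc (Upd.upd s K x y) ((F.erase x).erase y) t - Wc K F t) ≤
      -(2 * (F.card - ξ) * Wc K F t)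
      + 4 * ((∑ z, qf K F 1 z) * ∑ z, qf K F t z * (K ^ 2) z z)
      + 81 / 32 * (1 + ω) * ((∑ x, kk K x) * Wc K F 1)
      + 8 * (|∑ z, qf K F t z| + h2)
      + (216 * (frK K + Vf K) + 304 * Real.sqrt F.card + 8 * |K.trace|)
          * (Λ * Sq K (qf K F t))
      + (8 * η + 128 * (frK K + Vf K)) * (mD * n2 (dg K))
      + 208 * (Λ * frK K * (L2 * n2 (qf K F t) * n2 (dg K)))
      + (64 * (Real.sqrt F.card * (rM + Vf K)) + 208 * (n2 (qf K F 1) * n2 (dg K)))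
          * Sq K (qf K F t)
      + ((4 * η + 160 * (frK K + Vf K) + 84 * Vf K) * L2
          + 64 * (Real.sqrt F.card * (rM + Vf K)) + 200 * (Real.sqrt F.card * Vf K))
          * (n2 (qf K F t) * n2 (qf K F 1))
      + (432 * (21 * (Vf K * L2) + 32 * Λ ^ 2)
          + 648 * (340 * (n2 (kk K) * Vf K) + 361 * L2 ^ 2)) * n2 (pd K) ^ 2
      + (1722 * ((rM + Vf K) * n2 (kk K)) + 9780752 * (Vf K ^ 2 * kM)
          + 27 / 2 * (340 * (n2 (kk K) * Vf K) + 361 * L2 ^ 2)) * Wc K F 1 := by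
  have h0 : SW w (fun x y => Wc (Upd.upd s K x y) ((F.erase x).erase y) t - Wc K F t)
      ≤ SW w (fun x y => WR2 s K (qf K F t) (qf K F 1) x y) := by
    refine SW_mono hw.nonneg fun x y h => ?_
    have hx := hw.mem x y h
    have hy := hw.mem' h
    refine (W_point2 hs hK hF t hx hy (hw.ne x y h) (hw.good x y h) (hw.good' x y h)).trans
      (le_of_eq ?_)
    exact WR2_congr (by rw [qf, if_pos hx, p1]) (by rw [qf, if_pos hy, p1])
  refine h0.trans ?_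
  have hq : ∀ z, z ∉ F → qf K F t z = 0 := fun z hz => by rw [qf, if_neg hz]
  have hp : ∀ z, z ∉ F → qf K F 1 z = 0 := fun z hz => by rw [qf, if_neg hz]
  unfold WR2
  rw [SW_add, SW_add, SW_add, SW_add, SW_add, SW_add, SW_add, SW_add, SW_add, SW_add, SW_add,
    SW_add, SW_add, SW_add, SW_add]
  have g1 := s1 (q := qf K F t) hw hq
  have g2 := s2 hK hF hs hrow hw hq hE
  have g3 := s3 (q := qf K F t) hK hΛ hw
  have g4 := s4a (q := qf K F t) hK hF hΛ hw hmD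
  have g4' := s4b (q := qf K F t) hK hw hmD
  have g5 := s5' (q := qf K F t) hK hΛ hL2 hw
  have g6 := s6 (q := qf K F t) (p := qf K F 1) hK hF hL2 hw hp
  have g7 := s7 (q := qf K F t) (p := qf K F 1) hK hL2 hw
  have g8 := s8 (q := qf K F t) (p := qf K F 1) hK hw
  have g9 := s9 (q := qf K F t) (p := qf K F 1) hK hL2 hw
  have g10 := s10' (q := qf K F t) (p := qf K F 1) hK hF hΛ hrM hr hw hp
  have g11 := s11 hK hΛ hL2 hw
  have g12 := s12 hK hL2 hw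
  have g13 := s13' (p := qf K F 1) hK hrM hr hw
  have g14 := s14 (p := qf K F 1) hkM hw
  have g15 := s15 (p := qf K F 1) hK hL2 hw
  rw [n2_qf_sq] at g1 g13 g14 g15
  have r1 := frK_nonneg K
  have r2 := Vf_nonneg K
  have r3 := Sq_nonneg K (qf K F t)
  have r5 : 0 ≤ Vf K * (Λ * Sq K (qf K F t)) := mul_nonneg r2 (mul_nonneg hΛ.1 r3)
  have r6 : 0 ≤ Real.sqrt (F.card : ℝ) * (Λ * Sq K (qf K F t)) :=
    mul_nonneg (Real.sqrt_nonneg _) (mul_nonneg hΛ.1 r3)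
  linarith

end avg

end Crest.Agent.R62.AvR
end

-- ▼ part R62/WIn
section

/-!
R62 (helper610): inputs of `AvR.W_avg2`, `AvV.V_avg2` in the boxes of `StepDefs` (powers of `m`).
-/

set_option autoImplicit false
set_option linter.unusedSectionVars false
set_option linter.unusedVariables false

open Matrix Finset

namespace Crest.Agent.R62.WIn

open Crest.Agent.R62.Step Crest.Agent.R62.AvBase Crest.Agent.R62.DiagAv Crest.Agent.R62.Expo
open Crest.Agent.R62.Nums Crest.Agent.R62.WtOf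
open Crest.Agent.R62.AvV (dg kk kk_nonneg)
open Crest.Agent.R62.AvR (Wc qf Mf pd)
open Crest.Agent.R062

variable {ι : Type} [Fintype ι] [DecidableEq ι]

/-! ### the operator norm of the entrywise square, through `W` -/

theorem opB_Ksq_W {K : Matrix ι ι ℝ} {F : Finset ι} (hK : K.IsSymm)
    (hF : ∀ i j, i ∉ F → K i j = 0) {S2 B : ℝ} (hS2 : ∀ z x, K z x ^ 2 ≤ S2)
    (hS0 : 0 ≤ S2) (hB : 2 ≤ B) :
    OpB (Ksq K) (B + Real.sqrt (8 * S2 * AvX1.Wf F K / B)) := by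
  have hB0 : (0 : ℝ) < B := by linarith
  set A : Matrix ι ι ℝ := fun x y =>
    if (K ^ 2) x x ≤ B ∧ (K ^ 2) y y ≤ B then K x y ^ 2 else 0 with hA
  set C : Matrix ι ι ℝ := fun x y =>
    if (K ^ 2) x x ≤ B ∧ (K ^ 2) y y ≤ B then 0 else K x y ^ 2 with hC
  have e0 : Ksq K = A + C := by
    funext x y
    rw [Matrix.add_apply]
    simp only [Ksq, hA, hC]
    split_ifs <;> ring
  have hR0 : 0 ≤ AvX1.Wf F K := AvX1.Wf_nonneg F K
  rw [e0]
  refine TiltK.OpB_add (TiltK.opB_of_rows hB0.le ?_ ?_) (KapB.opB_of_fro (Real.sqrt_nonneg _) ?_)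
  · intro x y
    simp only [hA]
    rw [hK.apply y x]
    simp only [and_comm]
  · intro x
    by_cases hx : (K ^ 2) x x ≤ B
    · refine le_trans ?_ hx
      rw [sq_diag_eq hK]
      refine Finset.sum_le_sum fun y _ => ?_
      simp only [hA]
      split_ifs
      · rw [abs_of_nonneg (sq_nonneg _)]
      · simp; positivity
    · have : ∀ y, A x y = 0 := fun y => by simp only [hA]; rw [if_neg (fun h => hx h.1)]
      simp only [this, abs_zero, Finset.sum_const_zero]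
      exact hB0.le
  · rw [Real.sq_sqrt (by positivity)]
    have hbig : ∀ x, (if (K ^ 2) x x ≤ B then 0 else kk K x)
        ≤ 4 * S2 / B * (if x ∈ F then ((K ^ 2) x x - 1) ^ 2 else 0) := by
      intro x
      split_ifs with hx hxF hxF
      · positivity
      · simp
      · push Not at hx
        have hp := p_nonneg hK x
        have h1 : kk K x ≤ S2 * (K ^ 2) x x := by
          rw [← KapB.sum_row_sq hK x, Finset.mul_sum]
          unfold kk
          refine Finset.sum_le_sum fun z _ => ?_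
          calc K z x ^ 4 = K z x ^ 2 * K z x ^ 2 := by ring
            _ ≤ _ := mul_le_mul_of_nonneg_right (hS2 z x) (sq_nonneg _)
        refine h1.trans ?_
        rw [div_mul_eq_mul_div, le_div_iff₀ hB0]
        have h2 : (K ^ 2) x x * B ≤ 4 * ((K ^ 2) x x - 1) ^ 2 := by
          have h3 : (K ^ 2) x x * B ≤ (K ^ 2) x x * (K ^ 2) x x :=
            mul_le_mul_of_nonneg_left hx.le hp
          nlinarith
        calc S2 * (K ^ 2) x x * B = S2 * ((K ^ 2) x x * B) := by ring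
          _ ≤ S2 * (4 * ((K ^ 2) x x - 1) ^ 2) := mul_le_mul_of_nonneg_left h2 hS0
          _ = _ := by ring
      · exfalso
        apply hx
        have h0 : (K ^ 2) x x = 0 := by
          rw [pow_two, Matrix.mul_apply]
          exact Finset.sum_eq_zero fun j _ => by rw [hF x j hxF, zero_mul]
        rw [h0]; exact hB0.le
    have h1 : ∑ x, ∑ y, C x y ^ 2 ≤ ∑ x, ∑ y, ((if (K ^ 2) x x ≤ B then 0 else K y x ^ 4)
        + (if (K ^ 2) y y ≤ B then 0 else K x y ^ 4)) := by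
      refine Finset.sum_le_sum fun x _ => Finset.sum_le_sum fun y _ => ?_
      have h4 : (K x y ^ 2) ^ 2 = K x y ^ 4 := by ring
      have h5 : K y x ^ 4 = K x y ^ 4 := by rw [hK.apply x y]
      have h6 : 0 ≤ K x y ^ 4 := by positivity
      simp only [hC, h5]
      by_cases hx : (K ^ 2) x x ≤ B <;> by_cases hy : (K ^ 2) y y ≤ B <;>
        simp only [hx, hy, and_self, and_true, and_false, if_true, if_false,
          h4] <;> nlinarith
    have h2 : ∑ x, ∑ y, ((if (K ^ 2) x x ≤ B then 0 else K y x ^ 4)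
        + (if (K ^ 2) y y ≤ B then 0 else K x y ^ 4))
        = 2 * ∑ x, (if (K ^ 2) x x ≤ B then 0 else kk K x) := by
      simp only [Finset.sum_add_distrib]
      have e1 : ∑ x, ∑ y, (if (K ^ 2) x x ≤ B then 0 else K y x ^ 4)
          = ∑ x, (if (K ^ 2) x x ≤ B then 0 else kk K x) := by
        refine Finset.sum_congr rfl fun x _ => ?_
        by_cases hx : (K ^ 2) x x ≤ B
        · simp [hx]
        · simp only [hx, if_false]; rfl
      have e2 : ∑ x, ∑ y, (if (K ^ 2) y y ≤ B then 0 else K x y ^ 4)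
          = ∑ x, (if (K ^ 2) x x ≤ B then 0 else kk K x) := by
        rw [Finset.sum_comm]; exact e1
      rw [e1, e2]; ring
    have h3 : ∑ x, (if (K ^ 2) x x ≤ B then 0 else kk K x)
        ≤ 4 * S2 / B * AvX1.Wf F K := by
      have h4 : AvX1.Wf F K = ∑ x, (if x ∈ F then ((K ^ 2) x x - 1) ^ 2 else 0) := by
        unfold AvX1.Wf
        rw [Finset.sum_ite_mem, Finset.univ_inter]
      rw [h4, Finset.mul_sum]
      exact Finset.sum_le_sum fun x _ => hbig x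
    calc _ ≤ _ := h1
      _ = _ := h2
      _ ≤ 2 * (4 * S2 / B * AvX1.Wf F K) := by linarith
      _ = _ := by ring

/-! ### common inputs -/

/-- the inputs of `W_avg2` and `V_avg2` which do not depend on the weights -/
structure Inp (m : ℕ) (F : Finset ι) (K : Matrix ι ι ℝ) (x v w y : ℝ) : Prop where
  kap : ∑ z, kk K z ≤ 3 / 5 * F.card
  fK : O m 1 (x / 2) (frK K)
  sq : O m 1 (x / 2) (Real.sqrt F.card)
  V : O m 1 v (AvV.Vf K)
  nd : O m 1 (v / 2) (n2 (dg K))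
  W : O m 1 w (AvX1.Wf F K)
  nq : O m 1 (w / 2) (n2 (qf K F 1))
  R : O m 2 (y) (n2 (pd K) ^ 2)
  np : O m 2 (y / 2) (n2 (pd K))
  rM : O m 2 (w / 4) (Real.sqrt (1 + Real.sqrt (AvX1.Wf F K)))
  rr : ∀ z, rr K z ≤ Real.sqrt (1 + Real.sqrt (AvX1.Wf F K))
  S2 : ∀ z y, K z y ^ 2 ≤ 2 * (1 + AvV.Vf K)
  kk : O m 30 (v / 2 + y / 2) (n2 (kk K))
  kM : ∀ z, AvV.kk K z ≤ 2 * (1 + AvV.Vf K) * (1 + Real.sqrt (AvX1.Wf F K))

lemma dead_sq {K : Matrix ι ι ℝ} {F : Finset ι} (hF : ∀ i j, i ∉ F → K i j = 0) {i : ι}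
    (hi : i ∉ F) : (K ^ 2) i i = 0 := by
  rw [pow_two, Matrix.mul_apply]
  exact Finset.sum_eq_zero fun j _ => by rw [hF i j hi, zero_mul]

theorem inp_of {d m n : ℕ} {γ : ℝ} {F : Finset ι} {K : Bool → Matrix ι ι ℝ}
    {S : Finset (ι × ι)} (P : Par d n m) (c : Ctx d m γ F K S) (b : Bool) {x v w : ℝ}
    (hρ : (F.card : ℝ) = E m x) (hx : 679 ≤ x) (hX2 : (K b ^ 2).trace ≤ F.card)
    (hV : AvX1.Vf (K b) ≤ E m v) (hW : AvX1.Wf F (K b) ≤ E m w) (hv0 : 0 ≤ v) (hv : v ≤ 8)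
    (hw0 : 600 ≤ w) (hw : w ≤ 683) {y : ℝ} (hwy : w ≤ y) (hxy : x ≤ y) (hyx : y ≤ 2 * x - 40) :
    Inp m F (K b) x v w y := by
  have hm1 := P.m1
  have hm0 := P.m0
  have hb := P.mbig
  have hbn : 5 * 10 ^ 14 ≤ m := by exact_mod_cast hb
  have hK : (K b).IsSymm := c.symm b
  have hdead := c.dead b
  have hρ0 : (0 : ℝ) < F.card := by rw [hρ]; exact E_pos hm0 x
  have hρ1 : (1000 : ℝ) ≤ F.card := by
    rw [hρ]
    have h1 : E (m : ℝ) 1 ≤ E m x := E_mono hm1 (by linarith)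
    rw [E_one] at h1
    linarith
  have oρ : O (m : ℝ) 1 x (F.card : ℝ) := O.of_le hρ0.le hρ.le
  have oV : O (m : ℝ) 1 v (AvV.Vf (K b)) := O.of_le (AvV.Vf_nonneg _) hV
  have oW : O (m : ℝ) 1 w (AvX1.Wf F (K b)) := O.of_le (AvX1.Wf_nonneg _ _) hW
  have hRf : ∑ z, ((K b ^ 2) z z) ^ 2 = AvX1.Wf F (K b) + 2 * (K b ^ 2).trace - F.card :=
    Nums.Rf_eq hK hdead
  have hR0 : 0 ≤ ∑ z, ((K b ^ 2) z z) ^ 2 := Finset.sum_nonneg fun _ _ => sq_nonneg _
  have oR : O (m : ℝ) 2 (y) (∑ z, ((K b ^ 2) z z) ^ 2) := by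
    refine ⟨hR0, ?_⟩
    rw [hRf]
    have h1 : E (m : ℝ) w ≤ E m (y) := E_mono hm1 hwy
    have h2 : E (m : ℝ) x ≤ E m (y) := E_mono hm1 hxy
    rw [hρ] at hX2 ⊢
    linarith
  have hpd : n2 (pd (K b)) ^ 2 = ∑ z, ((K b ^ 2) z z) ^ 2 := n2_sq _
  have sqrt_O : ∀ {a z : ℝ}, O (m : ℝ) 1 a (z ^ 2) → 0 ≤ z → O (m : ℝ) 1 (a / 2) z := by
    intro a z h hz
    refine O.of_le hz ?_
    have h1 := h.le
    rw [one_mul] at h1
    have h2 : E (m : ℝ) a = E m (a / 2) ^ 2 := by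
      rw [E_sq hm0]; congr 1; ring
    rw [h2] at h1
    exact le_of_sq_le_sq h1 (E_pos hm0 _).le
  have sqrt_O2 : ∀ {a z : ℝ}, O (m : ℝ) 2 a (z ^ 2) → 0 ≤ z → O (m : ℝ) 2 (a / 2) z := by
    intro a z h hz
    refine ⟨hz, ?_⟩
    have h1 := h.le
    have h2 : E (m : ℝ) a = E m (a / 2) ^ 2 := by
      rw [E_sq hm0]; congr 1; ring
    have h3 := (E_pos hm0 (a / 2)).le
    rw [h2] at h1
    refine le_of_sq_le_sq ?_ (by positivity)
    nlinarith [sq_nonneg (E (m : ℝ) (a / 2))]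
  have onp : O (m : ℝ) 2 (y / 2) (n2 (pd (K b))) :=
    sqrt_O2 (by rw [hpd]; exact oR) (n2_nonneg _)
  have osR : O (m : ℝ) 2 (y / 2) (Real.sqrt (∑ z, ((K b ^ 2) z z) ^ 2)) :=
    sqrt_O2 (by rw [Real.sq_sqrt hR0]; exact oR) (Real.sqrt_nonneg _)
  have osV : O (m : ℝ) 1 (v / 2) (Real.sqrt (AvV.Vf (K b))) :=
    sqrt_O (by rw [Real.sq_sqrt (AvV.Vf_nonneg _)]; exact oV) (Real.sqrt_nonneg _)
  have osW : O (m : ℝ) 1 (w / 2) (Real.sqrt (AvX1.Wf F (K b))) :=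
    sqrt_O (by rw [Real.sq_sqrt (AvX1.Wf_nonneg _ _)]; exact oW) (Real.sqrt_nonneg _)
  have hγ0 := c.γ0
  have hγ1 : γ ≤ 3 / 4 := by
    have := c.γ1
    nlinarith
  have hs : (Mach.sg b : ℝ) ^ 2 = 1 := by cases b <;> norm_num [Mach.sg]
  have he := KapB.entry_sq_le hK hdead hs hγ0.le (by linarith) (c.row b) (c.low b)
  have h2ρ : (2 : ℝ) / F.card ≤ 1 / 500 := by
    rw [div_le_div_iff₀ hρ0 (by norm_num)]; linarith
  have h2ρ0 : (0 : ℝ) < 2 / F.card := by positivity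
  have hg1 : γ + 2 / F.card ≤ 1 := by linarith
  have hg0 : 0 ≤ γ + 2 / F.card := by linarith
  have hS2 : ∀ z y, K b z y ^ 2 ≤ 2 * (1 + AvV.Vf (K b)) := KapB.sup_le hg1 hg0 he
  refine
    { kap := ?_, fK := ?_, sq := ?_, V := oV, nd := ?_, W := oW, nq := ?_, R := ?_, np := onp,
      rM := ?_, rr := ?_, S2 := hS2, kk := ?_, kM := ?_ }
  · -- kappa
    have h1 := KapB.kappa_le hK hg0 he
    have hg2 : (γ + 2 / F.card) ^ 2 * (K b ^ 2).trace ≤ 1 / 2 * F.card + 8 := by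
      have e1 : (γ + 2 / F.card) ^ 2 ≤ 1 / 2 + 8 / F.card := by
        have e2 : (2 / (F.card : ℝ)) ^ 2 ≤ 2 / F.card := by
          rw [pow_two]
          calc 2 / (F.card : ℝ) * (2 / F.card) ≤ 1 * (2 / F.card) :=
                mul_le_mul_of_nonneg_right (by linarith) h2ρ0.le
            _ = _ := one_mul _
        have e3 : (8 : ℝ) / F.card = 4 * (2 / F.card) := by ring
        rw [e3]
        nlinarith [c.γ1]
      have e0 : 0 ≤ (K b ^ 2).trace := by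
        have := trace_even_nonneg (show (K b)ᵀ = K b from hK) 1
        simpa using this
      calc (γ + 2 / F.card) ^ 2 * (K b ^ 2).trace
          ≤ (1 / 2 + 8 / F.card) * (K b ^ 2).trace := mul_le_mul_of_nonneg_right e1 e0
        _ ≤ (1 / 2 + 8 / F.card) * F.card := mul_le_mul_of_nonneg_left hX2 (by positivity)
        _ = _ := by field_simp
    have h3 : 2 * (Real.sqrt (AvV.Vf (K b)) * Real.sqrt (∑ z, ((K b ^ 2) z z) ^ 2))
        + AvV.Vf (K b) * Real.sqrt (∑ z, ((K b ^ 2) z z) ^ 2) + 8 ≤ E m x / 20 := by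
      expo_div
    have h4 : 2 * (γ + 2 / F.card) * (Real.sqrt (AvV.Vf (K b))
        * Real.sqrt (∑ z, ((K b ^ 2) z z) ^ 2))
        ≤ 2 * (Real.sqrt (AvV.Vf (K b)) * Real.sqrt (∑ z, ((K b ^ 2) z z) ^ 2)) :=
      mul_le_mul_of_nonneg_right (by linarith) (by positivity)
    rw [← hρ] at h3
    linarith
  · refine sqrt_O (a := x) ?_ (frK_nonneg _)
    rw [frK_sq hK]
    refine O.of_le ?_ (by rw [← hρ]; exact hX2)
    have := trace_even_nonneg (show (K b)ᵀ = K b from hK) 1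
    simpa using this
  · refine sqrt_O (a := x) ?_ (Real.sqrt_nonneg _)
    rw [Real.sq_sqrt hρ0.le]; exact oρ
  · exact sqrt_O (by rw [AvV.n2_dg_sq]; exact oV) (n2_nonneg _)
  · exact sqrt_O (by rw [AvR.n2_qf_sq]; exact oW) (n2_nonneg _)
  · rw [hpd]; exact oR
  · refine (sqrt_O2 (a := w / 2) ?_ (Real.sqrt_nonneg _)).mono hm1 le_rfl (by linarith)
    rw [Real.sq_sqrt (by positivity)]
    refine ⟨by positivity, ?_⟩
    have h1 := osW.le
    have h2 : 1 ≤ E (m : ℝ) (w / 2) := one_le_E hm1 (by linarith)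
    linarith
  · intro z
    refine Real.le_sqrt_of_sq_le ?_
    rw [rr_sq hK]
    by_cases hz : z ∈ F
    · have h1 := diag_W_le (K b) hz
      have h2 := abs_le_of_sq_le_sq' (h1.trans (Real.sq_sqrt (AvX1.Wf_nonneg F (K b))).ge)
        (Real.sqrt_nonneg _)
      linarith [h2.2]
    · rw [dead_sq hdead hz]; positivity
  · have h1 := KapB.n2_kk_le hK hg1 hg0 he
    refine ⟨n2_nonneg _, h1.trans ?_⟩
    have h2 : 2 * (1 + Real.sqrt (AvV.Vf (K b))) * Real.sqrt (∑ z, ((K b ^ 2) z z) ^ 2)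
        ≤ 8 * E m (v / 2 + y / 2) := by
      have a1 := osV.le
      have a2 := osR.le
      have a3 : 1 ≤ E (m : ℝ) (v / 2) := one_le_E hm1 (by linarith)
      rw [E_add hm0]
      have a4 : 2 * (1 + Real.sqrt (AvV.Vf (K b))) ≤ 4 * E m (v / 2) := by linarith
      calc _ ≤ (4 * E m (v / 2)) * (2 * E m (y / 2)) :=
            mul_le_mul a4 a2 (Real.sqrt_nonneg _) (by positivity)
        _ = _ := by ring
    have h3 : Real.sqrt (8 * (1 + AvV.Vf (K b)) ^ 3 * AvV.Vf (K b)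
        * (Real.sqrt (AvV.Vf (K b)) * Real.sqrt (∑ z, ((K b ^ 2) z z) ^ 2)))
        ≤ E m (v / 2 + y / 2) := by
      expo
    have h5 := (E_pos hm0 (v / 2 + y / 2)).le
    linarith
  · intro z
    have h1 : AvV.kk (K b) z ≤ 2 * (1 + AvV.Vf (K b)) * (K b ^ 2) z z := by
      rw [← KapB.sum_row_sq hK z, Finset.mul_sum]
      unfold AvV.kk
      refine Finset.sum_le_sum fun y _ => ?_
      calc K b y z ^ 4 = K b y z ^ 2 * K b y z ^ 2 := by ring
        _ ≤ _ := mul_le_mul_of_nonneg_right (hS2 y z) (sq_nonneg _)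
    have hV0 := AvV.Vf_nonneg (K b)
    refine h1.trans (mul_le_mul_of_nonneg_left ?_ (by positivity))
    by_cases hz : z ∈ F
    · have h1 := diag_W_le (K b) hz
      have h2 := abs_le_of_sq_le_sq' (h1.trans (Real.sq_sqrt (AvX1.Wf_nonneg F (K b))).ge)
        (Real.sqrt_nonneg _)
      linarith [h2.2]
    · rw [dead_sq hdead hz]; positivity

end Crest.Agent.R62.WIn
end

-- ▼ part R62/MainW
section

/-!
R62 (helper610): the targets `S1W`, `S2W` of `StepDefs` (numeric closure of `AvR.W_avg2`).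
-/

set_option autoImplicit false
set_option linter.unusedSectionVars false
set_option linter.unusedVariables false

open Matrix Finset

namespace Crest.Agent.R62.MainW

open Crest.Agent.R62.Step Crest.Agent.R62.AvBase Crest.Agent.R62.DiagAv Crest.Agent.R62.Expo
open Crest.Agent.R62.Nums Crest.Agent.R62.WtOf Crest.Agent.R62.WIn
open Crest.Agent.R62.AvV (dg kk kk_nonneg)
open Crest.Agent.R62.AvR (Wc qf Mf pd)
open Crest.Agent.R062

variable {ι : Type} [Fintype ι] [DecidableEq ι]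

/-- the bias / tilt input `h2` -/
lemma h2_bound {K : Matrix ι ι ℝ} {D : Matrix ι ι ℝ} {η Λ : ℝ} (hK : K.IsSymm) (hD : OpB D η)
    (hΛ : OpB K Λ) (q : ι → ℝ) : |∑ x, ∑ y, D x y * Mf K q x y| ≤ η * (Λ * Sq K q) := by
  have h := opB_rank_sum hD q (fun z x => (K ^ 2) z x) (fun z y => K z y)
  refine h.trans (mul_le_mul_of_nonneg_left ?_ hD.1)
  unfold Sq
  rw [Finset.mul_sum]
  refine Finset.sum_le_sum fun z _ => ?_
  have h1 := n2_sq_row hK hΛ z
  calc |q z| * (n2 (fun x => (K ^ 2) z x) * n2 fun y => K z y)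
      ≤ |q z| * ((Λ * rr K z) * rr K z) := by
        refine mul_le_mul_of_nonneg_left ?_ (abs_nonneg _)
        exact mul_le_mul_of_nonneg_right h1 (rr_nonneg K z)
    _ = _ := by ring

lemma sum_qf {K : Matrix ι ι ℝ} {F : Finset ι} (hF : ∀ i j, i ∉ F → K i j = 0) :
    ∑ z, qf K F 1 z = (K ^ 2).trace - F.card := by
  unfold qf
  rw [Finset.sum_ite_mem, Finset.univ_inter, Finset.sum_sub_distrib]
  have e1 : (K ^ 2).trace = ∑ i ∈ F, (K ^ 2) i i := by
    unfold Matrix.trace Matrix.diag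
    symm
    apply Finset.sum_subset (Finset.subset_univ F)
    intro i _ hi
    exact dead_sq hF hi
  rw [e1]
  simp

lemma sum_qf_p {K : Matrix ι ι ℝ} {F : Finset ι} (hF : ∀ i j, i ∉ F → K i j = 0) :
    ∑ z, qf K F 1 z * (K ^ 2) z z = AvX1.Wf F K + ((K ^ 2).trace - F.card) := by
  rw [← sum_qf hF]
  have e1 : AvX1.Wf F K = ∑ z, qf K F 1 z ^ 2 := by
    rw [← n2_sq, AvR.n2_qf_sq]; rfl
  rw [e1, ← Finset.sum_add_distrib]
  refine Finset.sum_congr rfl fun z _ => ?_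
  unfold qf
  split_ifs
  · ring
  · ring

lemma Wc_eq (K : Matrix ι ι ℝ) (F : Finset ι) : Wc K F 1 = AvX1.Wf F K := rfl

lemma sg_sq' (b : Bool) : (Mach.sg b : ℝ) ^ 2 = 1 := by cases b <;> norm_num [Mach.sg]

/-- `E m k` for numerals -/
lemma pE (m k : ℕ) [k.AtLeastTwo] :
    (m : ℝ) ^ (OfNat.ofNat k : ℕ) = E (m : ℝ) (OfNat.ofNat k : ℝ) := (E_ofNat _ k).symm

/-- from the averaged inequality to the increment of `W / c` -/
lemma inc_W {d n m : ℕ} {γ : ℝ} {F : Finset ι} {K : Bool → Matrix ι ι ℝ}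
    {S : Finset (ι × ι)} {Θ : ι → ι → ℝ} (b : Bool) (c : ℝ) :
    inc S Θ (fun x y => AvX1.Wf ((F.erase x).erase y) (nx b K x y) / c) (AvX1.Wf F (K b) / c)
      = SW (wt S Θ) (fun x y => Wc (Upd.upd (Mach.sg b : ℝ) (K b) x y) ((F.erase x).erase y) 1
          - Wc (K b) F 1) / c := by
  rw [inc_eq_SW]
  unfold SW
  rw [Finset.sum_div]
  refine Finset.sum_congr rfl fun x _ => ?_
  rw [Finset.sum_div]
  refine Finset.sum_congr rfl fun y _ => ?_
  simp only [Wc_eq, nx]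
  rw [← sub_div, mul_div_assoc]

/-- final combination -/
lemma fin {ρ W Y κ ξ ω small B : ℝ} (hρ : 0 < ρ) (hW : 0 ≤ W) (hκ : κ ≤ 3 / 5 * ρ) (hκ0 : 0 ≤ κ)
    (hξ : ξ ≤ ρ / 100) (hω : ω ≤ 1 / 100) (hω0 : 0 ≤ ω) (hY : Y ≤ 0) (hY2 : 4 * Y ^ 2 ≤ B / 4)
    (hsm : small ≤ B / 4) (hB : 0 ≤ B) :
    -(2 * (ρ - ξ) * W) + 4 * (Y * (W + Y)) + 81 / 32 * (1 + ω) * (κ * W) + small ≤ B := by
  have h1 : 81 / 32 * (1 + ω) * (κ * W) ≤ 81 / 32 * (1 + 1 / 100) * (3 / 5 * ρ * W) := by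
    have a1 : 81 / 32 * (1 + ω) ≤ 81 / 32 * (1 + 1 / 100) := by linarith
    have a2 : κ * W ≤ 3 / 5 * ρ * W := mul_le_mul_of_nonneg_right hκ hW
    exact mul_le_mul a1 a2 (mul_nonneg hκ0 hW) (by norm_num)
  have h2 : Y * W ≤ 0 := mul_nonpos_of_nonpos_of_nonneg hY hW
  have h3 : ξ * W ≤ ρ / 100 * W := mul_le_mul_of_nonneg_right hξ hW
  have h4 : 0 ≤ ρ * W := mul_nonneg hρ.le hW
  nlinarith

/-- the stage 1 target for `W` -/
theorem s1w : S1W ι := by
  intro d n m γ F K S Θ h c B t b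
  have P := par h
  have R := rho1 h B
  have hm1 := P.m1
  have hm0 := P.m0
  have hb := P.mbig
  have hbn : 5 * 10 ^ 14 ≤ m := by exact_mod_cast hb
  obtain ⟨x, hx⟩ : ∃ x, x = ex (m : ℝ) F.card := ⟨_, rfl⟩
  rw [← hx] at R
  have hxl := R.lo
  have hxh := R.hi
  have hK : (K b).IsSymm := c.symm b
  have hdead := c.dead b
  have hs := sg_sq' b
  have hW0 : AvX1.Wf F (K b) ≤ E m 610 := by
    have := B.Wu b
    rwa [pE] at this
  have hV0 : AvX1.Vf (K b) ≤ E m 6 := by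
    have := B.Vu b
    rwa [pE] at this
  have I : Inp m F (K b) x 6 610 x :=
    inp_of P c b R.eq (by linarith) (X2_le1 P B b) hV0 hW0 (by norm_num) (by norm_num)
      (by norm_num) (by norm_num) (by linarith) le_rfl (by linarith)
  have hw := wt1 h c B t b
  rw [← hx] at hw
  have hΛ := (opB1 h c B b).2
  rw [← hx] at hΛ
  have hB2 : (2 : ℝ) ≤ E m 206 := by
    have : E (m : ℝ) 1 ≤ E m 206 := E_mono hm1 (by norm_num)
    rw [E_one] at this; linarith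
  have hV1 := AvV.Vf_nonneg (K b)
  have hL2 := opB_Ksq_W hK hdead I.S2 (by positivity) hB2
  have hmD := AvR.n2_Mf_diag hK hΛ I.rr (qf (K b) F 1)
  have hE := h2_bound hK hw.opb hΛ (qf (K b) F 1)
  have main := AvR.W_avg2 (t := 1) hK (fun i hi j => c.dead b i j hi) hs (MainX2.row_of c b) hΛ
    hL2 (Real.sqrt_nonneg _) I.rr I.kM hmD hw hE
  have hSq : O (m : ℝ) 2 (610 / 2 + x / 2) (Sq (K b) (qf (K b) F 1)) := by
    have h1 := I.nq.mul hm1 I.np
    rw [one_mul] at h1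
    exact h1.mono_z (Sq_nonneg _ _) (Sq_le hK _)
  have hT : O (m : ℝ) 2 361 |(K b).trace| := by
    refine ⟨abs_nonneg _, ?_⟩
    have h1 := B.X1u b
    have h2 := B.X1l b
    have h3 : U m F.card ≤ (m : ℝ) ^ 361 := by
      unfold U
      have h4 : max 0 (min 1 (((F.card : ℝ) - (m : ℝ) ^ 800) / (m : ℝ) ^ 800)) ≤ 1 :=
        max_le zero_le_one (min_le_left _ _)
      have h5 : (0 : ℝ) ≤ (m : ℝ) ^ 361 := by positivity
      nlinarith
    have h4 : (m : ℝ) ^ 335 ≤ (m : ℝ) ^ 361 := pow_le_pow_right₀ hm1 (by norm_num)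
    rw [pE m 361] at h3 h4
    have h5 := (E_pos hm0 (361 : ℝ)).le
    rw [abs_le]
    constructor <;> linarith
  have hY1 : (K b ^ 2).trace - F.card ≤ -(3 / 4) * r1 d n m := by
    have := B.X2u b; linarith
  have hY2 : -(4 * r1 d n m) ≤ (K b ^ 2).trace - F.card := by
    have := B.X2l b; linarith
  have hr := P.r1_pos
  have oY : O (m : ℝ) 4 (680 + 1 / 10) |(K b ^ 2).trace - F.card| := by
    refine ⟨abs_nonneg _, ?_⟩
    have h1 := P.r1O.le
    rw [abs_le]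
    constructor <;> linarith
  have hL2v : O (m : ℝ) 40 206 (E m 206
      + Real.sqrt (8 * (2 * (1 + AvV.Vf (K b))) * AvX1.Wf F (K b) / E m 206)) := by
    have h1 : Real.sqrt (8 * (2 * (1 + AvV.Vf (K b))) * AvX1.Wf F (K b) / E m 206)
        ≤ 39 * E m 206 := by
      have o1 := I.V
      have o2 := I.W
      have : Real.sqrt (8 * (2 * (1 + AvV.Vf (K b))) * AvX1.Wf F (K b) / E m 206)
        ≤ E m 206 := by expo
      have h5 := (E_pos hm0 (206 : ℝ)).le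
      linarith
    refine ⟨add_nonneg (E_pos hm0 _).le (Real.sqrt_nonneg _), by linarith⟩
  have hkM : O (m : ℝ) 8 (6 + 610 / 2)
      (2 * (1 + AvV.Vf (K b)) * (1 + Real.sqrt (AvX1.Wf F (K b)))) := by
    have hW1 := AvX1.Wf_nonneg F (K b)
    refine ⟨by positivity, ?_⟩
    have a1 : 1 + AvV.Vf (K b) ≤ 2 * E m 6 := by
      have := I.V.le
      have := one_le_E hm1 (by norm_num : (0 : ℝ) ≤ 6)
      linarith
    have a2 : 1 + Real.sqrt (AvX1.Wf F (K b)) ≤ 2 * E m (610 / 2) := by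
      have h1 : Real.sqrt (AvX1.Wf F (K b)) ≤ E m (610 / 2) := by
        rw [← E_sqrt hm0]; exact Real.sqrt_le_sqrt hW0
      have := one_le_E hm1 (by norm_num : (0 : ℝ) ≤ 610 / 2)
      linarith
    rw [E_add hm0]
    calc _ ≤ 2 * (2 * E m 6) * (2 * E m (610 / 2)) := by
          refine mul_le_mul (by linarith) a2 (by positivity) ?_
          have := (E_pos hm0 (6 : ℝ)).le
          positivity
      _ = _ := by ring
  have oη : O (m : ℝ) 2 ((x + 1 / 5) / 2) (E m ((x + 1 / 5) / 2) + E m 371) := by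
    refine ⟨add_nonneg (E_pos hm0 _).le (E_pos hm0 _).le, ?_⟩
    have : E (m : ℝ) 371 ≤ E m ((x + 1 / 5) / 2) := E_mono hm1 (by linarith)
    linarith
  have num := MainWNum.num1 hm1 hb hxl hxh I.fK I.sq I.V I.nd I.W I.nq I.R I.rM I.kk hkM
    (O.E hm0 _) oη hL2v hT hSq oY
  have e2 : n2 (qf (K b) F 1) * n2 (qf (K b) F 1) = AvX1.Wf F (K b) := by
    rw [← pow_two, AvR.n2_qf_sq]; rfl
  show inc S Θ (fun x y => p1W m (AvX1.Wf ((F.erase x).erase y) (nx b K x y)))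
    (p1W m (AvX1.Wf F (K b))) ≤ F.card / (m : ℝ) ^ 2
  unfold p1W
  rw [inc_W (d := d) (n := n) (m := m) (γ := γ) b ((m : ℝ) ^ 610), div_le_iff₀ (by positivity)]
  rw [sum_qf hdead, sum_qf_p hdead] at main
  have hfin := fin (ρ := F.card) (W := AvX1.Wf F (K b)) (Y := (K b ^ 2).trace - F.card)
    (κ := ∑ z, kk (K b) z) (ξ := E m (x - 1) + 1 / (m : ℝ) * F.card) (ω := 1 / (m : ℝ))
    (B := E m (x + 608)) R.pos (AvX1.Wf_nonneg _ _) I.kap
    (Finset.sum_nonneg fun z _ => kk_nonneg _ _) ?_ ?_ (by positivity) (by linarith) ?_ num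
    (E_pos hm0 _).le
  · have e3 : (F.card : ℝ) / (m : ℝ) ^ 2 * (m : ℝ) ^ 610 = E m (x + 608) := by
      have e4 : (m : ℝ) ^ 610 = (m : ℝ) ^ 2 * (m : ℝ) ^ 608 := by rw [← pow_add]
      have e5 : (m : ℝ) ^ 2 ≠ 0 := by positivity
      rw [e4, E_add hm0, ← R.eq, ← pE m 608]
      field_simp
    rw [e3]
    refine le_trans ?_ hfin
    refine main.trans (le_of_eq ?_)
    rw [Wc_eq]
    ring
  · -- ξ
    have h1 : E (m : ℝ) (x - 1) = F.card / m := by
      rw [E_sub hm0, E_one, ← R.eq]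
    rw [h1]
    have h2 : (F.card : ℝ) / m = 1 / m * F.card := by ring
    have h3 : (1 : ℝ) / m ≤ 1 / 200 := by
      apply one_div_le_one_div_of_le <;> linarith
    rw [h2]
    have := R.pos
    nlinarith
  · apply one_div_le_one_div_of_le <;> linarith
  · -- Y²
    have h1 : ((K b ^ 2).trace - F.card) ^ 2 ≤ 16 * r1 d n m ^ 2 := by nlinarith
    have h2 : 4 * (16 * r1 d n m ^ 2) ≤ E m (x + 608) / 4 := by
      have o1 := P.r1O
      expo_div
    linarith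

/-- in stage 2, `X₂ ≤ ρ` -/
lemma X2_le_card {d n m : ℕ} {x0 : ℝ} {F : Finset ι} {K : Bool → Matrix ι ι ℝ} (h : Prm d n m)
    (B : Box2 d n m x0 F K) (b : Bool) : (K b ^ 2).trace ≤ F.card := by
  have P := par h
  have R := rho2 h B
  have hm1 := P.m1
  have hm0 := P.m0
  have hb := P.mbig
  have h1 := B.X2u b
  have hr := P.r1_pos
  have hx0 := x0_ge P B
  have hr1 := P.r1_ge
  have hρ := R.pos
  have hge := B.rho_ge
  have h2 : (m : ℝ) ^ 670 ≤ F.card - phi2 (r1 d n m) F.card := by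
    have e1 : F.card - phi2 (r1 d n m) F.card
        = F.card * (r1 d n m / 2) / (F.card + r1 d n m / 2) := by
      unfold phi2
      field_simp
      ring
    rw [e1, le_div_iff₀ (by positivity), pE m 670]
    have h3 : E (m : ℝ) 670 ≤ r1 d n m / 4 := by
      have a1 : E (m : ℝ) 680 = E m 670 * E m 10 := by
        rw [E_mul hm0]; norm_num
      have a2 : (4 : ℝ) ≤ E m 10 := by
        have : E (m : ℝ) 1 ≤ E m 10 := E_mono hm1 (by norm_num)
        rw [E_one] at this; linarith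
      have a3 := (E_pos hm0 (670 : ℝ)).le
      nlinarith
    have h4 : E (m : ℝ) 670 ≤ F.card / 2 := by
      have a1 : E (m : ℝ) (680 - 1 / 4) ≤ F.card := by
        rw [R.eq]; exact E_mono hm1 R.lo
      have a2 : E (m : ℝ) (680 - 1 / 4) = E m 670 * E m (39 / 4) := by
        rw [E_mul hm0]; norm_num
      have a3 : (2 : ℝ) ≤ E m (39 / 4) := by
        have : E (m : ℝ) 1 ≤ E m (39 / 4) := E_mono hm1 (by norm_num)
        rw [E_one] at this; linarith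
      have a4 := (E_pos hm0 (670 : ℝ)).le
      nlinarith
    have h5 := (E_pos hm0 (670 : ℝ)).le
    have b1 : E (m : ℝ) 670 * F.card ≤ r1 d n m / 4 * F.card :=
      mul_le_mul_of_nonneg_right h3 hρ.le
    have b2 : E (m : ℝ) 670 * (r1 d n m / 2) ≤ F.card / 2 * (r1 d n m / 2) :=
      mul_le_mul_of_nonneg_right h4 (by positivity)
    nlinarith
  linarith

/-- the stage 2 target for `W` -/
theorem s2w : S2W ι := by
  intro d n m γ x0 F K S h c B b
  have P := par h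
  have R := rho2 h B
  have hm1 := P.m1
  have hm0 := P.m0
  have hb := P.mbig
  have hbn : 5 * 10 ^ 14 ≤ m := by exact_mod_cast hb
  obtain ⟨x, hx⟩ : ∃ x, x = ex (m : ℝ) F.card := ⟨_, rfl⟩
  rw [← hx] at R
  have hxl := R.lo
  have hxh := R.hi
  obtain ⟨y, hy⟩ : ∃ y, y = max 683 x := ⟨_, rfl⟩
  have hy1 : 683 ≤ y := hy ▸ le_max_left _ _
  have hy2 : x ≤ y := hy ▸ le_max_right _ _
  have hy3 : y ≤ x + 13 / 4 := by rw [hy]; exact max_le (by linarith) (by linarith)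
  have hK : (K b).IsSymm := c.symm b
  have hdead := c.dead b
  have hs := sg_sq' b
  have hW0 : AvX1.Wf F (K b) ≤ E m 683 := by
    have := B.Wu b
    rwa [pE] at this
  have hV0 : AvX1.Vf (K b) ≤ E m 8 := by
    have := B.Vu b
    rwa [pE] at this
  have hX2 := X2_le_card h B b
  have I : Inp m F (K b) x 8 683 y :=
    inp_of P c b R.eq (by linarith) hX2 hV0 hW0 (by norm_num) (by norm_num)
      (by norm_num) (by norm_num) hy1 hy2 (by linarith)
  have hw := wt2 h c B b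
  rw [← hx] at hw
  have hΛ := (opB2 h c B b).2
  rw [← hx] at hΛ
  have hB2 : (2 : ℝ) ≤ E m 232 := by
    have : E (m : ℝ) 1 ≤ E m 232 := E_mono hm1 (by norm_num)
    rw [E_one] at this; linarith
  have hV1 := AvV.Vf_nonneg (K b)
  have hL2 := opB_Ksq_W hK hdead I.S2 (by positivity) hB2
  have hmD := AvR.n2_Mf_diag hK hΛ I.rr (qf (K b) F 1)
  have hE := h2_bound hK hw.opb hΛ (qf (K b) F 1)
  have main := AvR.W_avg2 (t := 1) hK (fun i hi j => c.dead b i j hi) hs (MainX2.row_of c b) hΛ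
    hL2 (Real.sqrt_nonneg _) I.rr I.kM hmD hw hE
  have hSq : O (m : ℝ) 2 (683 / 2 + y / 2) (Sq (K b) (qf (K b) F 1)) := by
    have h1 := I.nq.mul hm1 I.np
    rw [one_mul] at h1
    exact h1.mono_z (Sq_nonneg _ _) (Sq_le hK _)
  have hT : O (m : ℝ) 2 336 |(K b).trace| := by
    refine ⟨abs_nonneg _, ?_⟩
    have h1 := B.X1 b
    rw [pE m 336] at h1
    have h5 := (E_pos hm0 (336 : ℝ)).le
    linarith
  have hY2 : -(6 * r1 d n m) ≤ (K b ^ 2).trace - F.card := by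
    have := B.X2l b; linarith
  have hX20 : 0 ≤ (K b ^ 2).trace := by
    have := trace_even_nonneg (show (K b)ᵀ = K b from hK) 1
    simpa using this
  have hr := P.r1_pos
  have oY : O (m : ℝ) 6 (680 + 1 / 10) |(K b ^ 2).trace - F.card| := by
    refine ⟨abs_nonneg _, ?_⟩
    have h1 := P.r1O.le
    rw [abs_le]
    constructor <;> linarith
  have hL2v : O (m : ℝ) 40 232 (E m 232
      + Real.sqrt (8 * (2 * (1 + AvV.Vf (K b))) * AvX1.Wf F (K b) / E m 232)) := by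
    have h1 : Real.sqrt (8 * (2 * (1 + AvV.Vf (K b))) * AvX1.Wf F (K b) / E m 232)
        ≤ 39 * E m 232 := by
      have o1 := I.V
      have o2 := I.W
      have : Real.sqrt (8 * (2 * (1 + AvV.Vf (K b))) * AvX1.Wf F (K b) / E m 232)
        ≤ E m 232 := by expo
      have h5 := (E_pos hm0 (232 : ℝ)).le
      linarith
    refine ⟨add_nonneg (E_pos hm0 _).le (Real.sqrt_nonneg _), by linarith⟩
  have hkM : O (m : ℝ) 8 (8 + 683 / 2)
      (2 * (1 + AvV.Vf (K b)) * (1 + Real.sqrt (AvX1.Wf F (K b)))) := by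
    have hW1 := AvX1.Wf_nonneg F (K b)
    refine ⟨by positivity, ?_⟩
    have a1 : 1 + AvV.Vf (K b) ≤ 2 * E m 8 := by
      have := I.V.le
      have := one_le_E hm1 (by norm_num : (0 : ℝ) ≤ 8)
      linarith
    have a2 : 1 + Real.sqrt (AvX1.Wf F (K b)) ≤ 2 * E m (683 / 2) := by
      have h1 : Real.sqrt (AvX1.Wf F (K b)) ≤ E m (683 / 2) := by
        rw [← E_sqrt hm0]; exact Real.sqrt_le_sqrt hW0
      have := one_le_E hm1 (by norm_num : (0 : ℝ) ≤ 683 / 2)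
      linarith
    rw [E_add hm0]
    calc _ ≤ 2 * (2 * E m 8) * (2 * E m (683 / 2)) := by
          refine mul_le_mul (by linarith) a2 (by positivity) ?_
          have := (E_pos hm0 (8 : ℝ)).le
          positivity
      _ = _ := by ring
  have oη : O (m : ℝ) 2 ((x + 1 / 5) / 2) (E m ((x + 1 / 5) / 2) + 0) := by
    refine ⟨add_nonneg (E_pos hm0 _).le le_rfl, ?_⟩
    have := (E_pos hm0 ((x + 1 / 5) / 2)).le
    linarith
  have num := MainWNum.num2 hy2 hy1 hy3 hm1 hb hxl hxh I.fK I.sq I.V I.nd I.W I.nq I.R I.rM I.kk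
    hkM (O.E hm0 _) oη hL2v hT hSq oY
  have e2 : n2 (qf (K b) F 1) * n2 (qf (K b) F 1) = AvX1.Wf F (K b) := by
    rw [← pow_two, AvR.n2_qf_sq]; rfl
  show inc S (fun _ _ => 0) (fun x y => p2W m (AvX1.Wf ((F.erase x).erase y) (nx b K x y)))
    (p2W m (AvX1.Wf F (K b))) ≤ F.card / (m : ℝ) ^ 2
  unfold p2W
  rw [inc_W (d := d) (n := n) (m := m) (γ := γ) b ((m : ℝ) ^ 683), div_le_iff₀ (by positivity)]
  rw [sum_qf hdead, sum_qf_p hdead] at main
  have hfin := fin (ρ := F.card) (W := AvX1.Wf F (K b)) (Y := (K b ^ 2).trace - F.card)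
    (κ := ∑ z, kk (K b) z) (ξ := E m (x - 1) + 0 * F.card) (ω := 0)
    (B := E m (x + 681)) R.pos (AvX1.Wf_nonneg _ _) I.kap
    (Finset.sum_nonneg fun z _ => kk_nonneg _ _) ?_ (by norm_num) le_rfl (by linarith) ?_ num
    (E_pos hm0 _).le
  · have e3 : (F.card : ℝ) / (m : ℝ) ^ 2 * (m : ℝ) ^ 683 = E m (x + 681) := by
      have e4 : (m : ℝ) ^ 683 = (m : ℝ) ^ 2 * (m : ℝ) ^ 681 := by rw [← pow_add]
      rw [e4, E_add hm0, ← R.eq, ← pE m 681]
      field_simp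
    rw [e3]
    refine le_trans ?_ hfin
    refine main.trans (le_of_eq ?_)
    rw [Wc_eq]
    ring
  · -- ξ
    have h1 : E (m : ℝ) (x - 1) = F.card / m := by
      rw [E_sub hm0, E_one, ← R.eq]
    rw [h1]
    have h2 : (F.card : ℝ) / m = 1 / m * F.card := by ring
    have h3 : (1 : ℝ) / m ≤ 1 / 200 := by
      apply one_div_le_one_div_of_le <;> linarith
    rw [h2]
    have := R.pos
    nlinarith
  · -- Y²
    have h1 : ((K b ^ 2).trace - F.card) ^ 2 ≤ 6 * r1 d n m * F.card := by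
      have a1 : F.card - (K b ^ 2).trace ≤ F.card := by linarith
      have a2 : F.card - (K b ^ 2).trace ≤ 6 * r1 d n m := by linarith
      have a3 : 0 ≤ F.card - (K b ^ 2).trace := by linarith
      calc ((K b ^ 2).trace - F.card) ^ 2
          = (F.card - (K b ^ 2).trace) * (F.card - (K b ^ 2).trace) := by ring
        _ ≤ 6 * r1 d n m * F.card := mul_le_mul a2 a1 a3 (by positivity)
    have h2 : 96 * r1 d n m ≤ E m 681 := by
      have a1 : r1 d n m ≤ 2 * d * E m 680 := by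
        unfold r1
        rw [div_le_iff₀ (by positivity), ← pE m 680]
        have a2 := h.hn2
        have a3 : (m : ℝ) ^ 1000 = (m : ℝ) ^ 680 * (m : ℝ) ^ 320 := by rw [← pow_add]
        calc (n : ℝ) * d ≤ 2 * (m : ℝ) ^ 1000 * d :=
              mul_le_mul_of_nonneg_right a2 (Nat.cast_nonneg d)
          _ = _ := by rw [a3]; ring
      have a4 : 192 * (d : ℝ) ≤ m := by
        have := MainX2.d_le h
        have hd0 : (0 : ℝ) ≤ d := Nat.cast_nonneg d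
        nlinarith
      have a5 : E (m : ℝ) 681 = m * E m 680 := by
        rw [show (681 : ℝ) = 1 + 680 by norm_num, E_add hm0, E_one]
      rw [a5]
      have a6 := (E_pos hm0 (680 : ℝ)).le
      nlinarith
    rw [E_add hm0, ← R.eq]
    have := R.pos
    nlinarith

end Crest.Agent.R62.MainW
end

-- ▼ part R62/Final

/-!
R62: S0084.
-/

set_option autoImplicit false
open scoped Matrix BigOperators

namespace Crest.Agent.R62.Final

open Crest.Agent.R062 Crest.Agent.R62.Step Crest.Agent.R62.MainCst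

variable {ι : Type} [Fintype ι] [DecidableEq ι]

/-- stage 1 -/
theorem pieces1 : Pieces1 ι where
  x1u := MainX1.s1x1u
  x1l := MainX1.s1x1l
  x2u := MainX2.s1X2u
  x2l := MainX2.s1X2l
  x3l := MainX3.s1x3l
  x3u := MainX3.s1x3u
  x4 := MainX4.s1x4
  v := MainV.s1v
  w := MainW.s1w
  mm := MainM.s1m
  tilt := ExTilt.exTilt

/-- stage 2 -/
theorem pieces2 : Pieces2 ι where
  x1 := MainX1.s2x1
  x2 := MainX2.s2X2
  x2l := MainX2.s2X2l
  x3 := MainX3.s2x3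
  x4 := MainX4.s2x4
  v := MainV.s2v
  w := MainW.s2w

open Classical in
/-- the statement S0084 -/
theorem s0084 {d : ℕ} (hd : 3 ≤ d) :
    ∃ n₀ : ℕ, ∃ F : List Bool → List Bool, Crest.Complexity.PolyTime F ∧
      ∀ n : ℕ, n₀ ≤ n → Even n →
        (Crest.CombinatoricsR.GraphCode.adjGraph n
            (F (Crest.CombinatoricsR.GraphCode.unary n))).IsRegularOfDegree d ∧
        ∀ x : Fin n → ℝ, ∑ i, x i = 0 → x ≠ 0 →
          |x ⬝ᵥ ((Crest.CombinatoricsR.GraphCode.adjGraph n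
              (F (Crest.CombinatoricsR.GraphCode.unary n))).adjMatrix ℝ *ᵥ x)| <
            2 * Real.sqrt ((d : ℝ) - 1) * (x ⬝ᵥ x) := by
  refine MainPot.assemble hd (fun N => pieces1) (fun N => pieces2) ?_
  intro n h
  have h1 := StartPhi.phi1R_root hd h (by norm_num)
  have h2 := StartPhi.inv_m_le h
  have h3 : CtxReal.Phi1R (MainPot.PP d hd) d n (mm n) [] ≤ 1 / (mm n : ℝ) := h1
  linarith

end Crest.Agent.R62.Final
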