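import Crest.Agent.R62.SpecOf

/-!
R62: combinators for `SpecOf.Pot`.
-/

set_option autoImplicit false
set_option linter.unusedSectionVars false
set_option linter.unusedSimpArgs false
set_option linter.unusedVariables false
open scoped Matrix BigOperators

namespace Crest.Agent.R62.SpecOf

open Crest.Agent.R62.State Crest.Agent.R62.EvalKit Crest.Agent.R062 Crest.Agent.R062.Mach
open Crest.Agent.Lib.PT

namespace Pot
variable {P : Par} {d : ℕ}


/-- sum -/
def add (a b : Pot P d) : Pot P d where
  val := fun n l => a.val n l + b.val n l
  e := .add a.e b.e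
  sc := fun n l p => (a.sc n l p).add (b.sc n l p)

/-- product -/
def mul (a b : Pot P d) : Pot P d where
  val := fun n l => a.val n l * b.val n l
  e := .had a.e b.e
  sc := fun n l p => (a.sc n l p).had (b.sc n l p)

/-- negation -/
def neg (a : Pot P d) : Pot P d where
  val := fun n l => -a.val n l
  e := negE a.e
  sc := fun n l p => (a.sc n l p).neg

/-- difference -/
def sub (a b : Pot P d) : Pot P d where
  val := fun n l => a.val n l - b.val n l
  e := subE a.e b.e
  sc := fun n l p => (a.sc n l p).sub (b.sc n l p)

/-- positive part -/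
def pos (a : Pot P d) : Pot P d where
  val := fun n l => max (a.val n l) 0
  e := .pos a.e
  sc := fun n l p => (a.sc n l p).pos

/-- square -/
def sq (a : Pot P d) : Pot P d where
  val := fun n l => a.val n l ^ 2
  e := sqE a.e
  sc := fun n l p => (a.sc n l p).sqE

/-- square of the positive part -/
def posSq (a : Pot P d) : Pot P d := sq (pos a)


/-- integer constant -/
def int (k : ℤ) : Pot P d where
  val := fun _ _ => (k : ℝ)
  e := intE k
  sc := fun n l p => sc_intE k


/-- rational function `w n t` of `n` and of the number of pairs `t`; the constant `c` must be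
`w` shifted by one step -/
noncomputable def rat (w : ℕ → ℕ → ℚ) (c : Cst) (h : ∀ n t, c.f n t = w n (t + 1)) :
    Pot P d where
  val := fun n l => (w n l.length : ℝ)
  e := .cst c
  sc := fun n l p => (sc_cst' c).congr (by rw [h]; rfl)

/-- `Tr K^k` -/
noncomputable def x (k : ℕ) (b : Bool) : Pot P d where
  val := fun n l => Matrix.trace (KR P d n b l ^ k)
  e := xE k true b
  sc := fun n l p => sc_xE k true b

/-- `Tr K₊^j K₋^k` -/
noncomputable def cross (j k : ℕ) : Pot P d where
  val := fun n l => Matrix.trace (KR P d n true l ^ j * KR P d n false l ^ k)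
  e := crossE j k true
  sc := fun n l p => sc_crossE j k true


/-- `V = ∑ (K_zz)²` -/
noncomputable def v (b : Bool) : Pot P d where
  val := fun n l => ∑ z, (KR P d n b l z z) ^ 2
  e := vE true b
  sc := fun n l p => sc_vE true b

/-- `W = ∑_live ((K²)_zz - 1)²` -/
noncomputable def w (b : Bool) : Pot P d where
  val := fun n l => ∑ z, ((KR P d n b l ^ 2) z z - uv n d l z) ^ 2
  e := wE true b
  sc := fun n l p => sc_wE true b



end Pot

end Crest.Agent.R62.SpecOf
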