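import Crest.Agent.R62.Start_Mg
import Crest.Agent.R62.Upd

-- ▼ part R62/State
section

/-!
R62: the real state as a matrix on `Fin (n*d)`; the structural facts used by the analysis.
-/

set_option autoImplicit false
set_option linter.unusedSectionVars false
set_option linter.unusedSimpArgs false
set_option linter.unusedVariables false
open scoped Matrix BigOperators

namespace Crest.Agent.R62.State

open Crest.Agent.R62.Stub Crest.Agent.R062

/-- the stub matrix as a matrix on `Fin (n*d)` (zero rows and columns for dead stubs) -/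
noncomputable def Kmat (γ s μ : ℝ) (n d : ℕ) (L : List (ℕ × ℕ)) :
    Matrix (Fin (n * d)) (Fin (n * d)) ℝ := Matrix.of fun i j => Mach.Kof γ s μ n d L i j

lemma Kmat_apply (γ s μ : ℝ) (n d : ℕ) (L : List (ℕ × ℕ)) (i j : Fin (n * d)) :
    Kmat γ s μ n d L i j = Mach.Kof γ s μ n d L i j := rfl

lemma Kmat_nil (γ s μ : ℝ) (n d : ℕ) : Kmat γ s μ n d [] = Start.K0m γ s μ n d := by
  ext i j; rfl

lemma K0_symm (γ s μ : ℝ) (n d i j : ℕ) : Mach.K0 γ s μ n d i j = Mach.K0 γ s μ n d j i := by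
  simp only [Mach.K0, and_comm (a := i < n * d), eq_comm (a := i / d), eq_comm (a := i)]

lemma Kof_symm (γ s μ : ℝ) (n d : ℕ) (L : List (ℕ × ℕ)) (i j : ℕ) :
    Mach.Kof γ s μ n d L i j = Mach.Kof γ s μ n d L j i := by
  induction L generalizing i j with
  | nil => exact K0_symm γ s μ n d i j
  | cons p L ih =>
    simp only [Mach.Kof, Mach.upd, Mach.updNum]
    by_cases h : i = p.1 ∨ i = p.2 ∨ j = p.1 ∨ j = p.2
    · rw [if_pos h, if_pos (by tauto)]
    · rw [if_neg h, if_neg (by tauto), ih i j, ih i p.1, ih i p.2, ih p.1 j, ih p.2 j]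
      ring

lemma Kmat_symm (γ s μ : ℝ) (n d : ℕ) (L : List (ℕ × ℕ)) : (Kmat γ s μ n d L).IsSymm := by
  ext i j
  rw [Matrix.transpose_apply, Kmat_apply, Kmat_apply, Kof_symm]

lemma dead_iff {L : List (ℕ × ℕ)} {i : ℕ} : Bridge.dead L i ↔ ¬ Mach.unused L i := by
  unfold Bridge.dead Mach.unused
  push Not
  constructor
  · rintro ⟨p, hp, h⟩
    refine ⟨p, hp, fun h1 => ?_⟩
    rcases h with h | h
    · exact absurd h.symm h1
    · exact h.symm
  · rintro ⟨p, hp, h⟩
    refine ⟨p, hp, ?_⟩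
    by_cases h1 : p.1 = i
    · exact Or.inl h1.symm
    · exact Or.inr (h h1).symm

lemma Kmat_dead_left (γ s μ : ℝ) (n d : ℕ) (L : List (ℕ × ℕ)) (i j : Fin (n * d))
    (h : ¬ Mach.unused L i) : Kmat γ s μ n d L i j = 0 := by
  rw [Kmat_apply, Glue.Kof_eq]
  exact Bridge.Kof_dead γ s μ n d L i j (Or.inl (dead_iff.mpr h))

lemma Kmat_dead_right (γ s μ : ℝ) (n d : ℕ) (L : List (ℕ × ℕ)) (i j : Fin (n * d))
    (h : ¬ Mach.unused L j) : Kmat γ s μ n d L i j = 0 := by
  rw [Kmat_apply, Glue.Kof_eq]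
  exact Bridge.Kof_dead γ s μ n d L i j (Or.inr (dead_iff.mpr h))

/-- one step is the Schur step of `Upd` -/
lemma Kmat_cons (γ s μ : ℝ) (n d : ℕ) (L : List (ℕ × ℕ)) (x y : Fin (n * d)) :
    Kmat γ s μ n d (((x : ℕ), (y : ℕ)) :: L) = Upd.upd s (Kmat γ s μ n d L) x y := by
  ext i j
  rw [Kmat_apply, Mach.Kof, Upd.upd]
  simp only [Mach.upd, Upd.Pi2, Fin.ext_iff]
  split_ifs
  · rfl
  · rw [Upd.Khat_apply]
    simp only [Upd.Bxx, Upd.Bxy, Upd.Byy, Upd.Dl, Kmat_apply, Mach.updNum, Mach.Del]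
    rw [Kof_symm γ s μ n d L (x : ℕ) (j : ℕ), Kof_symm γ s μ n d L (y : ℕ) (j : ℕ)]
    ring


/-- indicator of the live stubs -/
noncomputable def uv (n d : ℕ) (L : List (ℕ × ℕ)) : Fin (n * d) → ℝ :=
  fun i => if Mach.unused L i then 1 else 0

lemma uv_nil (n d : ℕ) : uv n d [] = fun _ => 1 := by
  funext i; simp [uv, Mach.unused]

lemma unused_cons {L : List (ℕ × ℕ)} {p : ℕ × ℕ} {i : ℕ} :
    Mach.unused (p :: L) i ↔ (p.1 ≠ i ∧ p.2 ≠ i) ∧ Mach.unused L i := by
  simp [Mach.unused]

lemma uv_cons (n d : ℕ) (L : List (ℕ × ℕ)) (x y i : Fin (n * d)) :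
    uv n d (((x : ℕ), (y : ℕ)) :: L) i = if i = x ∨ i = y then 0 else uv n d L i := by
  unfold uv
  by_cases h : i = x ∨ i = y
  · rw [if_pos h, if_neg]
    rw [unused_cons]
    rintro ⟨⟨h1, h2⟩, _⟩
    rcases h with rfl | rfl
    · exact h1 rfl
    · exact h2 rfl
  · rw [if_neg h]
    push Not at h
    have h1 : ((x : ℕ) ≠ (i : ℕ) ∧ (y : ℕ) ≠ (i : ℕ)) :=
      ⟨fun e => h.1 (Fin.ext e).symm, fun e => h.2 (Fin.ext e).symm⟩
    by_cases hu : Mach.unused L i
    · rw [if_pos hu, if_pos (unused_cons.mpr ⟨h1, hu⟩)]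
    · rw [if_neg hu, if_neg fun hh => hu (unused_cons.mp hh).2]

/-- `K u = s u` -/
theorem Kmat_row {γ s μ : ℝ} {n d : ℕ} (hs : s = 1 ∨ s = -1) (hn : 0 < n) (hd : 0 < d)
    (L : List (ℕ × ℕ)) (hL : Bridge.Mat n d L)
    (hD : ∀ p L', (p :: L') <:+ L → Mach.Del s (Mach.Kof γ s μ n d L') p.1 p.2 ≠ 0) :
    (Kmat γ s μ n d L) *ᵥ (uv n d L) = s • uv n d L := by
  have hs2 : s ^ 2 = 1 := by rcases hs with rfl | rfl <;> norm_num
  induction L with
  | nil =>
    funext i
    simp only [Matrix.mulVec, dotProduct, uv_nil, mul_one, Pi.smul_apply, smul_eq_mul]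
    have hdiv : (i : ℕ) / d < n := Nat.div_lt_of_lt_mul (by
      have := i.isLt; rw [mul_comm d n]; exact this)
    have e1 : ∑ j : Fin (n * d), Kmat γ s μ n d [] i j
        = ∑ j : Fin (n * d), ((if (i : ℕ) / d = (j : ℕ) / d then μ else 0)
          - (if i = j then γ else 0) + ((γ + s) / (n * d) - μ / n)) := by
      refine Finset.sum_congr rfl fun j _ => ?_
      rw [Kmat_nil, Start.K0m_apply]; ring
    have e2 : ∑ j : Fin (n * d), (if (i : ℕ) / d = (j : ℕ) / d then μ else 0) = d * μ := by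
      rw [← Finset.sum_filter, Finset.sum_const, Start.card_block, nsmul_eq_mul]
    rw [e1, Finset.sum_add_distrib, Finset.sum_sub_distrib, e2, Finset.sum_ite_eq,
      Finset.sum_const, Finset.card_univ, Fintype.card_fin, nsmul_eq_mul]
    simp only [Finset.mem_univ, if_true]
    have hn' : (n : ℝ) ≠ 0 := by exact_mod_cast hn.ne'
    have hd' : (d : ℝ) ≠ 0 := by exact_mod_cast hd.ne'
    push_cast
    field_simp
    ring
  | cons p L ih =>
    obtain ⟨x0, y0⟩ := p
    have hL' := hL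
    obtain ⟨h1, hx, hy, hdx, hdy, hxy⟩ := hL
    simp only at hx hy hdx hdy hxy
    have ih' := ih h1 fun p L' hp => hD p L' (hp.trans (List.suffix_cons _ _))
    have hDel := hD (x0, y0) L (List.suffix_refl _)
    simp only at hDel
    set x : Fin (n * d) := ⟨x0, hx⟩ with hxdef
    set y : Fin (n * d) := ⟨y0, hy⟩ with hydef
    have hxy' : x ≠ y := fun h => hxy (by
      have : x0 = y0 := by simpa [hxdef, hydef] using h
      rw [this])
    have ecs : Kmat γ s μ n d ((x0, y0) :: L) = Upd.upd s (Kmat γ s μ n d L) x y :=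
      Kmat_cons γ s μ n d L x y
    have ecu : ∀ i, uv n d ((x0, y0) :: L) i = if i = x ∨ i = y then 0 else uv n d L i :=
      fun i => uv_cons n d L x y i
    have hsym := Kmat_symm γ s μ n d L
    have hDl : Upd.Dl s (Kmat γ s μ n d L) x y ≠ 0 := hDel
    rw [ecs]
    generalize hK : Kmat γ s μ n d L = K at *
    have hrow : ∀ i, ∑ j, K i j * uv n d L j = s * uv n d L i := fun i => by
      have := congrFun ih' i
      simpa [Matrix.mulVec, dotProduct] using this
    have hux : uv n d L x = 1 := by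
      have : Mach.unused L x0 := by by_contra h; exact hdx (dead_iff.mpr h)
      simp [uv, hxdef, this]
    have huy : uv n d L y = 1 := by
      have : Mach.unused L y0 := by by_contra h; exact hdy (dead_iff.mpr h)
      simp [uv, hydef, this]
    funext i
    simp only [Matrix.mulVec, dotProduct, Pi.smul_apply, smul_eq_mul, ecu]
    by_cases hi : i = x ∨ i = y
    · rw [if_pos hi, mul_zero]
      exact Finset.sum_eq_zero fun j _ => by
        rcases hi with rfl | rfl <;> simp [Upd.upd, Upd.Pi2]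
    · rw [if_neg hi]
      push Not at hi
      have e1 : ∀ j, Upd.upd s K x y i j * (if j = x ∨ j = y then 0 else uv n d L j)
          = if j = x ∨ j = y then 0 else Upd.Khat s K x y i j * uv n d L j := fun j => by
        by_cases hj : j = x ∨ j = y
        · rw [if_pos hj, if_pos hj, mul_zero]
        · rw [if_neg hj, if_neg hj]
          push Not at hj
          rw [Upd.upd, Upd.Pi2_apply_of_ne _ hi.1 hi.2 hj.1 hj.2]
      simp_rw [e1]
      rw [Upd.sum_ne x y hxy', Upd.Khat_col_x hs2 hsym hDl, Upd.Khat_col_y hs2 hsym hDl, hux, huy]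
      have e2 : ∑ j, Upd.Khat s K x y i j * uv n d L j
          = s * uv n d L i + (Upd.Bxx s K x y * K i x * s + Upd.Bxy s K x y * (K i x * s + K i y * s)
            + Upd.Byy s K x y * K i y * s) := by
        have e3 : ∀ j, Upd.Khat s K x y i j * uv n d L j = K i j * uv n d L j
            + (Upd.Bxx s K x y * K i x + Upd.Bxy s K x y * K i y) * (K x j * uv n d L j)
            + (Upd.Bxy s K x y * K i x + Upd.Byy s K x y * K i y) * (K y j * uv n d L j) :=
          fun j => by
            rw [Upd.Khat_apply, hsym.apply x j, hsym.apply y j]; ring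
        simp_rw [e3]
        rw [Finset.sum_add_distrib, Finset.sum_add_distrib, ← Finset.mul_sum, ← Finset.mul_sum,
          hrow, hrow, hrow, hux, huy]
        ring
      rw [e2]
      simp only [Upd.Bxx, Upd.Bxy, Upd.Byy]
      have hDe : Upd.Dl s K x y = (1 - s * K x y) ^ 2 - K x x * K y y := rfl
      field_simp
      rcases hs with rfl | rfl
      · linear_combination (0 : ℝ) * hDe
      · linear_combination (0 : ℝ) * hDe


/-- number of live stubs -/
lemma uv_sum {n d : ℕ} (L : List (ℕ × ℕ)) (hL : Bridge.Mat n d L) :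
    ∑ i, uv n d L i = (n : ℝ) * d - 2 * (L.length : ℝ) := by
  induction L with
  | nil => simp [uv_nil]
  | cons p L ih =>
    obtain ⟨x0, y0⟩ := p
    obtain ⟨h1, hx, hy, hdx, hdy, hxy⟩ := hL
    simp only at hx hy hdx hdy hxy
    set x : Fin (n * d) := ⟨x0, hx⟩ with hxdef
    set y : Fin (n * d) := ⟨y0, hy⟩ with hydef
    have hxy' : x ≠ y := fun h => hxy (by
      have : x0 = y0 := by simpa [hxdef, hydef] using h
      rw [this])
    have ecu : ∀ i, uv n d ((x0, y0) :: L) i = if i = x ∨ i = y then 0 else uv n d L i :=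
      fun i => uv_cons n d L x y i
    simp_rw [ecu]
    have hux : uv n d L x = 1 := by
      have : Mach.unused L x0 := by by_contra h; exact hdx (dead_iff.mpr h)
      simp [uv, hxdef, this]
    have huy : uv n d L y = 1 := by
      have : Mach.unused L y0 := by by_contra h; exact hdy (dead_iff.mpr h)
      simp [uv, hydef, this]
    rw [Upd.sum_ne x y hxy', ih h1, hux, huy, List.length_cons]
    push_cast
    ring

open Classical in
/-- `K ≥ -γ` on sum zero vectors supported on the live stubs -/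
theorem Kmat_ge {γ s b : ℝ} {n d : ℕ} (hs : s = 1 ∨ s = -1) (hγ0 : 0 < γ) (hγ1 : γ < 1)
    (hb : 0 < b - γ * d) (hn : 0 < n) (hd : 0 < d)
    (L : List (ℕ × ℕ)) (hL : Bridge.Mat n d L) (hlen : 2 * L.length < n * d)
    (hD : ∀ p L', (p :: L') <:+ L →
      0 < Mach.Del s (Mach.Kof γ s ((1 - γ ^ 2) / (b - γ * d)) n d L') p.1 p.2)
    (f : Fin (n * d) → ℝ) (hf : ∑ i, uv n d L i * f i = 0) :
    -γ * ∑ i, uv n d L i * f i ^ 2
      ≤ f ⬝ᵥ (Kmat γ s ((1 - γ ^ 2) / (b - γ * d)) n d L *ᵥ f) := by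
  have : NeZero n := ⟨hn.ne'⟩
  have hdr : (d : ℝ) ≠ 0 := by exact_mod_cast hd.ne'
  set μ := (1 - γ ^ 2) / (b - γ * d) with hμ
  have hDP : Bridge.DelPos γ s μ n d L := Glue.delPos_of L hD
  have hgood := Bridge.good_of_delPos L hL hlen hDP
  have hInv := Good.inv hs hγ0 hγ1 hb hdr (Bridge.mapL n d L) hgood
  set M := runM γ s μ (d : ℝ) (Bridge.mapL n d L) with hM
  set g : Fin (n * d) → ℝ := fun i => uv n d L i * f i with hg
  set c : Fin n → ℝ := fun v => ∑ i : Fin (n * d), if Bridge.vtx n d i = v then g i else 0 with hc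
  have hc0 : ∑ v, c v = 0 := by
    rw [hc, Finset.sum_comm]
    simp only [Finset.sum_ite_eq, Finset.mem_univ, if_true]
    exact hf
  have h1 := hInv.form_nonneg hγ0 hγ1 c hc0
  have h2 : ∑ v, ∑ w, c v * c w * M v w
      = ∑ i, ∑ j, g i * g j * M (Bridge.vtx n d i) (Bridge.vtx n d j) := by
    have e1 : ∀ φ : Fin n → ℝ, ∑ v, c v * φ v = ∑ i, g i * φ (Bridge.vtx n d i) := fun φ => by
      simp only [hc, Finset.sum_mul]
      rw [Finset.sum_comm]
      refine Finset.sum_congr rfl fun i _ => ?_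
      simp only [ite_mul, zero_mul, Finset.sum_ite_eq, Finset.mem_univ, if_true]
    have e2 : ∀ v, ∑ w, c v * c w * M v w = c v * ∑ j, g j * M v (Bridge.vtx n d j) := fun v => by
      rw [← e1 (fun w => M v w), Finset.mul_sum]
      exact Finset.sum_congr rfl fun w _ => by ring
    simp only [e2]
    rw [e1 (fun v => ∑ j, g j * M v (Bridge.vtx n d j))]
    refine Finset.sum_congr rfl fun i _ => ?_
    rw [Finset.mul_sum]
    exact Finset.sum_congr rfl fun j _ => by ring
  rw [h2] at h1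
  have h3 : f ⬝ᵥ (Kmat γ s μ n d L *ᵥ f)
      = ∑ i, ∑ j, g i * g j * M (Bridge.vtx n d i) (Bridge.vtx n d j)
        - γ * ∑ i, uv n d L i * f i ^ 2 := by
    have e0 : f ⬝ᵥ (Kmat γ s μ n d L *ᵥ f) = ∑ i, ∑ j, f i * Kmat γ s μ n d L i j * f j :=
      bil_eq_sum _ _ _
    rw [e0, Finset.mul_sum, ← Finset.sum_sub_distrib]
    refine Finset.sum_congr rfl fun i _ => ?_
    by_cases hi : Mach.unused L i
    · have hi' : ¬ Bridge.dead L i := fun h => (dead_iff.mp h) hi
      have e1 : ∀ j, f i * Kmat γ s μ n d L i j * f j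
          = g i * g j * M (Bridge.vtx n d i) (Bridge.vtx n d j)
            - (if i = j then γ * (f i * g j) else 0) := fun j => by
        by_cases hj : Mach.unused L j
        · have hj' : ¬ Bridge.dead L j := fun h => (dead_iff.mp h) hj
          have e2 : Kmat γ s μ n d L i j = M (Bridge.vtx n d i) (Bridge.vtx n d j)
              - (if (i : ℕ) = (j : ℕ) then γ else 0) := by
            rw [Kmat_apply, Glue.Kof_eq]
            exact Bridge.Kof_eq γ s μ n d L hL i j i.isLt j.isLt hi' hj'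
          rw [e2]
          simp only [hg, uv, if_pos hi, if_pos hj, one_mul, ← Fin.ext_iff]
          split_ifs <;> ring
        · rw [Kmat_dead_right γ s μ n d L i j hj]
          simp only [hg, uv, if_neg hj, zero_mul, mul_zero]
          split_ifs <;> ring
      simp only [e1, Finset.sum_sub_distrib, Finset.sum_ite_eq, Finset.mem_univ, if_true]
      simp only [hg]
      ring
    · have e1 : ∀ j, f i * Kmat γ s μ n d L i j * f j = 0 := fun j => by
        rw [Kmat_dead_left γ s μ n d L i j hi]; ring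
      simp only [e1, hg, uv, if_neg hi, zero_mul, Finset.sum_const_zero, mul_zero, sub_zero]
  rw [h3]
  linarith

end Crest.Agent.R62.State
end

-- ▼ part R62/EvalKit
section

/-!
R62: evaluation of the constraint language `Mach.E` in matrix form, and ready-made expressions for
the functionals.
-/

set_option autoImplicit false
set_option linter.unusedSectionVars false
set_option linter.unusedSimpArgs false
set_option linter.unusedVariables false
open scoped Matrix BigOperators

namespace Crest.Agent.R62.EvalKit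

open Crest.Agent.R62.State Crest.Agent.R062 Crest.Agent.R062.Mach
open Crest.Agent.Lib.PT

section
variable {P : Par} {d n : ℕ} {l : List (ℕ × ℕ)} {p : ℕ × ℕ}

/-- evaluation as a matrix on `Fin (n*d)` -/
noncomputable def ev (P : Par) (d n : ℕ) (l : List (ℕ × ℕ)) (p : ℕ × ℕ) (a : E) :
    Matrix (Fin (n * d)) (Fin (n * d)) ℝ :=
  Matrix.of fun i j => eval (envR P d n l p) a i j

lemma ev_apply (a : E) (i j : Fin (n * d)) :
    ev P d n l p a i j = eval (envR P d n l p) a i j := rfl


lemma ev_mul (a b : E) : ev P d n l p (.mul a b) = ev P d n l p a * ev P d n l p b := by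
  ext i j
  rw [ev_apply, Matrix.mul_apply]
  have : (envR P d n l p).M = n * d := rfl
  simp only [eval, this, Finset.sum_range, ev_apply]

lemma ev_had (a b : E) (i j : Fin (n * d)) :
    ev P d n l p (.had a b) i j = ev P d n l p a i j * ev P d n l p b i j := rfl

lemma ev_one : ev P d n l p .one = 1 := by
  ext i j
  rw [ev_apply, Matrix.one_apply]
  simp only [eval, Fin.ext_iff]

/-- power -/
def powE (a : E) : ℕ → E
  | 0 => .one
  | k + 1 => .mul (powE a k) a

lemma ev_powE (a : E) (k : ℕ) : ev P d n l p (powE a k) = ev P d n l p a ^ k := by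
  induction k with
  | zero => rw [powE, ev_one, pow_zero]
  | succ k ih => rw [powE, ev_mul, ih, pow_succ]

/-- `a` is a scalar (a constant matrix) with value `v` -/
def Sc (e : Env ℝ) (a : E) (v : ℝ) : Prop := ∀ i j, eval e a i j = v

lemma Sc.add {e : Env ℝ} {a b : E} {v w : ℝ} (ha : Sc e a v) (hb : Sc e b w) :
    Sc e (.add a b) (v + w) := fun i j => by simp only [eval, ha i j, hb i j]
lemma Sc.had {e : Env ℝ} {a b : E} {v w : ℝ} (ha : Sc e a v) (hb : Sc e b w) :
    Sc e (.had a b) (v * w) := fun i j => by simp only [eval, ha i j, hb i j]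
lemma Sc.pos {e : Env ℝ} {a : E} {v : ℝ} (ha : Sc e a v) : Sc e (.pos a) (max v 0) :=
  fun i j => by simp only [eval, ha i j]
lemma sc_tr (a : E) : Sc (envR P d n l p) (.tr a) (Matrix.trace (ev P d n l p a)) :=
  fun i j => by
    have : (envR P d n l p).M = n * d := rfl
    simp only [eval, Matrix.trace, Matrix.diag_apply, ev_apply, Finset.sum_range, this]
lemma Sc.congr {e : Env ℝ} {a : E} {v w : ℝ} (ha : Sc e a v) (h : v = w) : Sc e a w := h ▸ ha

/-- the square of a scalar -/
def sqE (a : E) : E := .had a a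
lemma Sc.sqE {e : Env ℝ} {a : E} {v : ℝ} (ha : Sc e a v) : Sc e (sqE a) (v ^ 2) := by
  rw [pow_two]; exact ha.had ha

/-- natural number and integer constants -/
def cstInt (k : ℤ) : Cst where
  f := fun _ _ => (k : ℚ)
  ptf := PTF.const (k : ℚ)
  deg := k.natAbs
  bd := fun n t => by
    have h1 : |(k : ℚ)| = (k.natAbs : ℚ) := by
      rw [← Int.cast_abs, Int.abs_eq_natAbs]; simp
    rw [h1]
    have h2 : (k.natAbs : ℚ) ≤ 2 ^ k.natAbs := by exact_mod_cast Nat.lt_two_pow_self.le
    have h3 : (2 : ℚ) ^ k.natAbs ≤ ((n : ℚ) + t + 2) ^ k.natAbs := by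
      apply pow_le_pow_left₀ (by norm_num)
      have : (0 : ℚ) ≤ n := Nat.cast_nonneg n
      have : (0 : ℚ) ≤ t := Nat.cast_nonneg t
      linarith
    exact h2.trans h3

/-- integer scalar -/
def intE (k : ℤ) : E := .cst (cstInt k)

/-- negation and subtraction -/
def negE (a : E) : E := .had (intE (-1)) a
def subE (a b : E) : E := .add a (negE b)

/-- the environments of the real process -/
lemma sc_intE (k : ℤ) : Sc (envR P d n l p) (intE k) (k : ℝ) := fun i j => by
  simp [intE, eval, envR, cstInt]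

lemma Sc.neg {a : E} {v : ℝ} (ha : Sc (envR P d n l p) a v) :
    Sc (envR P d n l p) (negE a) (-v) := fun i j => by
  have h1 := sc_intE (P := P) (d := d) (n := n) (l := l) (p := p) (-1) i j
  simp only [negE, eval, ha i j, h1]
  push_cast; ring

lemma Sc.sub {a b : E} {v w : ℝ}
    (ha : Sc (envR P d n l p) a v) (hb : Sc (envR P d n l p) b w) :
    Sc (envR P d n l p) (subE a b) (v - w) := fun i j => by
  simp only [subE, eval, ha i j, hb.neg i j]; ring

/-- the real stub matrix of the process -/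
noncomputable def KR (P : Par) (d n : ℕ) (b : Bool) (l : List (ℕ × ℕ)) :
    Matrix (Fin (n * d)) (Fin (n * d)) ℝ :=
  Kmat (P.gam.v n) (sg b) (P.mu.v n) n d l

/-- the list before/after the step -/
def lst (l : List (ℕ × ℕ)) (p : ℕ × ℕ) (nw : Bool) : List (ℕ × ℕ) := if nw then p :: l else l

lemma ev_K (nw b : Bool) : ev P d n l p (.K nw b) = KR P d n b (lst l p nw) := by
  ext i j
  cases nw <;> rfl

/-- the identity on live stubs -/
noncomputable def IdW (n d : ℕ) (l : List (ℕ × ℕ)) : Matrix (Fin (n * d)) (Fin (n * d)) ℝ :=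
  Matrix.diagonal (uv n d l)

lemma ev_idW (nw : Bool) : ev P d n l p (.idW nw) = IdW n d (lst l p nw) := by
  ext i j
  rw [ev_apply, IdW, Matrix.diagonal_apply]
  by_cases h : i = j
  · subst h
    cases nw <;> simp [eval, envR, lst, uv]
  · have h' : ¬ ((i : ℕ) = (j : ℕ)) := fun e => h (Fin.ext e)
    simp [eval, h, h']

/-! ### functionals -/

/-- `X_k = Tr K^k` -/
def xE (k : ℕ) (nw b : Bool) : E := .tr (powE (.K nw b) k)

lemma sc_xE (k : ℕ) (nw b : Bool) :
    Sc (envR P d n l p) (xE k nw b) (Matrix.trace (KR P d n b (lst l p nw) ^ k)) := by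
  have := sc_tr (P := P) (d := d) (n := n) (l := l) (p := p) (powE (.K nw b) k)
  rw [ev_powE, ev_K] at this
  exact this

/-- `Tr (K₊^j K₋^k)` -/
def crossE (j k : ℕ) (nw : Bool) : E :=
  .tr (.mul (powE (.K nw true) j) (powE (.K nw false) k))

lemma sc_crossE (j k : ℕ) (nw : Bool) :
    Sc (envR P d n l p) (crossE j k nw)
      (Matrix.trace (KR P d n true (lst l p nw) ^ j * KR P d n false (lst l p nw) ^ k)) := by
  have := sc_tr (P := P) (d := d) (n := n) (l := l) (p := p)
    (.mul (powE (.K nw true) j) (powE (.K nw false) k))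
  rw [ev_mul, ev_powE, ev_powE, ev_K, ev_K] at this
  exact this

/-- `∑ ((K^k)_zz)²` -/
def dE (k : ℕ) (nw b : Bool) : E := .tr (.had (powE (.K nw b) k) (powE (.K nw b) k))

lemma sc_dE (k : ℕ) (nw b : Bool) :
    Sc (envR P d n l p) (dE k nw b) (∑ z, ((KR P d n b (lst l p nw) ^ k) z z) ^ 2) := by
  refine (sc_tr (.had (powE (.K nw b) k) (powE (.K nw b) k))).congr ?_
  simp only [Matrix.trace, Matrix.diag_apply, ev_had, ev_powE, ev_K, pow_two]

/-- `V = ∑ K_zz²` -/
def vE (nw b : Bool) : E := dE 1 nw b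

lemma sc_vE (nw b : Bool) :
    Sc (envR P d n l p) (vE nw b) (∑ z, (KR P d n b (lst l p nw) z z) ^ 2) := by
  refine (sc_dE 1 nw b).congr ?_
  simp only [pow_one]

/-- `W = ∑_live ((K²)_zz - 1)²` -/
def wE (nw b : Bool) : E :=
  .tr (.had (subE (powE (.K nw b) 2) (.idW nw)) (subE (powE (.K nw b) 2) (.idW nw)))

lemma ev_subE (a b : E) :
    ev P d n l p (subE a b) = ev P d n l p a - ev P d n l p b := by
  ext i j
  have h1 := sc_intE (P := P) (d := d) (n := n) (l := l) (p := p) (-1) i j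
  rw [Matrix.sub_apply, ev_apply, ev_apply, ev_apply]
  simp only [subE, negE, eval, h1]
  push_cast; ring

lemma sc_wE (nw b : Bool) :
    Sc (envR P d n l p) (wE nw b)
      (∑ z, ((KR P d n b (lst l p nw) ^ 2) z z - uv n d (lst l p nw) z) ^ 2) := by
  refine (sc_tr (.had (subE (powE (.K nw b) 2) (.idW nw))
    (subE (powE (.K nw b) 2) (.idW nw)))).congr ?_
  simp only [Matrix.trace, Matrix.diag_apply, ev_had, ev_subE, ev_powE, ev_K, ev_idW,
    Matrix.sub_apply]
  refine Finset.sum_congr rfl fun z _ => ?_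
  have : IdW n d (lst l p nw) z z = uv n d (lst l p nw) z := by
    unfold IdW; rw [Matrix.diagonal_apply_eq]
  rw [this]
  ring




/-! ### constraints -/

/-- scalar constraints hold with margin `η` -/
lemma holds_of_sc {cs : List E} {η : ℝ}
    (h : ∀ a ∈ cs, ∃ v, Sc (envR P d n l p) a v ∧ v ≤ -η) : Holds P d n cs η l p := by
  intro a ha i _ j _
  obtain ⟨v, h1, h2⟩ := h a ha
  rw [h1 i j]; exact h2

lemma sc_of_holds {cs : List E} {η : ℝ}
    (hnd : 0 < n * d) (h : Holds P d n cs η l p) {a : E} (ha : a ∈ cs) {v : ℝ}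
    (hv : Sc (envR P d n l p) a v) : v ≤ -η := by
  have := h a ha 0 hnd 0 hnd
  rw [hv 0 0] at this
  exact this

/-- rational constants from polynomial-time functions -/
lemma sc_cst' (c : Cst) : Sc (envR P d n l p) (.cst c) (c.f n l.length : ℝ) := fun _ _ => rfl


end


end Crest.Agent.R62.EvalKit
private theorem rz_90172392e2 : type_of% @_root_.Crest.Agent.R62.EvalKit.powE.eq_def := @_root_.Crest.Agent.R62.EvalKit.powE.eq_def -- L48
private theorem rz_65c790f954 : type_of% @_root_.Crest.Agent.R62.EvalKit.powE.eq_1 := @_root_.Crest.Agent.R62.EvalKit.powE.eq_1 -- L48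
end

-- ▼ part R62/SpecOf

/-!
R62: from an abstract step theorem about the real matrices to `Mach.Spec`, and to S0084.
-/

set_option autoImplicit false
set_option linter.unusedSectionVars false
set_option linter.unusedSimpArgs false
set_option linter.unusedVariables false
open scoped Matrix BigOperators

namespace Crest.Agent.R62.SpecOf

open Crest.Agent.R62.State Crest.Agent.R62.EvalKit Crest.Agent.R062 Crest.Agent.R062.Mach
open Crest.Agent.Lib.PT

/-- A potential: a real function of `n` and of the list of pairs, together with an expression of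
the constraint language for its value AFTER the step.  The invariant is `val ≤ 0`. -/
structure Pot (P : Par) (d : ℕ) where
  /-- the value -/
  val : ℕ → List (ℕ × ℕ) → ℝ
  /-- expression for the value after the step -/
  e : E
  /-- correctness -/
  sc : ∀ (n : ℕ) (l : List (ℕ × ℕ)) (p : ℕ × ℕ), Sc (envR P d n l p) e (val n (p :: l))

/-- The invariant of the process. -/
structure St (P : Par) (d : ℕ) (F : List (Pot P d)) (n : ℕ) (l : List (ℕ × ℕ)) : Prop where
  valid : Pairs.Valid d n l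
  del : ∀ b p L', (p :: L') <:+ l → 1 / 4 ≤ Del (sg b) (P.K d n b L') p.1 p.2
  pot : ∀ f ∈ F, f.val n l ≤ 0

/-- pair constraint `K_xy² ≤ 1/16` -/
def c1E (b : Bool) : E := subE (sqE (.had (intE 4) (.pick false true (.K false b)))) (intE 1)

/-- pair constraint `± 8 K_xx K_yy ≤ 1` -/
def c2E (b : Bool) (k : ℤ) : E :=
  subE (.had (intE k) (.had (.pick false false (.K false b)) (.pick true true (.K false b))))
    (intE 1)

section
variable {P : Par} {d n : ℕ} {l : List (ℕ × ℕ)} {p : ℕ × ℕ}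

lemma sc_c1E (b : Bool) :
    Sc (envR P d n l p) (c1E b) ((4 * P.K d n b l p.1 p.2) ^ 2 - 1) := by
  have h1 : Sc (envR P d n l p) (.pick false true (.K false b)) (P.K d n b l p.1 p.2) :=
    fun i j => rfl
  have := ((sc_intE (P := P) (d := d) (n := n) (l := l) (p := p) 4).had h1).sqE.sub (sc_intE 1)
  refine this.congr ?_
  push_cast; ring

lemma sc_c2E (b : Bool) (k : ℤ) :
    Sc (envR P d n l p) (c2E b k)
      (k * (P.K d n b l p.1 p.1 * P.K d n b l p.2 p.2) - 1) := by
  have h1 : Sc (envR P d n l p) (.pick false false (.K false b)) (P.K d n b l p.1 p.1) :=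
    fun i j => rfl
  have h2 : Sc (envR P d n l p) (.pick true true (.K false b)) (P.K d n b l p.2 p.2) :=
    fun i j => rfl
  have := ((sc_intE (P := P) (d := d) (n := n) (l := l) (p := p) k).had (h1.had h2)).sub
    (sc_intE 1)
  refine this.congr ?_
  push_cast; ring

end

/-- the constraint list -/
def csOf {P : Par} {d : ℕ} (F : List (Pot P d)) : List E :=
  [c1E true, c1E false, c2E true 8, c2E true (-8), c2E false 8, c2E false (-8)] ++ F.map Pot.e

lemma del_of {a b c s : ℝ} (hs : s = 1 ∨ s = -1) (h1 : (4 * c) ^ 2 - 1 ≤ 0)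
    (h2 : 8 * (a * b) - 1 ≤ 0) : 1 / 4 ≤ (1 - s * c) ^ 2 - a * b := by
  have hc : |c| ≤ 1 / 4 := by
    rw [abs_le]; constructor <;> nlinarith
  rw [abs_le] at hc
  rcases hs with rfl | rfl
  · nlinarith [hc.1, hc.2]
  · nlinarith [hc.1, hc.2]

lemma sg_eq (b : Bool) : (sg b : ℝ) = 1 ∨ (sg b : ℝ) = -1 := by
  cases b <;> simp [sg]

/-- a list is `Good` for `csOf F` if ... (its tail satisfies the invariant) -/
theorem st_of_good {P : Par} {d : ℕ} {F : List (Pot P d)} {n : ℕ} (hnd : 0 < n * d)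
    (h0 : ∀ f ∈ F, f.val n [] ≤ 0) (l : List (ℕ × ℕ)) (h : Mach.Good P d n (csOf F) l) :
    St P d F n l := by
  induction l with
  | nil =>
    refine ⟨h.valid, ?_, h0⟩
    intro b p L' hp
    exact absurd (List.suffix_nil.mp hp) (by simp)
  | cons p l ih =>
    have hl := ih h.1
    refine ⟨h.valid, ?_, ?_⟩
    · intro b q L' hq
      rw [List.suffix_cons_iff] at hq
      rcases hq with hq | hq
      · obtain ⟨rfl, rfl⟩ := List.cons.inj hq
        have e1 := sc_of_holds hnd h.2.2 (a := c1E b) (by cases b <;> simp [csOf])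
          (sc_c1E b)
        have e2 := sc_of_holds hnd h.2.2 (a := c2E b 8) (by cases b <;> simp [csOf])
          (sc_c2E b 8)
        simp only [neg_zero] at e1 e2
        push_cast at e2
        exact del_of (sg_eq b) e1 e2
      · exact hl.del b q L' hq
    · intro f hf
      have := sc_of_holds hnd h.2.2 (a := f.e) (by
        unfold csOf
        exact List.mem_append_right _ (List.mem_map.mpr ⟨f, hf, rfl⟩)) (f.sc n l p)
      simpa using this

/-- the pair conditions bound everything -/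
theorem mkSpec {d : ℕ} (hd : 0 < d) (P : Par) (F : List (Pot P d)) (T : ℕ → ℕ)
    (T_ptf : PTF (fun n : Un => T n.val)) (T_le : ∀ n, 2 * T n ≤ n * d) (c n0 : ℕ) (hn0 : 0 < n0)
    (hc : 2 ≤ c)
    (h0 : ∀ n, n0 ≤ n → Even n → ∀ f ∈ F, f.val n [] ≤ 0)
    (hstep : ∀ n, n0 ≤ n → Even n → ∀ l, St P d F n l → l.length < T n →
      ∃ x y : Fin (n * d), Pairs.Adm d n l ((x : ℕ), (y : ℕ)) ∧
        (∀ b, |KR P d n b l x y| ≤ 1 / 5) ∧ (∀ b, |KR P d n b l x x * KR P d n b l y y| ≤ 1 / 10) ∧
        ∀ f ∈ F, f.val n (((x : ℕ), (y : ℕ)) :: l) ≤ -(1 / ((n : ℝ) + 2) ^ c))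
    (hbnd : ∀ n, n0 ≤ n → Even n → ∀ l, St P d F n l → l.length < T n → ∀ b,
      Matrix.trace (KR P d n b l ^ 2) ≤ ((n : ℝ) + 2) ^ c) :
    ∃ S : Mach.Spec d, S.P = P ∧ S.cs = csOf F ∧ S.T = T ∧ S.n0 = n0 := by
  have hpos : ∀ n : ℕ, n0 ≤ n → 0 < n * d := fun n hn => Nat.mul_pos (lt_of_lt_of_le hn0 hn) hd
  refine ⟨{ P := P, cs := csOf F, T := T, T_ptf := T_ptf, T_le := T_le, c := c, n0 := n0,
            step := ?_, bndK := ?_, bndD := ?_ }, rfl, rfl, rfl, rfl⟩
  · intro n hn hev l hG hlen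
    have hst := st_of_good (hpos n hn) (h0 n hn hev) l hG
    obtain ⟨x, y, hadm, hk1, hk2, hf⟩ := hstep n hn hev l hst hlen
    have hη : 1 / ((n : ℝ) + 2) ^ c ≤ 1 / 5 := by
      have hn1 : (1 : ℝ) ≤ n := by exact_mod_cast Nat.one_le_iff_ne_zero.mpr (by omega)
      have h3 : (3 : ℝ) ≤ (n : ℝ) + 2 := by linarith
      have h9 : (5 : ℝ) ≤ ((n : ℝ) + 2) ^ c := by
        calc (5 : ℝ) ≤ ((n : ℝ) + 2) ^ 2 := by nlinarith
          _ ≤ ((n : ℝ) + 2) ^ c := pow_le_pow_right₀ (by linarith) hc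
      exact one_div_le_one_div_of_le (by norm_num) h9
    refine ⟨((x : ℕ), (y : ℕ)), hadm, ?_⟩
    apply holds_of_sc
    intro a ha
    unfold csOf at ha
    rw [List.mem_append] at ha
    have key1 : ∀ b, ((4 * P.K d n b l x y) ^ 2 - 1) ≤ -(1 / ((n : ℝ) + 2) ^ c) := fun b => by
      have h1 : |P.K d n b l x y| ≤ 1 / 5 := hk1 b
      rw [abs_le] at h1
      nlinarith [h1.1, h1.2]
    have key2 : ∀ b, (8 * (P.K d n b l x x * P.K d n b l y y) - 1) ≤ -(1 / ((n : ℝ) + 2) ^ c) ∧
        (-8 * (P.K d n b l x x * P.K d n b l y y) - 1) ≤ -(1 / ((n : ℝ) + 2) ^ c) := fun b => by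
      have h1 : |P.K d n b l x x * P.K d n b l y y| ≤ 1 / 10 := hk2 b
      rw [abs_le] at h1
      constructor <;> linarith [h1.1, h1.2]
    rcases ha with ha | ha
    · simp only [List.mem_cons, List.not_mem_nil, or_false] at ha
      rcases ha with rfl | rfl | rfl | rfl | rfl | rfl
      · exact ⟨_, sc_c1E true, key1 true⟩
      · exact ⟨_, sc_c1E false, key1 false⟩
      · exact ⟨_, sc_c2E true 8, by push_cast; exact (key2 true).1⟩
      · exact ⟨_, sc_c2E true (-8), by push_cast; exact (key2 true).2⟩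
      · exact ⟨_, sc_c2E false 8, by push_cast; exact (key2 false).1⟩
      · exact ⟨_, sc_c2E false (-8), by push_cast; exact (key2 false).2⟩
    · rw [List.mem_map] at ha
      obtain ⟨f, hfF, rfl⟩ := ha
      exact ⟨_, f.sc n l _, hf f hfF⟩
  · intro n hn hev l hG hlen p _ _ b i hi j hj
    have hst := st_of_good (hpos n hn) (h0 n hn hev) l hG
    have h1 := hbnd n hn hev l hst hlen b
    have hsym := Kmat_symm (P.gam.v n) (sg b) (P.mu.v n) n d l
    have h2 : Matrix.trace (KR P d n b l ^ 2) = ∑ i, ∑ j, KR P d n b l i j ^ 2 := by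
      rw [pow_two, Matrix.trace]
      refine Finset.sum_congr rfl fun i _ => ?_
      rw [Matrix.diag_apply, Matrix.mul_apply]
      refine Finset.sum_congr rfl fun j _ => ?_
      have : KR P d n b l j i = KR P d n b l i j := hsym.apply i j
      rw [this, pow_two]
    rw [h2] at h1
    set i' : Fin (n * d) := ⟨i, hi⟩
    set j' : Fin (n * d) := ⟨j, hj⟩
    have h3 : KR P d n b l i' j' ^ 2 ≤ ((n : ℝ) + 2) ^ c := by
      refine le_trans ?_ h1
      refine le_trans ?_ (Finset.single_le_sum (f := fun i => ∑ j, KR P d n b l i j ^ 2)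
        (fun i _ => Finset.sum_nonneg fun j _ => sq_nonneg _) (Finset.mem_univ i'))
      exact Finset.single_le_sum (f := fun j => KR P d n b l i' j ^ 2)
        (fun j _ => sq_nonneg _) (Finset.mem_univ j')
    have h4 : KR P d n b l i' j' = P.K d n b l i j := rfl
    rw [h4] at h3
    have h5 : (1 : ℝ) ≤ ((n : ℝ) + 2) ^ c := one_le_pow₀ (by
      have : (0 : ℝ) ≤ n := Nat.cast_nonneg n
      linarith)
    have h6 : |P.K d n b l i j| ^ 2 ≤ (((n : ℝ) + 2) ^ c) ^ 2 := by
      rw [sq_abs]; nlinarith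
    exact (pow_le_pow_iff_left₀ (abs_nonneg _) (by linarith) two_ne_zero).mp h6
  · intro n hn hev l hG hlen p hadm hH b
    have hst := st_of_good (hpos n hn) (h0 n hn hev) (p :: l) ⟨hG, hadm, hH⟩
    exact hst.del b p l (List.suffix_refl _)

open Classical in
/-- S0084 from the machine theorem and the step theorem -/
theorem final {d : ℕ} (hd : 3 ≤ d) (P : Par) (F : List (Pot P d)) (T : ℕ → ℕ)
    (T_ptf : PTF (fun n : Un => T n.val)) (T_le : ∀ n, 2 * T n ≤ n * d) (c n0 : ℕ) (hn0 : 0 < n0)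
    (hc : 2 ≤ c)
    (hmach : ∀ S : Mach.Spec d, ∃ n2 : ℕ, ∃ sel : Un → List (ℕ × ℕ), PTF sel ∧ ∀ n, n2 ≤ n →
      Even n → Mach.Good S.P d n S.cs (sel ⟨n⟩) ∧ (sel ⟨n⟩).length = S.T n)
    (hγ : ∀ n, n0 ≤ n → Even n → 0 < P.gam.v n ∧ P.gam.v n < 1 ∧
      0 < 2 * Real.sqrt ((d : ℝ) - 1) - P.gam.v n * d)
    (hμ : ∀ n, n0 ≤ n → Even n → P.mu.v n = Glue.muOf d (P.gam.v n))
    (hT : ∀ n, n0 ≤ n → Even n → 2 * T n + EndComplete.thr d ≤ n * d + 1)
    (h0 : ∀ n, n0 ≤ n → Even n → ∀ f ∈ F, f.val n [] ≤ 0)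
    (hstep : ∀ n, n0 ≤ n → Even n → ∀ l, St P d F n l → l.length < T n →
      ∃ x y : Fin (n * d), Pairs.Adm d n l ((x : ℕ), (y : ℕ)) ∧
        (∀ b, |KR P d n b l x y| ≤ 1 / 5) ∧ (∀ b, |KR P d n b l x x * KR P d n b l y y| ≤ 1 / 10) ∧
        ∀ f ∈ F, f.val n (((x : ℕ), (y : ℕ)) :: l) ≤ -(1 / ((n : ℝ) + 2) ^ c))
    (hbnd : ∀ n, n0 ≤ n → Even n → ∀ l, St P d F n l → l.length < T n → ∀ b,
      Matrix.trace (KR P d n b l ^ 2) ≤ ((n : ℝ) + 2) ^ c)
    (hend : ∀ n, n0 ≤ n → Even n → ∀ l, St P d F n l → l.length = T n → ∀ b,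
      Matrix.trace (KR P d n b l ^ 2) < 2) :
    ∃ n₀ : ℕ, ∃ F : List Bool → List Bool, Crest.Complexity.PolyTime F ∧
      ∀ n : ℕ, n₀ ≤ n → Even n →
        (Crest.CombinatoricsR.GraphCode.adjGraph n
            (F (Crest.CombinatoricsR.GraphCode.unary n))).IsRegularOfDegree d ∧
        ∀ x : Fin n → ℝ, ∑ i, x i = 0 → x ≠ 0 →
          |x ⬝ᵥ ((Crest.CombinatoricsR.GraphCode.adjGraph n
              (F (Crest.CombinatoricsR.GraphCode.unary n))).adjMatrix ℝ *ᵥ x)| <
            2 * Real.sqrt ((d : ℝ) - 1) * (x ⬝ᵥ x) := by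
  obtain ⟨S, hSP, hScs, hST, hSn⟩ := mkSpec (by omega : 0 < d) P F T T_ptf T_le c n0 hn0 hc h0 hstep
    hbnd
  refine Glue.glue hd S n0 (hmach S) (by rw [hSP]; exact hγ) (by rw [hSP]; exact hμ)
    (by rw [hST]; exact hT) ?_
  intro n hn hev l hG hlen b
  rw [hSP, hScs] at hG
  rw [hST] at hlen
  have hnd : 0 < n * d := Nat.mul_pos (lt_of_lt_of_le hn0 hn) (by omega)
  have hst := st_of_good hnd (h0 n hn hev) l hG
  have h1 := hend n hn hev l hst hlen b
  have hsym := Kmat_symm (P.gam.v n) (sg b) (P.mu.v n) n d l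
  have h2 : Matrix.trace (KR P d n b l ^ 2) = ∑ i, ∑ j, KR P d n b l i j ^ 2 := by
    rw [pow_two, Matrix.trace]
    refine Finset.sum_congr rfl fun i _ => ?_
    rw [Matrix.diag_apply, Matrix.mul_apply]
    refine Finset.sum_congr rfl fun j _ => ?_
    have : KR P d n b l j i = KR P d n b l i j := hsym.apply i j
    rw [this, pow_two]
  rw [h2] at h1
  rw [hSP]
  rw [Finset.sum_range]
  refine lt_of_eq_of_lt ?_ h1
  refine Finset.sum_congr rfl fun i _ => ?_
  rw [Finset.sum_range]
  rfl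

end Crest.Agent.R62.SpecOf
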