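import Crest.Agent.R62.X3Upd
import Crest.Agent.R62.AvX2
import Crest.Agent.R62.Barrier
import Crest.Agent.R62.TiltK

-- ▼ part R62/X2Upd
section

/-!
R62 (helper420): exact one-step change of `X_2 = Tr K^2`:
`Tr (upd s K x y)^2 = Tr K^2 - 2 + f2 s K x y`.
-/

set_option autoImplicit false
set_option linter.unusedSectionVars false
set_option linter.unusedVariables false

open Matrix Finset

namespace Crest.Agent.R62.X2Upd

open Crest.Agent.R62.Upd Crest.Agent.R62.X3Upd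

variable {ι : Type*} [Fintype ι] [DecidableEq ι]

lemma sum_Khat_x {s : ℝ} {K : Matrix ι ι ℝ} {x y : ι} (hs : s ^ 2 = 1) (hK : K.IsSymm)
    (hD : Upd.Dl s K x y ≠ 0) :
    ∑ j, Khat s K x y j x * Khat s K x y j x
      = Bxy s K x y ^ 2 * (K ^ 2) x x + 2 * Bxy s K x y * Byy s K x y * (K ^ 2) x y
        + Byy s K x y ^ 2 * (K ^ 2) y y := by
  have h11 : ∀ u v, ∑ j, K j u * K j v = (K ^ 2) u v := by
    intro u v
    have := X3Upd.sum_col hK 1 1 u v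
    simpa using this
  have e : ∀ j, Khat s K x y j x * Khat s K x y j x
      = Bxy s K x y ^ 2 * (K j x * K j x) + 2 * Bxy s K x y * Byy s K x y * (K j x * K j y)
        + Byy s K x y ^ 2 * (K j y * K j y) := by
    intro j
    rw [colx hs hK hD]
    linear_combination ((Bxy s K x y * K j x + Byy s K x y * K j y) ^ 2) * hs
  simp_rw [e]
  simp only [Finset.sum_add_distrib, ← Finset.mul_sum, h11]

lemma sum_Khat_y {s : ℝ} {K : Matrix ι ι ℝ} {x y : ι} (hs : s ^ 2 = 1) (hK : K.IsSymm)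
    (hD : Upd.Dl s K x y ≠ 0) :
    ∑ j, Khat s K x y j y * Khat s K x y j y
      = Bxx s K x y ^ 2 * (K ^ 2) x x + 2 * Bxx s K x y * Bxy s K x y * (K ^ 2) x y
        + Bxy s K x y ^ 2 * (K ^ 2) y y := by
  have h11 : ∀ u v, ∑ j, K j u * K j v = (K ^ 2) u v := by
    intro u v
    have := X3Upd.sum_col hK 1 1 u v
    simpa using this
  have e : ∀ j, Khat s K x y j y * Khat s K x y j y
      = Bxx s K x y ^ 2 * (K j x * K j x) + 2 * Bxx s K x y * Bxy s K x y * (K j x * K j y)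
        + Bxy s K x y ^ 2 * (K j y * K j y) := by
    intro j
    rw [coly hs hK hD]
    linear_combination ((Bxx s K x y * K j x + Bxy s K x y * K j y) ^ 2) * hs
  simp_rw [e]
  simp only [Finset.sum_add_distrib, ← Finset.mul_sum, h11]

theorem X2_upd {s : ℝ} (hs : s ^ 2 = 1) {K : Matrix ι ι ℝ} (hK : K.IsSymm) {x y : ι}
    (hxy : x ≠ y) (hD : Upd.Dl s K x y ≠ 0) :
    ip (upd s K x y) (upd s K x y) = ip K K - 2
      + 2 * t1 (Bxx s K x y) (Bxy s K x y) (Byy s K x y) ((K ^ 3) x x - K x x)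
          ((K ^ 3) x y - K x y) ((K ^ 3) y y - K y y)
      + t2 (Bxx s K x y) (Bxy s K x y) (Byy s K x y) ((K ^ 2) x x - 1)
          ((K ^ 2) x y) ((K ^ 2) y y - 1) ((K ^ 2) x x - 1) ((K ^ 2) x y) ((K ^ 2) y y - 1) := by
  have h1 := rel1 (x := x) (y := y) hs hD
  have h4 := rel4 (x := x) (y := y) hs hD
  have e3 : K * K * K = K ^ 3 := by rw [pow_succ, pow_two]
  have e2 : K * K = K ^ 2 := (pow_two K).symm
  have e3' : K ^ 2 * K = K ^ 3 := (pow_succ K 2).symm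
  have hyx : (K ^ 2) y x = (K ^ 2) x y := (pow_symm hK 2).apply x y
  rw [upd, ip_Pi2 hxy (Khat_symm s hK x y) (Khat_symm s hK x y), ip_Khat_Khat s s hK hK,
    sum_Khat_x hs hK hD, sum_Khat_y hs hK hD, K_xx hs hK hD, K_xy hs hK hD, K_yy hs hK hD]
  simp only [e2, e3', hyx, t1, t2]
  linear_combination (2 : ℝ) * h1 + 2 * h4 + 2 * hs

theorem f2_eq {s : ℝ} (hs : s ^ 2 = 1) {K : Matrix ι ι ℝ} {x y : ι}
    (hD : Upd.Dl s K x y ≠ 0) :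
    AvX2.f2 s K x y = 2 * t1 (Bxx s K x y) (Bxy s K x y) (Byy s K x y) ((K ^ 3) x x - K x x)
          ((K ^ 3) x y - K x y) ((K ^ 3) y y - K y y)
      + t2 (Bxx s K x y) (Bxy s K x y) (Byy s K x y) ((K ^ 2) x x - 1)
          ((K ^ 2) x y) ((K ^ 2) y y - 1) ((K ^ 2) x x - 1) ((K ^ 2) x y) ((K ^ 2) y y - 1) := by
  have hD' : AvX2.Dl s K x y = Upd.Dl s K x y := rfl
  have hDef : Upd.Dl s K x y = (1 - s * K x y) ^ 2 - K x x * K y y := rfl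
  unfold AvX2.f2 AvX2.E3 AvX2.S2 AvX2.P2 AvX2.T2 t1 t2 Bxx Bxy Byy
  rw [hD']
  set D := Upd.Dl s K x y with hDd
  generalize hp2 : (K ^ 2) x x - 1 = h1
  generalize hq2 : (K ^ 2) y y - 1 = h3
  generalize hc2 : (K ^ 2) x y = h2
  generalize ht3 : (K ^ 3) x x - K x x = g1
  generalize hu3 : (K ^ 3) y y - K y y = g3
  generalize hc3 : (K ^ 3) x y - K x y = g2
  generalize ha : K x x = a at *
  generalize hb : K y y = b at *
  generalize hc : K x y = c at *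
  field_simp
  have key : D * (h1 * h3 - h2 ^ 2) * 2 =
      2 * (s ^ 2 * (1 - s * c) ^ 2 - a * b) * (h1 * h3 - h2 ^ 2) := by
    rw [hDef, hs]; ring
  linear_combination key

theorem trace_sq_upd {s : ℝ} (hs : s ^ 2 = 1) {K : Matrix ι ι ℝ} (hK : K.IsSymm) {x y : ι}
    (hxy : x ≠ y) (hD : Upd.Dl s K x y ≠ 0) :
    ((upd s K x y) ^ 2).trace = (K ^ 2).trace - 2 + AvX2.f2 s K x y := by
  have h1 : ((upd s K x y) ^ 2).trace = ip (upd s K x y) (upd s K x y) := by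
    rw [ip_eq_trace, (upd_symm s hK x y).eq, pow_two]
  have h2 : (K ^ 2).trace = ip K K := by
    rw [ip_eq_trace, hK.eq, pow_two]
  rw [h1, h2, X2_upd hs hK hxy hD, f2_eq hs hD]
  ring

end Crest.Agent.R62.X2Upd
end

-- ▼ part R62/X2Drift
section

/-!
R62 (helper420): weighted one-step averages of `X_2` in normalised form, ready for
`Barrier.quad_step`.
-/

set_option autoImplicit false
set_option linter.unusedSectionVars false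
set_option linter.unusedVariables false

open Matrix Finset

namespace Crest.Agent.R62.X2Drift

open Crest.Agent.R62.AvX2 Crest.Agent.R62.AvBase

variable {ι : Type*} [Fintype ι] [DecidableEq ι]

/-- constructor of the numerical hypotheses from an operator norm bound, `X_2, X_4, V, W, R_2` -/
theorem Bd.of {K : Matrix ι ι ℝ} {F : Finset ι} {s N2 N4 v r R2 L : ℝ} (hK : Kᵀ = K)
    (hd : ∀ x, x ∉ F → ∀ y, K x y = 0) (hr : ∀ x ∈ F, ∑ y, K x y = s) (hs : s ^ 2 = 1)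
    (hL : OpB K L) (h2 : 0 ≤ N2) (h4 : 0 ≤ N4) (hv : 0 ≤ v) (hr0 : 0 ≤ r)
    (X2 : (K ^ 2).trace ≤ N2 ^ 2) (X4 : (K ^ 4).trace ≤ N4 ^ 2)
    (V : ∑ x ∈ F, (K x x) ^ 2 ≤ v ^ 2) (R : ∑ x ∈ F, ((K ^ 2) x x - 1) ^ 2 ≤ r ^ 2)
    (Rq : ∑ x ∈ F, ((K ^ 2) x x) ^ 2 ≤ R2) :
    Bd K F s N2 N4 (L * N4) v r (Real.sqrt (2 * (L ^ 2 * R2) + 2 * v ^ 2)) := by
  have hR2 : 0 ≤ R2 := le_trans (Finset.sum_nonneg fun _ _ => sq_nonneg _) Rq
  refine ⟨hK, hd, hr, hs, h2, h4, mul_nonneg hL.1 h4, hv, hr0, Real.sqrt_nonneg _, X2, X4, ?_, V, R,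
    ?_⟩
  · have h := trace_six_le hK hL
    calc (K ^ 6).trace ≤ L ^ 2 * (K ^ 4).trace := h
      _ ≤ L ^ 2 * N4 ^ 2 := mul_le_mul_of_nonneg_left X4 (sq_nonneg L)
      _ = (L * N4) ^ 2 := by ring
  · have h0 : 0 ≤ 2 * (L ^ 2 * R2) + 2 * v ^ 2 := by positivity
    rw [Real.sq_sqrt h0]
    have h1 : ∀ x ∈ F, ((K ^ 3) x x - K x x) ^ 2
        ≤ 2 * (L ^ 2 * ((K ^ 2) x x) ^ 2) + 2 * (K x x) ^ 2 := by
      intro x _
      have h3 := abs_diag_le hK hL 1 x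
      simp only [Nat.reduceAdd, pow_one] at h3
      have h4 : ((K ^ 3) x x) ^ 2 ≤ L ^ 2 * ((K ^ 2) x x) ^ 2 := by
        have h5 : ((K ^ 3) x x) ^ 2 = |(K ^ 3) x x| ^ 2 := (sq_abs _).symm
        rw [h5, ← mul_pow]
        exact pow_le_pow_left₀ (abs_nonneg _) h3 2
      nlinarith [sq_nonneg ((K ^ 3) x x + K x x)]
    calc ∑ x ∈ F, ((K ^ 3) x x - K x x) ^ 2
        ≤ ∑ x ∈ F, (2 * (L ^ 2 * ((K ^ 2) x x) ^ 2) + 2 * (K x x) ^ 2) := Finset.sum_le_sum h1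
      _ = 2 * (L ^ 2 * ∑ x ∈ F, ((K ^ 2) x x) ^ 2) + 2 * ∑ x ∈ F, (K x x) ^ 2 := by
          rw [Finset.sum_add_distrib, Finset.mul_sum, Finset.mul_sum, Finset.mul_sum]
      _ ≤ _ := by
          have := mul_le_mul_of_nonneg_left Rq (sq_nonneg L)
          linarith


/-- total error of the weighted sum of `f2`; `T1` bounds the first order tilt term,
`|Θ| ≤ η`, `∑ Θ² ≤ t²`, complement of the pair set `≤ β²` -/
noncomputable def Err (N2 N4 N6 v r w β η t T1 : ℝ) : ℝ :=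
  Rem N2 N4 N6 v r w + Bias N2 N4 N6 v r w β + T1
    + (η * (4 * (N2 * (2 * (N6 + N2))) + 2 * N4 ^ 2 + Rem N2 N4 N6 v r w)
        + 2 * (t * r ^ 2) + 2 * (t * (2 * v * w)))

section

variable {K : Matrix ι ι ℝ} {F : Finset ι} {s N2 N4 N6 v r w : ℝ}

theorem sum_w (h : Bd K F s N2 N4 N6 v r w) {A : Finset (ι × ι)} (hA : A ⊆ F ×ˢ F)
    (hc : ∀ p ∈ A, |K p.1 p.2| ≤ 1 / 5) (hab : ∀ p ∈ A, |K p.1 p.1 * K p.2 p.2| ≤ 1 / 10)
    {β : ℝ} (hβ : 0 ≤ β) (hcard : (((F ×ˢ F) \ A).card : ℝ) ≤ β ^ 2)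
    (Θ : ι → ι → ℝ) {η t T1 : ℝ} (hη : 0 ≤ η) (ht : 0 ≤ t) (hΘ : ∀ p ∈ A, |Θ p.1 p.2| ≤ η)
    (hΘ2 : ∑ p ∈ A, (Θ p.1 p.2) ^ 2 ≤ t ^ 2)
    (hT1 : |4 * s * ∑ p ∈ A, Θ p.1 p.2 * E3 K p.1 p.2| ≤ T1) :
    |∑ p ∈ A, (1 - Θ p.1 p.2) * f2 s K p.1 p.2 - (6 * (K ^ 4).trace - 4 * (K ^ 2).trace
        + 2 * ((K ^ 2).trace - F.card) ^ 2 + 4 * K.trace * ((K ^ 3).trace - K.trace))|
      ≤ Err N2 N4 N6 v r w β η t T1 := by
  have h1 := sum_f2 h hA hc hab hβ hcard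
  have h2 := sum_tilt h hA hc hab Θ hη ht hΘ hΘ2
  have e : ∑ p ∈ A, (1 - Θ p.1 p.2) * f2 s K p.1 p.2
      = ∑ p ∈ A, f2 s K p.1 p.2 - ∑ p ∈ A, Θ p.1 p.2 * f2 s K p.1 p.2 := by
    rw [← Finset.sum_sub_distrib]
    exact Finset.sum_congr rfl fun p _ => by ring
  rw [e]
  rw [abs_le] at h1 h2 hT1 ⊢
  unfold Err
  constructor <;> linarith [h1.1, h1.2, h2.1, h2.2, hT1.1, hT1.2]



/-- bound for the unnormalised second moment -/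
noncomputable def Q2 (N2 N6 v r w q κ : ℝ) : ℝ :=
  500 * (2 * (N6 + N2)) ^ 2 + 14580 * q ^ 2 + 80 * (2 * v * w) ^ 2 + 80 * (r ^ 2) ^ 2
        + 320 * (κ * (2 * v * r) ^ 2)


end

end Crest.Agent.R62.X2Drift
end

-- ▼ part R62/X2Pot
section

/-!
R62 (helper420): one step of the quadratic potentials for `X_2` (upper and lower barrier
`phi2 r ρ = ρ²/(ρ+r)`), from the normalised averages of `X2Drift`.
-/
namespace Crest.Agent.R62.X2Pot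
end Crest.Agent.R62.X2Pot
end

-- ▼ part R62/X2Tilt
section

/-!
R62 (helper420): the first order effect of a tilt on `X_2`.
-/

set_option autoImplicit false
set_option linter.unusedSectionVars false
set_option linter.unusedVariables false

open Matrix Finset

namespace Crest.Agent.R62.X2Tilt

open Crest.Agent.R62.AvX2 Crest.Agent.R62.AvBase Crest.Agent.R62.TiltK

variable {ι : Type*} [Fintype ι] [DecidableEq ι]

lemma sum_A_eq {A : Finset (ι × ι)} {Θ : Matrix ι ι ℝ} (h0 : ∀ x y, (x, y) ∉ A → Θ x y = 0)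
    (g : ι → ι → ℝ) : ∑ p ∈ A, Θ p.1 p.2 * g p.1 p.2 = ∑ x, ∑ y, Θ x y * g x y := by
  rw [← Finset.sum_product']
  refine Finset.sum_subset (Finset.subset_univ A) fun p _ hp => ?_
  rw [h0 p.1 p.2 hp, zero_mul]

lemma abs_s {s : ℝ} (hs : s ^ 2 = 1) : |s| = 1 := by
  have h1 : |s| ^ 2 = 1 := by rw [sq_abs]; exact hs
  have h2 : 0 ≤ |s| := abs_nonneg s
  nlinarith

/-- general form: `a1` bounds `|∑ Θ K³|` -/
theorem T1_gen {K : Matrix ι ι ℝ} {F : Finset ι} {s N2 N4 N6 v r w : ℝ}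
    (h : Bd K F s N2 N4 N6 v r w) {A : Finset (ι × ι)} {Θ : Matrix ι ι ℝ}
    (h0 : ∀ x y, (x, y) ∉ A → Θ x y = 0) {a1 t : ℝ} (ht : 0 ≤ t)
    (hΘ2 : ∑ x, ∑ y, (Θ x y) ^ 2 ≤ t ^ 2) (h1 : |∑ x, ∑ y, Θ x y * (K ^ 3) x y| ≤ a1) :
    |4 * s * ∑ p ∈ A, Θ p.1 p.2 * E3 K p.1 p.2| ≤ 4 * (a1 + t * N2) := by
  rw [sum_A_eq h0, abs_mul, abs_mul, abs_s h.ss, abs_of_pos (by norm_num : (0:ℝ) < 4), mul_one]
  have e1 : ∑ x, ∑ y, Θ x y * E3 K x y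
      = ∑ x, ∑ y, Θ x y * (K ^ 3) x y - ∑ x, ∑ y, Θ x y * K x y := by
    rw [← Finset.sum_sub_distrib]
    refine Finset.sum_congr rfl fun x _ => ?_
    rw [← Finset.sum_sub_distrib]
    exact Finset.sum_congr rfl fun y _ => by simp only [E3]; ring
  have h2 : |∑ x, ∑ y, Θ x y * K x y| ≤ t * N2 := by
    refine abs_ip_le ⟨ht, hΘ2⟩ ⟨h.n2, ?_⟩
    rw [frob_sq h.symm]; exact h.X2
  rw [e1]
  have h3 := abs_sub (∑ x, ∑ y, Θ x y * (K ^ 3) x y) (∑ x, ∑ y, Θ x y * K x y)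
  nlinarith

/-- operator norm form -/
theorem T1_op {K : Matrix ι ι ℝ} {F : Finset ι} {s N2 N4 N6 v r w : ℝ}
    (h : Bd K F s N2 N4 N6 v r w) {A : Finset (ι × ι)} {Θ : Matrix ι ι ℝ}
    (h0 : ∀ x y, (x, y) ∉ A → Θ x y = 0) {N t : ℝ} (ht : 0 ≤ t)
    (hΘ2 : ∑ x, ∑ y, (Θ x y) ^ 2 ≤ t ^ 2) (hN : OpB Θ N) :
    |4 * s * ∑ p ∈ A, Θ p.1 p.2 * E3 K p.1 p.2| ≤ 4 * (N * N2 * N4 + t * N2) := by
  refine T1_gen h h0 ht hΘ2 ?_
  have h1 := ip_mul_le hN K (K ^ 2)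
  have e1 : K * K ^ 2 = K ^ 3 := (pow_succ' K 2).symm
  rw [e1] at h1
  refine h1.trans ?_
  have hK2 : Real.sqrt (∑ x, ∑ y, K x y ^ 2) ≤ N2 := by
    rw [frob_sq h.symm]
    exact Real.sqrt_le_iff.mpr ⟨h.n2, h.X2⟩
  have hK4 : Real.sqrt (∑ x, ∑ y, (K ^ 2) x y ^ 2) ≤ N4 := by
    rw [frob_sq (symm_pow h.symm 2), ← pow_mul]
    exact Real.sqrt_le_iff.mpr ⟨h.n4, h.X4⟩
  have hN0 := hN.1
  rw [mul_assoc]
  exact mul_le_mul_of_nonneg_left (mul_le_mul hK2 hK4 (Real.sqrt_nonneg _) h.n2) hN0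


end Crest.Agent.R62.X2Tilt
end

-- ▼ part R62/X2Num

/-!
R62 (helper420): numeric part of the `X_2` pieces, table helper800 #4644
(`m = nthRoot 1000 n`; `g = √ρ`).
-/

set_option autoImplicit false
set_option linter.unusedSectionVars false
set_option linter.unusedVariables false

open Matrix Finset

namespace Crest.Agent.R62.X2Num

open Crest.Agent.R62.AvX2 Crest.Agent.R62.AvBase Crest.Agent.R62.X2Drift Crest.Agent.R62.X2Pot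
open Crest.Agent.R62.Barrier

lemma pw {m : ℝ} (hm : 1 ≤ m) {a b : ℕ} (h : a ≤ b) : m ^ a ≤ m ^ b :=
  pow_le_pow_right₀ hm h

lemma cm {m C : ℝ} (hm : 1 ≤ m) (hC : C ≤ m) {a b : ℕ} (h : a + 1 ≤ b) : C * m ^ a ≤ m ^ b := by
  have h0 : 0 ≤ m ^ a := by positivity
  calc C * m ^ a ≤ m * m ^ a := mul_le_mul_of_nonneg_right hC h0
    _ = m ^ (a + 1) := by ring
    _ ≤ m ^ b := pw hm h

/-- comparisons with `m^b g²`, `g ≥ m^k` -/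
lemma c1 {m C g : ℝ} {k : ℕ} (hm : 1 ≤ m) (hC : C ≤ m) (hg : m ^ k ≤ g) {a b : ℕ}
    (h : a + 1 ≤ b + k) : C * (m ^ a * g) ≤ m ^ b * g ^ 2 := by
  have h0 : 0 ≤ m ^ b := by positivity
  have hg0 : 0 ≤ g := le_trans (by positivity) hg
  have h1 : C * m ^ a ≤ m ^ b * g :=
    calc C * m ^ a ≤ m ^ (b + k) := cm hm hC h
      _ = m ^ b * m ^ k := pow_add m b k
      _ ≤ m ^ b * g := mul_le_mul_of_nonneg_left hg h0
  calc C * (m ^ a * g) = C * m ^ a * g := by ring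
    _ ≤ m ^ b * g * g := mul_le_mul_of_nonneg_right h1 hg0
    _ = _ := by ring

lemma c0 {m C g : ℝ} {k : ℕ} (hm : 1 ≤ m) (hC : C ≤ m) (hg : m ^ k ≤ g) {a b : ℕ}
    (h : a + 1 ≤ b + 2 * k) : C * m ^ a ≤ m ^ b * g ^ 2 := by
  have h0 : 0 ≤ m ^ b := by positivity
  have h3 : (0:ℝ) ≤ m ^ k := by positivity
  have hg2 : m ^ (2 * k) ≤ g ^ 2 := by
    calc m ^ (2 * k) = (m ^ k) ^ 2 := by rw [← pow_mul, mul_comm]
      _ ≤ g ^ 2 := pow_le_pow_left₀ h3 hg 2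
  calc C * m ^ a ≤ m ^ (b + 2 * k) := cm hm hC h
    _ = m ^ b * m ^ (2 * k) := pow_add m b (2 * k)
    _ ≤ m ^ b * g ^ 2 := mul_le_mul_of_nonneg_left hg2 h0

lemma c2 {m C g : ℝ} (hm : 1 ≤ m) (hC : C ≤ m) {a b : ℕ}
    (h : a + 1 ≤ b) : C * (m ^ a * g ^ 2) ≤ m ^ b * g ^ 2 := by
  have := mul_le_mul_of_nonneg_right (cm hm hC h) (sq_nonneg g)
  calc C * (m ^ a * g ^ 2) = C * m ^ a * g ^ 2 := by ring
    _ ≤ _ := this

lemma Rem_mono {N2 N4 N6 v r w w' : ℝ} (h2 : 0 ≤ N2) (h4 : 0 ≤ N4) (h6 : 0 ≤ N6) (hv : 0 ≤ v)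
    (hr : 0 ≤ r) (hw : 0 ≤ w) (h : w ≤ w') : Rem N2 N4 N6 v r w ≤ Rem N2 N4 N6 v r w' := by
  unfold Rem
  have h1 : (N2 + v ^ 2) * (2 * v * w) ≤ (N2 + v ^ 2) * (2 * v * w') :=
    mul_le_mul_of_nonneg_left (mul_le_mul_of_nonneg_left h (by positivity)) (by positivity)
  linarith

lemma Bias_mono {N2 N4 N6 v r w w' β : ℝ} (hv : 0 ≤ v) (hβ : 0 ≤ β)
    (h : w ≤ w') : Bias N2 N4 N6 v r w β ≤ Bias N2 N4 N6 v r w' β := by
  unfold Bias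
  have h1 : β * (2 * v * w) ≤ β * (2 * v * w') :=
    mul_le_mul_of_nonneg_left (mul_le_mul_of_nonneg_left h (by positivity)) (by positivity)
  linarith

/-! ### stage 1: `g ≥ m^400`, `N2 = 2g`, `N4 = m^602`, `N6 = m^903`, `v = m^5`, `r = m^310`,
`w ≤ m^302 g`, `β = m g`, `t = m^566` -/

lemma Rem1 {m g w : ℝ} (hm : 1000 ≤ m) (hg : m ^ 400 ≤ g) (hw : 0 ≤ w)
    (hw1 : w ≤ m ^ 302 * g) :
    Rem (2 * g) (m ^ 602) (m ^ 903) (m ^ 5) (m ^ 310) w ≤ m ^ 600 * g ^ 2 := by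
  have hm1 : 1 ≤ m := by linarith
  have hm0 : 0 < m := by linarith
  have hg0 : 0 < g := lt_of_lt_of_le (by positivity) hg
  refine (Rem_mono (by positivity) (by positivity) (by positivity) (by positivity)
    (by positivity) hw hw1).trans ?_
  have e : Rem (2 * g) (m ^ 602) (m ^ 903) (m ^ 5) (m ^ 310) (m ^ 302 * g)
      = 10 * (m ^ 903 * g) + 20 * (m ^ 0 * g ^ 2) + 20 * m ^ 913 + 40 * (m ^ 10 * g)
        + 85 / 8 * m ^ 1204 + 136 * (m ^ 307 * g ^ 2) + 68 * (m ^ 317 * g)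
        + 68 * (m ^ 620 * g) + 34 * m ^ 630 + 40 * m ^ 917 + 16 * m ^ 630 := by
    unfold Rem; ring
  rw [e]
  have t1 : 10 * (m ^ 903 * g) ≤ m ^ 599 * g ^ 2 := c1 hm1 (by linarith) hg (by norm_num)
  have t2 : 20 * (m ^ 0 * g ^ 2) ≤ m ^ 599 * g ^ 2 := c2 hm1 (by linarith) (by norm_num)
  have t3 : 20 * m ^ 913 ≤ m ^ 599 * g ^ 2 := c0 hm1 (by linarith) hg (by norm_num)
  have t4 : 40 * (m ^ 10 * g) ≤ m ^ 599 * g ^ 2 := c1 hm1 (by linarith) hg (by norm_num)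
  have t5 : 85 / 8 * m ^ 1204 ≤ m ^ 599 * g ^ 2 := c0 hm1 (by linarith) hg (by norm_num)
  have t6 : 136 * (m ^ 307 * g ^ 2) ≤ m ^ 599 * g ^ 2 := c2 hm1 (by linarith) (by norm_num)
  have t7 : 68 * (m ^ 317 * g) ≤ m ^ 599 * g ^ 2 := c1 hm1 (by linarith) hg (by norm_num)
  have t8 : 68 * (m ^ 620 * g) ≤ m ^ 599 * g ^ 2 := c1 hm1 (by linarith) hg (by norm_num)
  have t9 : 34 * m ^ 630 ≤ m ^ 599 * g ^ 2 := c0 hm1 (by linarith) hg (by norm_num)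
  have t10 : 40 * m ^ 917 ≤ m ^ 599 * g ^ 2 := c0 hm1 (by linarith) hg (by norm_num)
  have t11 : 16 * m ^ 630 ≤ m ^ 599 * g ^ 2 := c0 hm1 (by linarith) hg (by norm_num)
  have t : 11 * (m ^ 599 * g ^ 2) ≤ m ^ 600 * g ^ 2 := c2 hm1 (by linarith) (by norm_num)
  linarith

lemma Bias1 {m g w : ℝ} (hm : 1000 ≤ m) (hg : m ^ 400 ≤ g) (hw : 0 ≤ w)
    (hw1 : w ≤ m ^ 302 * g) :
    Bias (2 * g) (m ^ 602) (m ^ 903) (m ^ 5) (m ^ 310) w (m * g) ≤ m ^ 600 * g ^ 2 := by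
  have hm1 : 1 ≤ m := by linarith
  have hm0 : 0 < m := by linarith
  have hg0 : 0 < g := lt_of_lt_of_le (by positivity) hg
  refine (Bias_mono (by positivity) (by positivity) hw1).trans ?_
  have e : Bias (2 * g) (m ^ 602) (m ^ 903) (m ^ 5) (m ^ 310) (m ^ 302 * g) (m * g)
      = 8 * (m ^ 904 * g) + 16 * (m ^ 1 * g ^ 2) + 16 * (m ^ 903 * g) + 32 * (m ^ 0 * g ^ 2)
        + 2 * m ^ 1204 + 2 * (m ^ 621 * g) + 4 * (m ^ 308 * g ^ 2) := by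
    unfold Bias; ring
  rw [e]
  have t1 : 8 * (m ^ 904 * g) ≤ m ^ 599 * g ^ 2 := c1 hm1 (by linarith) hg (by norm_num)
  have t2 : 16 * (m ^ 1 * g ^ 2) ≤ m ^ 599 * g ^ 2 := c2 hm1 (by linarith) (by norm_num)
  have t3 : 16 * (m ^ 903 * g) ≤ m ^ 599 * g ^ 2 := c1 hm1 (by linarith) hg (by norm_num)
  have t4 : 32 * (m ^ 0 * g ^ 2) ≤ m ^ 599 * g ^ 2 := c2 hm1 (by linarith) (by norm_num)
  have t5 : 2 * m ^ 1204 ≤ m ^ 599 * g ^ 2 := c0 hm1 (by linarith) hg (by norm_num)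
  have t6 : 2 * (m ^ 621 * g) ≤ m ^ 599 * g ^ 2 := c1 hm1 (by linarith) hg (by norm_num)
  have t7 : 4 * (m ^ 308 * g ^ 2) ≤ m ^ 599 * g ^ 2 := c2 hm1 (by linarith) (by norm_num)
  have t : 11 * (m ^ 599 * g ^ 2) ≤ m ^ 600 * g ^ 2 := c2 hm1 (by linarith) (by norm_num)
  have t0 : 0 ≤ m ^ 599 * g ^ 2 := by positivity
  linarith

lemma Err1 {m g w T1 : ℝ} (hm : 1000 ≤ m) (hg : m ^ 400 ≤ g) (hw : 0 ≤ w)
    (hw1 : w ≤ m ^ 302 * g) (hT1 : T1 ≤ 4 * (m ^ 371 * (2 * g) * m ^ 602 + m ^ 566 * (2 * g))) :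
    Err (2 * g) (m ^ 602) (m ^ 903) (m ^ 5) (m ^ 310) w (m * g) (1 / 2) (m ^ 566) T1
      ≤ m ^ 602 * g ^ 2 := by
  have hm1 : 1 ≤ m := by linarith
  have hm0 : 0 < m := by linarith
  have hg0 : 0 < g := lt_of_lt_of_le (by positivity) hg
  have hR := Rem1 hm hg hw hw1
  have hB := Bias1 hm hg hw hw1
  unfold Err
  set R := Rem (2 * g) (m ^ 602) (m ^ 903) (m ^ 5) (m ^ 310) w
  set B := Bias (2 * g) (m ^ 602) (m ^ 903) (m ^ 5) (m ^ 310) w (m * g)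
  have h1 : 2 * (m ^ 566 * (2 * m ^ 5 * w)) ≤ 4 * (m ^ 873 * g) := by
    have : 2 * (m ^ 566 * (2 * m ^ 5 * w)) = 4 * m ^ 571 * w := by ring
    rw [this]
    calc 4 * m ^ 571 * w ≤ 4 * m ^ 571 * (m ^ 302 * g) :=
          mul_le_mul_of_nonneg_left hw1 (by positivity)
      _ = 4 * (m ^ 873 * g) := by ring
  have e2 : 4 * (2 * g * (2 * (m ^ 903 + 2 * g))) + 2 * (m ^ 602) ^ 2
      = 16 * (m ^ 903 * g) + 32 * (m ^ 0 * g ^ 2) + 2 * m ^ 1204 := by ring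
  have e3 : 2 * (m ^ 566 * (m ^ 310) ^ 2) = 2 * m ^ 1186 := by ring
  have e4 : 4 * (m ^ 371 * (2 * g) * m ^ 602 + m ^ 566 * (2 * g))
      = 8 * (m ^ 973 * g) + 8 * (m ^ 566 * g) := by ring
  rw [e4] at hT1
  rw [e2, e3]
  have t3 : 16 * (m ^ 903 * g) ≤ m ^ 599 * g ^ 2 := c1 hm1 (by linarith) hg (by norm_num)
  have t4 : 32 * (m ^ 0 * g ^ 2) ≤ m ^ 599 * g ^ 2 := c2 hm1 (by linarith) (by norm_num)
  have t5 : 2 * m ^ 1204 ≤ m ^ 599 * g ^ 2 := c0 hm1 (by linarith) hg (by norm_num)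
  have t6 : 2 * m ^ 1186 ≤ m ^ 599 * g ^ 2 := c0 hm1 (by linarith) hg (by norm_num)
  have t7 : 4 * (m ^ 873 * g) ≤ m ^ 599 * g ^ 2 := c1 hm1 (by linarith) hg (by norm_num)
  have t8 : 1 * (m ^ 599 * g ^ 2) ≤ m ^ 600 * g ^ 2 := c2 hm1 (by linarith) (by norm_num)
  have t9 : 8 * (m ^ 973 * g) ≤ m ^ 600 * g ^ 2 := c1 hm1 (by linarith) hg (by norm_num)
  have t10 : 8 * (m ^ 566 * g) ≤ m ^ 600 * g ^ 2 := c1 hm1 (by linarith) hg (by norm_num)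
  have t : 20 * (m ^ 600 * g ^ 2) ≤ m ^ 602 * g ^ 2 := c2 hm1 (by linarith) (by norm_num)
  have t0 : 0 ≤ m ^ 599 * g ^ 2 := by positivity
  linarith

lemma Q1 {m g w q κ : ℝ} (hm : 100000 ≤ m) (hg : m ^ 400 ≤ g) (hg2 : g ^ 2 ≤ m ^ 1001)
    (hw : 0 ≤ w) (hw1 : w ≤ m ^ 302 * g) (hq0 : 0 ≤ q) (hq : q ≤ m * g ^ 2)
    (hκ : κ ≤ 4 * m ^ 630) :
    Q2 (2 * g) (m ^ 903) (m ^ 5) (m ^ 310) w q κ ≤ m ^ 1100 * g ^ 2 := by
  have hm1 : 1 ≤ m := by linarith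
  have hm0 : 0 < m := by linarith
  have hg0 : 0 < g := lt_of_lt_of_le (by positivity) hg
  unfold Q2
  have h1 : 500 * (2 * (m ^ 903 + 2 * g)) ^ 2
      = 2000 * m ^ 1806 + 8000 * (m ^ 903 * g) + 8000 * (m ^ 0 * g ^ 2) := by ring
  have h2 : 14580 * q ^ 2 ≤ 14580 * (m ^ 1003 * g ^ 2) := by
    have : q ^ 2 ≤ m ^ 1003 * g ^ 2 := by
      calc q ^ 2 ≤ (m * g ^ 2) ^ 2 := pow_le_pow_left₀ hq0 hq 2
        _ = m ^ 2 * g ^ 2 * g ^ 2 := by ring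
        _ ≤ m ^ 2 * m ^ 1001 * g ^ 2 := by
            refine mul_le_mul_of_nonneg_right ?_ (sq_nonneg g)
            exact mul_le_mul_of_nonneg_left hg2 (by positivity)
        _ = _ := by ring
    linarith
  have h3 : 80 * (2 * m ^ 5 * w) ^ 2 ≤ 320 * (m ^ 614 * g ^ 2) := by
    have : w ^ 2 ≤ (m ^ 302 * g) ^ 2 := pow_le_pow_left₀ hw hw1 2
    calc 80 * (2 * m ^ 5 * w) ^ 2 = 320 * m ^ 10 * w ^ 2 := by ring
      _ ≤ 320 * m ^ 10 * (m ^ 302 * g) ^ 2 := mul_le_mul_of_nonneg_left this (by positivity)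
      _ = _ := by ring
  have h4 : 80 * ((m ^ 310) ^ 2) ^ 2 = 80 * m ^ 1240 := by ring
  have h5 : 320 * (κ * (2 * m ^ 5 * m ^ 310) ^ 2) ≤ 5120 * m ^ 1260 := by
    calc 320 * (κ * (2 * m ^ 5 * m ^ 310) ^ 2) ≤ 320 * (4 * m ^ 630 * (2 * m ^ 5 * m ^ 310) ^ 2) := by
          refine mul_le_mul_of_nonneg_left ?_ (by norm_num)
          exact mul_le_mul_of_nonneg_right hκ (sq_nonneg _)
      _ = _ := by ring
  rw [h1, h4]
  have t1 : 2000 * m ^ 1806 ≤ m ^ 1099 * g ^ 2 := c0 hm1 (by linarith) hg (by norm_num)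
  have t2 : 8000 * (m ^ 903 * g) ≤ m ^ 1099 * g ^ 2 := c1 hm1 (by linarith) hg (by norm_num)
  have t3 : 8000 * (m ^ 0 * g ^ 2) ≤ m ^ 1099 * g ^ 2 := c2 hm1 (by linarith) (by norm_num)
  have t4 : 14580 * (m ^ 1003 * g ^ 2) ≤ m ^ 1099 * g ^ 2 := c2 hm1 (by linarith) (by norm_num)
  have t5 : 320 * (m ^ 614 * g ^ 2) ≤ m ^ 1099 * g ^ 2 := c2 hm1 (by linarith) (by norm_num)
  have t6 : 80 * m ^ 1240 ≤ m ^ 1099 * g ^ 2 := c0 hm1 (by linarith) hg (by norm_num)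
  have t7 : 5120 * m ^ 1260 ≤ m ^ 1099 * g ^ 2 := c0 hm1 (by linarith) hg (by norm_num)
  have t : 10 * (m ^ 1099 * g ^ 2) ≤ m ^ 1100 * g ^ 2 := c2 hm1 (by linarith) (by norm_num)
  have t0 : 0 ≤ m ^ 1099 * g ^ 2 := by positivity
  linarith

/-! ### stage 2: `g ≥ m^339`, `N2 = 2g`, `N4 = m^664`, `N6 = m^996`, `v = m^70`, `r = m^402`,
`w ≤ m^734`, `β = m g`, no tilt -/

lemma Rem2 {m g w : ℝ} (hm : 1000 ≤ m) (hg : m ^ 339 ≤ g) (hw : 0 ≤ w)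
    (hw1 : w ≤ m ^ 734) :
    Rem (2 * g) (m ^ 664) (m ^ 996) (m ^ 70) (m ^ 402) w ≤ m ^ 661 * g ^ 2 := by
  have hm1 : 1 ≤ m := by linarith
  have hm0 : 0 < m := by linarith
  have hg0 : 0 < g := lt_of_lt_of_le (by positivity) hg
  refine (Rem_mono (by positivity) (by positivity) (by positivity) (by positivity)
    (by positivity) hw hw1).trans ?_
  have e : Rem (2 * g) (m ^ 664) (m ^ 996) (m ^ 70) (m ^ 402) (m ^ 734)
      = 10 * (m ^ 996 * g) + 20 * (m ^ 0 * g ^ 2) + 20 * m ^ 1136 + 40 * (m ^ 140 * g)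
        + 85 / 8 * m ^ 1328 + 136 * (m ^ 804 * g) + 68 * m ^ 944
        + 68 * (m ^ 804 * g) + 34 * m ^ 944 + 40 * m ^ 1136 + 16 * m ^ 944 := by
    unfold Rem; ring
  rw [e]
  have t1 : 10 * (m ^ 996 * g) ≤ m ^ 660 * g ^ 2 := c1 hm1 (by linarith) hg (by norm_num)
  have t2 : 20 * (m ^ 0 * g ^ 2) ≤ m ^ 660 * g ^ 2 := c2 hm1 (by linarith) (by norm_num)
  have t3 : 20 * m ^ 1136 ≤ m ^ 660 * g ^ 2 := c0 hm1 (by linarith) hg (by norm_num)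
  have t4 : 40 * (m ^ 140 * g) ≤ m ^ 660 * g ^ 2 := c1 hm1 (by linarith) hg (by norm_num)
  have t5 : 85 / 8 * m ^ 1328 ≤ m ^ 660 * g ^ 2 := c0 hm1 (by linarith) hg (by norm_num)
  have t6 : 136 * (m ^ 804 * g) ≤ m ^ 660 * g ^ 2 := c1 hm1 (by linarith) hg (by norm_num)
  have t7 : 68 * m ^ 944 ≤ m ^ 660 * g ^ 2 := c0 hm1 (by linarith) hg (by norm_num)
  have t8 : 68 * (m ^ 804 * g) ≤ m ^ 660 * g ^ 2 := c1 hm1 (by linarith) hg (by norm_num)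
  have t9 : 34 * m ^ 944 ≤ m ^ 660 * g ^ 2 := c0 hm1 (by linarith) hg (by norm_num)
  have t10 : 40 * m ^ 1136 ≤ m ^ 660 * g ^ 2 := c0 hm1 (by linarith) hg (by norm_num)
  have t11 : 16 * m ^ 944 ≤ m ^ 660 * g ^ 2 := c0 hm1 (by linarith) hg (by norm_num)
  have t : 11 * (m ^ 660 * g ^ 2) ≤ m ^ 661 * g ^ 2 := c2 hm1 (by linarith) (by norm_num)
  linarith

lemma Bias2 {m g w : ℝ} (hm : 1000 ≤ m) (hg : m ^ 339 ≤ g) (hw : 0 ≤ w)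
    (hw1 : w ≤ m ^ 734) :
    Bias (2 * g) (m ^ 664) (m ^ 996) (m ^ 70) (m ^ 402) w (m * g) ≤ m ^ 661 * g ^ 2 := by
  have hm1 : 1 ≤ m := by linarith
  have hm0 : 0 < m := by linarith
  have hg0 : 0 < g := lt_of_lt_of_le (by positivity) hg
  refine (Bias_mono (by positivity) (by positivity) hw1).trans ?_
  have e : Bias (2 * g) (m ^ 664) (m ^ 996) (m ^ 70) (m ^ 402) (m ^ 734) (m * g)
      = 8 * (m ^ 997 * g) + 16 * (m ^ 1 * g ^ 2) + 16 * (m ^ 996 * g) + 32 * (m ^ 0 * g ^ 2)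
        + 2 * m ^ 1328 + 2 * (m ^ 805 * g) + 4 * (m ^ 805 * g) := by
    unfold Bias; ring
  rw [e]
  have t1 : 8 * (m ^ 997 * g) ≤ m ^ 660 * g ^ 2 := c1 hm1 (by linarith) hg (by norm_num)
  have t2 : 16 * (m ^ 1 * g ^ 2) ≤ m ^ 660 * g ^ 2 := c2 hm1 (by linarith) (by norm_num)
  have t3 : 16 * (m ^ 996 * g) ≤ m ^ 660 * g ^ 2 := c1 hm1 (by linarith) hg (by norm_num)
  have t4 : 32 * (m ^ 0 * g ^ 2) ≤ m ^ 660 * g ^ 2 := c2 hm1 (by linarith) (by norm_num)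
  have t5 : 2 * m ^ 1328 ≤ m ^ 660 * g ^ 2 := c0 hm1 (by linarith) hg (by norm_num)
  have t6 : 2 * (m ^ 805 * g) ≤ m ^ 660 * g ^ 2 := c1 hm1 (by linarith) hg (by norm_num)
  have t7 : 4 * (m ^ 805 * g) ≤ m ^ 660 * g ^ 2 := c1 hm1 (by linarith) hg (by norm_num)
  have t : 11 * (m ^ 660 * g ^ 2) ≤ m ^ 661 * g ^ 2 := c2 hm1 (by linarith) (by norm_num)
  have t0 : 0 ≤ m ^ 660 * g ^ 2 := by positivity
  linarith

lemma Q22 {m g w q κ : ℝ} (hm : 100000 ≤ m) (hg : m ^ 339 ≤ g)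
    (hw : 0 ≤ w) (hw1 : w ≤ m ^ 734) (hq0 : 0 ≤ q) (hq : q ≤ m ^ 803)
    (hκ : κ ≤ 4 * m ^ 944) :
    Q2 (2 * g) (m ^ 996) (m ^ 70) (m ^ 402) w q κ ≤ m ^ 1330 * g ^ 2 := by
  have hm1 : 1 ≤ m := by linarith
  have hm0 : 0 < m := by linarith
  have hg0 : 0 < g := lt_of_lt_of_le (by positivity) hg
  unfold Q2
  have h1 : 500 * (2 * (m ^ 996 + 2 * g)) ^ 2
      = 2000 * m ^ 1992 + 8000 * (m ^ 996 * g) + 8000 * (m ^ 0 * g ^ 2) := by ring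
  have h2 : 14580 * q ^ 2 ≤ 14580 * m ^ 1606 := by
    have : q ^ 2 ≤ (m ^ 803) ^ 2 := pow_le_pow_left₀ hq0 hq 2
    have e : (m ^ 803) ^ 2 = m ^ 1606 := by ring
    rw [e] at this
    linarith
  have h3 : 80 * (2 * m ^ 70 * w) ^ 2 ≤ 320 * m ^ 1608 := by
    have : w ^ 2 ≤ (m ^ 734) ^ 2 := pow_le_pow_left₀ hw hw1 2
    calc 80 * (2 * m ^ 70 * w) ^ 2 = 320 * m ^ 140 * w ^ 2 := by ring
      _ ≤ 320 * m ^ 140 * (m ^ 734) ^ 2 := mul_le_mul_of_nonneg_left this (by positivity)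
      _ = _ := by ring
  have h4 : 80 * ((m ^ 402) ^ 2) ^ 2 = 80 * m ^ 1608 := by ring
  have h5 : 320 * (κ * (2 * m ^ 70 * m ^ 402) ^ 2) ≤ 5120 * m ^ 1888 := by
    calc 320 * (κ * (2 * m ^ 70 * m ^ 402) ^ 2)
        ≤ 320 * (4 * m ^ 944 * (2 * m ^ 70 * m ^ 402) ^ 2) := by
          refine mul_le_mul_of_nonneg_left ?_ (by norm_num)
          exact mul_le_mul_of_nonneg_right hκ (sq_nonneg _)
      _ = _ := by ring
  rw [h1, h4]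
  have t1 : 2000 * m ^ 1992 ≤ m ^ 1329 * g ^ 2 := c0 hm1 (by linarith) hg (by norm_num)
  have t2 : 8000 * (m ^ 996 * g) ≤ m ^ 1329 * g ^ 2 := c1 hm1 (by linarith) hg (by norm_num)
  have t3 : 8000 * (m ^ 0 * g ^ 2) ≤ m ^ 1329 * g ^ 2 := c2 hm1 (by linarith) (by norm_num)
  have t4 : 14580 * m ^ 1606 ≤ m ^ 1329 * g ^ 2 := c0 hm1 (by linarith) hg (by norm_num)
  have t5 : 320 * m ^ 1608 ≤ m ^ 1329 * g ^ 2 := c0 hm1 (by linarith) hg (by norm_num)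
  have t6 : 80 * m ^ 1608 ≤ m ^ 1329 * g ^ 2 := c0 hm1 (by linarith) hg (by norm_num)
  have t7 : 5120 * m ^ 1888 ≤ m ^ 1329 * g ^ 2 := c0 hm1 (by linarith) hg (by norm_num)
  have t : 10 * (m ^ 1329 * g ^ 2) ≤ m ^ 1330 * g ^ 2 := c2 hm1 (by linarith) (by norm_num)
  have t0 : 0 ≤ m ^ 1329 * g ^ 2 := by positivity
  linarith

end Crest.Agent.R62.X2Num
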